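import Vale.Agent.P007.MathlibUsed

section

set_option autoImplicit false

namespace Vale.Agent.P007

open Polynomial NumberField

section ramified

variable (K : Type*) [Field K] [NumberField K]

/-- A rational prime lying in the square of a prime ideal of the ring of integers divides the
discriminant. -/
theorem dvd_discr_of_mem_sq (q : ℕ) (hq : q.Prime) (P : Ideal (𝓞 K)) [P.IsPrime]
    (h : (q : 𝓞 K) ∈ P ^ 2) : (q : ℤ) ∣ discr K := by
  have hqP : (q : 𝓞 K) ∈ P := Ideal.pow_le_self (by norm_num) h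
  have hq0 : (q : 𝓞 K) ≠ 0 := Nat.cast_ne_zero.mpr hq.ne_zero
  have hPbot : P ≠ ⊥ := by
    rintro rfl
    exact hq0 (by simpa only [Nat.cast_eq_zero, Submodule.mem_bot] using hqP)
  have hqprime : Prime (q : ℤ) := Nat.prime_iff_prime_int.mp hq
  have hspan : (Ideal.span {(q : ℤ)}).IsMaximal := by
    have : (Ideal.span {(q : ℤ)}).IsPrime := by
      rw [Ideal.span_singleton_prime hqprime.ne_zero]; exact hqprime
    exact this.isMaximal (by simpa only [ne_eq, Submodule.span_eq_bot, Set.mem_singleton_iff,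
                               forall_eq, Int.natCast_eq_zero] using hq.ne_zero)
  have hdvd : P ^ 2 ∣ (Ideal.span {(q : ℤ)}).map (algebraMap ℤ (𝓞 K)) := by
    rw [Ideal.dvd_iff_le, Ideal.map_span, Set.image_singleton, Ideal.span_le,
      Set.singleton_subset_iff]
    simpa only [algebraMap_int_eq, map_natCast, SetLike.mem_coe] using h
  have hdiff : P ∣ differentIdeal ℤ (𝓞 K) := by
    have := pow_sub_one_dvd_differentIdeal (A := ℤ) (B := 𝓞 K) P 2 (p := Ideal.span {(q : ℤ)})
      (by simpa only [ne_eq, Submodule.span_eq_bot, Set.mem_singleton_iff, forall_eq,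
            Int.natCast_eq_zero] using hq.ne_zero) hdvd
    simpa only [Nat.add_one_sub_one, pow_one] using this
  have h1 : Ideal.absNorm P ∣ (discr K).natAbs := by
    rw [← absNorm_differentIdeal K (𝓞 K)]
    exact Ideal.absNorm_dvd_absNorm_of_le (Ideal.dvd_iff_le.mp hdiff)
  have h2 : q ∣ Ideal.absNorm P := by
    have hmem : ((Ideal.absNorm P : ℕ) : 𝓞 K) ∈ P := Ideal.absNorm_mem P
    by_contra hnd
    have hcop : IsCoprime (q : ℤ) (Ideal.absNorm P : ℤ) := by
      rw [Nat.isCoprime_iff_coprime]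
      exact (Nat.Prime.coprime_iff_not_dvd hq).mpr hnd
    obtain ⟨a, b, hab⟩ := hcop
    have : (1 : 𝓞 K) ∈ P := by
      have h3 : ((a * (q : ℤ) + b * (Ideal.absNorm P : ℤ) : ℤ) : 𝓞 K) ∈ P := by
        push_cast
        exact P.add_mem (P.mul_mem_left _ hqP) (P.mul_mem_left _ hmem)
      rw [hab] at h3
      simpa only [Int.cast_one] using h3
    exact (Ideal.IsPrime.ne_top inferInstance) ((Ideal.eq_top_iff_one P).mpr this)
  exact Int.natCast_dvd.mpr (h2.trans h1)

end ramified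


/-- the polynomial `∏_{j=1}^m (X - 4jq) + q` -/
noncomputable def eisPoly (R : Type*) [CommRing R] (m q : ℕ) : R[X] :=
  ∏ j ∈ Finset.range m, (X - C (((4 * (j + 1) * q : ℕ) : R))) + C (q : R)

theorem eisPoly_map {R S : Type*} [CommRing R] [CommRing S] (f : R →+* S) (m q : ℕ) :
    (eisPoly R m q).map f = eisPoly S m q := by
  simp only [eisPoly, map_natCast, Polynomial.map_add, Polynomial.map_prod, Polynomial.map_sub,
    map_X, Polynomial.map_natCast]

theorem eisPoly_monic_natDegree (R : Type*) [CommRing R] [Nontrivial R] (m q : ℕ) (hm : 1 ≤ m) :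
    (eisPoly R m q).Monic ∧ (eisPoly R m q).natDegree = m := by
  have h1 : (∏ j ∈ Finset.range m, (X - C (((4 * (j + 1) * q : ℕ) : R)))).Monic :=
    monic_prod_of_monic _ _ (fun j _ => monic_X_sub_C _)
  have h2 : (∏ j ∈ Finset.range m, (X - C (((4 * (j + 1) * q : ℕ) : R)))).natDegree = m := by
    rw [natDegree_prod_of_monic _ _ (fun j _ => monic_X_sub_C _)]
    simp only [natDegree_X_sub_C, Finset.sum_const, Finset.card_range, smul_eq_mul, mul_one]
  have h3 : (C (q : R)).degree < (∏ j ∈ Finset.range m, (X - C (((4 * (j + 1) * q : ℕ) : R)))).degree := by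
    rw [degree_eq_natDegree h1.ne_zero, h2]
    exact lt_of_le_of_lt degree_C_le (by exact_mod_cast hm)
  refine ⟨h1.add_of_left h3, ?_⟩
  rw [eisPoly, natDegree_add_eq_left_of_degree_lt h3, h2]

theorem eisPoly_eval {R : Type*} [CommRing R] (m q : ℕ) (x : R) :
    (eisPoly R m q).eval x = ∏ j ∈ Finset.range m, (x - ((4 * (j + 1) * q : ℕ) : R)) + q := by
  simp only [eisPoly, Nat.cast_mul, Nat.cast_ofNat, Nat.cast_add, Nat.cast_one, map_mul, map_add,
    map_natCast, map_one, eval_add, eval_prod, eval_sub, eval_X, eval_mul, eval_C, eval_natCast,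
    eval_one]

/-- Eisenstein criterion for `eisPoly` -/
theorem eisPoly_irreducible {R : Type*} [CommRing R] [IsDomain R] (m q : ℕ) (hm : 2 ≤ m)
    (P : Ideal R) (hP : P.IsPrime) (hq : (q : R) ∈ P) (hq2 : (q : R) ∉ P ^ 2) :
    Irreducible (eisPoly R m q) := by
  obtain ⟨hmon, hdeg⟩ := eisPoly_monic_natDegree R m q (by omega)
  have hmap : (eisPoly R m q).map (Ideal.Quotient.mk P) = X ^ m := by
    rw [eisPoly_map, eisPoly]
    have h0 : ((q : ℕ) : R ⧸ P) = 0 := by
      have := (Ideal.Quotient.eq_zero_iff_mem (I := P)).mpr hq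
      simpa only [map_natCast] using this
    simp only [Nat.cast_mul, Nat.cast_ofNat, Nat.cast_add, Nat.cast_one, h0, mul_zero, map_zero,
      sub_zero, Finset.prod_const, Finset.card_range, add_zero]
  refine irreducible_of_eisenstein_criterion hP ?_ ?_ ?_ ?_ hmon.isPrimitive
  · rw [hmon.leadingCoeff]
    exact fun h => hP.ne_top ((Ideal.eq_top_iff_one P).mpr h)
  · intro k hk
    rw [degree_eq_natDegree hmon.ne_zero, hdeg] at hk
    have hk' : k < m := by exact_mod_cast hk
    rw [← Ideal.Quotient.eq_zero_iff_mem, ← coeff_map, hmap, coeff_X_pow, if_neg hk'.ne]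
  · rw [degree_eq_natDegree hmon.ne_zero, hdeg]
    exact_mod_cast (by omega : 0 < m)
  · rw [coeff_zero_eq_eval_zero, eisPoly_eval]
    intro h
    apply hq2
    have hprod : ∏ j ∈ Finset.range m, ((0 : R) - ((4 * (j + 1) * q : ℕ) : R)) ∈ P ^ 2 := by
      apply Ideal.pow_le_pow_right hm
      have : ∏ j ∈ Finset.range m, ((0 : R) - ((4 * (j + 1) * q : ℕ) : R)) ∈
          ∏ j ∈ Finset.range m, P := by
        apply Ideal.prod_mem_prod
        intro j _
        rw [zero_sub, neg_mem_iff]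
        push_cast
        exact P.mul_mem_left _ hq
      simpa only [Nat.cast_mul, Nat.cast_ofNat, Nat.cast_add, Nat.cast_one, zero_sub,
        Finset.prod_const, Finset.card_range] using this
    have := (P ^ 2).sub_mem h hprod
    simpa only [Nat.cast_mul, Nat.cast_ofNat, Nat.cast_add, Nat.cast_one, zero_sub,
      add_sub_cancel_left] using this

/-- all complex roots of `eisPoly` are real -/
theorem eisPoly_splits (m q : ℕ) (hm : 2 ≤ m) (hq : 1 ≤ q) : (eisPoly ℝ m q).Splits := by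
  obtain ⟨hmon, hdeg⟩ := eisPoly_monic_natDegree ℝ m q (by omega)
  have hq' : (1 : ℝ) ≤ q := by exact_mod_cast hq
  -- sign at the points 4 i q + 2 q
  have hsign : ∀ i ≤ m, 0 < (-1 : ℝ) ^ (m - i) * (eisPoly ℝ m q).eval ((4 * i + 2) * q : ℝ) := by
    intro i hi
    rw [eisPoly_eval]
    have h1 : (-1 : ℝ) ^ (m - i) * ∏ j ∈ Finset.range m, (((4 * i + 2) * q : ℝ) - ((4 * (j + 1) * q : ℕ) : ℝ))
        = ∏ j ∈ Finset.range m, |((4 * i + 2) * q : ℝ) - ((4 * (j + 1) * q : ℕ) : ℝ)| := by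
      have h2 : (-1 : ℝ) ^ (m - i) = ∏ j ∈ Finset.range m, (if i ≤ j then (-1 : ℝ) else 1) := by
        rw [Finset.prod_ite]
        rw [Finset.prod_const, Finset.prod_const, one_pow, mul_one]
        congr 1
        have : Finset.filter (fun x => i ≤ x) (Finset.range m) = Finset.Ico i m := by
          ext x; simp only [Finset.mem_filter, Finset.mem_range, and_comm, Finset.mem_Ico]
        rw [this, Nat.card_Ico]
      rw [h2, ← Finset.prod_mul_distrib]
      apply Finset.prod_congr rfl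
      intro j hj
      push_cast
      split_ifs with hij
      · have : (i : ℝ) ≤ j := by exact_mod_cast hij
        rw [abs_of_nonpos (by nlinarith only [hq', this])]
        ring
      · have : (j : ℝ) + 1 ≤ i := by exact_mod_cast (by omega : j + 1 ≤ i)
        rw [abs_of_nonneg (by nlinarith only [hq', this])]
        ring
    have h3 : (2 * q : ℝ) ^ m ≤ ∏ j ∈ Finset.range m, |((4 * i + 2) * q : ℝ) - ((4 * (j + 1) * q : ℕ) : ℝ)| := by
      have h4 : (2 * q : ℝ) ^ m = ∏ j ∈ Finset.range m, (2 * q : ℝ) := by simp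
      rw [h4]
      apply Finset.prod_le_prod
      · intro j _; positivity
      · intro j _
        push_cast
        rcases le_or_gt i j with hij | hij
        · have : (i : ℝ) ≤ j := by exact_mod_cast hij
          rw [abs_of_nonpos (by nlinarith only [hq', this])]
          nlinarith only [this]
        · have : (j : ℝ) + 1 ≤ i := by exact_mod_cast (by omega : j + 1 ≤ i)
          rw [abs_of_nonneg (by nlinarith only [hq', this])]
          nlinarith only [this]
    have h5 : (q : ℝ) < (2 * q : ℝ) ^ m := by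
      calc (q : ℝ) < 2 * q := by linarith only [hq']
        _ = (2 * q : ℝ) ^ 1 := by ring
        _ ≤ (2 * q : ℝ) ^ m := pow_le_pow_right₀ (by linarith only [hq']) (by omega)
    have h6 : |(-1 : ℝ) ^ (m - i) * q| = q := by
      rw [abs_mul, abs_pow]; simp
    have h7 := neg_abs_le ((-1 : ℝ) ^ (m - i) * q)
    rw [mul_add, h1]
    linarith only [h3, h5, h6, h7]
  -- a root in each interval
  have hroot : ∀ i : Fin m, ∃ x ∈ Set.Ioo ((4 * (i : ℕ) + 2) * q : ℝ) ((4 * ((i : ℕ) + 1 : ℕ) + 2) * q : ℝ),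
      (eisPoly ℝ m q).eval x = 0 := by
    intro i
    have ha := hsign i i.2.le
    have hb := hsign (i + 1) i.2
    have hab : ((4 * (i : ℕ) + 2) * q : ℝ) ≤ ((4 * ((i : ℕ) + 1 : ℕ) + 2) * q : ℝ) := by
      push_cast; nlinarith only [hq']
    have hcont : ContinuousOn (fun x => (-1 : ℝ) ^ (m - (i : ℕ)) * (eisPoly ℝ m q).eval x)
        (Set.Icc ((4 * (i : ℕ) + 2) * q : ℝ) ((4 * ((i : ℕ) + 1 : ℕ) + 2) * q : ℝ)) :=
      ((eisPoly ℝ m q).continuous.const_mul _ |>.continuousOn)
    have hb' : (-1 : ℝ) ^ (m - (i : ℕ)) * (eisPoly ℝ m q).eval ((4 * ((i : ℕ) + 1 : ℕ) + 2) * q : ℝ) < 0 := by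
      have : m - (i : ℕ) = (m - (i + 1 : ℕ)) + 1 := by (clear * - hdeg; omega)
      rw [this, pow_succ]
      nlinarith only [hb]
    obtain ⟨x, hx, hx0⟩ := intermediate_value_Ioo' hab hcont ⟨hb', ha⟩
    refine ⟨x, hx, ?_⟩
    have h8 : (-1 : ℝ) ^ (m - (i : ℕ)) ≠ 0 := by (clear * -; positivity)
    simpa only using (mul_eq_zero.mp hx0).resolve_left (pow_ne_zero _ (by norm_num))
  choose r hr hr0 using hroot
  have hrinj : Function.Injective r := by
    intro i j hij
    by_contra hne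
    rcases lt_or_gt_of_ne hne with h | h
    · have h1 := (hr i).2
      have h2 := (hr j).1
      have : ((i : ℕ) + 1 : ℝ) ≤ (j : ℕ) := by exact_mod_cast h
      push_cast at h1
      rw [hij] at h1
      nlinarith only [h2, this, h1]
    · have h1 := (hr j).2
      have h2 := (hr i).1
      have : ((j : ℕ) + 1 : ℝ) ≤ (i : ℕ) := by exact_mod_cast h
      push_cast at h1
      rw [← hij] at h1
      nlinarith only [h2, this, h1]
  rw [splits_iff_card_roots, hdeg]
  apply le_antisymm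
  · exact (card_roots' _).trans hdeg.le
  · classical
    have h1 : (Finset.univ.image r) ⊆ (eisPoly ℝ m q).roots.toFinset := by
      intro x hx
      obtain ⟨i, _, rfl⟩ := Finset.mem_image.mp hx
      rw [Multiset.mem_toFinset, mem_roots hmon.ne_zero]
      exact hr0 i
    calc m = (Finset.univ.image r).card := by
          rw [Finset.card_image_of_injective _ hrinj]; simp only [Finset.card_univ,
                                                         Fintype.card_fin]
      _ ≤ _ := Finset.card_le_card h1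
      _ ≤ _ := Multiset.toFinset_card_le _


/-- a rational prime `q` not dividing the discriminant is not in the square of any prime, and there is
a maximal ideal above it -/
theorem exists_maximal_not_mem_sq (F : Type*) [Field F] [NumberField F] (q : ℕ) (hq : q.Prime)
    (hd : ¬ (q : ℤ) ∣ discr F) :
    ∃ P : Ideal (𝓞 F), P.IsPrime ∧ (q : 𝓞 F) ∈ P ∧ (q : 𝓞 F) ∉ P ^ 2 := by
  have hqprime : Prime (q : ℤ) := Nat.prime_iff_prime_int.mp hq
  have hspan : (Ideal.span {(q : ℤ)}).IsMaximal := by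
    have : (Ideal.span {(q : ℤ)}).IsPrime := by
      rw [Ideal.span_singleton_prime hqprime.ne_zero]; exact hqprime
    exact this.isMaximal (by simpa only [ne_eq, Submodule.span_eq_bot, Set.mem_singleton_iff,
                               forall_eq, Int.natCast_eq_zero] using hq.ne_zero)
  obtain ⟨P, hPmax, hP⟩ := Ideal.exists_maximal_ideal_liesOver_of_isIntegral (S := 𝓞 F)
    (Ideal.span {(q : ℤ)})
  have hPp : P.IsPrime := hPmax.isPrime
  refine ⟨P, hPp, ?_, fun h => hd (dvd_discr_of_mem_sq F q hq P h)⟩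
  have h1 : (q : ℤ) ∈ P.under ℤ := by
    rw [← hP.over]; exact Ideal.mem_span_singleton_self _
  simpa only [Ideal.under, algebraMap_int_eq, Ideal.mem_comap, map_natCast] using h1

theorem eisPoly_irreducible_field (F : Type*) [Field F] [NumberField F] (m q : ℕ) (hm : 2 ≤ m)
    (hq : q.Prime) (hd : ¬ (q : ℤ) ∣ discr F) : Irreducible (eisPoly F m q) := by
  obtain ⟨P, hP, h1, h2⟩ := exists_maximal_not_mem_sq F q hq hd
  have h := eisPoly_irreducible m q hm P hP h1 h2
  rw [(eisPoly_monic_natDegree (𝓞 F) m q (by omega)).1.irreducible_iff_irreducible_map_fraction_map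
    (K := F), eisPoly_map] at h
  exact h

theorem exists_field_large_discr (F : Type) [Field F] [NumberField F] [IsTotallyReal F] (m : ℕ)
    (hm : 2 ≤ m) (N : ℕ) :
    ∃ (K : Type) (_ : Field K) (_ : NumberField K), IsTotallyReal K ∧
      Module.finrank ℚ K = Module.finrank ℚ F * m ∧ Nonempty (F →+* K) ∧
      (N : ℤ) ≤ |discr K| := by
  obtain ⟨q, hqN, hq⟩ := Nat.exists_infinite_primes (N + (discr F).natAbs + 1)
  have hd : ¬ (q : ℤ) ∣ discr F := by
    intro h
    have h1 : q ∣ (discr F).natAbs := Int.natCast_dvd.mp h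
    have h2 := Nat.le_of_dvd (Int.natAbs_pos.mpr (discr_ne_zero F)) h1
    omega
  have hirr := eisPoly_irreducible_field F m q hm hq hd
  obtain ⟨hmon, hdeg⟩ := eisPoly_monic_natDegree F m q (by omega)
  have : Fact (Irreducible (eisPoly F m q)) := ⟨hirr⟩
  let K := AdjoinRoot (eisPoly F m q)
  let : Field K := AdjoinRoot.instField
  let : Algebra F K := inferInstance
  have hfin : FiniteDimensional F K := (AdjoinRoot.powerBasis hirr.ne_zero).finite
  have : CharZero K := charZero_of_injective_algebraMap (algebraMap F K).injective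
  have : FiniteDimensional ℚ K := FiniteDimensional.trans ℚ F K
  have hNF : NumberField K := { to_charZero := inferInstance, to_finiteDimensional := inferInstance }
  have hrk : Module.finrank ℚ K = Module.finrank ℚ F * m := by
    rw [← Module.finrank_mul_finrank ℚ F K, (AdjoinRoot.powerBasis hirr.ne_zero).finrank,
      AdjoinRoot.powerBasis_dim, hdeg]
  -- the root as an algebraic integer
  let x : K := AdjoinRoot.root (eisPoly F m q)
  have hx0 : (eisPoly K m q).eval x = 0 := by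
    have := AdjoinRoot.eval₂_root (eisPoly F m q)
    rw [← eval_map, eisPoly_map] at this
    exact this
  have hxint : IsIntegral ℤ x := by
    refine ⟨eisPoly ℤ m q, (eisPoly_monic_natDegree ℤ m q (by omega)).1, ?_⟩
    rw [← eval_map, eisPoly_map]
    exact hx0
  let y : 𝓞 K := ⟨x, hxint⟩
  have hy0 : (eisPoly (𝓞 K) m q).eval y = 0 := by
    apply RingOfIntegers.coe_injective
    rw [map_zero, ← hx0, ← eisPoly_map (algebraMap (𝓞 K) K), eval_map]
    exact (Polynomial.hom_eval₂ _ (RingHom.id _) (algebraMap (𝓞 K) K) y)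
  have hreal : IsTotallyReal K := by
    refine ⟨fun v => ?_⟩
    rw [InfinitePlace.isReal_iff, ComplexEmbedding.isReal_iff]
    set φ := v.embedding with hφ
    refine AdjoinRoot.ringHom_ext ?_ ?_
    · have h1 := IsTotallyReal.complexEmbedding_isReal (K := F) (φ.comp (AdjoinRoot.of _))
      rw [ComplexEmbedding.isReal_iff] at h1
      exact h1
    · have h1 : ((eisPoly ℝ m q).map (algebraMap ℝ ℂ)).IsRoot (φ x) := by
        rw [eisPoly_map, IsRoot.def, eisPoly_eval]
        have h2 := congrArg φ hx0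
        rw [eisPoly_eval, map_add, map_prod, map_zero, map_natCast] at h2
        simpa only [map_sub, map_natCast] using h2
      obtain ⟨r, hr⟩ := (eisPoly_splits m q hm hq.one_lt.le).mem_range_of_isRoot
        (eisPoly_monic_natDegree ℝ m q (by omega)).1.ne_zero h1
      change (starRingEnd ℂ) (φ x) = φ x
      rw [← hr]
      exact Complex.conj_ofReal r
  refine ⟨K, inferInstance, hNF, hreal, hrk, ⟨algebraMap F K⟩, ?_⟩
  -- ramification
  have hqprime : Prime (q : ℤ) := Nat.prime_iff_prime_int.mp hq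
  have hspan : (Ideal.span {(q : ℤ)}).IsMaximal := by
    have : (Ideal.span {(q : ℤ)}).IsPrime := by
      rw [Ideal.span_singleton_prime hqprime.ne_zero]; exact hqprime
    exact this.isMaximal (by simpa only [ne_eq, Submodule.span_eq_bot, Set.mem_singleton_iff,
                               forall_eq, Int.natCast_eq_zero] using hq.ne_zero)
  obtain ⟨P, hPmax, hP⟩ := Ideal.exists_maximal_ideal_liesOver_of_isIntegral (S := 𝓞 K)
    (Ideal.span {(q : ℤ)})
  have hPp : P.IsPrime := hPmax.isPrime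
  have hqP : (q : 𝓞 K) ∈ P := by
    have h1 : (q : ℤ) ∈ P.under ℤ := by
      rw [← hP.over]; exact Ideal.mem_span_singleton_self _
    simpa only [Ideal.under, algebraMap_int_eq, Ideal.mem_comap, map_natCast] using h1
  rw [eisPoly_eval] at hy0
  have hprod : ∏ j ∈ Finset.range m, (y - ((4 * (j + 1) * q : ℕ) : 𝓞 K)) = - (q : 𝓞 K) :=
    eq_neg_of_add_eq_zero_left hy0
  have hy : y ∈ P := by
    have h1 : ∏ j ∈ Finset.range m, (y - ((4 * (j + 1) * q : ℕ) : 𝓞 K)) ∈ P := by
      rw [hprod]; exact P.neg_mem hqP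
    obtain ⟨j, _, hj⟩ := (Ideal.IsPrime.prod_mem_iff (hp := hPp)).mp h1
    have h2 : ((4 * (j + 1) * q : ℕ) : 𝓞 K) ∈ P := by
      push_cast; exact P.mul_mem_left _ hqP
    have := P.add_mem hj h2
    simpa using this
  have hq2 : (q : 𝓞 K) ∈ P ^ 2 := by
    rw [← neg_mem_iff, ← hprod]
    apply Ideal.pow_le_pow_right hm
    have : ∏ j ∈ Finset.range m, (y - ((4 * (j + 1) * q : ℕ) : 𝓞 K)) ∈
        ∏ j ∈ Finset.range m, P := by
      apply Ideal.prod_mem_prod
      intro j _
      refine P.sub_mem hy ?_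
      push_cast
      exact P.mul_mem_left _ hqP
    simpa only [Nat.cast_mul, Nat.cast_ofNat, Nat.cast_add, Nat.cast_one, Finset.prod_const,
      Finset.card_range] using this
  have hdvd := dvd_discr_of_mem_sq K q hq P hq2
  have h3 : (q : ℤ) ≤ |discr K| := by
    apply Int.le_of_dvd (abs_pos.mpr (discr_ne_zero K))
    exact (dvd_abs _ _).mpr hdvd
  have h4 : (N : ℤ) ≤ q := by exact_mod_cast (by omega : N ≤ q)
  exact h4.trans h3

/-- For every totally real number field `F` and every `m ≥ 2` there are totally real fields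
`K i ⊇ F` with `[K i : F] = m` whose discriminants tend to infinity. -/
theorem exists_field_seq (F : Type) [Field F] [NumberField F] [IsTotallyReal F] (m : ℕ)
    (hm : 2 ≤ m) :
    ∃ (K : ℕ → Type) (_ : ∀ i, Field (K i)) (_ : ∀ i, NumberField (K i)), ∀ i,
      IsTotallyReal (K i) ∧ Module.finrank ℚ (K i) = Module.finrank ℚ F * m ∧
      Nonempty (F →+* K i) ∧ (i : ℤ) ≤ |discr (K i)| := by
  choose K hK1 hK2 hK3 using fun i => exists_field_large_discr F m hm i
  exact ⟨K, hK1, hK2, hK3⟩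

instance isTotallyReal_rat : IsTotallyReal ℚ := by
  refine ⟨fun v => ?_⟩
  rw [InfinitePlace.isReal_iff, ComplexEmbedding.isReal_iff]
  exact Subsingleton.elim _ _

/-- totally real fields of every degree `d ≥ 2` exist -/
theorem exists_totallyReal (d : ℕ) (hd : 2 ≤ d) :
    ∃ (F : Type) (_ : Field F) (_ : NumberField F), IsTotallyReal F ∧ Module.finrank ℚ F = d := by
  obtain ⟨F, h1, h2, h3, h4, _⟩ := exists_field_large_discr ℚ d hd 0
  exact ⟨F, h1, h2, h3, by rw [h4, Module.finrank_self, one_mul]⟩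

/-- composite degree: a fixed totally real subfield `F`, `1 < [F : ℚ] < n` -/
theorem exists_field_seq_composite (n : ℕ) (h4 : 4 ≤ n) (hn : ¬ n.Prime) :
    ∃ (F : Type) (_ : Field F) (_ : NumberField F), IsTotallyReal F ∧
      1 < Module.finrank ℚ F ∧ Module.finrank ℚ F < n ∧
      ∃ (K : ℕ → Type) (_ : ∀ i, Field (K i)) (_ : ∀ i, NumberField (K i)), ∀ i,
        IsTotallyReal (K i) ∧ Module.finrank ℚ (K i) = n ∧
        Nonempty (F →+* K i) ∧ (i : ℤ) ≤ |discr (K i)| := by
  obtain ⟨d, m, hd, hm, hdm⟩ : ∃ d m : ℕ, 2 ≤ d ∧ 2 ≤ m ∧ d * m = n := by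
    refine ⟨n.minFac, n / n.minFac, (Nat.minFac_prime (by omega)).two_le, ?_,
      Nat.mul_div_cancel' (Nat.minFac_dvd n)⟩
    have h1 := Nat.mul_div_cancel' (Nat.minFac_dvd n)
    have h2 : n / n.minFac ≠ 0 := by
      intro h; rw [h] at h1; omega
    have h3 : n / n.minFac ≠ 1 := by
      intro h; rw [h, mul_one] at h1
      exact hn (h1 ▸ Nat.minFac_prime (by omega))
    exact (Nat.two_le_iff _).mpr ⟨h2, h3⟩
  obtain ⟨F, i1, i2, i3, hF⟩ := exists_totallyReal d hd
  obtain ⟨K, hK1, hK2, hK⟩ := exists_field_seq F m hm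
  refine ⟨F, i1, i2, i3, by omega, ?_, K, hK1, hK2, fun i => ⟨(hK i).1, ?_, (hK i).2.2.1,
    (hK i).2.2.2⟩⟩
  · rw [hF]; nlinarith only [h4, hm, hdm]
  · rw [(hK i).2.1, hF, hdm]

/-- In a number field of degree `> 1` there is an algebraic integer outside `ℤ`. -/
theorem exists_not_int (F : Type*) [Field F] [NumberField F] (h : 1 < Module.finrank ℚ F) :
    ∃ α : 𝓞 F, ∀ z : ℤ, α ≠ (z : 𝓞 F) := by
  by_contra hcon
  push Not at hcon
  have h1 : Module.finrank ℤ (𝓞 F) ≤ 1 := by
    refine finrank_le_one (1 : 𝓞 F) (fun w => ?_)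
    obtain ⟨z, hz⟩ := hcon w
    exact ⟨z, by rw [hz]; simp⟩
  rw [RingOfIntegers.rank] at h1
  omega

end Vale.Agent.P007
end

section

set_option autoImplicit false

open Module Matrix MeasureTheory

namespace Vale.Agent.P007.Red

/-- Every nonzero integer vector is a multiple of the first row of a unimodular matrix. -/
theorem exists_unimodular_row {k : ℕ} (m : Fin (k + 1) → ℤ) (hm : m ≠ 0) :
    ∃ (γ : Matrix (Fin (k + 1)) (Fin (k + 1)) ℤ) (a : ℤ), IsUnit γ.det ∧ a ≠ 0 ∧ m = a • γ 0 := by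
  classical
  let N : Submodule ℤ (Fin (k + 1) → ℤ) := Submodule.span ℤ {m}
  obtain ⟨r, snf⟩ := Submodule.smithNormalForm (Pi.basisFun ℤ (Fin (k + 1))) N
  have e : ℤ ≃ₗ[ℤ] N := LinearEquiv.toSpanNonzeroSingleton ℤ _ m hm
  have hr : r = 1 := by
    have h1 : finrank ℤ N = 1 := by rw [← e.finrank_eq]; exact finrank_self ℤ
    have h2 := finrank_eq_card_basis snf.bN
    rw [h1, Fintype.card_fin] at h2
    exact h2.symm
  subst hr
  let mN : N := ⟨m, Submodule.mem_span_singleton_self m⟩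
  have hmN : mN = (snf.bN.repr mN 0) • snf.bN 0 := by
    have := snf.bN.sum_repr mN
    rw [Fin.sum_univ_one] at this
    exact this.symm
  have hm1 : m = (snf.bN.repr mN 0) • (snf.a 0) • snf.bM (snf.f 0) := by
    rw [← snf.snf 0]
    exact congrArg Subtype.val hmN
  let b : Basis (Fin (k + 1)) ℤ (Fin (k + 1) → ℤ) := snf.bM.reindex (Equiv.swap (snf.f 0) 0)
  have hb0 : b 0 = snf.bM (snf.f 0) := by
    simp only [Fin.isValue, Basis.coe_reindex, Equiv.symm_swap, Function.comp_apply,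
      Equiv.swap_apply_right, b]
  refine ⟨Matrix.of b, (snf.bN.repr mN 0) * snf.a 0, ?_, ?_, ?_⟩
  · have h1 : (Pi.basisFun ℤ (Fin (k + 1))).det b = (Matrix.of b).det := by
      rw [Basis.det_apply, ← Matrix.det_transpose]
      rfl
    rw [← h1]
    exact (Pi.basisFun ℤ (Fin (k + 1))).isUnit_det b
  · intro h0
    apply hm
    rw [hm1, smul_smul, h0, zero_smul]
  · rw [mul_smul]
    change m = _ • _ • b 0
    rw [hb0]
    exact hm1

/-- Minkowski: a lattice of covolume at most one has a nonzero vector of sup norm at most two. -/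
theorem exists_short {k : ℕ} (A : Matrix (Fin (k + 1)) (Fin (k + 1)) ℝ) (h0 : A.det ≠ 0)
    (h1 : |A.det| ≤ 1) : ∃ m : Fin (k + 1) → ℤ, m ≠ 0 ∧ ‖(fun i => (m i : ℝ)) ᵥ* A‖ ≤ 2 := by
  classical
  have hli : LinearIndependent ℝ A.row :=
    Matrix.linearIndependent_rows_iff_isUnit.mpr ((Matrix.isUnit_iff_isUnit_det A).mpr h0.isUnit)
  let b : Basis (Fin (k + 1)) ℝ (Fin (k + 1) → ℝ) := basisOfPiSpaceOfLinearIndependent hli
  have hb : ⇑b = A.row := coe_basisOfPiSpaceOfLinearIndependent hli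
  have hvol : volume (ZSpan.fundamentalDomain b) = ENNReal.ofReal |A.det| := by
    rw [ZSpan.volume_fundamentalDomain, hb]
    rfl
  have hball : volume (Metric.ball (0 : Fin (k + 1) → ℝ) 2) = ENNReal.ofReal (4 ^ (k + 1)) := by
    rw [Real.volume_pi_ball _ (by norm_num)]
    norm_num
  have : Countable (Submodule.span ℤ (Set.range b)).toAddSubgroup := by
    change Countable (Submodule.span ℤ (Set.range b))
    infer_instance
  obtain ⟨⟨x, hx⟩, hx0, hxs⟩ := exists_ne_zero_mem_lattice_of_measure_mul_two_pow_lt_measure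
    (μ := volume) (s := Metric.ball (0 : Fin (k + 1) → ℝ) 2)
    (ZSpan.isAddFundamentalDomain' b volume)
    (by intro y hy; simpa using hy) (convex_ball _ _)
    (by
      rw [hvol, hball, finrank_fin_fun]
      have h2 : ENNReal.ofReal |A.det| ≤ 1 := by
        rw [← ENNReal.ofReal_one]; exact ENNReal.ofReal_le_ofReal h1
      have h3 : (2 : ENNReal) ^ (k + 1) = ENNReal.ofReal (2 ^ (k + 1)) := by
        rw [ENNReal.ofReal_pow (by norm_num)]
        norm_num
      calc ENNReal.ofReal |A.det| * 2 ^ (k + 1) ≤ 1 * 2 ^ (k + 1) := by (clear * - h2; gcongr)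
        _ < _ := by
          rw [one_mul, h3]
          rw [ENNReal.ofReal_lt_ofReal_iff (by positivity)]
          exact pow_lt_pow_left₀ (by norm_num) (by norm_num) (by omega))
  have hx' : x ∈ Submodule.span ℤ (Set.range b) := hx
  rw [Submodule.mem_span_range_iff_exists_fun] at hx'
  obtain ⟨m, hm⟩ := hx'
  refine ⟨m, ?_, ?_⟩
  · rintro rfl
    apply hx0
    apply Subtype.ext
    change x = 0
    rw [← hm]
    simp
  · have h4 : (fun i => (m i : ℝ)) ᵥ* A = x := by
      rw [← hm, hb]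
      ext j
      simp only [vecMul, dotProduct, row, zsmul_eq_mul, Finset.sum_apply, Pi.mul_apply,
        Pi.intCast_apply]
    rw [h4]
    have := mem_ball_zero_iff.mp hxs
    exact this.le

/-- A unimodular matrix moving a short vector to the first row. -/
theorem exists_short_row {k : ℕ} (A : Matrix (Fin (k + 1)) (Fin (k + 1)) ℝ) (h0 : A.det ≠ 0)
    (h1 : |A.det| ≤ 1) : ∃ γ : Matrix (Fin (k + 1)) (Fin (k + 1)) ℤ, IsUnit γ.det ∧
      ‖(γ.map (Int.cast : ℤ → ℝ) * A) 0‖ ≤ 2 := by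
  obtain ⟨m, hm, hmA⟩ := exists_short A h0 h1
  obtain ⟨γ, a, hγ, ha, rfl⟩ := exists_unimodular_row m hm
  refine ⟨γ, hγ, ?_⟩
  have h2 : (γ.map (Int.cast : ℤ → ℝ) * A) 0 = (fun i => (γ 0 i : ℝ)) ᵥ* A := rfl
  have h3 : (fun i => (((a • γ 0) i : ℤ) : ℝ)) ᵥ* A = (a : ℝ) • ((fun i => (γ 0 i : ℝ)) ᵥ* A) := by
    rw [← Matrix.smul_vecMul]
    congr 1
    ext i
    simp
  rw [h3, norm_smul] at hmA
  rw [h2]
  have h4 : (1 : ℝ) ≤ ‖(a : ℝ)‖ := by
    rw [Real.norm_eq_abs, ← Int.cast_abs]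
    exact_mod_cast Int.one_le_abs ha
  nlinarith only [hmA, h4]


/-- the projected lattice along the first row -/
noncomputable def rest {n : ℕ} (A : Fin (n + 1) → Fin (n + 1) → ℝ) : Fin n → Fin n → ℝ :=
  fun i k => A i.succ k.succ - (A i.succ 0 / A 0 0) * A 0 k.succ

theorem det_rest {n : ℕ} (A : Matrix (Fin (n + 1)) (Fin (n + 1)) ℝ) (h : A 0 0 ≠ 0) :
    A.det = A 0 0 * Matrix.det (Matrix.of (rest A)) := by
  let A' : Matrix (Fin (n + 1)) (Fin (n + 1)) ℝ :=
    Matrix.of (Fin.cons (A 0) (fun i j => A i.succ j - (A i.succ 0 / A 0 0) * A 0 j))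
  have h1 : A.det = A'.det := by
    refine det_eq_of_forall_row_eq_smul_add_const (Fin.cons 0 (fun i => A i.succ 0 / A 0 0)) 0
      (by simp) ?_
    intro i j
    refine Fin.cases ?_ (fun i => ?_) i
    · simp [A']
    · simp only [of_apply, Fin.cons_succ, Fin.cons_zero, sub_add_cancel, A']
  rw [h1, det_succ_column_zero, Fin.sum_univ_succ]
  have h2 : ∀ i : Fin n, A' i.succ 0 = 0 := by
    intro i
    simp only [of_apply, Fin.cons_succ, isUnit_iff_ne_zero, ne_eq, h, not_false_eq_true,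
      IsUnit.div_mul_cancel, sub_self, A']
  have h3 : A'.submatrix (Fin.succAbove 0) Fin.succ = Matrix.of (rest A) := by
    ext i j
    simp only [Fin.succAbove_zero, submatrix_apply, of_apply, Fin.cons_succ, rest, A']
  simp only [h2, mul_zero, zero_mul, Finset.sum_const_zero, add_zero]
  rw [h3]
  simp only [Nat.succ_eq_add_one, Fin.coe_ofNat_eq_mod, Nat.zero_mod, pow_zero, of_apply,
    Fin.cons_zero, one_mul, A']

/-- the set `F⁰` -/
def base {n : ℕ} (F : Set (Fin n → Fin n → ℝ)) : Set (Fin (n + 1) → Fin (n + 1) → ℝ) :=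
  {A | A 0 0 ≠ 0 ∧ ‖A 0‖ ≤ 2 ∧ (∀ i : Fin n, |A i.succ 0| ≤ |A 0 0| / 2) ∧
    (|A 0 0| ^ (1 / (n : ℝ))) • rest A ∈ F}

/-- `F` meets every orbit of matrices of determinant at most one in absolute value. -/
def Covers {n : ℕ} (F : Set (Fin n → Fin n → ℝ)) : Prop :=
  ∀ B : Matrix (Fin n) (Fin n) ℝ, B.det ≠ 0 → |B.det| ≤ 1 →
    ∃ γ : Matrix (Fin n) (Fin n) ℤ, IsUnit γ.det ∧ (γ.map (Int.cast : ℤ → ℝ) * B) ∈ F

theorem base_step {n : ℕ} (hn : 1 ≤ n) {F : Set (Fin n → Fin n → ℝ)} (hF : Covers F)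
    (A : Matrix (Fin (n + 1)) (Fin (n + 1)) ℝ) (h0 : A.det ≠ 0) (h1 : |A.det| ≤ 1)
    (h2 : A 0 0 ≠ 0) (h3 : ‖A 0‖ ≤ 2) :
    ∃ ε : Matrix (Fin (n + 1)) (Fin (n + 1)) ℤ, IsUnit ε.det ∧
      (ε.map (Int.cast : ℤ → ℝ) * A) ∈ base F := by
  have hr : 0 < |A 0 0| := abs_pos.mpr h2
  set s : ℝ := |A 0 0| ^ (1 / (n : ℝ)) with hs
  have hspos : 0 < s := Real.rpow_pos_of_pos hr _
  have hsn : s ^ n = |A 0 0| := by
    rw [hs, ← Real.rpow_natCast, ← Real.rpow_mul hr.le, one_div, inv_mul_cancel₀, Real.rpow_one]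
    exact_mod_cast (by omega : n ≠ 0)
  have hdet := det_rest A h2
  have hdet2 : Matrix.det (s • Matrix.of (rest A)) = s ^ n * Matrix.det (Matrix.of (rest A)) := by
    rw [det_smul, Fintype.card_fin]
  have hB0 : Matrix.det (Matrix.of (rest A)) ≠ 0 := by
    intro h; rw [h, mul_zero] at hdet; exact h0 hdet
  obtain ⟨γ, hγ, hγF⟩ := hF (s • Matrix.of (rest A)) (by
      rw [hdet2]; exact mul_ne_zero (pow_ne_zero _ hspos.ne') hB0) (by
      rw [hdet2, abs_mul, hsn, abs_abs, ← abs_mul, ← hdet]; exact h1)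
  let x : Fin n → ℝ := fun i => ∑ l, (γ i l : ℝ) * (A l.succ 0 / A 0 0)
  let k : Fin n → ℤ := fun i => - round (x i)
  let ε : Matrix (Fin (n + 1)) (Fin (n + 1)) ℤ :=
    Matrix.of (Fin.cons (Fin.cons 1 0) (fun i => Fin.cons (k i) (γ i)))
  have hε00 : ε 0 0 = 1 := by simp [ε]
  have hε0s : ∀ l : Fin n, ε 0 l.succ = 0 := by intro l; simp [ε]
  have hεs0 : ∀ i : Fin n, ε i.succ 0 = k i := by intro i; simp [ε]
  have hεss : ∀ i l : Fin n, ε i.succ l.succ = γ i l := by intro i l; simp [ε]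
  have hA0 : ∀ j, (ε.map (Int.cast : ℤ → ℝ) * A) 0 j = A 0 j := by
    intro j
    rw [mul_apply, Fin.sum_univ_succ]
    simp only [map_apply, hε00, hε0s]
    simp only [Int.cast_one, one_mul, Int.cast_zero, zero_mul, Finset.sum_const_zero, add_zero]
  have hAs : ∀ (i : Fin n) j, (ε.map (Int.cast : ℤ → ℝ) * A) i.succ j =
      k i * A 0 j + ∑ l : Fin n, (γ i l : ℝ) * A l.succ j := by
    intro i j
    rw [mul_apply, Fin.sum_univ_succ]
    simp only [map_apply, hεs0, hεss]
  refine ⟨ε, ?_, ?_, ?_, ?_, ?_⟩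
  · have : ε.det = γ.det := by
      rw [det_succ_row_zero, Fin.sum_univ_succ]
      simp only [hε00, hε0s, mul_zero, zero_mul, Finset.sum_const_zero, add_zero]
      have h4 : ε.submatrix Fin.succ (Fin.succAbove 0) = γ := by
        ext i j
        rw [submatrix_apply, Fin.succAbove_zero, hεss]
      rw [h4]
      simp
    rw [this]; exact hγ
  · rw [hA0]; exact h2
  · have : (ε.map (Int.cast : ℤ → ℝ) * A) 0 = A 0 := funext hA0
    rw [this]; exact h3
  · intro i
    rw [hA0, hAs]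
    have h5 : (k i : ℝ) * A 0 0 + ∑ l : Fin n, (γ i l : ℝ) * A l.succ 0 =
        A 0 0 * (x i - round (x i)) := by
      simp only [x, k, Int.cast_neg, mul_sub, Finset.mul_sum]
      have h6 : ∀ l : Fin n, A 0 0 * ((γ i l : ℝ) * (A l.succ 0 / A 0 0)) =
          (γ i l : ℝ) * A l.succ 0 := by
        intro l; (clear * - h2; field_simp)
      simp only [h6]
      ring
    rw [h5, abs_mul]
    have := abs_sub_round (x i)
    nlinarith only [hr, this]
  · rw [hA0]
    have h7 : s • rest (ε.map (Int.cast : ℤ → ℝ) * A) =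
        (γ.map (Int.cast : ℤ → ℝ) * (s • Matrix.of (rest A)) : Matrix (Fin n) (Fin n) ℝ) := by
      funext i j
      change s * ((ε.map (Int.cast : ℤ → ℝ) * A) i.succ j.succ -
        ((ε.map (Int.cast : ℤ → ℝ) * A) i.succ 0 / (ε.map (Int.cast : ℤ → ℝ) * A) 0 0) *
          (ε.map (Int.cast : ℤ → ℝ) * A) 0 j.succ) = _
      have h9 : (γ.map (Int.cast : ℤ → ℝ) * (s • Matrix.of (rest A)) : Matrix (Fin n) (Fin n) ℝ) i j
          = ∑ l : Fin n, (γ i l : ℝ) *
            (s * (A l.succ j.succ - A l.succ 0 / A 0 0 * A 0 j.succ)) := rfl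
      rw [hA0, hA0, hAs, hAs, h9]
      have h8 : ∀ l : Fin n, (γ i l : ℝ) * (s * (A l.succ j.succ - A l.succ 0 / A 0 0 * A 0 j.succ))
          = s * ((γ i l : ℝ) * A l.succ j.succ) -
            s * (A 0 j.succ / A 0 0) * ((γ i l : ℝ) * A l.succ 0) := by
        intro l; (clear * - h2 hspos; field_simp)
      rw [Finset.sum_congr rfl fun l _ => h8 l, Finset.sum_sub_distrib, ← Finset.mul_sum,
        ← Finset.mul_sum]
      field_simp
      ring
    rw [h7]
    exact hγF

theorem unit_cast_det {n : ℕ} (γ : Matrix (Fin n) (Fin n) ℤ) (h : IsUnit γ.det) :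
    |(γ.map (Int.cast : ℤ → ℝ)).det| = 1 := by
  have h1 : (γ.map (Int.cast : ℤ → ℝ)).det = ((γ.det : ℤ) : ℝ) := by
    rw [Int.cast_det]
  rw [h1, ← Int.cast_abs, Int.isUnit_iff_abs_eq.mp h, Int.cast_one]

theorem covers_step {n : ℕ} (hn : 1 ≤ n) {F : Set (Fin n → Fin n → ℝ)} (hF : Covers F) :
    Covers (⋃ j : Fin (n + 1), {A : Fin (n + 1) → Fin (n + 1) → ℝ |
      (fun i k => A i (Equiv.swap 0 j k)) ∈ base F}) := by
  intro B hB0 hB1
  obtain ⟨γ₁, hγ₁, hshort⟩ := exists_short_row B hB0 hB1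
  set A₁ : Matrix (Fin (n + 1)) (Fin (n + 1)) ℝ := γ₁.map (Int.cast : ℤ → ℝ) * B with hA₁
  have hd1 : |A₁.det| = |B.det| := by
    rw [hA₁, det_mul, abs_mul, unit_cast_det _ hγ₁, one_mul]
  have hd0 : A₁.det ≠ 0 := by
    rw [← abs_ne_zero, hd1, abs_ne_zero]; exact hB0
  obtain ⟨j, hj⟩ : ∃ j, A₁ 0 j ≠ 0 := by
    by_contra hcon
    push Not at hcon
    exact hd0 (det_eq_zero_of_row_eq_zero 0 hcon)
  let A₂ : Matrix (Fin (n + 1)) (Fin (n + 1)) ℝ := A₁.submatrix id (Equiv.swap 0 j)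
  have hA₂ : |A₂.det| = |A₁.det| := by
    have := abs_det_submatrix_equiv_equiv (Equiv.refl (Fin (n + 1))) (Equiv.swap 0 j) A₁
    exact this
  have hA₂0 : A₂.det ≠ 0 := by
    rw [← abs_ne_zero, hA₂, abs_ne_zero]; exact hd0
  have hA₂00 : A₂ 0 0 ≠ 0 := by
    change A₁ 0 (Equiv.swap 0 j 0) ≠ 0
    rw [Equiv.swap_apply_left]; exact hj
  have hA₂n : ‖A₂ 0‖ ≤ 2 := by
    rw [pi_norm_le_iff_of_nonneg (by norm_num)]
    intro k
    exact (norm_le_pi_norm (A₁ 0) (Equiv.swap 0 j k)).trans hshort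
  obtain ⟨ε, hε, hεF⟩ := base_step hn hF A₂ hA₂0 (by rw [hA₂, hd1]; exact hB1) hA₂00 hA₂n
  refine ⟨ε * γ₁, ?_, ?_⟩
  · rw [det_mul]; exact hε.mul hγ₁
  · refine Set.mem_iUnion.mpr ⟨j, ?_⟩
    have h5 : (ε * γ₁).map (Int.cast : ℤ → ℝ) * B = ε.map (Int.cast : ℤ → ℝ) * A₁ := by
      rw [hA₁, ← mul_assoc]
      congr 1
      exact Matrix.map_mul (f := Int.castRingHom ℝ)
    rw [h5]
    exact hεF

/-- assemble a matrix from first row, first column and the rest -/
def asm {n : ℕ} (p : (Fin (n + 1) → ℝ) × ((Fin n → ℝ) × (Fin n → Fin n → ℝ))) :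
    Fin (n + 1) → Fin (n + 1) → ℝ :=
  Fin.cons p.1 (fun i => Fin.cons (p.2.1 i) (p.2.2 i))

theorem asm_measurePreserving {n : ℕ} : MeasurePreserving (asm (n := n)) volume volume := by
  have h1 := (volume_preserving_piFinSuccAbove (fun _ : Fin (n + 1) => Fin (n + 1) → ℝ) 0).symm
  have h2 : MeasurePreserving (fun (f : Fin n → ℝ × (Fin n → ℝ)) i =>
      (MeasurableEquiv.piFinSuccAbove (fun _ : Fin (n + 1) => ℝ) 0).symm (f i)) :=
    volume_preserving_pi (fun _ => (volume_preserving_piFinSuccAbove (fun _ => ℝ) 0).symm)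
  have h3 := (volume_measurePreserving_arrowProdEquivProdArrow ℝ (Fin n → ℝ) (Fin n)).symm
  have h4 := h1.comp ((MeasurePreserving.id (volume : Measure (Fin (n + 1) → ℝ))).prod (h2.comp h3))
  have h5 : asm (n := n) = (MeasurableEquiv.piFinSuccAbove (fun _ : Fin (n + 1) => Fin (n + 1) → ℝ) 0).symm ∘
      (Prod.map id ((fun (f : Fin n → ℝ × (Fin n → ℝ)) i =>
      (MeasurableEquiv.piFinSuccAbove (fun _ : Fin (n + 1) => ℝ) 0).symm (f i)) ∘
        (MeasurableEquiv.arrowProdEquivProdArrow ℝ (Fin n → ℝ) (Fin n)).symm)) := by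
    funext p i j
    refine Fin.cases ?_ (fun i => ?_) i
    · simp [asm, MeasurableEquiv.piFinSuccAbove]
    · refine Fin.cases ?_ (fun j => ?_) j
      · simp [asm, MeasurableEquiv.piFinSuccAbove, MeasurableEquiv.arrowProdEquivProdArrow]
      · simp [asm, MeasurableEquiv.piFinSuccAbove, MeasurableEquiv.arrowProdEquivProdArrow]
  rw [h5]
  exact h4

theorem measurable_rest {n : ℕ} : Measurable (rest (n := n)) := by
  unfold rest
  fun_prop

theorem measurableSet_base {n : ℕ} {F : Set (Fin n → Fin n → ℝ)} (hF : MeasurableSet F) :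
    MeasurableSet (base F) := by
  have h1 : MeasurableSet {A : Fin (n + 1) → Fin (n + 1) → ℝ | A 0 0 ≠ 0} :=
    (isOpen_ne_fun (by fun_prop) continuous_const).measurableSet
  have h2 : MeasurableSet {A : Fin (n + 1) → Fin (n + 1) → ℝ | ‖A 0‖ ≤ 2} :=
    (isClosed_le (by fun_prop) continuous_const).measurableSet
  have h3 : MeasurableSet {A : Fin (n + 1) → Fin (n + 1) → ℝ | ∀ i : Fin n, |A i.succ 0| ≤ |A 0 0| / 2} := by
    rw [Set.ofPred_forall]
    exact MeasurableSet.iInter fun i => (isClosed_le (by fun_prop) (by fun_prop)).measurableSet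
  have h4 : MeasurableSet {A : Fin (n + 1) → Fin (n + 1) → ℝ | (|A 0 0| ^ (1 / (n : ℝ))) • rest A ∈ F} := by
    have : Measurable fun A : Fin (n + 1) → Fin (n + 1) → ℝ => (|A 0 0| ^ (1 / (n : ℝ))) • rest A := by
      have h5 := measurable_rest (n := n)
      have h6 : Measurable fun A : Fin (n + 1) → Fin (n + 1) → ℝ => |A 0 0| ^ (1 / (n : ℝ)) := by
        fun_prop
      exact h6.smul h5
    exact this hF
  exact h1.inter (h2.inter (h3.inter h4))

theorem volume_scaled {n : ℕ} (hn : 1 ≤ n) (F : Set (Fin n → Fin n → ℝ)) (r : ℝ) (hr : 0 < r)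
    (w : Fin n → Fin n → ℝ) :
    volume {z : Fin n → Fin n → ℝ | (r ^ (1 / (n : ℝ))) • (z - w) ∈ F} =
      ENNReal.ofReal ((r ^ n)⁻¹) * volume F := by
  have h1 : {z : Fin n → Fin n → ℝ | (r ^ (1 / (n : ℝ))) • (z - w) ∈ F} =
      (fun z => z - w) ⁻¹' (((r ^ (1 / (n : ℝ))) • ·) ⁻¹' F) := rfl
  have hs : 0 < r ^ (1 / (n : ℝ)) := Real.rpow_pos_of_pos hr _
  rw [h1]
  have h2 : (fun z : Fin n → Fin n → ℝ => z - w) = fun z => z + (-w) := by
    funext z; rw [sub_eq_add_neg]
  rw [h2, measure_preimage_add_right, Measure.addHaar_preimage_smul _ hs.ne']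
  congr 2
  have h3 : finrank ℝ (Fin n → Fin n → ℝ) = n * n := by
    rw [finrank_pi_fintype]
    simp only [finrank_fintype_fun_eq_card, Fintype.card_fin, Finset.sum_const, Finset.card_univ,
      smul_eq_mul]
  rw [h3, pow_mul, ← Real.rpow_natCast (r ^ (1 / (n : ℝ))) n, ← Real.rpow_mul hr.le, one_div,
    inv_mul_cancel₀ (by exact_mod_cast (by omega : n ≠ 0)), Real.rpow_one, abs_of_pos (by positivity)]

theorem volume_base_le {n : ℕ} (hn : 1 ≤ n) {F : Set (Fin n → Fin n → ℝ)} (hF : MeasurableSet F) :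
    volume (base F) ≤ volume (Metric.closedBall (0 : Fin (n + 1) → ℝ) 2) * volume F := by
  rw [← asm_measurePreserving.measure_preimage (measurableSet_base hF).nullMeasurableSet]
  have hmeas := asm_measurePreserving.measurable (measurableSet_base hF)
  change (volume.prod volume) (asm ⁻¹' base F) ≤ _
  rw [Measure.prod_apply hmeas]
  calc ∫⁻ a, volume (Prod.mk a ⁻¹' (asm ⁻¹' base F)) ≤
      ∫⁻ a, (Metric.closedBall (0 : Fin (n + 1) → ℝ) 2).indicator (fun _ => volume F) a := by
        refine lintegral_mono fun a => ?_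
        by_cases ha : a 0 ≠ 0 ∧ ‖a‖ ≤ 2
        · have hmem : a ∈ Metric.closedBall (0 : Fin (n + 1) → ℝ) 2 := by
            rw [mem_closedBall_zero_iff]; exact ha.2
          rw [Set.indicator_of_mem hmem]
          have hr : 0 < |a 0| := abs_pos.mpr ha.1
          change (volume.prod volume) _ ≤ _
          rw [Measure.prod_apply (measurable_prodMk_left hmeas)]
          have hfib : ∀ y : Fin n → ℝ, volume (Prod.mk y ⁻¹' (Prod.mk a ⁻¹' (asm ⁻¹' base F))) ≤
              (Set.univ.pi fun _ : Fin n => Set.Icc (-(|a 0| / 2)) (|a 0| / 2)).indicator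
                (fun _ => ENNReal.ofReal ((|a 0| ^ n)⁻¹) * volume F) y := by
            intro y
            by_cases hy : y ∈ (Set.univ.pi fun _ : Fin n => Set.Icc (-(|a 0| / 2)) (|a 0| / 2))
            · rw [Set.indicator_of_mem hy, ← volume_scaled hn F |a 0| hr
                (fun i k => (y i / a 0) * a k.succ)]
              apply measure_mono
              rintro z ⟨-, -, -, hz⟩
              exact hz
            · rw [Set.indicator_of_notMem hy]
              have : (Prod.mk y ⁻¹' (Prod.mk a ⁻¹' (asm ⁻¹' base F)) : Set (Fin n → Fin n → ℝ)) = ∅ := by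
                rw [Set.eq_empty_iff_forall_notMem]
                rintro z ⟨-, -, hz, -⟩
                apply hy
                intro i _
                exact abs_le.mp (hz i)
              rw [this, measure_empty]
          refine (lintegral_mono hfib).trans ?_
          rw [lintegral_indicator_const (MeasurableSet.univ_pi fun _ => measurableSet_Icc),
            volume_pi_pi]
          simp only [Real.volume_Icc, Finset.prod_const, Finset.card_univ, Fintype.card_fin]
          have h4 : |a 0| / 2 - -(|a 0| / 2) = |a 0| := by ring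
          rw [h4, mul_right_comm, ← ENNReal.ofReal_pow hr.le, ← ENNReal.ofReal_mul (by positivity),
            inv_mul_cancel₀ (by positivity), ENNReal.ofReal_one, one_mul]
        · have : (Prod.mk a ⁻¹' (asm ⁻¹' base F)) = ∅ := by
            rw [Set.eq_empty_iff_forall_notMem]
            rintro z ⟨h1, h2, -⟩
            exact ha ⟨h1, h2⟩
          rw [this, measure_empty]
          exact zero_le
    _ = _ := by
        rw [lintegral_indicator_const Metric.isClosed_closedBall.measurableSet, mul_comm]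

theorem swap_measurePreserving {n : ℕ} (e : Equiv.Perm (Fin n)) :
    MeasurePreserving (fun (A : Fin n → Fin n → ℝ) => (fun i k => A i (e k))) volume volume := by
  have h0 : MeasurePreserving (fun v : Fin n → ℝ => fun k => v (e k)) volume volume := by
    have h := volume_measurePreserving_piCongrLeft (fun _ : Fin n => ℝ) e.symm
    have h2 : (MeasurableEquiv.piCongrLeft (fun _ : Fin n => ℝ) e.symm : (Fin n → ℝ) → (Fin n → ℝ)) =
        fun v k => v (e k) := by
      funext v k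
      rw [MeasurableEquiv.coe_piCongrLeft]
      have := Equiv.piCongrLeft_apply_apply (P := fun _ : Fin n => ℝ) e.symm v (e k)
      simpa using this
    rw [← h2]
    exact h
  exact volume_preserving_pi (fun _ : Fin n => h0)


theorem closedBall_fin_one (B : Fin 1 → Fin 1 → ℝ) (h : |B 0 0| ≤ 1) :
    B ∈ Metric.closedBall (0 : Fin 1 → Fin 1 → ℝ) 1 := by
  rw [mem_closedBall_zero_iff, pi_norm_le_iff_of_nonneg zero_le_one]
  intro i
  rw [pi_norm_le_iff_of_nonneg zero_le_one]
  intro j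
  rw [Subsingleton.elim i 0, Subsingleton.elim j 0]
  exact h

theorem exists_covers (k : ℕ) : ∃ F : Set (Fin (k + 1) → Fin (k + 1) → ℝ),
    MeasurableSet F ∧ volume F < ⊤ ∧ Covers F := by
  induction k with
  | zero =>
    refine ⟨Metric.closedBall 0 1, Metric.isClosed_closedBall.measurableSet,
      measure_closedBall_lt_top, ?_⟩
    intro B hB0 hB1
    refine ⟨1, by simp, ?_⟩
    rw [Matrix.map_one _ (by simp) (by simp), one_mul]
    have h1 : B.det = B 0 0 := det_fin_one B
    rw [h1] at hB1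
    exact closedBall_fin_one B hB1
  | succ k ih =>
    obtain ⟨F, hF1, hF2, hF3⟩ := ih
    have hm : ∀ j : Fin (k + 1 + 1), MeasurableSet {A : Fin (k + 1 + 1) → Fin (k + 1 + 1) → ℝ |
        (fun i l => A i (Equiv.swap 0 j l)) ∈ base F} := fun j =>
      (swap_measurePreserving (Equiv.swap 0 j)).measurable (measurableSet_base hF1)
    refine ⟨_, MeasurableSet.iUnion hm, ?_, covers_step (by omega) hF3⟩
    refine lt_of_le_of_lt (measure_iUnion_fintype_le _ _) ?_
    refine ENNReal.sum_lt_top.mpr fun j _ => ?_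
    have h1 : volume {A : Fin (k + 1 + 1) → Fin (k + 1 + 1) → ℝ |
        (fun i l => A i (Equiv.swap 0 j l)) ∈ base F} = volume (base F) :=
      (swap_measurePreserving (Equiv.swap 0 j)).measure_preimage
        (measurableSet_base hF1).nullMeasurableSet
    rw [h1]
    refine lt_of_le_of_lt (volume_base_le (by omega) hF1) ?_
    exact ENNReal.mul_lt_top measure_closedBall_lt_top hF2

/-- negate the first row -/
def negRow {k : ℕ} (A : Fin (k + 1) → Fin (k + 1) → ℝ) : Fin (k + 1) → Fin (k + 1) → ℝ :=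
  fun i => if i = 0 then -A i else A i

theorem negRow_measurePreserving {k : ℕ} : MeasurePreserving (negRow (k := k)) volume volume := by
  have h : ∀ i : Fin (k + 1), MeasurePreserving
      (fun v : Fin (k + 1) → ℝ => if i = 0 then -v else v) volume volume := by
    intro i
    by_cases hi : i = 0
    · simp only [hi, if_true]
      exact Measure.measurePreserving_neg volume
    · simp only [hi, if_false]
      exact MeasurePreserving.id _
  exact volume_preserving_pi h

/-- A set of finite Lebesgue measure meeting every `SL_n(ℤ)`-orbit of matrices with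
`0 < det ≤ 1`. -/
theorem exists_covers_SL (k : ℕ) : ∃ F : Set (Fin (k + 1) → Fin (k + 1) → ℝ),
    MeasurableSet F ∧ volume F < ⊤ ∧ ∀ A : Matrix (Fin (k + 1)) (Fin (k + 1)) ℝ, 0 < A.det →
      A.det ≤ 1 → ∃ γ : SpecialLinearGroup (Fin (k + 1)) ℤ,
        ((γ : Matrix (Fin (k + 1)) (Fin (k + 1)) ℤ).map (Int.cast : ℤ → ℝ) * A) ∈ F := by
  obtain ⟨F, hF1, hF2, hF3⟩ := exists_covers k
  refine ⟨F ∪ negRow ⁻¹' F, hF1.union (negRow_measurePreserving.measurable hF1), ?_, ?_⟩
  · refine lt_of_le_of_lt (measure_union_le _ _) (ENNReal.add_lt_top.mpr ⟨hF2, ?_⟩)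
    rw [negRow_measurePreserving.measure_preimage hF1.nullMeasurableSet]
    exact hF2
  · intro A h0 h1
    obtain ⟨γ, hγ, hγF⟩ := hF3 A h0.ne' (by rw [abs_of_pos h0]; exact h1)
    rcases Int.isUnit_iff.mp hγ with h | h
    · exact ⟨⟨γ, h⟩, Or.inl hγF⟩
    · let ε : Matrix (Fin (k + 1)) (Fin (k + 1)) ℤ := diagonal (fun i => if i = 0 then -1 else 1)
      have hε : ε.det = -1 := by
        rw [det_diagonal, Fin.prod_univ_succ]
        simp only [↓reduceIte, Int.reduceNeg, Fin.succ_ne_zero, Finset.prod_const_one, mul_one]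
      refine ⟨⟨ε * γ, by rw [det_mul, hε, h]; norm_num⟩, Or.inr ?_⟩
      have h2 : negRow (((ε * γ).map (Int.cast : ℤ → ℝ) * A :
          Matrix (Fin (k + 1)) (Fin (k + 1)) ℝ)) = (γ.map (Int.cast : ℤ → ℝ) * A :
          Matrix (Fin (k + 1)) (Fin (k + 1)) ℝ) := by
        have h3 : (ε * γ).map (Int.cast : ℤ → ℝ) = ε.map (Int.cast : ℤ → ℝ) * γ.map (Int.cast : ℤ → ℝ) :=
          Matrix.map_mul (f := Int.castRingHom ℝ)
        have h4 : ε.map (Int.cast : ℤ → ℝ) = diagonal (fun i => if i = 0 then (-1 : ℝ) else 1) := by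
          rw [diagonal_map (by simp)]
          congr 1
          funext i
          split_ifs <;> simp
        rw [h3, h4, mul_assoc]
        funext i j
        by_cases hi : i = 0
        · simp [negRow, hi]
        · simp [negRow, hi]
      change negRow _ ∈ F
      rw [h2]
      exact hγF

end Vale.Agent.P007.Red
end

section

set_option autoImplicit false

open Module

namespace Vale.Agent.P007.Fib

variable {E : Type*} [CommRing E]

/-- a subring as a `ℤ`-submodule -/
def RM (R : Subring E) : Submodule ℤ E := AddSubgroup.toIntSubmodule R.toAddSubgroup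

theorem mem_RM {R : Subring E} {x : E} : x ∈ RM R ↔ x ∈ R := Iff.rfl

/-- `L` is stable under `R` -/
def Stable (R : Subring E) (L : Submodule ℤ E) : Prop := ∀ r ∈ R, ∀ x ∈ L, r * x ∈ L

/-- `L` is an invertible `R`-module -/
def Inv (R : Subring E) (L : Submodule ℤ E) : Prop :=
  Stable R L ∧ ∃ L' : Submodule ℤ E, Stable R L' ∧ L * L' = RM R

/-- `R v + f L` -/
def sub (R : Subring E) (L : Submodule ℤ E) (f : ℕ) (v : E) : Submodule ℤ E where
  carrier := {x | ∃ r ∈ R, ∃ y ∈ L, x = r * v + f * y}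
  zero_mem' := ⟨0, R.zero_mem, 0, L.zero_mem, by ring⟩
  add_mem' := by
    rintro _ _ ⟨r, hr, y, hy, rfl⟩ ⟨r', hr', y', hy', rfl⟩
    exact ⟨r + r', R.add_mem hr hr', y + y', L.add_mem hy hy', by ring⟩
  smul_mem' := by
    rintro c _ ⟨r, hr, y, hy, rfl⟩
    refine ⟨c • r, zsmul_mem hr c, c • y, L.smul_mem c hy, ?_⟩
    simp only [zsmul_eq_mul]
    ring

theorem mem_sub {R : Subring E} {L : Submodule ℤ E} {f : ℕ} {v x : E} :
    x ∈ sub R L f v ↔ ∃ r ∈ R, ∃ y ∈ L, x = r * v + f * y := Iff.rfl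

theorem self_mem_sub {R : Subring E} {L : Submodule ℤ E} {f : ℕ} {v : E} : v ∈ sub R L f v :=
  ⟨1, R.one_mem, 0, L.zero_mem, by ring⟩

theorem mul_mem_sub {R : Subring E} {L : Submodule ℤ E} {f : ℕ} {v y : E} (hy : y ∈ L) :
    (f : E) * y ∈ sub R L f v :=
  ⟨0, R.zero_mem, y, hy, by ring⟩

/-- `v` generates `L` modulo `f` over `S` -/
def Gen (S : Subring E) (L : Submodule ℤ E) (f : ℕ) (v : E) : Prop :=
  v ∈ L ∧ ∀ x ∈ L, ∃ s ∈ S, ∃ y ∈ L, x = s * v + f * y

variable {R S : Subring E} {L L' : Submodule ℤ E} {f : ℕ} {v w : E}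

theorem sub_le (hRS : R ≤ S) (hL : Stable S L) (hv : v ∈ L) : sub R L f v ≤ L := by
  rintro _ ⟨r, hr, y, hy, rfl⟩
  refine L.add_mem (hL r (hRS hr) v hv) ?_
  rw [← nsmul_eq_mul]
  exact L.smul_of_tower_mem f hy

theorem sub_stable (hL : Stable R L) : Stable R (sub R L f v) := by
  rintro r hr _ ⟨r', hr', y, hy, rfl⟩
  exact ⟨r * r', R.mul_mem hr hr', r * y, hL r hr y hy, by ring⟩

theorem Stable.mono (hRS : R ≤ S) (hL : Stable S L) : Stable R L :=
  fun r hr x hx => hL r (hRS hr) x hx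

/-- `S = v L' + f S` -/
theorem Gen.exists_inv (hv : Gen S L f v) (hL' : Stable S L') (h : L * L' = RM S) {s : E}
    (hs : s ∈ S) : ∃ y ∈ L', ∃ s' ∈ S, s = v * y + f * s' := by
  have hs' : s ∈ L * L' := by rw [h]; exact hs
  refine Submodule.mul_induction_on hs' ?_ ?_
  · intro x hx y hy
    obtain ⟨r, hr, z, hz, rfl⟩ := hv.2 x hx
    refine ⟨r * y, hL' r hr y hy, z * y, ?_, by ring⟩
    have : z * y ∈ L * L' := Submodule.mul_mem_mul hz hy
    rwa [h] at this
  · rintro x y ⟨a, ha, b, hb, rfl⟩ ⟨c, hc, d, hd, rfl⟩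
    exact ⟨a + c, L'.add_mem ha hc, b + d, S.add_mem hb hd, by ring⟩

theorem Gen.exists_one (hv : Gen S L f v) (hL' : Stable S L') (h : L * L' = RM S) :
    ∃ w ∈ L', ∃ s ∈ S, (1 : E) = v * w + f * s :=
  hv.exists_inv hL' h S.one_mem

/-- multiplication by a generator is injective modulo `f` -/
theorem Gen.inj (hv : Gen S L f v) (hL' : Stable S L') (h : L * L' = RM S) {s y : E} (hs : s ∈ S)
    (hy : y ∈ L) (hsy : s * v = f * y) : ∃ s' ∈ S, s = f * s' := by
  obtain ⟨w, hw, t, ht, h1⟩ := hv.exists_one hL' h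
  have hyw : y * w ∈ S := by
    have : y * w ∈ L * L' := Submodule.mul_mem_mul hy hw
    rwa [h] at this
  refine ⟨y * w + s * t, S.add_mem hyw (S.mul_mem hs ht), ?_⟩
  calc s = s * (v * w + f * t) := by rw [← h1, mul_one]
    _ = (s * v) * w + f * (s * t) := by ring
    _ = f * (y * w + s * t) := by rw [hsy]; ring

/-- `S (R v + f L) = L` -/
theorem Gen.mul_sub (hv : Gen S L f v) (hRS : R ≤ S) (hL : Stable S L) :
    RM S * sub R L f v = L := by
  refine le_antisymm ?_ ?_
  · rw [Submodule.mul_le]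
    intro s hs x hx
    exact hL s hs x (sub_le hRS hL hv.1 hx)
  · intro x hx
    obtain ⟨s, hs, y, hy, rfl⟩ := hv.2 x hx
    refine Submodule.add_mem _ ?_ ?_
    · exact Submodule.mul_mem_mul hs self_mem_sub
    · have := Submodule.mul_mem_mul (M := RM S) S.one_mem (mul_mem_sub (R := R) (v := v) (f := f) hy)
      rwa [one_mul] at this

/-- `R v + f L` is an invertible `R`-module. -/
theorem Gen.inv_sub (hv : Gen S L f v) (hRS : R ≤ S) (hf : ∀ s ∈ S, (f : E) * s ∈ R)
    (hL : Stable S L) (hL' : Stable S L') (h : L * L' = RM S) : Inv R (sub R L f v) := by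
  obtain ⟨w, hw, t, ht, h1⟩ := hv.exists_one hL' h
  have hLL : ∀ x ∈ L, ∀ y ∈ L', x * y ∈ S := by
    intro x hx y hy
    have : x * y ∈ L * L' := Submodule.mul_mem_mul hx hy
    rwa [h] at this
  have hvw : v * w ∈ R := by
    have : v * w = 1 - f * t := by rw [h1]; ring
    rw [this]
    exact R.sub_mem R.one_mem (hf t ht)
  refine ⟨sub_stable (hL.mono hRS), sub R L' f w, sub_stable (hL'.mono hRS), ?_⟩
  refine le_antisymm ?_ ?_
  · rw [Submodule.mul_le]
    rintro _ ⟨r, hr, y, hy, rfl⟩ _ ⟨r', hr', y', hy', rfl⟩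
    have e : (r * v + f * y) * (r' * w + f * y') = (r * r') * (v * w) +
        f * (r * (v * y') + r' * (y * w) + f * (y * y')) := by ring
    rw [e]
    refine R.add_mem (R.mul_mem (R.mul_mem hr hr') hvw) (hf _ ?_)
    refine S.add_mem (S.add_mem (S.mul_mem (hRS hr) (hLL _ hv.1 _ hy'))
      (S.mul_mem (hRS hr') (hLL _ hy _ hw))) (S.mul_mem (natCast_mem S f) (hLL _ hy _ hy'))
  · -- `f S` is in the product
    have hfS : ∀ s ∈ S, (f : E) * s ∈ sub R L f v * sub R L' f w := by
      intro s hs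
      obtain ⟨y, hy, s', hs', rfl⟩ := hv.exists_inv hL' h hs
      have h2 : v * (f * y) ∈ sub R L f v * sub R L' f w :=
        Submodule.mul_mem_mul self_mem_sub (mul_mem_sub hy)
      have h3 : ∀ s ∈ S, (f : E) * (f * s) ∈ sub R L f v * sub R L' f w := by
        intro s hs
        have hs' : s ∈ L * L' := by rw [h]; exact hs
        refine Submodule.mul_induction_on hs' ?_ ?_
        · intro x hx y hy
          have : (f : E) * x * (f * y) ∈ sub R L f v * sub R L' f w :=
            Submodule.mul_mem_mul (mul_mem_sub hx) (mul_mem_sub hy)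
          have e : (f : E) * (f * (x * y)) = f * x * (f * y) := by ring
          rwa [e]
        · intro x y hx hy
          have e : (f : E) * (f * (x + y)) = f * (f * x) + f * (f * y) := by ring
          rw [e]
          exact Submodule.add_mem _ hx hy
      have e : (f : E) * (v * y + f * s') = v * (f * y) + f * (f * s') := by ring
      rw [e]
      exact Submodule.add_mem _ h2 (h3 s' hs')
    have h1m : (1 : E) ∈ sub R L f v * sub R L' f w := by
      rw [h1]
      exact Submodule.add_mem _ (Submodule.mul_mem_mul self_mem_sub self_mem_sub) (hfS t ht)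
    intro r hr
    have h4 : RM R * (sub R L f v * sub R L' f w) ≤ sub R L f v * sub R L' f w := by
      rw [← mul_assoc]
      refine Submodule.smul_mono ?_ le_rfl
      rw [Submodule.mul_le]
      intro r hr x hx
      exact sub_stable (hL.mono hRS) r hr x hx
    have h5 := h4 (Submodule.mul_mem_mul (hr : r ∈ RM R) h1m)
    rwa [mul_one] at h5

/-- If `I` is an invertible `R`-module and the ring `R` has finitely many maximal ideals
containing `f`, then `I = R v + f (S I)` for some `v ∈ I`. -/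
theorem exists_gen (hRS : R ≤ S) (hf : ∀ s ∈ S, (f : E) * s ∈ R) (I : Submodule ℤ E)
    (hI : Inv R I) (hfin : {M : Ideal R | M.IsMaximal ∧ (f : R) ∈ M}.Finite) :
    ∃ v ∈ I, I = sub R (RM S * I) f v := by
  obtain ⟨hIs, I', hI's, hinv⟩ := hI
  have hmul : ∀ a ∈ I, ∀ b ∈ I', a * b ∈ R := by
    intro a ha b hb
    have : a * b ∈ I * I' := Submodule.mul_mem_mul ha hb
    rwa [hinv] at this
  classical
  set s := hfin.toFinset with hs
  have hmax : ∀ M ∈ s, M.IsMaximal := fun M hM => (hfin.mem_toFinset.mp hM).1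
  have coprime : ∀ M ∈ s, ∀ M' ∈ s.erase M, M ⊔ M' = ⊤ := by
    intro M hM M' hM'
    rw [Finset.mem_erase] at hM'
    exact Ideal.IsMaximal.coprime_of_ne (hmax M hM) (hmax M' hM'.2) hM'.1.symm
  have nle : ∀ M ∈ s, ¬⨅ M' ∈ s.erase M, M' ≤ M := fun M hM =>
    left_lt_sup.1
      ((hmax M hM).lt_top.trans_eq (Ideal.sup_iInf_eq_top <| coprime M hM).symm)
  have key : ∀ M ∈ s, ∃ a ∈ I, ∃ b ∈ I', ∃ c : R, c ∉ M ∧ (c : E) = a * b := by
    intro M hM
    by_contra! hcon
    have h1 : ∀ x ∈ I * I', ∃ c ∈ M, (c : E) = x := by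
      intro x hx
      refine Submodule.mul_induction_on hx ?_ ?_
      · intro a ha b hb
        by_contra hc
        push Not at hc
        exact hcon a ha b hb ⟨a * b, hmul a ha b hb⟩ (fun hM' => hc _ hM' rfl) rfl
      · rintro x y ⟨c, hc, rfl⟩ ⟨d, hd, rfl⟩
        exact ⟨c + d, M.add_mem hc hd, rfl⟩
    obtain ⟨c, hc, hc1⟩ := h1 1 (by rw [hinv]; exact R.one_mem)
    have : c = 1 := Subtype.ext hc1
    rw [this] at hc
    exact (hmax M hM).ne_top ((Ideal.eq_top_iff_one M).mpr hc)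
  choose! a ha b hb c hc hcab using key
  choose! u hu hum using fun M hM => SetLike.not_le_iff_exists.1 (nle M hM)
  set v : E := ∑ M ∈ s, (u M : E) * a M with hv
  set w : E := ∑ M ∈ s, (u M : E) * b M with hw
  have hvI : v ∈ I := Submodule.sum_mem _ fun M hM => hIs _ (u M).2 _ (ha M hM)
  have hwI : w ∈ I' := Submodule.sum_mem _ fun M hM => hI's _ (u M).2 _ (hb M hM)
  let vw : R := ⟨v * w, hmul v hvI w hwI⟩
  have hnot : ∀ M ∈ s, vw ∉ M := by
    intro M hM hmem
    -- split off the terms with index `M`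
    let v' : E := ∑ M' ∈ s.erase M, (u M' : E) * a M'
    let w' : E := ∑ M' ∈ s.erase M, (u M' : E) * b M'
    have hv' : v = (u M : E) * a M + v' := (Finset.add_sum_erase s _ hM).symm
    have hw' : w = (u M : E) * b M + w' := (Finset.add_sum_erase s _ hM).symm
    have huM : ∀ M' ∈ s.erase M, u M' ∈ M := by
      intro M' hM'
      rw [Finset.mem_erase] at hM'
      have h1 := hu M' hM'.2
      simp_rw [Ideal.mem_iInf, Finset.mem_erase] at h1
      exact h1 M ⟨hM'.1.symm, hM⟩
    have hv'm : ∀ y ∈ I', ∃ d ∈ M, (d : E) = v' * y := by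
      intro y hy
      refine ⟨∑ M' ∈ (s.erase M).attach, u M'.1 * ⟨a M'.1 * y,
        hmul _ (ha M'.1 (Finset.mem_of_mem_erase M'.2)) y hy⟩, ?_, ?_⟩
      · exact Ideal.sum_mem _ fun M' _ => M.mul_mem_right _ (huM M'.1 M'.2)
      · rw [AddSubmonoidClass.coe_finsetSum]
        simp only [v', Finset.sum_mul]
        rw [← Finset.sum_attach (s.erase M)]
        refine Finset.sum_congr rfl fun M' _ => ?_
        change (u M'.1 : E) * (a M'.1 * y) = _
        ring
    have hw'm : ∀ x ∈ I, ∃ d ∈ M, (d : E) = x * w' := by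
      intro x hx
      refine ⟨∑ M' ∈ (s.erase M).attach, u M'.1 * ⟨x * b M'.1,
        hmul x hx _ (hb M'.1 (Finset.mem_of_mem_erase M'.2))⟩, ?_, ?_⟩
      · exact Ideal.sum_mem _ fun M' _ => M.mul_mem_right _ (huM M'.1 M'.2)
      · rw [AddSubmonoidClass.coe_finsetSum]
        simp only [w', Finset.mul_sum]
        rw [← Finset.sum_attach (s.erase M)]
        refine Finset.sum_congr rfl fun M' _ => ?_
        change (u M'.1 : E) * (x * b M'.1) = _
        ring
    obtain ⟨d₁, hd₁, hd₁'⟩ := hv'm w hwI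
    obtain ⟨d₂, hd₂, hd₂'⟩ := hw'm ((u M : E) * a M) (hIs _ (u M).2 _ (ha M hM))
    have h2 : vw = u M * (u M * c M) + d₂ + d₁ := by
      apply Subtype.ext
      change v * w = (u M : E) * ((u M : E) * (c M : E)) + (d₂ : E) + (d₁ : E)
      rw [hd₁', hd₂', hcab M hM]
      have e1 : v * w = (u M : E) * a M * w + v' * w := by
        conv_lhs => rw [hv']
        ring
      have e2 : (u M : E) * a M * w = (u M : E) * ((u M : E) * (a M * b M)) +
          (u M : E) * a M * w' := by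
        conv_lhs => rw [hw']
        ring
      rw [e1, e2]
    rw [h2] at hmem
    have h3 : u M * (u M * c M) ∈ M := by
      have h4 := M.sub_mem (M.sub_mem hmem hd₁) hd₂
      have e : u M * (u M * c M) + d₂ + d₁ - d₁ - d₂ = u M * (u M * c M) := by ring
      rwa [e] at h4
    rcases (hmax M hM).isPrime.mem_or_mem h3 with h5 | h5
    · exact hum M hM h5
    · rcases (hmax M hM).isPrime.mem_or_mem h5 with h6 | h6
      · exact hum M hM h6
      · exact hc M hM h6
  -- the conductor ideal `f S`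
  let cnd : Ideal R :=
    { carrier := {r | ∃ s ∈ S, (r : E) = f * s}
      zero_mem' := ⟨0, S.zero_mem, by simp only [ZeroMemClass.coe_zero, mul_zero]⟩
      add_mem' := by
        rintro x y ⟨s, hs, hx⟩ ⟨t, ht, hy⟩
        exact ⟨s + t, S.add_mem hs ht, by rw [Subring.coe_add, hx, hy]; ring⟩
      smul_mem' := by
        rintro r x ⟨s, hs, hx⟩
        exact ⟨(r : E) * s, S.mul_mem (hRS r.2) hs, by
          rw [smul_eq_mul, Subring.coe_mul, hx]; ring⟩ }
  have hone : ∃ x : R, ∃ y ∈ cnd, x * vw + y = 1 := by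
    by_contra hcon
    have h1 : Ideal.span {vw} ⊔ cnd ≠ ⊤ := by
      intro htop
      apply hcon
      have h2 : (1 : R) ∈ Ideal.span {vw} ⊔ cnd := by rw [htop]; trivial
      obtain ⟨x, hx, y, hy, hxy⟩ := Submodule.mem_sup.mp h2
      obtain ⟨z, rfl⟩ := Ideal.mem_span_singleton'.mp hx
      exact ⟨z, y, hy, hxy⟩
    obtain ⟨M, hM, hle⟩ := Ideal.exists_le_maximal _ h1
    have hfM : (f : R) ∈ M := by
      apply hle
      apply Ideal.mem_sup_right
      exact ⟨1, S.one_mem, by simp only [SubringClass.coe_natCast, mul_one]⟩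
    refine hnot M (hfin.mem_toFinset.mpr ⟨hM, hfM⟩) ?_
    apply hle
    exact Ideal.mem_sup_left (Ideal.mem_span_singleton_self vw)
  obtain ⟨x₀, y₀, ⟨s₀, hs₀, hy₀⟩, hxy⟩ := hone
  have hone' : (x₀ : E) * (v * w) + f * s₀ = 1 := by
    have := congrArg (Subtype.val : R → E) hxy
    rw [Subring.coe_add, Subring.coe_mul, hy₀] at this
    exact this
  refine ⟨v, hvI, le_antisymm ?_ ?_⟩
  · intro z hz
    refine ⟨(x₀ : E) * (z * w), R.mul_mem x₀.2 (hmul z hz w hwI), s₀ * z,
      Submodule.mul_mem_mul hs₀ hz, ?_⟩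
    calc z = ((x₀ : E) * (v * w) + f * s₀) * z := by rw [hone', one_mul]
      _ = _ := by ring
  · rintro _ ⟨r, hr, y, hy, rfl⟩
    refine I.add_mem (hIs r hr v hvI) ?_
    refine Submodule.mul_induction_on hy ?_ ?_
    · intro s hs x hx
      have : (f : E) * (s * x) = (f * s) * x := by ring
      rw [this]
      exact hIs _ (hf s hs) x hx
    · intro x y hx hy
      rw [mul_add]
      exact I.add_mem hx hy

/-- the generator produced by `exists_gen` is a generator of `S I` -/
theorem gen_of_eq_sub (I : Submodule ℤ E) (hIs : Stable R I) (hRS : R ≤ S) {v : E} (hv : v ∈ I)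
    (h : I = sub R (RM S * I) f v) : Gen S (RM S * I) f v := by
  have hle : I ≤ RM S * I := by
    intro x hx
    have := Submodule.mul_mem_mul (M := RM S) S.one_mem hx
    rwa [one_mul] at this
  refine ⟨hle hv, fun x hx => ?_⟩
  refine Submodule.mul_induction_on hx ?_ ?_
  · intro s hs y hy
    rw [h] at hy
    obtain ⟨r, hr, z, hz, rfl⟩ := hy
    refine ⟨s * r, S.mul_mem hs (hRS hr), s * z, ?_, by ring⟩
    have h2 : s * z ∈ RM S * (RM S * I) := Submodule.mul_mem_mul hs hz
    rw [← mul_assoc] at h2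
    have h3 : RM S * RM S ≤ RM S := by
      rw [Submodule.mul_le]
      intro a ha b hb
      exact S.mul_mem ha hb
    exact Submodule.smul_mono h3 le_rfl h2
  · rintro x y ⟨s, hs, z, hz, rfl⟩ ⟨s', hs', z', hz', rfl⟩
    exact ⟨s + s', S.add_mem hs hs', z + z', Submodule.add_mem _ hz hz', by ring⟩

end Vale.Agent.P007.Fib
end

section

open MeasureTheory ProbabilityTheory Filter Topology Set
open scoped ENNReal NNReal

namespace Vale.Agent.P007.Leaf

/-- A jointly measurable real flow. -/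
structure IsFlow {X : Type*} [MeasurableSpace X] (u : ℝ → X → X) : Prop where
  meas : Measurable fun p : X × ℝ => u p.2 p.1
  zero : ∀ x, u 0 x = x
  add : ∀ s t x, u (s + t) x = u s (u t x)

section Basic

variable {X : Type*} [MeasurableSpace X] {u : ℝ → X → X}

lemma IsFlow.neg_self (hu : IsFlow u) (s : ℝ) (x : X) : u (-s) (u s x) = x := by
  rw [← hu.add, neg_add_cancel, hu.zero]

lemma IsFlow.self_neg (hu : IsFlow u) (s : ℝ) (x : X) : u s (u (-s) x) = x := by
  rw [← hu.add, add_neg_cancel, hu.zero]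

lemma IsFlow.meas_fix (hu : IsFlow u) (s : ℝ) : Measurable (u s) :=
  hu.meas.comp (measurable_id.prodMk measurable_const)

/-- The weight. -/
noncomputable def w (s : ℝ) : ℝ≥0∞ := ENNReal.ofReal (Real.exp (-|s|) / 2)

lemma w_pos (s : ℝ) : w s ≠ 0 := by
  have : 0 < Real.exp (-|s|) / 2 := by positivity
  exact (ENNReal.ofReal_pos.2 this).ne'

lemma w_fin (s : ℝ) : w s ≠ ∞ := ENNReal.ofReal_ne_top

lemma meas_w : Measurable w := by
  unfold w
  fun_prop

lemma lint_w : ∫⁻ s, w s = 1 := by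
  have h1 : ∫ s : ℝ, Real.exp (-|s|) / 2 = 1 := by
    rw [integral_div, integral_comp_abs (f := fun s => Real.exp (-s)), integral_exp_neg_Ioi_zero]
    norm_num
  have h2 : Integrable fun s : ℝ => Real.exp (-|s|) / 2 := by
    by_contra h
    rw [integral_undef h] at h1
    norm_num at h1
  unfold w
  rw [← ofReal_integral_eq_lintegral_ofReal h2 (Eventually.of_forall fun s => by positivity), h1,
    ENNReal.ofReal_one]

lemma w_add_le (s t : ℝ) : w (s + t) ≤ ENNReal.ofReal (Real.exp |t|) * w s := by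
  unfold w
  rw [← ENNReal.ofReal_mul (by positivity)]
  apply ENNReal.ofReal_le_ofReal
  rw [← mul_div_assoc, ← Real.exp_add]
  have : |s| ≤ |s + t| + |t| := by
    have := abs_sub (s + t) t
    simpa only [ge_iff_le, add_sub_cancel_right] using this
  gcongr
  linarith

/-- The weight measure. -/
noncomputable def rho : Measure ℝ := volume.withDensity w

instance : IsProbabilityMeasure rho := ⟨by
  rw [rho, withDensity_apply _ MeasurableSet.univ, Measure.restrict_univ, lint_w]⟩

lemma lintegral_rho (f : ℝ → ℝ≥0∞) (hf : Measurable f) : ∫⁻ s, f s ∂rho = ∫⁻ s, w s * f s := by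
  rw [rho, lintegral_withDensity_eq_lintegral_mul _ meas_w hf]
  rfl

/-- The law of `(u (-s) x, s)`. -/
noncomputable def Q (u : ℝ → X → X) (μ : Measure X) : Measure (X × ℝ) :=
  (μ.prod rho).map (fun p => (u (-p.2) p.1, p.2))

lemma IsFlow.meas_E (hu : IsFlow u) : Measurable (fun p : X × ℝ => (u (-p.2) p.1, p.2)) :=
  (hu.meas.comp (measurable_fst.prodMk measurable_snd.neg)).prodMk measurable_snd

lemma IsFlow.meas_F (hu : IsFlow u) : Measurable (fun p : X × ℝ => (u p.2 p.1, p.2)) :=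
  hu.meas.prodMk measurable_snd

instance (μ : Measure X) [IsFiniteMeasure μ] : IsFiniteMeasure (Q u μ) := by
  unfold Q; infer_instance

/-- The base measure. -/
noncomputable def Pb (u : ℝ → X → X) (μ : Measure X) : Measure X := (Q u μ).fst

instance (μ : Measure X) [IsFiniteMeasure μ] : IsFiniteMeasure (Pb u μ) := by
  unfold Pb; infer_instance

/-- The unnormalised leafwise measures. -/
noncomputable def ell (u : ℝ → X → X) (μ : Measure X) [IsFiniteMeasure μ] : Kernel X ℝ :=
  (Q u μ).condKernel.withDensity (fun _ s => (w s)⁻¹)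

instance (μ : Measure X) [IsFiniteMeasure μ] : IsSFiniteKernel (ell u μ) := by
  unfold ell
  refine Kernel.IsSFiniteKernel.withDensity _ (fun a b => ?_)
  exact ENNReal.inv_ne_top.2 (w_pos b)

lemma lintegral_ell (μ : Measure X) [IsFiniteMeasure μ] (z : X) {f : ℝ → ℝ≥0∞}
    (hf : Measurable f) :
    ∫⁻ s, f s ∂(ell u μ z) = ∫⁻ s, (w s)⁻¹ * f s ∂((Q u μ).condKernel z) := by
  rw [ell, Kernel.lintegral_withDensity _ ?_ _ hf]
  exact (meas_w.inv.comp measurable_snd)

lemma lint_w_ell (μ : Measure X) [IsFiniteMeasure μ] (z : X) :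
    ∫⁻ s, w s ∂(ell u μ z) = 1 := by
  rw [lintegral_ell μ z meas_w]
  simp_rw [ENNReal.inv_mul_cancel (w_pos _) (w_fin _)]
  simp

lemma ell_ne (μ : Measure X) [IsFiniteMeasure μ] (z : X) : ell u μ z ≠ 0 := by
  intro h
  have := lint_w_ell (u := u) μ z
  rw [h] at this
  simp at this

/-- The unnormalised disintegration of `μ × ds`. -/
theorem disint (hu : IsFlow u) (μ : Measure X) [IsProbabilityMeasure μ]
    {F : X × ℝ → ℝ≥0∞} (hF : Measurable F) :
    ∫⁻ z, ∫⁻ s, F (u s z, s) ∂(ell u μ z) ∂(Pb u μ) = ∫⁻ x, ∫⁻ s, F (x, s) ∂volume ∂μ := by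
  have hF' : Measurable fun p : X × ℝ => F (u p.2 p.1, p.2) := hF.comp hu.meas_F
  have h1 : ∀ z, ∫⁻ s, F (u s z, s) ∂(ell u μ z) =
      ∫⁻ s, (w s)⁻¹ * F (u s z, s) ∂((Q u μ).condKernel z) := fun z =>
    lintegral_ell μ z (hF'.comp (measurable_const.prodMk measurable_id))
  simp_rw [h1]
  have hG : Measurable fun p : X × ℝ => (w p.2)⁻¹ * F (u p.2 p.1, p.2) :=
    (meas_w.comp measurable_snd).inv.mul hF'
  have h2 : ∫⁻ z, ∫⁻ s, (w s)⁻¹ * F (u s z, s) ∂((Q u μ).condKernel z) ∂(Pb u μ) =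
      ∫⁻ p, (w p.2)⁻¹ * F (u p.2 p.1, p.2) ∂((Q u μ).fst ⊗ₘ (Q u μ).condKernel) := by
    rw [Measure.lintegral_compProd hG]
    rfl
  rw [h2, Measure.disintegrate, Q, lintegral_map hG hu.meas_E]
  have h3 : ∀ p : X × ℝ, (w (u (-p.2) p.1, p.2).2)⁻¹ *
      F (u (u (-p.2) p.1, p.2).2 (u (-p.2) p.1, p.2).1, (u (-p.2) p.1, p.2).2) =
      (w p.2)⁻¹ * F (p.1, p.2) := by
    intro p
    simp only [hu.self_neg]
  simp_rw [h3]
  have hm : Measurable fun p : X × ℝ => (w p.2)⁻¹ * F (p.1, p.2) :=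
    (meas_w.comp measurable_snd).inv.mul (hF.comp (measurable_fst.prodMk measurable_snd))
  rw [lintegral_prod _ hm.aemeasurable]
  refine lintegral_congr fun x => ?_
  rw [lintegral_rho]
  · refine lintegral_congr fun s => ?_
    rw [← mul_assoc, ENNReal.mul_inv_cancel (w_pos s) (w_fin s), one_mul]
  · exact meas_w.inv.mul (hF.comp (measurable_const.prodMk measurable_id))

end Basic

section Uniq

/-- Finite measures on the line are determined by the rational half lines. -/
lemma ext_rat {ν ν' : Measure ℝ} [IsFiniteMeasure ν] (h : ∀ q : ℚ, ν (Iic (q : ℝ)) = ν' (Iic (q : ℝ)))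
    (hu : ν univ = ν' univ) : ν = ν' := by
  refine ext_of_generate_finite _ (BorelSpace.measurable_eq.trans
    Real.borel_eq_generateFrom_Iic_rat) Real.isPiSystem_Iic_rat ?_ hu
  intro s hs
  simp only [mem_iUnion, mem_singleton_iff] at hs
  obtain ⟨q, rfl⟩ := hs
  exact h q

variable {X : Type*} [MeasurableSpace X]

/-- Uniqueness of the leafwise family up to scalars. -/
theorem uniq (P P' : Measure X) [SFinite P] [SFinite P'] (l l' : Kernel X ℝ)
    [IsSFiniteKernel l] [IsSFiniteKernel l'] (v : ℝ → ℝ≥0∞) (hv : Measurable v)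
    (hv0 : ∀ s, v s ≠ 0) (hvf : ∀ s, v s ≠ ∞)
    (h : ∀ F : X × ℝ → ℝ≥0∞, Measurable F →
      ∫⁻ z, ∫⁻ s, F (z, s) ∂(l z) ∂P = ∫⁻ z, ∫⁻ s, F (z, s) ∂(l' z) ∂P')
    (hfin : ∫⁻ z, ∫⁻ s, v s ∂(l z) ∂P ≠ ∞) (hne : ∀ᵐ z ∂P, l z ≠ 0) :
    ∀ᵐ z ∂P, ∃ c : ℝ≥0∞, c ≠ 0 ∧ c ≠ ∞ ∧ l' z = c • l z := by
  set a : X → ℝ≥0∞ := fun z => ∫⁻ s, v s ∂(l z) with ha
  set a' : X → ℝ≥0∞ := fun z => ∫⁻ s, v s ∂(l' z) with ha'
  have hma : Measurable a := hv.lintegral_kernel
  have hma' : Measurable a' := hv.lintegral_kernel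
  have hgf : ∀ (g : X → ℝ≥0∞) (f : ℝ → ℝ≥0∞), Measurable g → Measurable f →
      ∫⁻ z, g z * ∫⁻ s, f s ∂(l z) ∂P = ∫⁻ z, g z * ∫⁻ s, f s ∂(l' z) ∂P' := by
    intro g f hg hf
    have h1 := h (fun p => g p.1 * f p.2) ((hg.comp measurable_fst).mul (hf.comp measurable_snd))
    simp only at h1
    simp_rw [lintegral_const_mul _ hf] at h1
    exact h1
  have hfin' : ∫⁻ z, a' z ∂P' ≠ ∞ := by
    have h1 := hgf (fun _ => 1) v measurable_const hv
    simp only [one_mul] at h1
    rw [← h1]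
    exact hfin
  have haf : ∀ᵐ z ∂P, a z < ∞ := ae_lt_top hma hfin
  have haf' : ∀ᵐ z ∂P', a' z < ∞ := ae_lt_top hma' hfin'
  have ha0 : ∀ᵐ z ∂P, a z ≠ 0 := by
    filter_upwards [hne] with z hz h0
    apply hz
    rw [ha, lintegral_eq_zero_iff hv] at h0
    have h2 : ∀ᵐ s ∂(l z), False := by
      filter_upwards [h0] with s hs
      exact hv0 s hs
    rw [ae_iff] at h2
    simpa only [not_false_eq_true, ofPred_true, Measure.measure_univ_eq_zero] using h2
  have hP0 : P.withDensity a = P'.withDensity a' := by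
    ext S hS
    rw [withDensity_apply _ hS, withDensity_apply _ hS]
    have h1 := hgf (S.indicator 1) v (measurable_one.indicator hS) hv
    rw [← lintegral_indicator hS, ← lintegral_indicator hS]
    have e1 : ∀ z, S.indicator a z = S.indicator 1 z * ∫⁻ s, v s ∂(l z) := by
      intro z
      by_cases hz : z ∈ S <;> simp [hz, ha]
    have e2 : ∀ z, S.indicator a' z = S.indicator 1 z * ∫⁻ s, v s ∂(l' z) := by
      intro z
      by_cases hz : z ∈ S <;> simp [hz, ha']
    simp_rw [e1, e2]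
    exact h1
  set P0 := P.withDensity a with hP0def
  have hP0fin : IsFiniteMeasure P0 := isFiniteMeasure_withDensity hfin
  have hac : P ≪ P0 := withDensity_absolutelyContinuous' hma.aemeasurable ha0
  have ha0' : ∀ᵐ z ∂P0, a' z ≠ 0 := by
    rw [hP0, ae_withDensity_iff hma']
    exact Eventually.of_forall fun _ h => h
  have haf0' : ∀ᵐ z ∂P0, a' z < ∞ := by
    rw [hP0, ae_withDensity_iff hma']
    filter_upwards [haf'] with z hz _ using hz
  have key : ∀ A : Set ℝ, MeasurableSet A →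
      (fun z => (∫⁻ s in A, v s ∂(l z)) / a z) =ᵐ[P0] fun z => (∫⁻ s in A, v s ∂(l' z)) / a' z := by
    intro A hA
    have hmb : Measurable fun z => ∫⁻ s in A, v s ∂(l z) := by
      simp_rw [← lintegral_indicator hA]
      exact (hv.indicator hA).lintegral_kernel
    have hmb' : Measurable fun z => ∫⁻ s in A, v s ∂(l' z) := by
      simp_rw [← lintegral_indicator hA]
      exact (hv.indicator hA).lintegral_kernel
    refine ae_eq_of_forall_setLIntegral_eq_of_sigmaFinite (hmb.div hma) (hmb'.div hma') ?_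
    intro S hS _
    have e1 : ∫⁻ z in S, (∫⁻ s in A, v s ∂(l z)) / a z ∂P0 =
        ∫⁻ z, S.indicator 1 z * ∫⁻ s, A.indicator v s ∂(l z) ∂P := by
      rw [hP0def, setLIntegral_withDensity_eq_setLIntegral_mul P hma
        (g := fun z => (∫⁻ s in A, v s ∂(l z)) / a z) (hmb.div hma) hS, ← lintegral_indicator hS]
      refine lintegral_congr_ae ?_
      filter_upwards [ha0, haf] with z hz1 hz2
      by_cases hz : z ∈ S
      · simp only [hz, indicator_of_mem, Pi.mul_apply, Pi.one_apply, one_mul]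
        rw [lintegral_indicator hA, ENNReal.mul_div_cancel hz1 hz2.ne]
      · simp [hz]
    have e2 : ∫⁻ z in S, (∫⁻ s in A, v s ∂(l' z)) / a' z ∂P0 =
        ∫⁻ z, S.indicator 1 z * ∫⁻ s, A.indicator v s ∂(l' z) ∂P' := by
      rw [hP0, setLIntegral_withDensity_eq_setLIntegral_mul P' hma'
        (g := fun z => (∫⁻ s in A, v s ∂(l' z)) / a' z) (hmb'.div hma') hS,
        ← lintegral_indicator hS]
      refine lintegral_congr_ae ?_
      filter_upwards [haf'] with z hz2
      by_cases hz : z ∈ S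
      · simp only [hz, indicator_of_mem, Pi.mul_apply, Pi.one_apply, one_mul]
        rw [lintegral_indicator hA]
        rcases eq_or_ne (a' z) 0 with h0 | h0
        · have : ∫⁻ s in A, v s ∂(l' z) ≤ a' z := setLIntegral_le_lintegral _ _
          rw [h0] at this ⊢
          rw [le_zero_iff.1 this]
          simp
        · rw [ENNReal.mul_div_cancel h0 hz2.ne]
      · simp [hz]
    rw [e1, e2]
    exact hgf _ _ (measurable_one.indicator hS) (hv.indicator hA)
  have hall : ∀ᵐ z ∂P0, ∀ q : ℚ, (∫⁻ s in Iic (q : ℝ), v s ∂(l z)) / a z =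
      (∫⁻ s in Iic (q : ℝ), v s ∂(l' z)) / a' z :=
    ae_all_iff.2 fun q => key _ measurableSet_Iic
  have hall2 : ∀ᵐ z ∂P, _ := hac hall
  filter_upwards [hall2, hac ha0', hac haf0', ha0, haf] with z hz h0' hf' h0 hf
  have hfm : IsFiniteMeasure ((l z).withDensity v) := isFiniteMeasure_withDensity hf.ne
  have hfm' : IsFiniteMeasure ((l' z).withDensity v) := isFiniteMeasure_withDensity hf'.ne
  have h1 : (a z)⁻¹ • ((l z).withDensity v) = (a' z)⁻¹ • ((l' z).withDensity v) := by
    have hf1 : IsFiniteMeasure ((a z)⁻¹ • ((l z).withDensity v)) :=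
      Measure.smul_finite _ (ENNReal.inv_ne_top.2 h0)
    refine ext_rat (fun q => ?_) ?_
    · have := hz q
      simp only [Measure.smul_apply, smul_eq_mul]
      rw [withDensity_apply _ measurableSet_Iic, withDensity_apply _ measurableSet_Iic, mul_comm,
        mul_comm (a' z)⁻¹, ← div_eq_mul_inv, ← div_eq_mul_inv]
      exact this
    · simp only [Measure.smul_apply, smul_eq_mul]
      rw [withDensity_apply _ MeasurableSet.univ, withDensity_apply _ MeasurableSet.univ,
        Measure.restrict_univ, Measure.restrict_univ]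
      change (a z)⁻¹ * a z = (a' z)⁻¹ * a' z
      rw [ENNReal.inv_mul_cancel h0 hf.ne, ENNReal.inv_mul_cancel h0' hf'.ne]
  have h2 : ∀ ν : Measure ℝ, (ν.withDensity v).withDensity (fun s => (v s)⁻¹) = ν := by
    intro ν
    have hvi : Measurable fun s => (v s)⁻¹ := hv.inv
    rw [← withDensity_mul _ hv hvi]
    have : (v * fun s => (v s)⁻¹) = fun _ => 1 := by
      funext s
      exact ENNReal.mul_inv_cancel (hv0 s) (hvf s)
    rw [this, withDensity_const, one_smul]
  refine ⟨a' z * (a z)⁻¹, mul_ne_zero h0' (ENNReal.inv_ne_zero.2 hf.ne),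
    ENNReal.mul_ne_top hf'.ne (ENNReal.inv_ne_top.2 h0), ?_⟩
  calc l' z = (a' z * (a' z)⁻¹) • l' z := by
        rw [ENNReal.mul_inv_cancel h0' hf'.ne, one_smul]
    _ = a' z • (((a' z)⁻¹ • ((l' z).withDensity v)).withDensity (fun s => (v s)⁻¹)) := by
        rw [withDensity_smul_measure, h2, smul_smul]
    _ = (a' z * (a z)⁻¹) • l z := by
        rw [← h1, withDensity_smul_measure, h2, smul_smul]

end Uniq

section Shift

variable {X : Type*} [MeasurableSpace X] {u : ℝ → X → X}

lemma lintegral_map_sub (ν : Measure ℝ) {f : ℝ → ℝ≥0∞} (hf : Measurable f) (s : ℝ) :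
    ∫⁻ t, f t ∂(ν.map fun t => t - s) = ∫⁻ t, f (t - s) ∂ν :=
  lintegral_map hf (measurable_id.sub_const s)

theorem shift_ae (hu : IsFlow u) (μ : Measure X) [IsProbabilityMeasure μ] (σ : ℝ) :
    ∀ᵐ z ∂(Pb u μ), ∃ c : ℝ≥0∞, c ≠ 0 ∧ c ≠ ∞ ∧
      (ell u μ (u (-σ) z)).map (fun s => s - σ) = c • ell u μ z := by
  set l' : Kernel X ℝ := ((ell u μ).comap (u (-σ)) (hu.meas_fix _)).map (fun s => s - σ) with hl'
  have hms : Measurable fun s : ℝ => s - σ := measurable_id.sub_const σ
  have hl'z : ∀ z, l' z = (ell u μ (u (-σ) z)).map (fun s => s - σ) := by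
    intro z
    rw [hl', Kernel.map_apply _ hms, Kernel.comap_apply]
  have h := uniq (Pb u μ) ((Pb u μ).map (u σ)) (ell u μ) l' w meas_w w_pos w_fin ?_ ?_ ?_
  · filter_upwards [h] with z hz
    obtain ⟨c, h1, h2, h3⟩ := hz
    exact ⟨c, h1, h2, by rw [← h3, hl'z]⟩
  · intro F hF
    have e1 : ∀ G : X × ℝ → ℝ≥0∞, Measurable G →
        ∫⁻ z, ∫⁻ s, G (z, s) ∂(ell u μ z) ∂(Pb u μ) =
          ∫⁻ x, ∫⁻ s, G (u (-s) x, s) ∂volume ∂μ := by
      intro G hG
      have h1 := disint hu μ (F := fun p => G (u (-p.2) p.1, p.2)) (hG.comp hu.meas_E)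
      simp only [hu.neg_self] at h1
      exact h1
    have e2 : ∫⁻ z, ∫⁻ s, F (z, s) ∂(l' z) ∂((Pb u μ).map (u σ)) =
        ∫⁻ z, ∫⁻ s, F (u σ z, s - σ) ∂(ell u μ z) ∂(Pb u μ) := by
      rw [lintegral_map (hF.lintegral_kernel_prod_right') (hu.meas_fix σ)]
      refine lintegral_congr fun z => ?_
      rw [hl'z, hu.neg_self, lintegral_map_sub]
      exact hF.comp (measurable_const.prodMk measurable_id)
    rw [e1 F hF, e2, e1 (fun p => F (u σ p.1, p.2 - σ))
      (hF.comp (((hu.meas_fix σ).comp measurable_fst).prodMk (measurable_snd.sub_const σ)))]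
    refine lintegral_congr fun x => ?_
    have e3 : ∀ s, F (u σ (u (-s) x), s - σ) = (fun s => F (u (-s) x, s)) (s - σ) := by
      intro s
      simp only [neg_sub]
      rw [← hu.add, sub_eq_add_neg σ s]
    simp_rw [e3]
    rw [lintegral_sub_right_eq_self (fun s => F (u (-s) x, s)) σ]
  · simp_rw [lint_w_ell]
    simp only [lintegral_const, one_mul, ne_eq, measure_ne_top, not_false_eq_true]
  · exact Eventually.of_forall fun z => ell_ne μ z

/-- The leafwise measure read off the point `u (-s) x`, in the coordinate centred at `x`. -/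
noncomputable def tau (hu : IsFlow u) (μ : Measure X) [IsFiniteMeasure μ] : Kernel (X × ℝ) ℝ :=
  (Kernel.id ×ₖ (ell u μ).comap (fun p : X × ℝ => u (-p.2) p.1)
    (measurable_fst.comp hu.meas_E)).map (fun q => q.2 - q.1.2)

instance (hu : IsFlow u) (μ : Measure X) [IsFiniteMeasure μ] : IsSFiniteKernel (tau hu μ) := by
  unfold tau; infer_instance

lemma lintegral_tau (hu : IsFlow u) (μ : Measure X) [IsFiniteMeasure μ] (p : X × ℝ)
    {f : ℝ → ℝ≥0∞} (hf : Measurable f) :
    ∫⁻ t, f t ∂(tau hu μ p) = ∫⁻ t, f (t - p.2) ∂(ell u μ (u (-p.2) p.1)) := by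
  have hm : Measurable fun q : (X × ℝ) × ℝ => q.2 - q.1.2 := by fun_prop
  have hfm : Measurable fun q : (X × ℝ) × ℝ => f (q.2 - q.1.2) := hf.comp hm
  rw [tau, Kernel.lintegral_map _ hm _ hf, Kernel.lintegral_id_prod hfm, Kernel.lintegral_comap]

lemma tau_apply (hu : IsFlow u) (μ : Measure X) [IsFiniteMeasure μ] (p : X × ℝ) :
    tau hu μ p = (ell u μ (u (-p.2) p.1)).map (fun t => t - p.2) := by
  refine Measure.ext_of_lintegral _ fun f hf => ?_
  rw [lintegral_tau hu μ p hf, lintegral_map_sub _ hf]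

lemma tau_shift (hu : IsFlow u) (μ : Measure X) [IsFiniteMeasure μ] (x : X) (r s : ℝ) :
    tau hu μ (u r x, s + r) = (tau hu μ (x, s)).map (fun t => t - r) := by
  have h0 : ∀ a : ℝ, Measurable fun t : ℝ => t - a := fun a => measurable_id.sub_const a
  rw [tau_apply, tau_apply, Measure.map_map (h0 r) (h0 (x, s).2)]
  simp only
  have h1 : u (-(s + r)) (u r x) = u (-s) x := by
    rw [← hu.add]
    congr 1
    ring
  rw [h1]
  congr 1
  funext t
  simp only [Function.comp]
  ring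

/-- total weight of `tau` -/
noncomputable def Z (hu : IsFlow u) (μ : Measure X) [IsFiniteMeasure μ] (p : X × ℝ) : ℝ≥0∞ :=
  ∫⁻ t, w t ∂(tau hu μ p)

lemma meas_Z (hu : IsFlow u) (μ : Measure X) [IsFiniteMeasure μ] : Measurable (Z hu μ) :=
  meas_w.lintegral_kernel

lemma Z_ne_top (hu : IsFlow u) (μ : Measure X) [IsFiniteMeasure μ] (p : X × ℝ) :
    Z hu μ p ≠ ∞ := by
  rw [Z, lintegral_tau hu μ p meas_w]
  have h1 : ∫⁻ t, w (t - p.2) ∂(ell u μ (u (-p.2) p.1)) ≤
      ∫⁻ t, ENNReal.ofReal (Real.exp |(-p.2)|) * w t ∂(ell u μ (u (-p.2) p.1)) :=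
    lintegral_mono fun t => by
      have := w_add_le t (-p.2)
      rwa [← sub_eq_add_neg] at this
  rw [lintegral_const_mul _ meas_w, lint_w_ell, mul_one] at h1
  exact ne_top_of_le_ne_top ENNReal.ofReal_ne_top h1

lemma Z_ne_zero (hu : IsFlow u) (μ : Measure X) [IsFiniteMeasure μ] (p : X × ℝ) :
    Z hu μ p ≠ 0 := by
  intro h0
  rw [Z, lintegral_tau hu μ p meas_w] at h0
  have h1 : ∫⁻ t, w t ∂(ell u μ (u (-p.2) p.1)) ≤
      ∫⁻ t, ENNReal.ofReal (Real.exp |p.2|) * w (t - p.2) ∂(ell u μ (u (-p.2) p.1)) :=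
    lintegral_mono fun t => by
      have := w_add_le (t - p.2) p.2
      rwa [sub_add_cancel] at this
  have h2 : Measurable fun t => w (t - p.2) := meas_w.comp (measurable_id.sub_const _)
  rw [lintegral_const_mul _ h2, h0, mul_zero, lint_w_ell] at h1
  simp at h1

/-- The weighted normalised version of `tau`, a finite measure. -/
noncomputable def eta (hu : IsFlow u) (μ : Measure X) [IsFiniteMeasure μ] : Kernel (X × ℝ) ℝ :=
  (tau hu μ).withDensity (fun p t => w t * (Z hu μ p)⁻¹)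

lemma lintegral_eta (hu : IsFlow u) (μ : Measure X) [IsFiniteMeasure μ] (p : X × ℝ)
    {f : ℝ → ℝ≥0∞} (hf : Measurable f) :
    ∫⁻ t, f t ∂(eta hu μ p) = (Z hu μ p)⁻¹ * ∫⁻ t, w t * f t ∂(tau hu μ p) := by
  have h2 : Measurable fun t => w t * f t := meas_w.mul hf
  rw [eta, Kernel.lintegral_withDensity _ ?_ _ hf, ← lintegral_const_mul _ h2]
  · refine lintegral_congr fun t => ?_
    ring
  · exact (meas_w.comp measurable_snd).mul ((meas_Z hu μ).inv.comp measurable_fst)

instance (hu : IsFlow u) (μ : Measure X) [IsFiniteMeasure μ] : IsMarkovKernel (eta hu μ) := by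
  refine ⟨fun p => ⟨?_⟩⟩
  have := lintegral_eta hu μ p (f := fun _ => 1) measurable_const
  simp only [lintegral_const, one_mul, mul_one] at this
  rw [this]
  exact ENNReal.inv_mul_cancel (Z_ne_zero hu μ p) (Z_ne_top hu μ p)

lemma eta_congr (hu : IsFlow u) (μ : Measure X) [IsFiniteMeasure μ] {p q : X × ℝ} {c : ℝ≥0∞}
    (hc : c ≠ 0) (hc' : c ≠ ∞) (h : tau hu μ p = c • tau hu μ q) : eta hu μ p = eta hu μ q := by
  refine Measure.ext_of_lintegral _ fun f hf => ?_
  rw [lintegral_eta hu μ p hf, lintegral_eta hu μ q hf]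
  have hZ : Z hu μ p = c * Z hu μ q := by
    rw [Z, h, lintegral_smul_measure]
    rfl
  rw [hZ, h, lintegral_smul_measure, ENNReal.mul_inv (Or.inl hc) (Or.inl hc'), smul_eq_mul]
  calc c⁻¹ * (Z hu μ q)⁻¹ * (c * ∫⁻ t, w t * f t ∂(tau hu μ q))
      = (c⁻¹ * c) * ((Z hu μ q)⁻¹ * ∫⁻ t, w t * f t ∂(tau hu μ q)) := by ring
    _ = _ := by rw [ENNReal.inv_mul_cancel hc hc', one_mul]

/-- The average over `s` of the normalised measures: a version of the leafwise measure. -/
noncomputable def piK (hu : IsFlow u) (μ : Measure X) [IsFiniteMeasure μ] : Kernel X ℝ :=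
  eta hu μ ∘ₖ (Kernel.id ×ₖ Kernel.const X rho)

lemma piK_apply (hu : IsFlow u) (μ : Measure X) [IsFiniteMeasure μ] (x : X) {A : Set ℝ}
    (hA : MeasurableSet A) : piK hu μ x A = ∫⁻ s, eta hu μ (x, s) A ∂rho := by
  rw [piK, Kernel.comp_apply' _ _ _ hA, Kernel.lintegral_id_prod (Kernel.measurable_coe _ hA),
    Kernel.const_apply]

instance (hu : IsFlow u) (μ : Measure X) [IsFiniteMeasure μ] : IsMarkovKernel (piK hu μ) := by
  refine ⟨fun p => ⟨?_⟩⟩
  rw [piK_apply hu μ p MeasurableSet.univ]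
  simp

theorem ae_transfer (hu : IsFlow u) (μ : Measure X) [IsProbabilityMeasure μ] {R : X → Prop}
    (h : ∀ᵐ z ∂(Pb u μ), R z) : ∀ᵐ x ∂μ, ∀ᵐ s : ℝ, R (u (-s) x) := by
  set N := toMeasurable (Pb u μ) {z | ¬ R z} with hN
  have hN0 : Pb u μ N = 0 := by rw [hN, measure_toMeasurable]; exact h
  have hNm : MeasurableSet N := measurableSet_toMeasurable _ _
  have h1 := disint hu μ (F := fun p => N.indicator 1 (u (-p.2) p.1))
    ((measurable_one.indicator hNm).comp (measurable_fst.comp hu.meas_E))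
  simp only [hu.neg_self] at h1
  have h2 : ∫⁻ z, ∫⁻ _s, N.indicator 1 z ∂(ell u μ z) ∂(Pb u μ) = 0 := by
    have : ∀ᵐ z ∂(Pb u μ), ∫⁻ _s, N.indicator (1 : X → ℝ≥0∞) z ∂(ell u μ z) = 0 := by
      filter_upwards [measure_eq_zero_iff_ae_notMem.1 hN0] with z hz
      simp only [hz, not_false_eq_true, indicator_of_notMem, lintegral_const, zero_mul]
    rw [lintegral_congr_ae this]
    simp only [lintegral_const, zero_mul]
  rw [h2] at h1
  have hm : Measurable fun p : X × ℝ => N.indicator (1 : X → ℝ≥0∞) (u (-p.2) p.1) :=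
    (measurable_one.indicator hNm).comp (measurable_fst.comp hu.meas_E)
  have h3 := (lintegral_eq_zero_iff hm.lintegral_prod_right').1 h1.symm
  filter_upwards [h3] with x hx
  have h4 := (lintegral_eq_zero_iff (hm.comp (measurable_const.prodMk measurable_id))).1 hx
  filter_upwards [h4] with s hs
  by_contra hcon
  have : u (-s) x ∈ N := subset_toMeasurable _ _ hcon
  simp [this] at hs

lemma eta_shift_ae (hu : IsFlow u) (μ : Measure X) [IsProbabilityMeasure μ] (σ : ℝ) :
    ∀ᵐ x ∂μ, ∀ᵐ s : ℝ, eta hu μ (x, s + σ) = eta hu μ (x, s) := by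
  have h := ae_transfer hu μ (shift_ae hu μ σ)
  filter_upwards [h] with x hx
  filter_upwards [hx] with s hs
  obtain ⟨c, hc0, hc1, hc⟩ := hs
  refine eta_congr hu μ hc0 hc1 ?_
  have h0 : ∀ a : ℝ, Measurable fun t : ℝ => t - a := fun a => measurable_id.sub_const a
  have h1 : u (-σ) (u (-s) x) = u (-(s + σ)) x := by
    rw [← hu.add]
    congr 1
    ring
  rw [h1] at hc
  rw [tau_apply, tau_apply]
  simp only
  have h2 : (fun t : ℝ => t - (s + σ)) = (fun t => t - s) ∘ fun t => t - σ := by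
    funext t
    simp only [Function.comp]
    ring
  rw [h2, ← Measure.map_map (h0 s) (h0 σ), hc, Measure.map_smul]

theorem eta_ae (hu : IsFlow u) (μ : Measure X) [IsProbabilityMeasure μ] :
    ∀ᵐ x ∂μ, ∀ᵐ s : ℝ, eta hu μ (x, s) = piK hu μ x := by
  set D : Set ((X × ℝ) × ℝ) := {q | ∀ r : ℚ, eta hu μ (q.1.1, q.1.2 + q.2) (Iic (r : ℝ)) =
    eta hu μ q.1 (Iic (r : ℝ))} with hD
  have hDm : MeasurableSet D := by
    rw [hD, ofPred_forall]
    refine MeasurableSet.iInter fun r => ?_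
    refine measurableSet_eq_fun ?_ ?_
    · exact (Kernel.measurable_coe (eta hu μ) measurableSet_Iic).comp (by fun_prop)
    · exact (Kernel.measurable_coe (eta hu μ) measurableSet_Iic).comp (by fun_prop)
  have hDe : ∀ q ∈ D, eta hu μ (q.1.1, q.1.2 + q.2) = eta hu μ q.1 := by
    intro q hq
    exact ext_rat hq (by simp)
  have h1 : ∀ σ : ℝ, ∀ᵐ p ∂(μ.prod volume), (p, σ) ∈ D := by
    intro σ
    have hDσ : MeasurableSet {p : X × ℝ | (p, σ) ∈ D} := measurable_prodMk_right hDm
    have := (Measure.ae_prod_mem_iff_ae_ae_mem (μ := μ) (ν := (volume : Measure ℝ)) hDσ).2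
    refine this ?_
    filter_upwards [eta_shift_ae hu μ σ] with x hx
    filter_upwards [hx] with s hs
    intro r
    simp only
    rw [hs]
  have h2 : ∀ᵐ p ∂(μ.prod (volume : Measure ℝ)), ∀ᵐ σ : ℝ, (p, σ) ∈ D :=
    (Measure.ae_ae_comm (p := fun p σ => (p, σ) ∈ D) hDm).2 (Eventually.of_forall h1)
  have h3 : ∀ᵐ x ∂μ, ∀ᵐ s : ℝ, ∀ᵐ σ : ℝ, ((x, s), σ) ∈ D := Measure.ae_ae_of_ae_prod h2
  filter_upwards [h3] with x hx
  obtain ⟨s₀, hs₀⟩ := hx.exists
  have h4 : ∀ᵐ s : ℝ, eta hu μ (x, s) = eta hu μ (x, s₀) := by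
    have h5 : ∀ᵐ σ : ℝ, eta hu μ (x, s₀ + σ) = eta hu μ (x, s₀) := by
      filter_upwards [hs₀] with σ hσ using hDe _ hσ
    have h6 := (measurePreserving_add_left (volume : Measure ℝ) (-s₀)).quasiMeasurePreserving.ae h5
    filter_upwards [h6] with s hs
    simpa using hs
  have h7 : piK hu μ x = eta hu μ (x, s₀) := by
    ext A hA
    rw [piK_apply hu μ x hA]
    have h8 : ∀ᵐ s ∂rho, eta hu μ (x, s) A = eta hu μ (x, s₀) A := by
      have : rho ≪ volume := withDensity_absolutelyContinuous _ _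
      filter_upwards [this h4] with s hs
      rw [hs]
    rw [lintegral_congr_ae h8]
    simp
  filter_upwards [h4] with s hs
  rw [hs, h7]

lemma null_of_null_nhds (ν : Measure ℝ) (ε : ℝ) (hε : 0 < ε) :
    ν {s | ν (Ioo (s - ε) (s + ε)) = 0} = 0 := by
  refine measure_null_of_locally_null _ fun s hs => ⟨Ioo (s - ε) (s + ε), ?_, hs⟩
  exact mem_nhdsWithin_of_mem_nhds (Ioo_mem_nhds (by linarith) (by linarith))

/-- Every point of a typical leaf is in the support. -/
theorem supp_ae (hu : IsFlow u) (μ : Measure X) [IsProbabilityMeasure μ] (ε : ℝ) (hε : 0 < ε) :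
    ∀ᵐ x ∂μ, ∀ᵐ s : ℝ, tau hu μ (x, s) (Ioo (-ε) ε) ≠ 0 := by
  set g : X × ℝ → ℝ≥0∞ := fun p => tau hu μ p (Ioo (-ε) ε) with hg
  have hgm : Measurable g := Kernel.measurable_coe _ measurableSet_Ioo
  set F : X × ℝ → ℝ≥0∞ := (g ⁻¹' {0}).indicator 1 with hF
  have hFm : Measurable F := measurable_one.indicator (hgm (measurableSet_singleton 0))
  have h1 := disint hu μ hFm
  have h2 : ∀ z, ∫⁻ s, F (u s z, s) ∂(ell u μ z) = 0 := by
    intro z
    have e1 : ∀ s, g (u s z, s) = ell u μ z (Ioo (s - ε) (s + ε)) := by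
      intro s
      rw [hg]
      simp only
      have h0 : ∀ a : ℝ, Measurable fun t : ℝ => t - a := fun a => measurable_id.sub_const a
      rw [tau_apply, Measure.map_apply (h0 _) measurableSet_Ioo]
      simp only [hu.neg_self]
      congr 1
      ext t
      simp only [mem_preimage, mem_Ioo]
      constructor <;> rintro ⟨h1, h2⟩ <;> constructor <;> linarith
    have e2 : ∀ᵐ s ∂(ell u μ z), F (u s z, s) = 0 := by
      have := null_of_null_nhds (ell u μ z) ε hε
      filter_upwards [measure_eq_zero_iff_ae_notMem.1 this] with s hs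
      have : (u s z, s) ∉ g ⁻¹' {0} := by
        intro hmem
        apply hs
        have : g (u s z, s) = 0 := hmem
        rw [e1] at this
        exact this
      rw [hF, indicator_of_notMem this]
    rw [lintegral_congr_ae e2, lintegral_zero]
  simp_rw [h2] at h1
  rw [lintegral_zero] at h1
  have h3 := (lintegral_eq_zero_iff hFm.lintegral_prod_right').1 h1.symm
  filter_upwards [h3] with x hx
  have h4 := (lintegral_eq_zero_iff (hFm.comp (measurable_const.prodMk measurable_id))).1 hx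
  filter_upwards [h4] with s hs
  intro hcon
  have : (x, s) ∈ g ⁻¹' {0} := hcon
  simp [hF, this] at hs

/-- normalising constant -/
noncomputable def c1 (hu : IsFlow u) (μ : Measure X) [IsFiniteMeasure μ] (x : X) : ℝ≥0∞ :=
  ∫⁻ t, (Icc (-1) 1).indicator (fun t => (w t)⁻¹) t ∂(piK hu μ x)

lemma meas_c1 (hu : IsFlow u) (μ : Measure X) [IsFiniteMeasure μ] : Measurable (c1 hu μ) :=
  (meas_w.inv.indicator measurableSet_Icc).lintegral_kernel

/-- The good set. -/
def X0 (hu : IsFlow u) (μ : Measure X) [IsFiniteMeasure μ] : Set X :=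
  {x | (∀ᵐ s : ℝ, eta hu μ (x, s) = piK hu μ x) ∧
    ∀ k : ℕ, piK hu μ x (Ioo (-(1 / ((k : ℝ) + 1))) (1 / ((k : ℝ) + 1))) ≠ 0}

lemma meas_X0 (hu : IsFlow u) (μ : Measure X) [IsFiniteMeasure μ] : MeasurableSet (X0 hu μ) := by
  set D : Set (X × ℝ) := {q | ∀ r : ℚ, eta hu μ q (Iic (r : ℝ)) =
    piK hu μ q.1 (Iic (r : ℝ))} with hD
  have hDm : MeasurableSet D := by
    rw [hD, ofPred_forall]
    refine MeasurableSet.iInter fun r => ?_
    refine measurableSet_eq_fun ?_ ?_
    · exact (Kernel.measurable_coe (eta hu μ) measurableSet_Iic)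
    · exact (Kernel.measurable_coe (piK hu μ) measurableSet_Iic).comp (by fun_prop)
  have e : X0 hu μ = (fun x => volume (Prod.mk x ⁻¹' Dᶜ)) ⁻¹' {0} ∩
      ⋂ k : ℕ, (fun x => piK hu μ x (Ioo (-(1 / ((k : ℝ) + 1))) (1 / ((k : ℝ) + 1)))) ⁻¹' {0}ᶜ := by
    ext x
    simp only [X0, mem_ofPred_eq, mem_inter_iff, mem_iInter, mem_preimage, mem_singleton_iff,
      mem_compl_iff]
    refine and_congr_left fun _ => ?_
    rw [ae_iff]
    have : {s : ℝ | ¬ eta hu μ (x, s) = piK hu μ x} = Prod.mk x ⁻¹' Dᶜ := by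
      ext s
      simp only [mem_ofPred_eq, mem_preimage, mem_compl_iff, hD]
      refine not_congr ⟨fun h r => by rw [h], fun h => ext_rat h (by simp)⟩
    rw [this]
  rw [e]
  refine (measurable_measure_prodMk_left hDm.compl (measurableSet_singleton 0)).inter
    (MeasurableSet.iInter fun k => ?_)
  exact (Kernel.measurable_coe (piK hu μ) measurableSet_Ioo) (measurableSet_singleton 0).compl

theorem X0_ae (hu : IsFlow u) (μ : Measure X) [IsProbabilityMeasure μ] :
    ∀ᵐ x ∂μ, x ∈ X0 hu μ := by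
  have h1 : ∀ k : ℕ, ∀ᵐ x ∂μ, ∀ᵐ s : ℝ,
      tau hu μ (x, s) (Ioo (-(1 / ((k : ℝ) + 1))) (1 / ((k : ℝ) + 1))) ≠ 0 := fun k =>
    supp_ae hu μ _ (by positivity)
  filter_upwards [eta_ae hu μ, ae_all_iff.2 h1] with x hx hx'
  refine ⟨hx, fun k hk => ?_⟩
  obtain ⟨s, hs1, hs2⟩ := (hx.and (hx' k)).exists
  apply hs2
  rw [← hs1] at hk
  set A := Ioo (-(1 / ((k : ℝ) + 1))) (1 / ((k : ℝ) + 1)) with hA
  have hAm : MeasurableSet A := measurableSet_Ioo
  have e1 := lintegral_eta hu μ (x, s) (f := A.indicator 1) (measurable_one.indicator hAm)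
  rw [lintegral_indicator_one hAm, hk] at e1
  have e2 := (mul_eq_zero.1 e1.symm).resolve_left (ENNReal.inv_ne_zero.2 (Z_ne_top hu μ _))
  have hm : Measurable fun t => w t * A.indicator (1 : ℝ → ℝ≥0∞) t :=
    meas_w.mul (measurable_one.indicator hAm)
  rw [lintegral_eq_zero_iff hm] at e2
  have e3 : ∀ᵐ t ∂(tau hu μ (x, s)), t ∉ A := by
    filter_upwards [e2] with t ht hmem
    have : w t * A.indicator (1 : ℝ → ℝ≥0∞) t = 0 := ht
    rw [indicator_of_mem hmem, Pi.one_apply, mul_one] at this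
    exact w_pos t this
  exact measure_eq_zero_iff_ae_notMem.2 e3

lemma c1_ne_zero (hu : IsFlow u) (μ : Measure X) [IsFiniteMeasure μ] {x : X}
    (hx : x ∈ X0 hu μ) : c1 hu μ x ≠ 0 := by
  intro h
  have hm : Measurable fun t => (Icc (-1 : ℝ) 1).indicator (fun t => (w t)⁻¹) t :=
    meas_w.inv.indicator measurableSet_Icc
  rw [c1, lintegral_eq_zero_iff hm] at h
  apply hx.2 0
  refine measure_eq_zero_iff_ae_notMem.2 ?_
  filter_upwards [h] with t ht hmem
  have h1 : t ∈ Icc (-1 : ℝ) 1 := by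
    have := hmem
    simp only [Nat.cast_zero, zero_add, ne_eq, one_ne_zero, not_false_eq_true, div_self, mem_Ioo]
      at this
    exact ⟨this.1.le, this.2.le⟩
  rw [indicator_of_mem h1] at ht
  exact ENNReal.inv_ne_zero.2 (w_fin t) ht

lemma w_ge {R t : ℝ} (ht : t ∈ Icc (-R) R) : ENNReal.ofReal (Real.exp (-R) / 2) ≤ w t := by
  unfold w
  apply ENNReal.ofReal_le_ofReal
  have : |t| ≤ R := abs_le.2 ht
  gcongr

lemma winv_le {R t : ℝ} (ht : t ∈ Icc (-R) R) :
    (w t)⁻¹ ≤ (ENNReal.ofReal (Real.exp (-R) / 2))⁻¹ := ENNReal.inv_le_inv.2 (w_ge ht)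

lemma wc_ne_top (R : ℝ) : (ENNReal.ofReal (Real.exp (-R) / 2))⁻¹ ≠ ∞ :=
  ENNReal.inv_ne_top.2 (ENNReal.ofReal_pos.2 (by positivity)).ne'

lemma lint_winv (ν : Measure ℝ) [IsFiniteMeasure ν] (R : ℝ) :
    ∫⁻ t, (Icc (-R) R).indicator (fun t => (w t)⁻¹) t ∂ν ≠ ∞ := by
  have h1 : ∫⁻ t, (Icc (-R) R).indicator (fun t => (w t)⁻¹) t ∂ν ≤
      ∫⁻ _, (ENNReal.ofReal (Real.exp (-R) / 2))⁻¹ ∂ν := by
    refine lintegral_mono fun t => ?_
    by_cases ht : t ∈ Icc (-R) R
    · rw [indicator_of_mem ht]; exact winv_le ht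
    · rw [indicator_of_notMem ht]; exact zero_le
  rw [lintegral_const] at h1
  exact ne_top_of_le_ne_top (ENNReal.mul_ne_top (wc_ne_top R) (measure_ne_top _ _)) h1

lemma c1_ne_top (hu : IsFlow u) (μ : Measure X) [IsFiniteMeasure μ] (x : X) :
    c1 hu μ x ≠ ∞ := lint_winv _ 1

/-- inverse of the normalising constant, `0` off the good set -/
noncomputable def cinv (hu : IsFlow u) (μ : Measure X) [IsFiniteMeasure μ] (x : X) : ℝ≥0∞ :=
  (X0 hu μ).indicator (fun x => (c1 hu μ x)⁻¹) x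

lemma meas_cinv (hu : IsFlow u) (μ : Measure X) [IsFiniteMeasure μ] : Measurable (cinv hu μ) :=
  (meas_c1 hu μ).inv.indicator (meas_X0 hu μ)

lemma cinv_of_mem (hu : IsFlow u) (μ : Measure X) [IsFiniteMeasure μ] {x : X}
    (hx : x ∈ X0 hu μ) : cinv hu μ x = (c1 hu μ x)⁻¹ := indicator_of_mem hx _

lemma cinv_ne_top (hu : IsFlow u) (μ : Measure X) [IsFiniteMeasure μ] (x : X) :
    cinv hu μ x ≠ ∞ := by
  by_cases hx : x ∈ X0 hu μ
  · rw [cinv_of_mem hu μ hx]
    exact ENNReal.inv_ne_top.2 (c1_ne_zero hu μ hx)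
  · rw [cinv, indicator_of_notMem hx]
    exact ENNReal.zero_ne_top

/-- Unpatched leafwise measures. -/
noncomputable def lam0 (hu : IsFlow u) (μ : Measure X) [IsFiniteMeasure μ] : Kernel X ℝ :=
  (piK hu μ).withDensity (fun x t => (w t)⁻¹ * cinv hu μ x)

instance (hu : IsFlow u) (μ : Measure X) [IsFiniteMeasure μ] : IsSFiniteKernel (lam0 hu μ) := by
  unfold lam0
  exact Kernel.IsSFiniteKernel.withDensity _
    (fun a b => ENNReal.mul_ne_top (ENNReal.inv_ne_top.2 (w_pos b)) (cinv_ne_top hu μ a))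

lemma meas_dens (hu : IsFlow u) (μ : Measure X) [IsFiniteMeasure μ] :
    Measurable (Function.uncurry fun (x : X) (t : ℝ) => (w t)⁻¹ * cinv hu μ x) :=
  (meas_w.inv.comp measurable_snd).mul ((meas_cinv hu μ).comp measurable_fst)

/-- relation of the unpatched leafwise measure with `tau`, for functions -/
lemma lintegral_lam0 (hu : IsFlow u) (μ : Measure X) [IsFiniteMeasure μ] {x : X} {s : ℝ}
    (hs : eta hu μ (x, s) = piK hu μ x) {f : ℝ → ℝ≥0∞} (hf : Measurable f) :
    ∫⁻ t, f t ∂(lam0 hu μ x) = (cinv hu μ x * (Z hu μ (x, s))⁻¹) *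
      ∫⁻ t, f t ∂(tau hu μ (x, s)) := by
  have hm2 : Measurable fun t => (w t)⁻¹ * cinv hu μ x * f t :=
    (meas_w.inv.mul measurable_const).mul hf
  rw [lam0, Kernel.lintegral_withDensity _ (meas_dens hu μ) _ hf, ← hs, lintegral_eta hu μ _ hm2]
  have h1 : ∀ t, w t * ((w t)⁻¹ * cinv hu μ x * f t) = cinv hu μ x * f t := by
    intro t
    calc w t * ((w t)⁻¹ * cinv hu μ x * f t) = (w t * (w t)⁻¹) * (cinv hu μ x * f t) := by ring
      _ = _ := by rw [ENNReal.mul_inv_cancel (w_pos t) (w_fin t), one_mul]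
  simp_rw [h1]
  rw [lintegral_const_mul _ hf]
  ring

lemma lam0_eq (hu : IsFlow u) (μ : Measure X) [IsFiniteMeasure μ] {x : X} {s : ℝ}
    (hs : eta hu μ (x, s) = piK hu μ x) :
    lam0 hu μ x = (cinv hu μ x * (Z hu μ (x, s))⁻¹) • tau hu μ (x, s) := by
  refine Measure.ext_of_lintegral _ fun f hf => ?_
  rw [lintegral_lam0 hu μ hs hf, lintegral_smul_measure, smul_eq_mul]

/-- Leafwise measures, patched off the good set by a Dirac mass. -/
noncomputable def lam (hu : IsFlow u) (μ : Measure X) [IsFiniteMeasure μ] : Kernel X ℝ := by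
  classical
  exact Kernel.piecewise (meas_X0 hu μ) (lam0 hu μ) (Kernel.const X (Measure.dirac 0))

lemma lam_of_mem (hu : IsFlow u) (μ : Measure X) [IsFiniteMeasure μ] {x : X}
    (hx : x ∈ X0 hu μ) : lam hu μ x = lam0 hu μ x := by
  classical
  unfold lam
  rw [Kernel.piecewise_apply, if_pos hx]

lemma lam_of_notMem (hu : IsFlow u) (μ : Measure X) [IsFiniteMeasure μ] {x : X}
    (hx : x ∉ X0 hu μ) : lam hu μ x = Measure.dirac 0 := by
  classical
  unfold lam
  rw [Kernel.piecewise_apply, if_neg hx, Kernel.const_apply]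

instance (hu : IsFlow u) (μ : Measure X) [IsFiniteMeasure μ] : IsSFiniteKernel (lam hu μ) := by
  classical
  unfold lam
  infer_instance

/-- On the good set `lam x` is a positive finite multiple of `tau (x, s)` for almost every `s`. -/
lemma lam_eq (hu : IsFlow u) (μ : Measure X) [IsFiniteMeasure μ] {x : X}
    (hx : x ∈ X0 hu μ) : ∀ᵐ s : ℝ, ∃ c : ℝ≥0∞, c ≠ 0 ∧ c ≠ ∞ ∧
      lam hu μ x = c • tau hu μ (x, s) := by
  filter_upwards [hx.1] with s hs
  refine ⟨cinv hu μ x * (Z hu μ (x, s))⁻¹, ?_, ?_, ?_⟩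
  · rw [cinv_of_mem hu μ hx]
    exact mul_ne_zero (ENNReal.inv_ne_zero.2 (c1_ne_top hu μ x))
      (ENNReal.inv_ne_zero.2 (Z_ne_top hu μ _))
  · exact ENNReal.mul_ne_top (cinv_ne_top hu μ x) (ENNReal.inv_ne_top.2 (Z_ne_zero hu μ _))
  · rw [lam_of_mem hu μ hx, lam0_eq hu μ hs]

/-- (P2) -/
theorem lam_shift (hu : IsFlow u) (μ : Measure X) [IsFiniteMeasure μ] {x : X} {r : ℝ}
    (hx : x ∈ X0 hu μ) (hy : u r x ∈ X0 hu μ) :
    ∃ c : ℝ≥0∞, c ≠ 0 ∧ c ≠ ∞ ∧ (lam hu μ x).map (fun t => t - r) = c • lam hu μ (u r x) := by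
  have h1 := lam_eq hu μ hx
  have h2 := (measurePreserving_add_right (volume : Measure ℝ) r).quasiMeasurePreserving.ae
    (lam_eq hu μ hy)
  obtain ⟨s, ⟨c, hc0, hc1, hc⟩, ⟨d, hd0, hd1, hd⟩⟩ := (h1.and h2).exists
  rw [tau_shift hu μ] at hd
  refine ⟨c * d⁻¹, mul_ne_zero hc0 (ENNReal.inv_ne_zero.2 hd1),
    ENNReal.mul_ne_top hc1 (ENNReal.inv_ne_top.2 hd0), ?_⟩
  rw [hc, hd, Measure.map_smul, smul_smul, mul_assoc, ENNReal.inv_mul_cancel hd0 hd1, mul_one]

lemma lintegral_lam_of_mem (hu : IsFlow u) (μ : Measure X) [IsFiniteMeasure μ] {x : X}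
    (hx : x ∈ X0 hu μ) {f : ℝ → ℝ≥0∞} (hf : Measurable f) :
    ∫⁻ t, f t ∂(lam hu μ x) = (c1 hu μ x)⁻¹ * ∫⁻ t, (w t)⁻¹ * f t ∂(piK hu μ x) := by
  have hm : Measurable fun t => (w t)⁻¹ * f t := meas_w.inv.mul hf
  rw [lam_of_mem hu μ hx, lam0, Kernel.lintegral_withDensity _ (meas_dens hu μ) _ hf,
    cinv_of_mem hu μ hx, ← lintegral_const_mul _ hm]
  refine lintegral_congr fun t => ?_
  ring

/-- local finiteness, on the good set -/
lemma lam_lf (hu : IsFlow u) (μ : Measure X) [IsFiniteMeasure μ] (x : X) (r : ℝ) :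
    lam hu μ x (Icc (-r) r) < ∞ := by
  by_cases hx : x ∈ X0 hu μ
  · rw [← lintegral_indicator_one measurableSet_Icc,
      lintegral_lam_of_mem hu μ hx (measurable_one.indicator measurableSet_Icc)]
    refine (ENNReal.mul_ne_top (ENNReal.inv_ne_top.2 (c1_ne_zero hu μ hx)) ?_).lt_top
    have h1 := lint_winv (piK hu μ x) r
    convert h1 using 4 with t
    by_cases ht : t ∈ Icc (-r) r <;> simp [ht]
  · rw [lam_of_notMem hu μ hx]
    exact measure_lt_top _ _

lemma lam_norm (hu : IsFlow u) (μ : Measure X) [IsFiniteMeasure μ] (x : X) :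
    lam hu μ x (Icc (-1) 1) = 1 := by
  by_cases hx : x ∈ X0 hu μ
  · rw [← lintegral_indicator_one measurableSet_Icc,
      lintegral_lam_of_mem hu μ hx (measurable_one.indicator measurableSet_Icc)]
    have h1 : ∫⁻ t, (w t)⁻¹ * (Icc (-1 : ℝ) 1).indicator 1 t ∂(piK hu μ x) = c1 hu μ x := by
      rw [c1]
      refine lintegral_congr fun t => ?_
      by_cases ht : t ∈ Icc (-1 : ℝ) 1 <;> simp [ht]
    rw [h1, ENNReal.inv_mul_cancel (c1_ne_zero hu μ hx) (c1_ne_top hu μ x)]
  · rw [lam_of_notMem hu μ hx, Measure.dirac_apply' _ measurableSet_Icc]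
    simp only [mem_Icc, Left.neg_nonpos_iff, zero_le_one, and_self, indicator_of_mem, Pi.one_apply]

lemma lam_supp (hu : IsFlow u) (μ : Measure X) [IsFiniteMeasure μ] (x : X) (ε : ℝ)
    (hε : 0 < ε) : 0 < lam hu μ x (Icc (-ε) ε) := by
  by_cases hx : x ∈ X0 hu μ
  · obtain ⟨k, hk⟩ := exists_nat_one_div_lt hε
    rw [pos_iff_ne_zero]
    intro h0
    apply hx.2 k
    rw [← lintegral_indicator_one measurableSet_Icc,
      lintegral_lam_of_mem hu μ hx (measurable_one.indicator measurableSet_Icc)] at h0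
    have h1 := (mul_eq_zero.1 h0).resolve_left (ENNReal.inv_ne_zero.2 (c1_ne_top hu μ x))
    have hm : Measurable fun t => (w t)⁻¹ * (Icc (-ε) ε).indicator (1 : ℝ → ℝ≥0∞) t :=
      meas_w.inv.mul (measurable_one.indicator measurableSet_Icc)
    rw [lintegral_eq_zero_iff hm] at h1
    refine measure_eq_zero_iff_ae_notMem.2 ?_
    filter_upwards [h1] with t ht hmem
    have h2 : t ∈ Icc (-ε) ε := ⟨by linarith only [hmem.1, hk, hmem], by linarith [hmem.2]⟩
    have h3 : (w t)⁻¹ * (Icc (-ε) ε).indicator (1 : ℝ → ℝ≥0∞) t = 0 := ht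
    rw [indicator_of_mem h2, Pi.one_apply, mul_one] at h3
    exact ENNReal.inv_ne_zero.2 (w_fin t) h3
  · rw [lam_of_notMem hu μ hx, Measure.dirac_apply' _ measurableSet_Icc]
    have : (0 : ℝ) ∈ Icc (-ε) ε := ⟨by linarith, hε.le⟩
    simp only [this, indicator_of_mem, Pi.one_apply, zero_lt_one]

end Shift

end Vale.Agent.P007.Leaf
end
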