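import Vale.Agent.P007.Stmt
import Vale.Agent.P007.Bdl.B1

section

open MeasureTheory Matrix NumberField Filter Topology
open scoped nonZeroDivisors ENNReal CompactlySupported

namespace Vale.Agent.P007

/-- `SL_n(ℝ)`, with its usual topology. -/
abbrev G (n : ℕ) : Type := Matrix.SpecialLinearGroup (Fin n) ℝ

instance (n : ℕ) : BorelSpace (X n) := ⟨rfl⟩

/-- `D ⊆ ℝ^{n-1}` is Borel and `u ↦ x a(u)` maps it bijectively onto the orbit `x A_n`. -/
def IsSection {n : ℕ} (x : X n) (D : Set (Fin (n - 1) → ℝ)) : Prop :=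
  MeasurableSet D ∧ Set.BijOn (fun u => tr (aexp u) x) D (orb x)

open Classical in
/-- For a compact orbit `O`: the measure `vol(O) ν_O`, i.e. the image on `O = x A_n` of
Lebesgue measure `du_1 ⋯ du_{n-1}` on a Borel set of coordinates `D` which `u ↦ x a(u)` maps
bijectively onto `O`. -/
noncomputable def orbMeas {n : ℕ} (O : Set (X n)) : Measure (X n) :=
  if h : ∃ p : X n × Set (Fin (n - 1) → ℝ), orb p.1 = O ∧ IsSection p.1 p.2 then
    (volume.restrict h.choose.2).map fun u => tr (aexp u) h.choose.1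
  else 0

/-- A triple `(K, 𝒪, σ)`: a totally real field of degree `n`, an order, and an ordering of the
real embeddings. -/
structure Datum (n : ℕ) where
  K : Type
  [fld : Field K]
  [nf : NumberField K]
  [real : IsTotallyReal K]
  deg : Module.finrank ℚ K = n
  O : Subring (𝓞 K)
  full : O.toAddSubgroup.FiniteIndex
  σ : Fin n ≃ (K →+* ℝ)

attribute [instance] Datum.fld Datum.nf Datum.real

namespace Datum

variable {n : ℕ} (D : Datum n)

/-- `|Disc 𝒪| = |Disc K| [𝒪_K : 𝒪]^2`. -/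
noncomputable def disc : ℕ := (discr D.K).natAbs * D.O.toAddSubgroup.index ^ 2

/-- `x` is the point of `X_n` of the lattice `c σ(I) w` for an invertible fractional `𝒪`-ideal `I`,
a sign matrix `w = diag(±1)` and a scalar `c > 0` (necessarily `covol(σ(I))^{-1/n}`). -/
def IsPacketPt (x : X n) : Prop :=
  ∃ (I : (FractionalIdeal D.O⁰ D.K)ˣ) (w : Fin n → ℤˣ) (c : ℝ) (g : G n), 0 < c ∧ x = pt g ∧
    lat g = {v | ∃ a ∈ (I : FractionalIdeal D.O⁰ D.K), v = fun j => c * D.σ j a * ((w j : ℤ) : ℝ)}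

/-- The packet: the set of the distinct orbits `Λ_I w A_n`. -/
def packet : Set (Set (X n)) := {S | ∃ x, D.IsPacketPt x ∧ S = orb x}

/-- The packet measure. -/
noncomputable def packetMeas : Measure (X n) :=
  (∑' S : D.packet, orbMeas S.1 Set.univ)⁻¹ • Measure.sum fun S : D.packet => orbMeas S.1

end Datum

end Vale.Agent.P007
end

section

open MeasureTheory Matrix NumberField Filter Topology
open scoped nonZeroDivisors ENNReal CompactlySupported

namespace Vale.Agent.P007

variable {n : ℕ}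

instance : LocallyCompactSpace (Matrix (Fin n) (Fin n) ℝ) :=
  inferInstanceAs (LocallyCompactSpace (Fin n → Fin n → ℝ))

instance : SecondCountableTopology (Matrix (Fin n) (Fin n) ℝ) :=
  inferInstanceAs (SecondCountableTopology (Fin n → Fin n → ℝ))

instance : LocallyCompactSpace (G n) :=
  Matrix.SpecialLinearGroup.isClosedEmbedding_val.locallyCompactSpace

instance : SecondCountableTopology (G n) :=
  Matrix.SpecialLinearGroup.isClosedEmbedding_val.isEmbedding.secondCountableTopology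

instance : T2Space (G n) :=
  Matrix.SpecialLinearGroup.isClosedEmbedding_val.isEmbedding.t2Space

theorem isClosedEmbedding_castSL :
    IsClosedEmbedding (Matrix.SpecialLinearGroup.map (n := Fin n) (Int.castRingHom ℝ)) :=
  IsClosedEmbedding.specialLinearGroup_map Int.isClosedEmbedding_coe_real

theorem tendsto_Gam : Tendsto (Gam n).subtype cofinite (cocompact (G n)) := by
  have h := (isClosedEmbedding_castSL (n := n)).tendsto_cocompact
  rw [cocompact_eq_cofinite] at h
  intro s hs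
  have h1 := h hs
  rw [Filter.mem_map, mem_cofinite] at h1 ⊢
  have h2 : ((Gam n).subtype ⁻¹' s)ᶜ ⊆
      (Matrix.SpecialLinearGroup.map (n := Fin n) (Int.castRingHom ℝ)).rangeRestrict ''
        ((Matrix.SpecialLinearGroup.map (n := Fin n) (Int.castRingHom ℝ)) ⁻¹' s)ᶜ := by
    rintro ⟨x, y, rfl⟩ hx
    exact ⟨y, hx, rfl⟩
  exact (h1.image _).subset h2

instance : ProperlyDiscontinuousSMul (Gam n) (G n) :=
  Subgroup.properlyDiscontinuousSMul_of_tendsto_cofinite _ tendsto_Gam

theorem isOpenQuotientMap_pt : IsOpenQuotientMap (pt : G n → X n) :=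
  MulAction.isOpenQuotientMap_quotientMk (Γ := Gam n) (T := G n)

instance : T2Space (X n) :=
  t2Space_of_properlyDiscontinuousSMul_of_t2Space (Γ := Gam n) (T := G n)

instance : SecondCountableTopology (X n) :=
  ContinuousConstSMul.secondCountableTopology (Γ := Gam n) (T := G n)

instance : LocallyCompactSpace (X n) := isOpenQuotientMap_pt.locallyCompactSpace

theorem continuous_pt : Continuous (pt : G n → X n) := isOpenQuotientMap_pt.continuous

@[simp] theorem tr_pt (g h : G n) : tr h (pt g) = pt (g * h) := rfl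

theorem pt_surjective : Function.Surjective (pt : G n → X n) := isOpenQuotientMap_pt.surjective

theorem pt_eq_pt {g h : G n} : pt g = pt h ↔ h * g⁻¹ ∈ Gam n :=
  Quotient.eq.trans QuotientGroup.rightRel_apply

theorem tr_one (x : X n) : tr 1 x = x := by
  obtain ⟨g, rfl⟩ := pt_surjective x
  simp

theorem tr_tr (h k : G n) (x : X n) : tr k (tr h x) = tr (h * k) x := by
  obtain ⟨g, rfl⟩ := pt_surjective x
  simp [mul_assoc]

/-- The action map is jointly continuous. -/
theorem continuous_tr_uncurry : Continuous fun p : X n × G n => tr p.2 p.1 := by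
  have h1 : IsOpenQuotientMap (Prod.map (pt : G n → X n) (id : G n → G n)) :=
    isOpenQuotientMap_pt.prodMap IsOpenQuotientMap.id
  refine h1.isQuotientMap.continuous_iff.mpr ?_
  have h2 : (fun p : X n × G n => tr p.2 p.1) ∘ Prod.map (pt : G n → X n) (id : G n → G n) =
      fun p : G n × G n => pt (p.1 * p.2) := by
    funext p
    rfl
  rw [h2]
  exact continuous_pt.comp continuous_mul

theorem continuous_tr (h : G n) : Continuous (tr h : X n → X n) :=
  continuous_tr_uncurry.comp (by fun_prop : Continuous fun x : X n => (x, h))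

theorem continuous_expo (j : Fin n) : Continuous fun u : Fin (n - 1) → ℝ => expo u j := by
  unfold expo
  split_ifs
  · fun_prop
  · fun_prop

@[simp] theorem coe_aexp (u : Fin (n - 1) → ℝ) :
    ((aexp u : G n) : Matrix (Fin n) (Fin n) ℝ) = diagonal fun j => Real.exp (expo u j) := rfl

theorem continuous_aexp : Continuous (aexp : (Fin (n - 1) → ℝ) → G n) := by
  refine (Matrix.SpecialLinearGroup.isClosedEmbedding_val.isEmbedding.isInducing.continuous_iff).mpr ?_
  refine Continuous.matrix_diagonal ?_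
  exact continuous_pi fun j => Real.continuous_exp.comp (continuous_expo j)

theorem expo_add (u v : Fin (n - 1) → ℝ) (j : Fin n) : expo (u + v) j = expo u j + expo v j := by
  unfold expo
  split_ifs
  · rfl
  · simp only [Pi.add_apply, Finset.sum_add_distrib]; ring

theorem expo_zero (j : Fin n) : expo (0 : Fin (n - 1) → ℝ) j = 0 := by
  unfold expo
  split_ifs <;> simp only [Pi.zero_apply, Finset.sum_const_zero, neg_zero]

theorem coe_mul_G (g h : G n) : ((g * h : G n) : Matrix (Fin n) (Fin n) ℝ) =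
    (g : Matrix (Fin n) (Fin n) ℝ) * (h : Matrix (Fin n) (Fin n) ℝ) :=
  Matrix.SpecialLinearGroup.coe_mul g h

theorem aexp_add (u v : Fin (n - 1) → ℝ) : (aexp (u + v) : G n) = aexp u * aexp v := by
  apply Matrix.SpecialLinearGroup.ext
  intro i j
  rw [coe_mul_G, coe_aexp, coe_aexp, coe_aexp, diagonal_mul_diagonal]
  congr 2
  funext j
  rw [expo_add, Real.exp_add]

theorem aexp_zero : (aexp (0 : Fin (n - 1) → ℝ) : G n) = 1 := by
  apply Subtype.ext
  simp only [aexp, expo_zero, Real.exp_zero, diagonal_one, Matrix.SpecialLinearGroup.coe_one]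

theorem continuous_orbMap (x : X n) : Continuous fun u : Fin (n - 1) → ℝ => tr (aexp u) x :=
  continuous_tr_uncurry.comp (by
    exact (continuous_const (y := x)).prodMk continuous_aexp)

theorem mem_orb_self (x : X n) : x ∈ orb x := ⟨0, by simp only [aexp_zero, tr_one]⟩

end Vale.Agent.P007
end

section

open MeasureTheory Matrix NumberField Filter Topology
open scoped nonZeroDivisors ENNReal CompactlySupported

namespace Vale.Agent.P007

variable {n : ℕ}

/-- Integer matrices inside real matrices. -/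
def castM (M : Matrix (Fin n) (Fin n) ℤ) : Matrix (Fin n) (Fin n) ℝ :=
  M.map ((↑) : ℤ → ℝ)

theorem castM_mul (M N : Matrix (Fin n) (Fin n) ℤ) : castM (M * N) = castM M * castM N :=
  Matrix.map_mul (f := Int.castRingHom ℝ)

theorem isClosed_range_castM : IsClosed (Set.range (castM (n := n))) :=
  (IsClosedEmbedding.matrix_map (m := Fin n) (n := Fin n)
    Int.isClosedEmbedding_coe_real).isClosed_range

/-- `g diag(d) = M g` for an integer matrix `M`. -/
def Stab (d : Fin n → ℝ) (g : G n) : Prop :=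
  ∃ M : Matrix (Fin n) (Fin n) ℤ,
    (g : Matrix (Fin n) (Fin n) ℝ) * diagonal d = castM M * (g : Matrix (Fin n) (Fin n) ℝ)

theorem coe_inv_mul (g : G n) :
    ((g⁻¹ : G n) : Matrix (Fin n) (Fin n) ℝ) * (g : Matrix (Fin n) (Fin n) ℝ) = 1 := by
  rw [← coe_mul_G, inv_mul_cancel, Matrix.SpecialLinearGroup.coe_one]

theorem coe_mul_inv (g : G n) :
    (g : Matrix (Fin n) (Fin n) ℝ) * ((g⁻¹ : G n) : Matrix (Fin n) (Fin n) ℝ) = 1 := by
  rw [← coe_mul_G, mul_inv_cancel, Matrix.SpecialLinearGroup.coe_one]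

theorem stab_iff (d : Fin n → ℝ) (g : G n) : Stab d g ↔
    (g : Matrix (Fin n) (Fin n) ℝ) * diagonal d * ((g⁻¹ : G n) : Matrix (Fin n) (Fin n) ℝ) ∈
      Set.range (castM (n := n)) := by
  constructor
  · rintro ⟨M, hM⟩
    refine ⟨M, ?_⟩
    rw [hM, mul_assoc, coe_mul_inv, mul_one]
  · rintro ⟨M, hM⟩
    refine ⟨M, ?_⟩
    rw [hM, mul_assoc, coe_inv_mul, mul_one]

theorem Stab.left {d : Fin n → ℝ} {g : G n} (h : Stab d g) {γ : G n} (hγ : γ ∈ Gam n) :
    Stab d (γ * g) := by
  obtain ⟨M, hM⟩ := h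
  obtain ⟨γ', rfl⟩ := hγ
  refine ⟨(γ' : Matrix (Fin n) (Fin n) ℤ) * M * ((γ'⁻¹ : Matrix.SpecialLinearGroup (Fin n) ℤ) :
    Matrix (Fin n) (Fin n) ℤ), ?_⟩
  have h1 : ((Matrix.SpecialLinearGroup.map (n := Fin n) (Int.castRingHom ℝ)) γ' :
      Matrix (Fin n) (Fin n) ℝ) = castM (γ' : Matrix (Fin n) (Fin n) ℤ) := rfl
  have h2 : castM ((γ'⁻¹ : Matrix.SpecialLinearGroup (Fin n) ℤ) : Matrix (Fin n) (Fin n) ℤ) *
      castM (γ' : Matrix (Fin n) (Fin n) ℤ) = 1 := by
    rw [← castM_mul, ← Matrix.SpecialLinearGroup.coe_mul, inv_mul_cancel,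
      Matrix.SpecialLinearGroup.coe_one]
    exact Matrix.map_one _ (by simp) (by simp)
  rw [coe_mul_G, h1, castM_mul, castM_mul, mul_assoc _ _ (diagonal d), hM]
  calc castM (γ' : Matrix (Fin n) (Fin n) ℤ) * (castM M * (g : Matrix (Fin n) (Fin n) ℝ))
      = castM (γ' : Matrix (Fin n) (Fin n) ℤ) * castM M *
        (castM ((γ'⁻¹ : Matrix.SpecialLinearGroup (Fin n) ℤ) : Matrix (Fin n) (Fin n) ℤ) *
          castM (γ' : Matrix (Fin n) (Fin n) ℤ)) * (g : Matrix (Fin n) (Fin n) ℝ) := by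
        rw [h2, mul_one, mul_assoc]
    _ = _ := by simp only [mul_assoc]

theorem Stab.right {d : Fin n → ℝ} {g : G n} (h : Stab d g) (u : Fin (n - 1) → ℝ) :
    Stab d (g * aexp u) := by
  obtain ⟨M, hM⟩ := h
  refine ⟨M, ?_⟩
  rw [coe_mul_G, coe_aexp, ← mul_assoc, ← hM, mul_assoc, mul_assoc, diagonal_mul_diagonal,
    diagonal_mul_diagonal]
  congr 3
  funext j
  exact mul_comm _ _

/-- The set of points whose lattice is stable under `diag(d)`. -/
def Yd (d : Fin n → ℝ) : Set (X n) := {x | ∃ g : G n, x = pt g ∧ Stab d g}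

theorem pt_mem_Yd {d : Fin n → ℝ} {g : G n} : pt g ∈ Yd d ↔ Stab d g := by
  constructor
  · rintro ⟨h, hgh, hs⟩
    have h1 : h * g⁻¹ ∈ Gam n := pt_eq_pt.mp hgh
    have h2 := hs.left (inv_mem h1)
    simpa using h2
  · intro h
    exact ⟨g, rfl, h⟩

theorem isClosed_Yd (d : Fin n → ℝ) : IsClosed (Yd d : Set (X n)) := by
  have h : (pt : G n → X n) ⁻¹' (Yd d) = {g : G n | (g : Matrix (Fin n) (Fin n) ℝ) * diagonal d *
      ((g⁻¹ : G n) : Matrix (Fin n) (Fin n) ℝ) ∈ Set.range (castM (n := n))} := by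
    ext g
    rw [Set.mem_preimage, pt_mem_Yd, stab_iff]
    rfl
  refine (isOpenQuotientMap_pt.isQuotientMap.isClosed_preimage).mp ?_
  rw [h]
  have hc : Continuous fun g : G n => (g : Matrix (Fin n) (Fin n) ℝ) * diagonal d *
      ((g⁻¹ : G n) : Matrix (Fin n) (Fin n) ℝ) := by
    have h1 : Continuous fun g : G n => (g : Matrix (Fin n) (Fin n) ℝ) :=
      Matrix.SpecialLinearGroup.isClosedEmbedding_val.continuous
    have h2 : Continuous fun g : G n => ((g⁻¹ : G n) : Matrix (Fin n) (Fin n) ℝ) :=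
      h1.comp continuous_inv
    exact (h1.matrix_mul continuous_const).matrix_mul h2
  exact isClosed_range_castM.preimage hc

/-- elementary unipotent -/
def tv {i j : Fin n} (hij : i ≠ j) (t : ℝ) : G n :=
  ⟨transvection i j t, det_transvection_of_ne i j hij t⟩

theorem coe_tv {i j : Fin n} (hij : i ≠ j) (t : ℝ) :
    (tv hij t : Matrix (Fin n) (Fin n) ℝ) = transvection i j t := rfl

theorem tv_mul {i j : Fin n} (hij : i ≠ j) (s t : ℝ) : tv hij s * tv hij t = tv hij (s + t) := by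
  apply Subtype.ext
  exact transvection_mul_transvection_same i j hij s t

theorem tv_zero {i j : Fin n} (hij : i ≠ j) : tv hij 0 = 1 := by
  apply Subtype.ext
  exact transvection_zero i j

theorem coe_tv_inv {i j : Fin n} (hij : i ≠ j) (t : ℝ) :
    (((tv hij t)⁻¹ : G n) : Matrix (Fin n) (Fin n) ℝ) = transvection i j (-t) := by
  have h : (tv hij t)⁻¹ = tv hij (-t) := by
    rw [inv_eq_iff_mul_eq_one, tv_mul, add_neg_cancel, tv_zero]
  rw [h, coe_tv]

theorem continuous_tv {i j : Fin n} (hij : i ≠ j) : Continuous (tv hij : ℝ → G n) := by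
  refine (Matrix.SpecialLinearGroup.isClosedEmbedding_val.isEmbedding.isInducing.continuous_iff).mpr
    ?_
  change Continuous fun t : ℝ => (1 : Matrix (Fin n) (Fin n) ℝ) + single i j t
  refine continuous_const.add ?_
  refine continuous_matrix fun a b => ?_
  simp only [single_apply]
  split_ifs
  · exact continuous_id
  · exact continuous_const

theorem diag_mul_single' (d : Fin n → ℝ) (i j : Fin n) (s : ℝ) :
    diagonal d * single i j s = single i j (d i * s) := by
  ext a b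
  rw [diagonal_mul, single_apply, single_apply]
  split_ifs with h
  · rw [h.1]
  · rw [mul_zero]

theorem single_mul_diag' (d : Fin n → ℝ) (i j : Fin n) (s : ℝ) :
    single i j s * diagonal d = single i j (s * d j) := by
  ext a b
  rw [mul_diagonal, single_apply, single_apply]
  split_ifs with h
  · rw [h.2]
  · rw [zero_mul]

theorem conj_tv {i j : Fin n} (hij : i ≠ j) (d : Fin n → ℝ) (t : ℝ) :
    transvection i j t * diagonal d * transvection i j (-t) =
        diagonal d + single i j (t * (d j - d i)) := by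
  simp only [transvection, add_mul, mul_add, one_mul, mul_one, single_mul_diag',
    diag_mul_single', single_mul_single_of_ne _ _ _ _ hij.symm, add_zero]
  rw [add_assoc, ← single_add]
  congr 2
  ring

instance : Countable (Matrix (Fin n) (Fin n) ℤ) := inferInstanceAs (Countable (Fin n → Fin n → ℤ))

theorem countable_times {d : Fin n → ℝ} {i j : Fin n} (hij : i ≠ j) (hd : d i ≠ d j) (g : G n) :
    {t : ℝ | Stab d (g * tv hij t)}.Countable := by
  set F : ℝ → Matrix (Fin n) (Fin n) ℝ := fun t =>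
    ((g * tv hij t : G n) : Matrix (Fin n) (Fin n) ℝ) * diagonal d *
      (((g * tv hij t)⁻¹ : G n) : Matrix (Fin n) (Fin n) ℝ) with hF
  have hset : {t : ℝ | Stab d (g * tv hij t)} = F ⁻¹' (Set.range (castM (n := n))) := by
    ext t
    exact stab_iff d _
  rw [hset]
  refine (Set.countable_range _).preimage_of_injOn (Function.Injective.injOn ?_)
  have key : ∀ t, F t = (g : Matrix (Fin n) (Fin n) ℝ) * (diagonal d + single i j (t * (d j - d i)))
      * ((g⁻¹ : G n) : Matrix (Fin n) (Fin n) ℝ) := by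
    intro t
    simp only [hF]
    rw [_root_.mul_inv_rev, coe_mul_G, coe_mul_G, coe_tv, coe_tv_inv, ← conj_tv hij]
    simp only [mul_assoc]
  intro s t hst
  rw [key, key] at hst
  have h1 := congrArg (fun A => ((g⁻¹ : G n) : Matrix (Fin n) (Fin n) ℝ) * A *
    (g : Matrix (Fin n) (Fin n) ℝ)) hst
  have h2 : ∀ B : Matrix (Fin n) (Fin n) ℝ, ((g⁻¹ : G n) : Matrix (Fin n) (Fin n) ℝ) *
      ((g : Matrix (Fin n) (Fin n) ℝ) * B * ((g⁻¹ : G n) : Matrix (Fin n) (Fin n) ℝ)) *
      (g : Matrix (Fin n) (Fin n) ℝ) = B := by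
    intro B
    rw [mul_assoc, mul_assoc, mul_assoc, coe_inv_mul, mul_one, ← mul_assoc, coe_inv_mul, one_mul]
  simp only [h2] at h1
  have h3 := congrFun (congrFun h1 i) j
  simp only [Matrix.add_apply, single_apply_same, add_right_inj] at h3
  exact mul_right_cancel₀ (sub_ne_zero.mpr hd.symm) h3

theorem measure_Yd {d : Fin n → ℝ} {i j : Fin n} (hd : d i ≠ d j) {m : Measure (X n)}
    (hm : IsInvProb m) : m (Yd d) = 0 := by
  have hij : i ≠ j := fun h => hd (by rw [h])
  have := hm.1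
  set S : Set (X n × ℝ) := (fun p : X n × ℝ => tr (tv hij p.2) p.1) ⁻¹' (Yd d) with hS
  have hcont : Continuous fun p : X n × ℝ => tr (tv hij p.2) p.1 :=
    continuous_tr_uncurry.comp (continuous_fst.prodMk ((continuous_tv hij).comp continuous_snd))
  have hSm : MeasurableSet S := ((isClosed_Yd d).preimage hcont).measurableSet
  have h1 : (m.prod (volume.restrict (Set.Icc (0 : ℝ) 1))) S = 0 := by
    rw [Measure.prod_apply hSm]
    have : ∀ x : X n, (volume.restrict (Set.Icc (0 : ℝ) 1)) (Prod.mk x ⁻¹' S) = 0 := by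
      intro x
      obtain ⟨g, rfl⟩ := pt_surjective x
      have hc : (Prod.mk (pt g) ⁻¹' S : Set ℝ) = {t : ℝ | Stab d (g * tv hij t)} := by
        ext t
        exact pt_mem_Yd
      rw [hc]
      exact (countable_times hij hd g).measure_zero _
    simp only [this, lintegral_zero]
  rw [Measure.prod_apply_symm hSm] at h1
  have h2 : ∀ t : ℝ, m ((fun x => (x, t)) ⁻¹' S) = m (Yd d) := by
    intro t
    have h3 : ((fun x => (x, t)) ⁻¹' S : Set (X n)) = tr (tv hij t) ⁻¹' (Yd d) := rfl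
    rw [h3, ← Measure.map_apply (continuous_tr _).measurable (isClosed_Yd d).measurableSet,
      hm.2]
  simp only [h2, lintegral_const] at h1
  simpa only [MeasurableSet.univ, Measure.restrict_apply, Set.univ_inter, Real.volume_Icc,
    sub_zero, ENNReal.ofReal_one, mul_one] using h1

end Vale.Agent.P007
end

section

open MeasureTheory Matrix NumberField Filter Topology
open scoped nonZeroDivisors ENNReal CompactlySupported

namespace Vale.Agent.P007

variable {n : ℕ}

/-- The possible non-scalar diagonal symmetries of size at most `B`. -/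
def diagSet (n : ℕ) (B : ℝ) : Set (Fin n → ℝ) :=
  {d | (∀ j, |d j| ≤ B) ∧ (∃ i j, d i ≠ d j) ∧ ∃ g : G n, Stab d g}

theorem finite_diagSet (n : ℕ) (B : ℝ) : (diagSet n B).Finite := by
  classical
  set C : ℝ := max B 1 ^ n * n.choose (n / 2) with hC
  have hU : (Set.Icc (-⌈C⌉) ⌈C⌉ : Set ℤ).Finite := Set.finite_Icc _ _
  have hR := Polynomial.bUnion_roots_finite (Int.castRingHom ℝ) n hU
  refine (Set.Finite.pi' (t := fun _ : Fin n => ⋃ (f : Polynomial ℤ)
    (_ : f.natDegree ≤ n ∧ ∀ i, f.coeff i ∈ Set.Icc (-⌈C⌉) ⌈C⌉),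
    ((f.map (Int.castRingHom ℝ)).roots.toFinset : Set ℝ)) fun _ => hR).subset ?_
  rintro d ⟨hB, -, g, M, hM⟩
  have hchar : (M.charpoly).map (Int.castRingHom ℝ) = ∏ i, (Polynomial.X - Polynomial.C (d i)) := by
    rw [← charpoly_diagonal, ← Matrix.charpoly_map]
    have h1 : castM M = (g : Matrix (Fin n) (Fin n) ℝ) * diagonal d *
        ((g⁻¹ : G n) : Matrix (Fin n) (Fin n) ℝ) := by
      rw [hM, mul_assoc, coe_mul_inv, mul_one]
    change (castM M).charpoly = _
    rw [h1, mul_assoc, Matrix.charpoly_mul_comm, mul_assoc, coe_inv_mul, mul_one]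
  have hmonic : (M.charpoly).Monic := M.charpoly_monic
  have hdeg : (M.charpoly).natDegree = n := by
    rw [M.charpoly_natDegree_eq_dim, Fintype.card_fin]
  have hprod : (∏ i, (Polynomial.X - Polynomial.C (d i))) =
      ((Multiset.map d Finset.univ.val).map fun a => Polynomial.X - Polynomial.C a).prod := by
    rw [Multiset.map_map]
    rfl
  have hroots : ((M.charpoly).map (Int.castRingHom ℝ)).roots = Multiset.map d Finset.univ.val := by
    rw [hchar, hprod, Polynomial.roots_multiset_prod_X_sub_C]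
  intro j
  refine Set.mem_iUnion₂.mpr ⟨M.charpoly, ⟨hdeg.le, fun i => ?_⟩, ?_⟩
  · have h1 := Polynomial.coeff_bdd_of_roots_le (B := B) (d := n) (Int.castRingHom ℝ) hmonic
      (by rw [hchar]; exact Polynomial.Splits.prod fun i _ => Polynomial.Splits.X_sub_C _)
      hdeg.le (by
        intro z hz
        rw [hroots, Multiset.mem_map] at hz
        obtain ⟨k, -, rfl⟩ := hz
        exact hB k) i
    rw [Polynomial.coeff_map, eq_intCast, Real.norm_eq_abs, ← hC] at h1
    have h2 := abs_le.mp h1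
    constructor
    · have : (-(⌈C⌉ : ℤ) : ℝ) ≤ ((M.charpoly.coeff i : ℤ) : ℝ) :=
        (neg_le_neg (Int.le_ceil C)).trans h2.1
      exact_mod_cast this
    · have : ((M.charpoly.coeff i : ℤ) : ℝ) ≤ ((⌈C⌉ : ℤ) : ℝ) := h2.2.trans (Int.le_ceil C)
      exact_mod_cast this
  · have h1 : d j ∈ ((M.charpoly).map (Int.castRingHom ℝ)).roots := by
      rw [hroots]
      exact Multiset.mem_map_of_mem d (Finset.mem_univ_val j)
    exact_mod_cast Multiset.mem_toFinset.mpr h1

/-- The obstruction set. -/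
def YB (n : ℕ) (B : ℝ) : Set (X n) := ⋃ d ∈ diagSet n B, Yd d

theorem isClosed_YB (n : ℕ) (B : ℝ) : IsClosed (YB n B) :=
  (finite_diagSet n B).isClosed_biUnion fun d _ => isClosed_Yd d

theorem measure_YB (B : ℝ) {m : Measure (X n)} (hm : IsInvProb m) : m (YB n B) = 0 := by
  rw [YB, measure_biUnion_null_iff (finite_diagSet n B).countable]
  rintro d ⟨-, ⟨i, j, hij⟩, -⟩
  exact measure_Yd hij hm

/-- Every point of every orbit of the packet lies in `Yd (σ(a))` for `a` in the order. -/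
theorem packetPt_mem (D : Datum n) {x : X n} (hx : D.IsPacketPt x) (a : D.O) :
    x ∈ Yd fun j => D.σ j (a : 𝓞 D.K) := by
  obtain ⟨I, w, c, g, hc, rfl, hlat⟩ := hx
  refine pt_mem_Yd.mpr ?_
  have hrow : ∀ i, ∃ z : Fin n → ℤ, (fun k => (z k : ℝ)) ᵥ* (g : Matrix (Fin n) (Fin n) ℝ) =
      fun j => (g : Matrix (Fin n) (Fin n) ℝ) i j * D.σ j (a : 𝓞 D.K) := by
    intro i
    have h1 : (g : Matrix (Fin n) (Fin n) ℝ) i ∈ lat g := by
      refine ⟨Pi.single i 1, ?_⟩
      have : (fun k => ((Pi.single i (1 : ℤ) : Fin n → ℤ) k : ℝ)) = Pi.single i (1 : ℝ) := by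
        funext k
        by_cases h : k = i
        · subst h; simp
        · simp [h]
      simp only [this]
      exact single_one_vecMul _ _
    rw [hlat] at h1
    obtain ⟨b, hb, hgb⟩ := h1
    have h2 : (fun j => (g : Matrix (Fin n) (Fin n) ℝ) i j * D.σ j (a : 𝓞 D.K)) ∈ lat g := by
      rw [hlat]
      refine ⟨a • b, ?_, ?_⟩
      · exact Submodule.smul_mem ((I : FractionalIdeal D.O⁰ D.K) : Submodule D.O D.K) a hb
      · funext j
        have h3 : (g : Matrix (Fin n) (Fin n) ℝ) i j = c * D.σ j b * ((w j : ℤ) : ℝ) :=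
          congrFun hgb j
        have h4 : (a • b : D.K) = ((a : 𝓞 D.K) : D.K) * b := rfl
        rw [h3, h4, map_mul]
        ring
    exact h2
  choose z hz using hrow
  refine ⟨Matrix.of z, ?_⟩
  ext i j
  rw [mul_diagonal]
  have := congrFun (hz i) j
  rw [← this]
  rfl

theorem orb_subset_Yd (D : Datum n) {x : X n} (hx : D.IsPacketPt x) (a : D.O) :
    orb x ⊆ Yd fun j => D.σ j (a : 𝓞 D.K) := by
  rintro _ ⟨u, rfl⟩
  have h1 := packetPt_mem D hx a
  obtain ⟨g, rfl⟩ := pt_surjective x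
  exact pt_mem_Yd.mpr ((pt_mem_Yd.mp h1).right u)

theorem orbMeas_null {S Y : Set (X n)} (hSY : S ⊆ Y) (hY : MeasurableSet Y) :
    orbMeas S Yᶜ = 0 := by
  unfold orbMeas
  split_ifs with h
  · rw [Measure.map_apply (continuous_orbMap _).measurable hY.compl]
    have : (fun u : Fin (n - 1) → ℝ => tr (aexp u) h.choose.1) ⁻¹' Yᶜ = ∅ := by
      rw [Set.eq_empty_iff_forall_notMem]
      intro u hu
      refine hu (hSY ?_)
      exact h.choose_spec.1.subset ⟨u, rfl⟩
    rw [this, measure_empty]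
  · rfl

theorem packetMeas_null (D : Datum n) {Y : Set (X n)} (hY : MeasurableSet Y)
    (h : ∀ S ∈ D.packet, S ⊆ Y) : D.packetMeas Yᶜ = 0 := by
  unfold Datum.packetMeas
  rw [Measure.smul_apply, Measure.sum_apply _ hY.compl]
  have : ∀ S : D.packet, orbMeas S.1 Yᶜ = 0 := fun S => orbMeas_null (h S.1 S.2) hY
  simp only [this, tsum_zero, smul_eq_mul, mul_zero]

/-- Non-scalarity of an irrational element. -/
theorem exists_ne_of_not_int (D : Datum n) (a : 𝓞 D.K) (ha : ∀ z : ℤ, a ≠ z) :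
    ∃ i j, D.σ i a ≠ D.σ j a := by
  by_contra hcon
  push Not at hcon
  have hreal : ∀ φ : D.K →+* ℂ, ∃ j, φ a = ((D.σ j a : ℝ) : ℂ) := by
    intro φ
    have hφ : ComplexEmbedding.IsReal φ := IsTotallyReal.complexEmbedding_isReal φ
    refine ⟨D.σ.symm hφ.embedding, ?_⟩
    rw [Equiv.apply_symm_apply]
    exact (ComplexEmbedding.IsReal.coe_embedding_apply hφ a).symm
  obtain ⟨φ₀⟩ : Nonempty (D.K →+* ℂ) := inferInstance
  have hall : ∀ φ : D.K →+* ℂ, φ a = φ₀ a := by
    intro φ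
    obtain ⟨j, hj⟩ := hreal φ
    obtain ⟨j₀, hj₀⟩ := hreal φ₀
    rw [hj, hj₀, hcon j j₀]
  have hroot : (minpoly ℚ (a : D.K)).rootSet ℂ = {φ₀ a} := by
    rw [← Embeddings.range_eval_eq_rootSet_minpoly D.K ℂ (a : D.K)]
    ext z
    constructor
    · rintro ⟨φ, rfl⟩
      exact hall φ
    · rintro rfl
      exact ⟨φ₀, rfl⟩
  have hsep : (minpoly ℚ (a : D.K)).Separable := Algebra.IsSeparable.isSeparable ℚ (a : D.K)
  have hcard : Fintype.card ((minpoly ℚ (a : D.K)).rootSet ℂ) = (minpoly ℚ (a : D.K)).natDegree :=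
    Polynomial.card_rootSet_eq_natDegree hsep (IsAlgClosed.splits _)
  have hdeg : (minpoly ℚ (a : D.K)).natDegree = 1 := by
    rw [← hcard]
    simp only [hroot]
    simp
  have hrat : (a : D.K) ∈ (algebraMap ℚ D.K).range := minpoly.natDegree_eq_one_iff.mp hdeg
  obtain ⟨q, hq⟩ := hrat
  have hint : IsIntegral ℤ q := by
    have h1 : IsIntegral ℤ (algebraMap ℚ D.K q) := by
      rw [hq]
      exact a.isIntegral_coe
    exact (isIntegral_algebraMap_iff (algebraMap ℚ D.K).injective).mp h1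
  obtain ⟨z, hz⟩ := IsIntegrallyClosed.isIntegral_iff.mp hint
  refine ha z ?_
  apply RingOfIntegers.ext
  rw [← hq, ← hz]
  simp

theorem packetMeas_YB (D : Datum n) {B : ℝ} (a : D.O) (ha : ∀ z : ℤ, (a : 𝓞 D.K) ≠ z)
    (hB : ∀ j, |D.σ j (a : 𝓞 D.K)| ≤ B) : D.packetMeas (YB n B)ᶜ = 0 := by
  refine packetMeas_null D (isClosed_YB n B).measurableSet ?_
  rintro S ⟨x, hx, rfl⟩
  refine (orb_subset_Yd D hx a).trans ?_
  have h1 : (fun j => D.σ j (a : 𝓞 D.K)) ∈ diagSet n B := by
    refine ⟨hB, exists_ne_of_not_int D _ ha, ?_⟩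
    have h2 := packetPt_mem D hx a
    obtain ⟨g, rfl⟩ := pt_surjective x
    exact ⟨g, pt_mem_Yd.mp h2⟩
  exact Set.subset_biUnion_of_mem (u := fun d => (Yd d : Set (X n))) h1

end Vale.Agent.P007
end

section

open MeasureTheory Matrix NumberField Filter Topology
open scoped nonZeroDivisors ENNReal CompactlySupported

namespace Vale.Agent.P007

variable {n : ℕ}

theorem exists_test {Y : Set (X n)} (hY : IsClosed Y) {m : Measure (X n)}
    [IsProbabilityMeasure m] (h0 : m Y = 0) :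
    ∃ f : C_c(X n, ℝ), (∀ x ∈ Y, f x = 0) ∧ (∀ x, 0 ≤ f x) ∧ 0 < ∫ x, f x ∂m := by
  have : TopologicalSpace.MetrizableSpace (X n) :=
    TopologicalSpace.metrizableSpace_of_t3_secondCountable _
  have h1 : (0 : ℝ≥0∞) < m Yᶜ := by
    rw [prob_compl_eq_one_sub hY.measurableSet, h0]
    simp only [tsub_zero, zero_lt_one]
  obtain ⟨K, hKY, hK, hmK⟩ := hY.measurableSet.compl.exists_lt_isCompact h1
  obtain ⟨f, hf1, hf2, hf3, hf4⟩ :=
    exists_continuousMap_one_of_isCompact_subset_isOpen hK hY.isOpen_compl hKY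
  refine ⟨⟨f, hf2⟩, ?_, ?_, ?_⟩
  · intro x hx
    by_contra hne
    exact hf3 (subset_tsupport _ hne) hx
  · intro x
    exact (hf4 x).1
  · have hint : Integrable (fun x => f x) m := f.continuous.integrable_of_hasCompactSupport hf2
    have hge : ∀ x, K.indicator (fun _ => (1 : ℝ)) x ≤ f x := by
      intro x
      by_cases hx : x ∈ K
      · rw [Set.indicator_of_mem hx]
        exact (hf1 hx).ge
      · rw [Set.indicator_of_notMem hx]
        exact (hf4 x).1
    have h2 : ∫ x, K.indicator (fun _ => (1 : ℝ)) x ∂m ≤ ∫ x, f x ∂m :=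
      integral_mono ((integrable_const 1).indicator hK.measurableSet) hint hge
    rw [integral_indicator_const _ hK.measurableSet] at h2
    have h3 : 0 < m.real K := ENNReal.toReal_pos hmK.ne' (measure_ne_top m K)
    calc (0 : ℝ) < m.real K • (1 : ℝ) := by simpa only [smul_eq_mul, mul_one] using h3
      _ ≤ _ := h2

/-- **Necessary condition.** If the packet measures converge (on test functions) to the invariant
probability measure, then non-rational elements of the orders are eventually large. -/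
theorem necessary {D : ℕ → Datum n} {m : Measure (X n)} (hm : IsInvProb m)
    (hf : ∀ f : C_c(X n, ℝ),
      Tendsto (fun i => ∫ x, f x ∂(D i).packetMeas) atTop (𝓝 (∫ x, f x ∂m))) (B : ℝ) :
    ∀ᶠ i in atTop, ∀ a : (D i).O, (∀ j, |(D i).σ j (a : 𝓞 (D i).K)| ≤ B) →
      ∃ z : ℤ, (a : 𝓞 (D i).K) = z := by
  have := hm.1
  obtain ⟨f, hf0, hfnn, hfpos⟩ := exists_test (isClosed_YB n B) (measure_YB B hm)
  have h1 := (hf f).eventually (lt_mem_nhds hfpos)
  filter_upwards [h1] with i hi a ha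
  by_contra hcon
  push Not at hcon
  have h2 := packetMeas_YB (D i) a hcon ha
  have h3 : ∫ x, f x ∂(D i).packetMeas = 0 := by
    refine integral_eq_zero_of_ae ?_
    rw [Filter.EventuallyEq, ae_iff]
    refine measure_mono_null ?_ h2
    intro x hx hxY
    exact hx (hf0 x hxY)
  rw [h3] at hi
  exact lt_irrefl _ hi

end Vale.Agent.P007
end

section

open MeasureTheory Matrix NumberField Filter Topology Module
open scoped nonZeroDivisors ENNReal CompactlySupported Pointwise

namespace Vale.Agent.P007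

variable {n : ℕ}

/-- The lattice spanned by the rows of a real matrix. -/
def latM (M : Matrix (Fin n) (Fin n) ℝ) : Set (Fin n → ℝ) :=
  Set.range fun c : Fin n → ℤ => (fun i => (c i : ℝ)) ᵥ* M

theorem lat_eq_latM (g : G n) : lat g = latM (g : Matrix (Fin n) (Fin n) ℝ) := rfl

theorem row_mem_latM (M : Matrix (Fin n) (Fin n) ℝ) (i : Fin n) : M i ∈ latM M := by
  refine ⟨Pi.single i 1, ?_⟩
  have : (fun k => ((Pi.single i (1 : ℤ) : Fin n → ℤ) k : ℝ)) = Pi.single i (1 : ℝ) := by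
    funext k
    by_cases h : k = i
    · subst h; simp
    · simp [h]
  simp only [this]
  exact single_one_vecMul _ _

theorem exists_int_mul {M N : Matrix (Fin n) (Fin n) ℝ} (h : ∀ i, M i ∈ latM N) :
    ∃ P : Matrix (Fin n) (Fin n) ℤ, M = castM P * N := by
  choose z hz using h
  refine ⟨Matrix.of z, ?_⟩
  ext i j
  rw [← congrFun (hz i) j]
  rfl

theorem latM_castM_mul (P : Matrix (Fin n) (Fin n) ℤ) (N : Matrix (Fin n) (Fin n) ℝ) :
    latM (castM P * N) ⊆ latM N := by
  rintro _ ⟨c, rfl⟩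
  refine ⟨c ᵥ* P, ?_⟩
  have : (fun i => (((c ᵥ* P) i : ℤ) : ℝ)) = (fun i => (c i : ℝ)) ᵥ* castM P := by
    funext j
    simp only [vecMul, dotProduct, Int.cast_sum, Int.cast_mul, castM, map_apply]
  simp only [this]
  rw [vecMul_vecMul]

theorem latM_mul_diagonal (M : Matrix (Fin n) (Fin n) ℝ) (δ : Fin n → ℝ) :
    latM (M * diagonal δ) = {v | ∃ u ∈ latM M, v = fun j => δ j * u j} := by
  ext v
  constructor
  · rintro ⟨c, rfl⟩
    refine ⟨_, ⟨c, rfl⟩, ?_⟩
    funext j
    simp only [← vecMul_vecMul, vecMul_diagonal]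
    exact mul_comm _ _
  · rintro ⟨_, ⟨c, rfl⟩, rfl⟩
    refine ⟨c, ?_⟩
    funext j
    simp only [← vecMul_vecMul, vecMul_diagonal]
    exact mul_comm _ _

/-- Two bases of the same lattice differ by an integer matrix of determinant `±1`. -/
theorem exists_unimodular {M N : Matrix (Fin n) (Fin n) ℝ} (hM : M.det ≠ 0)
    (h : latM M = latM N) : ∃ P : Matrix (Fin n) (Fin n) ℤ, M = castM P * N ∧ IsUnit P.det := by
  obtain ⟨P, hP⟩ := exists_int_mul (M := M) (N := N) fun i => h ▸ row_mem_latM M i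
  obtain ⟨Q, hQ⟩ := exists_int_mul (M := N) (N := M) fun i => h.symm ▸ row_mem_latM N i
  refine ⟨P, hP, ?_⟩
  have h1 : castM (P * Q) * M = M := by
    rw [castM_mul, mul_assoc, ← hQ, ← hP]
  have h2 : (castM (P * Q)).det = 1 := by
    have := congrArg Matrix.det h1
    rw [det_mul] at this
    exact mul_right_cancel₀ hM (by rw [this, one_mul])
  have h3 : ((P * Q).det : ℝ) = 1 := by
    rw [← h2, castM]
    exact (Int.cast_det (P * Q))
  have h4 : P.det * Q.det = 1 := by
    rw [← det_mul]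
    exact_mod_cast h3
  exact IsUnit.of_mul_eq_one _ h4

theorem cast_det (P : Matrix (Fin n) (Fin n) ℤ) : (castM P).det = (P.det : ℝ) :=
  (Int.cast_det P).symm

theorem det_G (g : G n) : (g : Matrix (Fin n) (Fin n) ℝ).det = 1 := g.2

/-- For positive `δ` with product one, `diag(δ)` is in `A_n`. -/
theorem exists_aexp (hn : 0 < n) {δ : Fin n → ℝ} (hδ : ∀ j, 0 < δ j) (hprod : ∏ j, δ j = 1) :
    ∃ u : Fin (n - 1) → ℝ, ((aexp u : G n) : Matrix (Fin n) (Fin n) ℝ) = diagonal δ := by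
  obtain _ | k := n
  · exact absurd hn (lt_irrefl _)
  refine ⟨fun i => Real.log (δ (Fin.castSucc i)), ?_⟩
  rw [coe_aexp]
  congr 1
  funext j
  have hsum : ∑ j : Fin (k + 1), Real.log (δ j) = 0 := by
    rw [← Real.log_prod (fun j _ => (hδ j).ne'), hprod, Real.log_one]
  rw [Fin.sum_univ_castSucc] at hsum
  by_cases hj : j.1 < k
  · have h1 : expo (n := k + 1) (fun i : Fin (k + 1 - 1) => Real.log (δ (Fin.castSucc i))) j =
        Real.log (δ j) := by
      rw [expo, dif_pos (show j.1 < k + 1 - 1 from hj)]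
      rfl
    rw [h1, Real.exp_log (hδ j)]
  · have h1 : expo (n := k + 1) (fun i : Fin (k + 1 - 1) => Real.log (δ (Fin.castSucc i))) j =
        Real.log (δ j) := by
      rw [expo, dif_neg (show ¬ j.1 < k + 1 - 1 from hj)]
      have hlast : j = Fin.last k := by
        apply Fin.ext
        have := j.2
        simp only [Fin.val_last]
        omega
      rw [hlast]
      exact neg_eq_of_add_eq_zero_right hsum
    rw [h1, Real.exp_log (hδ j)]

theorem lat_eq_diag (hn : 0 < n) {g g' : G n} {δ : Fin n → ℝ} (hδ : ∀ j, 0 < δ j)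
    (h : lat g' = {v | ∃ u ∈ lat g, v = fun j => δ j * u j}) :
    ∃ u, pt g' = tr (aexp u) (pt g) := by
  rw [lat_eq_latM, lat_eq_latM, ← latM_mul_diagonal] at h
  obtain ⟨P, hP, hPu⟩ := exists_unimodular (by rw [det_G]; exact one_ne_zero) h
  have h1 := congrArg Matrix.det hP
  rw [det_mul, det_mul, det_G, det_G, one_mul, det_diagonal, cast_det] at h1
  have hpos : 0 < ∏ j, δ j := Finset.prod_pos fun j _ => hδ j
  have hPd : P.det = 1 := by
    rcases Int.isUnit_iff.mp hPu with h2 | h2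
    · exact h2
    · rw [h2] at h1
      push_cast at h1
      linarith
  have hprod : ∏ j, δ j = 1 := by
    rw [hPd] at h1
    push_cast at h1
    linarith only [h1]
  obtain ⟨u, hu⟩ := exists_aexp hn hδ hprod
  refine ⟨u, ?_⟩
  rw [tr_pt]
  symm
  rw [pt_eq_pt]
  refine ⟨⟨P, hPd⟩, ?_⟩
  rw [eq_mul_inv_iff_mul_eq]
  apply Matrix.SpecialLinearGroup.ext
  intro i j
  rw [coe_mul_G, coe_mul_G, hu, hP]
  rfl

end Vale.Agent.P007
end

section

open MeasureTheory Matrix NumberField Filter Topology Module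
open scoped nonZeroDivisors ENNReal CompactlySupported Pointwise

namespace Vale.Agent.P007

variable {n : ℕ} (D : Datum n)

include D in
theorem Datum.pos : 0 < n := by
  have := D.deg
  rw [← this]
  exact Module.finrank_pos

/-- The index of the order. -/
noncomputable def Datum.ind : ℕ := D.O.toAddSubgroup.index

theorem Datum.ind_ne_zero : D.ind ≠ 0 := by
  have := D.full
  exact AddSubgroup.FiniteIndex.index_ne_zero

theorem Datum.ind_mul_mem (x : 𝓞 D.K) : ((D.ind : ℕ) : 𝓞 D.K) * x ∈ D.O := by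
  have h := AddSubgroup.nsmul_index_mem D.O.toAddSubgroup x
  rw [nsmul_eq_mul] at h
  exact h

/-- The underlying `ℤ`-module of a fractional ideal. -/
def Datum.zmod (I : FractionalIdeal D.O⁰ D.K) : Submodule ℤ D.K :=
  (I : Submodule D.O D.K).restrictScalars ℤ

theorem Datum.mem_zmod (I : FractionalIdeal D.O⁰ D.K) (a : D.K) : a ∈ D.zmod I ↔ a ∈ I := Iff.rfl

instance : Module.Finite ℤ D.O := by
  have : Module.Finite ℤ (AddSubgroup.toIntSubmodule D.O.toAddSubgroup) := inferInstance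
  exact this

theorem Datum.zmod_finite (I : (FractionalIdeal D.O⁰ D.K)ˣ) :
    Module.Finite ℤ (D.zmod (I : FractionalIdeal D.O⁰ D.K)) := by
  have h1 : ((I : FractionalIdeal D.O⁰ D.K) : Submodule D.O D.K).FG := FractionalIdeal.fg_unit I
  have h2 : Module.Finite D.O ((I : FractionalIdeal D.O⁰ D.K) : Submodule D.O D.K) :=
    Module.Finite.iff_fg.mpr h1
  have h3 : Module.Finite ℤ ((I : FractionalIdeal D.O⁰ D.K) : Submodule D.O D.K) :=
    Module.Finite.trans D.O _
  exact h3

theorem Datum.exists_mul_mem (x : D.K) : ∃ N : ℤ, N ≠ 0 ∧ ∃ y : D.O,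
    (N : D.K) * x = ((y : 𝓞 D.K) : D.K) := by
  have halg : IsAlgebraic ℤ x := by
    have h1 : Algebra.IsAlgebraic ℤ D.K :=
      (IsFractionRing.comap_isAlgebraic_iff (A := ℤ) (K := ℚ) (C := D.K)).mpr inferInstance
    exact Algebra.IsAlgebraic.isAlgebraic x
  obtain ⟨N, hN, hint⟩ := halg.exists_integral_multiple
  set y : 𝓞 D.K := ⟨N • x, hint⟩ with hy
  refine ⟨(D.ind : ℤ) * N, mul_ne_zero (by exact_mod_cast D.ind_ne_zero) hN,
    ⟨⟨(D.ind : 𝓞 D.K) * y, D.ind_mul_mem y⟩, ?_⟩⟩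
  have h1 : ((y : 𝓞 D.K) : D.K) = N • x := rfl
  simp only [map_mul, map_natCast, h1, zsmul_eq_mul]
  push_cast
  ring

theorem Datum.exists_ne_zero_mem (I : (FractionalIdeal D.O⁰ D.K)ˣ) :
    ∃ a ∈ (I : FractionalIdeal D.O⁰ D.K), a ≠ 0 := by
  by_contra hcon
  push Not at hcon
  have h1 : (I : FractionalIdeal D.O⁰ D.K) = 0 := by
    rw [FractionalIdeal.eq_zero_iff]
    exact hcon
  have : Nontrivial (FractionalIdeal D.O⁰ D.K) := by
    refine ⟨0, 1, ?_⟩
    intro h
    have h2 : (1 : D.K) ∈ (0 : FractionalIdeal D.O⁰ D.K) := by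
      rw [h]
      exact FractionalIdeal.one_mem_one D.O⁰
    rw [FractionalIdeal.mem_zero_iff] at h2
    exact one_ne_zero h2
  exact I.ne_zero h1

theorem Datum.zmod_span (I : (FractionalIdeal D.O⁰ D.K)ˣ) :
    Submodule.span ℚ (D.zmod (I : FractionalIdeal D.O⁰ D.K) : Set D.K) = ⊤ := by
  rw [eq_top_iff]
  rintro x -
  obtain ⟨a, ha, ha0⟩ := D.exists_ne_zero_mem I
  obtain ⟨N, hN, y, hy⟩ := D.exists_mul_mem (x / a)
  have h1 : (y • a : D.K) ∈ (I : FractionalIdeal D.O⁰ D.K) :=
    Submodule.smul_mem ((I : FractionalIdeal D.O⁰ D.K) : Submodule D.O D.K) y ha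
  have h2 : (y • a : D.K) = ((y : 𝓞 D.K) : D.K) * a := rfl
  have h3 : x = (N : ℚ)⁻¹ • (y • a : D.K) := by
    rw [h2, ← hy, Algebra.smul_def, map_inv₀, map_intCast]
    have hN' : (N : D.K) ≠ 0 := by exact_mod_cast hN
    field_simp
  rw [h3]
  exact Submodule.smul_mem _ _ (Submodule.subset_span h1)

instance Datum.zmod_isLattice (I : (FractionalIdeal D.O⁰ D.K)ˣ) :
    Submodule.IsLattice ℚ (D.zmod (I : FractionalIdeal D.O⁰ D.K)) where
  fg := by
    have := D.zmod_finite I
    exact Module.Finite.iff_fg.mp this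
  span_eq_top := D.zmod_span I

/-- A `ℤ`-basis of an invertible ideal, indexed by `Fin n`, which is also a `ℚ`-basis of `K`. -/
theorem Datum.exists_basis (I : (FractionalIdeal D.O⁰ D.K)ˣ) :
    ∃ b : Basis (Fin n) ℚ D.K, ∀ x : D.K, x ∈ (I : FractionalIdeal D.O⁰ D.K) ↔
      ∃ z : Fin n → ℤ, x = ∑ i, (z i : D.K) * b i := by
  have hfree : Module.Free ℤ (D.zmod (I : FractionalIdeal D.O⁰ D.K)) :=
    Submodule.IsLattice.free ℚ _
  have hfin := D.zmod_finite I
  have hrank : Module.finrank ℤ (D.zmod (I : FractionalIdeal D.O⁰ D.K)) = n := by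
    have h1 := Submodule.IsLattice.rank' ℚ (D.zmod (I : FractionalIdeal D.O⁰ D.K))
    rw [Module.finrank, h1]
    exact D.deg
  let b₀ := Module.finBasisOfFinrankEq ℤ (D.zmod (I : FractionalIdeal D.O⁰ D.K)) hrank
  refine ⟨b₀.extendOfIsLattice ℚ, fun x => ?_⟩
  simp only [Module.Basis.extendOfIsLattice_apply]
  constructor
  · intro hx
    have hx' : x ∈ D.zmod (I : FractionalIdeal D.O⁰ D.K) := hx
    refine ⟨fun i => b₀.repr ⟨x, hx'⟩ i, ?_⟩
    have h1 : ((∑ i, b₀.repr ⟨x, hx'⟩ i • b₀ i : D.zmod (I : FractionalIdeal D.O⁰ D.K)) : D.K) = x :=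
      congrArg Subtype.val (b₀.sum_repr ⟨x, hx'⟩)
    calc x = ((∑ i, b₀.repr ⟨x, hx'⟩ i • b₀ i : D.zmod (I : FractionalIdeal D.O⁰ D.K)) : D.K) :=
          h1.symm
      _ = _ := by
        rw [Submodule.coe_sum]
        refine Finset.sum_congr rfl fun i _ => ?_
        rw [Submodule.coe_smul, zsmul_eq_mul]
  · rintro ⟨z, rfl⟩
    have h1 : ∀ i, (z i : D.K) * (b₀ i : D.K) ∈ D.zmod (I : FractionalIdeal D.O⁰ D.K) := by
      intro i
      rw [← zsmul_eq_mul]
      exact Submodule.smul_mem _ _ (b₀ i).2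
    exact Submodule.sum_mem _ fun i _ => h1 i

/-- The real embeddings matrix of a basis is invertible. -/
theorem Datum.det_ne_zero (b : Basis (Fin n) ℚ D.K) :
    (Matrix.of fun i j => D.σ j (b i)).det ≠ 0 := by
  intro h0
  let e₀ : Fin n → (D.K →ₐ[ℚ] ℂ) := fun j => ((Complex.ofRealHom).comp (D.σ j)).toRatAlgHom
  have hinj : Function.Injective e₀ := by
    intro i j hij
    apply D.σ.injective
    ext x
    have h1 : ((D.σ i x : ℝ) : ℂ) = ((D.σ j x : ℝ) : ℂ) := DFunLike.congr_fun hij x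
    exact_mod_cast h1
  have hcard : Fintype.card (Fin n) = Fintype.card (D.K →ₐ[ℚ] ℂ) := by
    rw [Fintype.card_fin, AlgHom.card, D.deg]
  let e : Fin n ≃ (D.K →ₐ[ℚ] ℂ) := Equiv.ofBijective e₀
    ((Fintype.bijective_iff_injective_and_card e₀).mpr ⟨hinj, hcard⟩)
  have h1 := Algebra.discr_eq_det_embeddingsMatrixReindex_pow_two ℚ ℂ b e
  have h2 : (Algebra.embeddingsMatrixReindex ℚ ℂ b e).det = 0 := by
    have h3 : Algebra.embeddingsMatrixReindex ℚ ℂ b e =
        (Matrix.of fun i j => D.σ j (b i)).map (Complex.ofRealHom) := by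
      ext i j
      rfl
    rw [h3]
    have := (RingHom.map_det Complex.ofRealHom (Matrix.of fun i j => D.σ j (b i)))
    rw [h0, map_zero] at this
    exact this.symm
  rw [h2] at h1
  have h4 := Algebra.discr_not_zero_of_basis ℚ b
  apply h4
  have h5 : (algebraMap ℚ ℂ) (Algebra.discr ℚ b) = 0 := by rw [h1]; simp
  exact (map_eq_zero _).mp h5

end Vale.Agent.P007
end

section

open MeasureTheory Matrix NumberField Filter Topology Module
open scoped nonZeroDivisors ENNReal CompactlySupported Pointwise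

namespace Vale.Agent.P007

variable {n : ℕ}

theorem exists_finite_residues {K : Type*} [AddCommGroup K] (J : Submodule ℤ K) (hJ : J.FG)
    {m : ℕ} (hm : m ≠ 0) :
    ∃ R : Set K, R.Finite ∧ ∀ y ∈ J, ∃ r ∈ R, ∃ z ∈ J, y = r + (m : ℤ) • z := by
  obtain ⟨s, hs⟩ := hJ
  have : NeZero m := ⟨hm⟩
  refine ⟨Set.range (fun f : s → Fin m => ∑ a : s, ((f a : ℕ) : ℤ) • (a : K)),
    Set.finite_range _, ?_⟩
  intro y hy
  rw [← hs] at hy
  obtain ⟨c, hc, rfl⟩ := Submodule.mem_span_finset.mp hy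
  refine ⟨_, ⟨fun a => ⟨(c a % m).toNat, ?_⟩, rfl⟩, ∑ a ∈ s, (c a / m) • a, ?_, ?_⟩
  · have h1 : 0 ≤ c a % m := Int.emod_nonneg _ (by exact_mod_cast hm)
    have h2 : c a % m < m := Int.emod_lt_of_pos _ (by positivity)
    omega
  · rw [← hs]
    exact Submodule.sum_mem _ fun a ha => Submodule.smul_mem _ _ (Submodule.subset_span ha)
  · have h1 : ∀ a : K, (((c a % m).toNat : ℕ) : ℤ) = c a % m := fun a =>
      Int.toNat_of_nonneg (Int.emod_nonneg _ (by exact_mod_cast hm))
    simp only [h1]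
    rw [← Finset.sum_coe_sort s (fun a => c a • a),
      ← Finset.sum_coe_sort s (fun a => (c a / m) • a), Finset.smul_sum, ← Finset.sum_add_distrib]
    refine Finset.sum_congr rfl fun a _ => ?_
    rw [smul_smul, ← add_smul]
    congr 1
    exact (Int.emod_add_mul_ediv (c a) m).symm

theorem finite_between {K : Type*} [AddCommGroup K] (J : Submodule ℤ K) (hJ : J.FG)
    {m : ℕ} (hm : m ≠ 0) :
    {S : Submodule ℤ K | (∀ y ∈ J, (m : ℤ) • y ∈ S) ∧ S ≤ J}.Finite := by
  obtain ⟨R, hR, hres⟩ := exists_finite_residues J hJ hm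
  have hpow : (𝒫 R).Finite := hR.finite_subsets
  refine Set.Finite.of_finite_image (f := fun S : Submodule ℤ K => R ∩ (S : Set K))
    (hpow.subset ?_) ?_
  · rintro _ ⟨S, -, rfl⟩
    exact Set.inter_subset_left
  · have key : ∀ S S' : Submodule ℤ K, ((∀ y ∈ J, (m : ℤ) • y ∈ S) ∧ S ≤ J) →
        ((∀ y ∈ J, (m : ℤ) • y ∈ S') ∧ S' ≤ J) → R ∩ (S : Set K) = R ∩ (S' : Set K) → S ≤ S' := by
      intro S S' hS hS' h y hy
      obtain ⟨r, hr, z, hz, rfl⟩ := hres y (hS.2 hy)
      have h1 : r ∈ S := by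
        have := S.sub_mem hy (hS.1 z hz)
        rwa [add_sub_cancel_right] at this
      have h2 : r ∈ R ∩ (S' : Set K) := h ▸ ⟨hr, h1⟩
      exact S'.add_mem h2.2 (hS'.1 z hz)
    intro S hS S' hS' h
    exact le_antisymm (key S S' hS hS' h) (key S' S hS' hS h.symm)

variable (D : Datum n)

/-- The `𝓞_K`-module generated by an invertible ideal of the order. -/
noncomputable def Datum.ext (I : (FractionalIdeal D.O⁰ D.K)ˣ) : Submodule (𝓞 D.K) D.K :=
  Submodule.span (𝓞 D.K) (D.zmod (I : FractionalIdeal D.O⁰ D.K) : Set D.K)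

theorem Datum.ext_fg (I : (FractionalIdeal D.O⁰ D.K)ˣ) : (D.ext I).FG := by
  obtain ⟨s, hs⟩ := (D.zmod_isLattice I).fg
  refine ⟨s, ?_⟩
  rw [Datum.ext, ← hs, Submodule.span_span_of_tower]

theorem Datum.ext_fractional (I : (FractionalIdeal D.O⁰ D.K)ˣ) :
    IsFractional (𝓞 D.K)⁰ (D.ext I) :=
  FractionalIdeal.isFractional_of_fg (D.ext_fg I)

theorem Datum.ind_smul_ext (I : (FractionalIdeal D.O⁰ D.K)ˣ) {z : D.K} (hz : z ∈ D.ext I) :
    ((D.ind : ℕ) : D.K) * z ∈ (I : FractionalIdeal D.O⁰ D.K) := by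
  have key : ∀ r : 𝓞 D.K, ((D.ind : ℕ) : D.K) * (algebraMap (𝓞 D.K) D.K r * z) ∈
      (I : FractionalIdeal D.O⁰ D.K) := by
    refine Submodule.span_induction (p := fun z _ => ∀ r : 𝓞 D.K, ((D.ind : ℕ) : D.K) *
      (algebraMap (𝓞 D.K) D.K r * z) ∈ (I : FractionalIdeal D.O⁰ D.K)) ?_ ?_ ?_ ?_ hz
    · intro x hx r
      have h1 : ((⟨(D.ind : 𝓞 D.K) * r, D.ind_mul_mem r⟩ : D.O) • x : D.K) ∈
          (I : FractionalIdeal D.O⁰ D.K) :=
        Submodule.smul_mem ((I : FractionalIdeal D.O⁰ D.K) : Submodule D.O D.K) _ hx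
      have h2 : ((⟨(D.ind : 𝓞 D.K) * r, D.ind_mul_mem r⟩ : D.O) • x : D.K) =
          algebraMap (𝓞 D.K) D.K ((D.ind : 𝓞 D.K) * r) * x := rfl
      rw [h2, map_mul, map_natCast, mul_assoc] at h1
      exact h1
    · intro r
      rw [mul_zero, mul_zero]
      exact Submodule.zero_mem ((I : FractionalIdeal D.O⁰ D.K) : Submodule D.O D.K)
    · intro x y _ _ hx hy r
      rw [mul_add, mul_add]
      exact Submodule.add_mem ((I : FractionalIdeal D.O⁰ D.K) : Submodule D.O D.K) (hx r) (hy r)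
    · intro a x _ hx r
      have h1 : algebraMap (𝓞 D.K) D.K r * (a • x) = algebraMap (𝓞 D.K) D.K (r * a) * x := by
        rw [Algebra.smul_def, map_mul, mul_assoc]
      rw [h1]
      exact hx (r * a)
  have := key 1
  rwa [map_one, one_mul] at this

/-- The finitely many normalised ideals. -/
theorem Datum.exists_finite_reps : ∃ T : Set (Submodule ℤ D.K), T.Finite ∧
    ∀ I : (FractionalIdeal D.O⁰ D.K)ˣ, ∃ (α : D.K) (S : Submodule ℤ D.K), α ≠ 0 ∧ S ∈ T ∧
      ∀ x, x ∈ (I : FractionalIdeal D.O⁰ D.K) ↔ ∃ a ∈ S, x = α * a := by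
  let Q' := (FractionalIdeal (𝓞 D.K)⁰ D.K)ˣ ⧸ (toPrincipalIdeal (𝓞 D.K) D.K).range
  have hQ' : Finite Q' := Finite.of_equiv _ (ClassGroup.equiv (R := 𝓞 D.K) D.K).toEquiv
  let J : Q' → Submodule ℤ D.K := fun q =>
    (((Quotient.out q : (FractionalIdeal (𝓞 D.K)⁰ D.K)ˣ) : FractionalIdeal (𝓞 D.K)⁰ D.K) :
      Submodule (𝓞 D.K) D.K).restrictScalars ℤ
  have hJ : ∀ q, (J q).FG := by
    intro q
    have h1 := FractionalIdeal.fg_unit (Quotient.out q : (FractionalIdeal (𝓞 D.K)⁰ D.K)ˣ)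
    have h2 : Module.Finite (𝓞 D.K) (((Quotient.out q : (FractionalIdeal (𝓞 D.K)⁰ D.K)ˣ) :
      FractionalIdeal (𝓞 D.K)⁰ D.K) : Submodule (𝓞 D.K) D.K) := Module.Finite.iff_fg.mpr h1
    have h3 : Module.Finite ℤ (((Quotient.out q : (FractionalIdeal (𝓞 D.K)⁰ D.K)ˣ) :
      FractionalIdeal (𝓞 D.K)⁰ D.K) : Submodule (𝓞 D.K) D.K) := Module.Finite.trans (𝓞 D.K) _
    exact Module.Finite.iff_fg.mp (show Module.Finite ℤ (J q) from h3)
  refine ⟨⋃ q : Q', {S | (∀ y ∈ J q, ((D.ind : ℕ) : ℤ) • y ∈ S) ∧ S ≤ J q},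
    Set.finite_iUnion fun q => finite_between (J q) (hJ q) D.ind_ne_zero, ?_⟩
  intro I
  obtain ⟨a₀, ha₀, ha₀'⟩ := D.exists_ne_zero_mem I
  let E : FractionalIdeal (𝓞 D.K)⁰ D.K := ⟨D.ext I, D.ext_fractional I⟩
  have hE : E ≠ 0 := by
    intro h
    have h1 : a₀ ∈ E := Submodule.subset_span ha₀
    rw [h, FractionalIdeal.mem_zero_iff] at h1
    exact ha₀' h1
  let Eu : (FractionalIdeal (𝓞 D.K)⁰ D.K)ˣ := Units.mk0 E hE
  let q : Q' := QuotientGroup.mk Eu
  have hq : (QuotientGroup.mk (Quotient.out q) : Q') = QuotientGroup.mk Eu := Quotient.out_eq q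
  obtain ⟨x, hx⟩ := QuotientGroup.eq.mp hq
  have hx' : Eu = Quotient.out q * toPrincipalIdeal (𝓞 D.K) D.K x := by
    rw [hx]; group
  have hmem : ∀ z : D.K, z ∈ D.ext I ↔ ∃ y ∈ J q, z = (x : D.K) * y := by
    intro z
    have h1 : E = ((Quotient.out q : (FractionalIdeal (𝓞 D.K)⁰ D.K)ˣ) :
        FractionalIdeal (𝓞 D.K)⁰ D.K) * FractionalIdeal.spanSingleton (𝓞 D.K)⁰ (x : D.K) := by
      have h3 := congrArg (fun u : (FractionalIdeal (𝓞 D.K)⁰ D.K)ˣ =>
        (u : FractionalIdeal (𝓞 D.K)⁰ D.K)) hx'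
      have h4 : (Eu : FractionalIdeal (𝓞 D.K)⁰ D.K) = E := rfl
      simp only [h4, Units.val_mul, coe_toPrincipalIdeal] at h3
      exact h3
    have h2 : z ∈ D.ext I ↔ z ∈ E := Iff.rfl
    rw [h2, h1, mul_comm, FractionalIdeal.mem_singleton_mul]
    rfl
  refine ⟨(x : D.K), (D.zmod (I : FractionalIdeal D.O⁰ D.K)).comap
    (LinearMap.mulLeft ℤ (x : D.K)), x.ne_zero, Set.mem_iUnion.mpr ⟨q, ?_, ?_⟩, ?_⟩
  · intro y hy
    have h1 : (x : D.K) * y ∈ D.ext I := (hmem _).mpr ⟨y, hy, rfl⟩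
    have h2 := D.ind_smul_ext I h1
    change (x : D.K) * (((D.ind : ℕ) : ℤ) • y) ∈ (I : FractionalIdeal D.O⁰ D.K)
    have h3 : (x : D.K) * (((D.ind : ℕ) : ℤ) • y) = ((D.ind : ℕ) : D.K) * ((x : D.K) * y) := by
      rw [zsmul_eq_mul]; push_cast; ring
    rw [h3]
    exact h2
  · intro y hy
    have h1 : (x : D.K) * y ∈ D.ext I := Submodule.subset_span hy
    obtain ⟨y', hy', h2⟩ := (hmem _).mp h1
    rw [mul_left_cancel₀ x.ne_zero h2]
    exact hy'
  · intro z
    constructor
    · intro hz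
      refine ⟨(x : D.K)⁻¹ * z, ?_, ?_⟩
      · change (x : D.K) * ((x : D.K)⁻¹ * z) ∈ (I : FractionalIdeal D.O⁰ D.K)
        rwa [mul_inv_cancel_left₀ x.ne_zero]
      · rw [mul_inv_cancel_left₀ x.ne_zero]
    · rintro ⟨a, ha, rfl⟩
      exact ha

end Vale.Agent.P007
end

section

open MeasureTheory Matrix NumberField Filter Topology Module
open scoped nonZeroDivisors ENNReal CompactlySupported Pointwise

namespace Vale.Agent.P007

variable {n : ℕ}

theorem castM_one : castM (1 : Matrix (Fin n) (Fin n) ℤ) = 1 :=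
  Matrix.map_one _ (by simp) (by simp)

theorem latM_unimodular {P : Matrix (Fin n) (Fin n) ℤ} (hP : IsUnit P.det)
    (M : Matrix (Fin n) (Fin n) ℝ) : latM (castM P * M) = latM M := by
  refine Set.Subset.antisymm (latM_castM_mul P M) ?_
  have h1 : M = castM P⁻¹ * (castM P * M) := by
    rw [← mul_assoc, ← castM_mul, Matrix.nonsing_inv_mul P hP, castM_one, one_mul]
  calc latM M = latM (castM P⁻¹ * (castM P * M)) := by rw [← h1]
    _ ⊆ _ := latM_castM_mul _ _

theorem latM_smul (c : ℝ) (M : Matrix (Fin n) (Fin n) ℝ) :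
    latM (c • M) = {v | ∃ u ∈ latM M, v = fun j => c * u j} := by
  ext v
  constructor
  · rintro ⟨z, rfl⟩
    refine ⟨_, ⟨z, rfl⟩, ?_⟩
    simp only [vecMul_smul]
    rfl
  · rintro ⟨_, ⟨z, rfl⟩, rfl⟩
    refine ⟨z, ?_⟩
    simp only [vecMul_smul]
    rfl

/-- Every nondegenerate lattice can be normalised to covolume one. -/
theorem exists_normalize (hn : 0 < n) {M : Matrix (Fin n) (Fin n) ℝ} (hM : M.det ≠ 0) :
    ∃ (c : ℝ) (g : G n), 0 < c ∧ lat g = {v | ∃ u ∈ latM M, v = fun j => c * u j} := by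
  obtain ⟨M', hM', hlat⟩ : ∃ M' : Matrix (Fin n) (Fin n) ℝ, 0 < M'.det ∧ latM M' = latM M := by
    rcases lt_or_gt_of_ne hM with h | h
    · set P : Matrix (Fin n) (Fin n) ℤ :=
        diagonal (Function.update 1 (⟨0, hn⟩ : Fin n) (-1)) with hP
      have hPd : P.det = -1 := by
        rw [hP, det_diagonal, Finset.prod_update_of_mem (Finset.mem_univ _)]
        simp only [Int.reduceNeg, Pi.one_apply, Finset.prod_const_one, mul_one]
      refine ⟨castM P * M, ?_, latM_unimodular (by rw [hPd]; exact isUnit_one.neg) M⟩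
      rw [det_mul, cast_det, hPd]
      push_cast
      linarith only [h]
    · exact ⟨M, h, rfl⟩
  have hn' : (n : ℝ) ≠ 0 := by exact_mod_cast hn.ne'
  set c : ℝ := M'.det ^ (-(1 : ℝ) / n) with hc
  have hcpos : 0 < c := Real.rpow_pos_of_pos hM' _
  have hdet : (c • M').det = 1 := by
    rw [det_smul, Fintype.card_fin, hc, ← Real.rpow_natCast, ← Real.rpow_mul hM'.le]
    rw [div_mul_cancel₀ _ hn', Real.rpow_neg_one, inv_mul_cancel₀ hM'.ne']
  refine ⟨c, ⟨c • M', hdet⟩, hcpos, ?_⟩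
  rw [← hlat]
  exact latM_smul c M'

variable (D : Datum n)

theorem Datum.latM_basis {S : Set D.K} {b : Basis (Fin n) ℚ D.K}
    (hb : ∀ x : D.K, x ∈ S ↔ ∃ z : Fin n → ℤ, x = ∑ i, (z i : D.K) * b i) (t : Fin n → ℝ) :
    latM ((Matrix.of fun i j => D.σ j (b i)) * diagonal t) =
      {v | ∃ a ∈ S, v = fun j => D.σ j a * t j} := by
  have key : ∀ z : Fin n → ℤ, (fun i => (z i : ℝ)) ᵥ* ((Matrix.of fun i j => D.σ j (b i)) *
      diagonal t) = fun j => D.σ j (∑ i, (z i : D.K) * b i) * t j := by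
    intro z
    funext j
    rw [← vecMul_vecMul, vecMul_diagonal, map_sum]
    simp only [map_mul, map_intCast]
    rfl
  ext v
  constructor
  · rintro ⟨z, rfl⟩
    refine ⟨∑ i, (z i : D.K) * b i, (hb _).mpr ⟨z, rfl⟩, ?_⟩
    simp only [key]
  · rintro ⟨a, ha, rfl⟩
    obtain ⟨z, rfl⟩ := (hb a).mp ha
    exact ⟨z, by simp only [key]⟩

theorem Datum.exists_packetPt (I : (FractionalIdeal D.O⁰ D.K)ˣ) (w : Fin n → ℤˣ) :
    ∃ (c : ℝ) (g : G n), 0 < c ∧ lat g = {v | ∃ a ∈ (I : FractionalIdeal D.O⁰ D.K),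
      v = fun j => c * D.σ j a * ((w j : ℤ) : ℝ)} := by
  obtain ⟨b, hb⟩ := D.exists_basis I
  have hdet : ((Matrix.of fun i j => D.σ j (b i)) * diagonal fun j => ((w j : ℤ) : ℝ)).det ≠ 0 := by
    rw [det_mul, det_diagonal]
    refine mul_ne_zero (D.det_ne_zero b) (Finset.prod_ne_zero_iff.mpr fun j _ => ?_)
    exact_mod_cast (w j).ne_zero
  obtain ⟨c, g, hc, hg⟩ := exists_normalize D.pos hdet
  refine ⟨c, g, hc, ?_⟩
  rw [hg, D.latM_basis (S := {a | a ∈ (I : FractionalIdeal D.O⁰ D.K)}) hb]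
  ext v
  constructor
  · rintro ⟨_, ⟨a, ha, rfl⟩, rfl⟩
    refine ⟨a, ha, ?_⟩
    funext j
    ring
  · rintro ⟨a, ha, rfl⟩
    refine ⟨_, ⟨a, ha, rfl⟩, ?_⟩
    funext j
    ring

theorem Datum.packet_nonempty : D.packet.Nonempty := by
  obtain ⟨c, g, hc, hg⟩ := D.exists_packetPt 1 1
  exact ⟨orb (pt g), pt g, ⟨1, 1, c, g, hc, rfl, hg⟩, rfl⟩

/-- The points with lattice `{(t_j s_j σ_j(a))}`, `a ∈ S`, `t > 0`. -/
def Datum.Q (S : Submodule ℤ D.K) (s : Fin n → ℤˣ) : Set (X n) :=
  {x | ∃ (g : G n) (t : Fin n → ℝ), (∀ j, 0 < t j) ∧ x = pt g ∧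
    lat g = {v | ∃ a ∈ S, v = fun j => t j * ((s j : ℤ) : ℝ) * D.σ j a}}

theorem orb_tr {x : X n} (u : Fin (n - 1) → ℝ) : orb (tr (aexp u) x) = orb x := by
  have h : ∀ (y : X n) (v : Fin (n - 1) → ℝ), orb (tr (aexp v) y) ⊆ orb y := by
    rintro y v _ ⟨w, rfl⟩
    refine ⟨v + w, ?_⟩
    change tr (aexp (v + w)) y = tr (aexp w) (tr (aexp v) y)
    rw [tr_tr, aexp_add]
  refine Set.Subset.antisymm (h x u) ?_
  have h1 : x = tr (aexp (-u)) (tr (aexp u) x) := by
    rw [tr_tr, ← aexp_add, add_neg_cancel, aexp_zero, tr_one]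
  calc orb x = orb (tr (aexp (-u)) (tr (aexp u) x)) := by rw [← h1]
    _ ⊆ _ := h _ _

theorem Datum.Q_orb {S : Submodule ℤ D.K} {s : Fin n → ℤˣ} {x x' : X n} (hx : x ∈ D.Q S s)
    (hx' : x' ∈ D.Q S s) : orb x' = orb x := by
  obtain ⟨g, t, ht, rfl, hg⟩ := hx
  obtain ⟨g', t', ht', rfl, hg'⟩ := hx'
  obtain ⟨u, hu⟩ := lat_eq_diag D.pos (g := g) (g' := g') (δ := fun j => t' j / t j)
    (fun j => div_pos (ht' j) (ht j)) (by
      rw [hg, hg']
      ext v
      constructor
      · rintro ⟨a, ha, rfl⟩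
        refine ⟨_, ⟨a, ha, rfl⟩, ?_⟩
        funext j
        have := (ht j).ne'
        field_simp
      · rintro ⟨_, ⟨a, ha, rfl⟩, rfl⟩
        refine ⟨a, ha, ?_⟩
        funext j
        have := (ht j).ne'
        field_simp)
  rw [hu, orb_tr]

theorem Datum.packet_finite : D.packet.Finite := by
  obtain ⟨T, hT, hI⟩ := D.exists_finite_reps
  have h1 : D.packet ⊆ ⋃ S ∈ T, ⋃ s : Fin n → ℤˣ, {o | ∃ x ∈ D.Q S s, o = orb x} := by
    rintro _ ⟨x, ⟨I, w, c, g, hc, rfl, hlat⟩, rfl⟩
    obtain ⟨α, S, hα, hS, hIS⟩ := hI I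
    refine Set.mem_iUnion₂.mpr ⟨S, hS, Set.mem_iUnion.mpr ?_⟩
    have hσ : ∀ j, D.σ j α ≠ 0 := fun j => (map_ne_zero _).mpr hα
    refine ⟨fun j => if 0 < D.σ j α then w j else -w j, pt g, ⟨g, fun j => c * |D.σ j α|,
      fun j => mul_pos hc (abs_pos.mpr (hσ j)), rfl, ?_⟩, rfl⟩
    rw [hlat]
    have hval : ∀ (a : D.K) (j : Fin n), c * D.σ j (α * a) * ((w j : ℤ) : ℝ) =
        c * |D.σ j α| * (((if 0 < D.σ j α then w j else -w j : ℤˣ) : ℤ) : ℝ) * D.σ j a := by
      intro a j
      rw [map_mul]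
      by_cases h : 0 < D.σ j α
      · rw [if_pos h, abs_of_pos h]; ring
      · rw [if_neg h, abs_of_neg (lt_of_le_of_ne (not_lt.mp h) (hσ j))]
        push_cast
        ring
    ext v
    constructor
    · rintro ⟨x, hx, rfl⟩
      obtain ⟨a, ha, rfl⟩ := (hIS x).mp hx
      exact ⟨a, ha, funext fun j => hval a j⟩
    · rintro ⟨a, ha, rfl⟩
      exact ⟨α * a, (hIS _).mpr ⟨a, ha, rfl⟩, funext fun j => (hval a j).symm⟩
  refine Set.Finite.subset (hT.biUnion fun S _ => Set.finite_iUnion fun s => ?_) h1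
  refine Set.Subsingleton.finite ?_
  rintro _ ⟨x, hx, rfl⟩ _ ⟨x', hx', rfl⟩
  exact D.Q_orb hx' hx

end Vale.Agent.P007
end

section

open MeasureTheory Matrix NumberField Filter Topology Module
open scoped nonZeroDivisors ENNReal CompactlySupported Pointwise

namespace Vale.Agent.P007

variable {n : ℕ}

/-- The stabiliser of `x` in `A_n ≃ ℝ^{n-1}` is the full lattice spanned by the basis `b`. -/
def StabBasis (x : X n) (b : Basis (Fin (n - 1)) ℝ (Fin (n - 1) → ℝ)) : Prop :=
  ∀ u, u ∈ Submodule.span ℤ (Set.range b) ↔ tr (aexp u) x = x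

theorem tr_aexp_add (u v : Fin (n - 1) → ℝ) (x : X n) :
    tr (aexp (u + v)) x = tr (aexp u) (tr (aexp v) x) := by
  rw [tr_tr, ← aexp_add, add_comm]

theorem tr_aexp_inj (u : Fin (n - 1) → ℝ) {x y : X n} (h : tr (aexp u) x = tr (aexp u) y) :
    x = y := by
  have h1 := congrArg (tr (aexp (-u))) h
  rw [← tr_aexp_add, ← tr_aexp_add, neg_add_cancel, aexp_zero, tr_one, tr_one] at h1
  exact h1

theorem StabBasis.orb {x : X n} {b : Basis (Fin (n - 1)) ℝ (Fin (n - 1) → ℝ)}
    (hb : StabBasis x b) (v : Fin (n - 1) → ℝ) : StabBasis (tr (aexp v) x) b := by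
  intro u
  rw [hb u, ← tr_aexp_add, add_comm, tr_aexp_add]
  constructor
  · intro h; rw [h]
  · intro h; exact tr_aexp_inj v h

theorem StabBasis.eq_iff {x : X n} {b : Basis (Fin (n - 1)) ℝ (Fin (n - 1) → ℝ)}
    (hb : StabBasis x b) (u v : Fin (n - 1) → ℝ) :
    tr (aexp u) x = tr (aexp v) x ↔ u - v ∈ Submodule.span ℤ (Set.range b) := by
  have h1 : u = v + (u - v) := by abel
  rw [hb (u - v)]
  constructor
  · intro h
    rw [h1, tr_aexp_add] at h
    exact tr_aexp_inj v h
  · intro h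
    rw [h1, tr_aexp_add, h]

theorem StabBasis.isSection_iff {x : X n} {b : Basis (Fin (n - 1)) ℝ (Fin (n - 1) → ℝ)}
    (hb : StabBasis x b) {D : Set (Fin (n - 1) → ℝ)} (hD : MeasurableSet D) :
    IsSection x D ↔ ∀ u, ∃! v : Submodule.span ℤ (Set.range b), v +ᵥ u ∈ D := by
  constructor
  · rintro ⟨-, -, hinj, hsurj⟩ u
    obtain ⟨v, hv, hvu⟩ := hsurj ⟨u, rfl⟩
    have h1 : v - u ∈ Submodule.span ℤ (Set.range b) := (hb.eq_iff v u).mp hvu
    refine ⟨⟨v - u, h1⟩, ?_, ?_⟩
    · change (v - u) + u ∈ D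
      rwa [sub_add_cancel]
    · rintro ⟨w, hw⟩ hwu
      have hwu' : w + u ∈ D := hwu
      have h2 : tr (aexp (w + u)) x = tr (aexp v) x := by
        rw [hb.eq_iff]
        have : w + u - v = w - (v - u) := by abel
        rw [this]
        exact Submodule.sub_mem _ hw h1
      have h3 := hinj hwu' hv h2
      apply Subtype.ext
      change w = v - u
      rw [← h3]; abel
  · intro h
    refine ⟨hD, ?_, ?_, ?_⟩
    · intro u _
      exact ⟨u, rfl⟩
    · intro u hu v hv huv
      have h1 : u - v ∈ Submodule.span ℤ (Set.range b) := (hb.eq_iff u v).mp huv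
      have h2 := (h v).unique (y₁ := ⟨u - v, h1⟩) (y₂ := 0)
        (by change (u - v) + v ∈ D; rwa [sub_add_cancel]) (by change (0 : Fin (n - 1) → ℝ) + v ∈ D; rwa [zero_add])
      have h3 : u - v = 0 := congrArg Subtype.val h2
      exact sub_eq_zero.mp h3
    · rintro _ ⟨u, rfl⟩
      obtain ⟨⟨w, hw⟩, hwu, -⟩ := h u
      refine ⟨w + u, hwu, ?_⟩
      change tr (aexp (w + u)) x = tr (aexp u) x
      rw [hb.eq_iff]
      simpa using hw

theorem StabBasis.isSection_fundamentalDomain {x : X n}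
    {b : Basis (Fin (n - 1)) ℝ (Fin (n - 1) → ℝ)} (hb : StabBasis x b) :
    IsSection x (ZSpan.fundamentalDomain b) :=
  (hb.isSection_iff (ZSpan.fundamentalDomain_measurableSet b)).mpr fun u =>
    ZSpan.exist_unique_vadd_mem_fundamentalDomain b u

theorem StabBasis.isAddFundamentalDomain {x : X n}
    {b : Basis (Fin (n - 1)) ℝ (Fin (n - 1) → ℝ)} (hb : StabBasis x b)
    {D : Set (Fin (n - 1) → ℝ)} (hD : IsSection x D) :
    IsAddFundamentalDomain (Submodule.span ℤ (Set.range b)) D volume :=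
  IsAddFundamentalDomain.mk' hD.1.nullMeasurableSet ((hb.isSection_iff hD.1).mp hD)

instance (b : Basis (Fin (n - 1)) ℝ (Fin (n - 1) → ℝ)) :
    VAddInvariantMeasure (Submodule.span ℤ (Set.range b)) (Fin (n - 1) → ℝ) volume :=
  ⟨fun c _ _ => measure_preimage_add volume (c : Fin (n - 1) → ℝ) _⟩

theorem StabBasis.volume_eq {x : X n} {b : Basis (Fin (n - 1)) ℝ (Fin (n - 1) → ℝ)}
    (hb : StabBasis x b) {D : Set (Fin (n - 1) → ℝ)} (hD : IsSection x D) :
    volume D = volume (ZSpan.fundamentalDomain b) := by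
  exact (hb.isAddFundamentalDomain hD).measure_eq
    (hb.isAddFundamentalDomain hb.isSection_fundamentalDomain)

/-- Any admissible choice of base point and coordinates gives the same orbit measure. -/
theorem StabBasis.map_eq {x : X n} {b : Basis (Fin (n - 1)) ℝ (Fin (n - 1) → ℝ)}
    (hb : StabBasis x b) {D D' : Set (Fin (n - 1) → ℝ)} (hD : IsSection x D)
    (v : Fin (n - 1) → ℝ) (hD' : IsSection (tr (aexp v) x) D') :
    (volume.restrict D).map (fun u => tr (aexp u) x) =
      (volume.restrict D').map (fun u => tr (aexp u) (tr (aexp v) x)) := by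
  ext E hE
  rw [Measure.map_apply (continuous_orbMap _).measurable hE,
    Measure.map_apply (continuous_orbMap _).measurable hE,
    Measure.restrict_apply ((continuous_orbMap _).measurable hE),
    Measure.restrict_apply ((continuous_orbMap _).measurable hE)]
  set A : Set (Fin (n - 1) → ℝ) := (fun u => tr (aexp u) x) ⁻¹' E with hA
  have hAm : MeasurableSet A := (continuous_orbMap _).measurable hE
  have hD'' : IsSection x ((fun u => u - v) ⁻¹' D') := by
    refine ⟨(measurable_sub_const v) hD'.1, ?_, ?_, ?_⟩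
    · intro u _
      exact ⟨u, rfl⟩
    · intro u hu w hw huw
      have h1 : tr (aexp (u - v)) (tr (aexp v) x) = tr (aexp (w - v)) (tr (aexp v) x) := by
        rw [← tr_aexp_add, ← tr_aexp_add, sub_add_cancel, sub_add_cancel]
        exact huw
      exact sub_left_injective (hD'.2.injOn hu hw h1)
    · rintro _ ⟨u, rfl⟩
      obtain ⟨w, hw, hwu⟩ := hD'.2.surjOn ⟨u - v, rfl⟩
      refine ⟨w + v, ?_, ?_⟩
      · change w + v - v ∈ D'
        rwa [add_sub_cancel_right]
      · have h1 : tr (aexp w) (tr (aexp v) x) = tr (aexp (u - v)) (tr (aexp v) x) := hwu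
        rw [← tr_aexp_add, ← tr_aexp_add, sub_add_cancel] at h1
        exact h1
  have h1 : (fun u => tr (aexp u) (tr (aexp v) x)) ⁻¹' E ∩ D' =
      (fun u => u + v) ⁻¹' (A ∩ ((fun u => u - v) ⁻¹' D')) := by
    ext u
    simp only [hA, Set.mem_inter_iff, Set.mem_preimage, tr_aexp_add, add_sub_cancel_right]
  rw [h1, measure_preimage_add_right]
  refine (hb.isAddFundamentalDomain hD).measure_set_eq (hb.isAddFundamentalDomain hD'') hAm ?_
  rintro ⟨w, hw⟩
  ext u
  change tr (aexp (w + u)) x ∈ E ↔ tr (aexp u) x ∈ E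
  have : tr (aexp (w + u)) x = tr (aexp u) x := by
    rw [hb.eq_iff]
    simpa using hw
  rw [this]

theorem orbMeas_eq {x : X n} {b : Basis (Fin (n - 1)) ℝ (Fin (n - 1) → ℝ)}
    (hb : StabBasis x b) {D : Set (Fin (n - 1) → ℝ)} (hD : IsSection x D) :
    orbMeas (orb x) = (volume.restrict D).map (fun u => tr (aexp u) x) := by
  have hex : ∃ p : X n × Set (Fin (n - 1) → ℝ), orb p.1 = orb x ∧ IsSection p.1 p.2 :=
    ⟨(x, D), rfl, hD⟩
  unfold orbMeas
  rw [dif_pos hex]
  obtain ⟨h1, h2⟩ := hex.choose_spec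
  have h3 : hex.choose.1 ∈ orb x := h1.subset (mem_orb_self _)
  obtain ⟨v, hv⟩ := h3
  have hv' : hex.choose.1 = tr (aexp v) x := hv.symm
  rw [hv'] at h2 ⊢
  exact (hb.map_eq hD v h2).symm

theorem orbMeas_univ {x : X n} {b : Basis (Fin (n - 1)) ℝ (Fin (n - 1) → ℝ)}
    (hb : StabBasis x b) :
    orbMeas (orb x) Set.univ = volume (ZSpan.fundamentalDomain b) := by
  have hex : ∃ p : X n × Set (Fin (n - 1) → ℝ), orb p.1 = orb x ∧ IsSection p.1 p.2 :=
    ⟨(x, ZSpan.fundamentalDomain b), rfl, hb.isSection_fundamentalDomain⟩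
  unfold orbMeas
  rw [dif_pos hex, Measure.map_apply (continuous_orbMap _).measurable MeasurableSet.univ,
    Set.preimage_univ, Measure.restrict_apply_univ]
  obtain ⟨h1, h2⟩ := hex.choose_spec
  have h3 : hex.choose.1 ∈ orb x := h1.subset (mem_orb_self _)
  obtain ⟨v, hv⟩ := h3
  have hv' : tr (aexp v) x = hex.choose.1 := hv
  have h4 : StabBasis hex.choose.1 b := hv' ▸ hb.orb v
  exact h4.volume_eq h2

theorem orbMeas_univ_ne_zero {x : X n} {b : Basis (Fin (n - 1)) ℝ (Fin (n - 1) → ℝ)}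
    (hb : StabBasis x b) : orbMeas (orb x) Set.univ ≠ 0 := by
  rw [orbMeas_univ hb]
  exact ZSpan.measure_fundamentalDomain_ne_zero b

theorem orbMeas_univ_ne_top {x : X n} {b : Basis (Fin (n - 1)) ℝ (Fin (n - 1) → ℝ)}
    (hb : StabBasis x b) : orbMeas (orb x) Set.univ ≠ ⊤ := by
  rw [orbMeas_univ hb]
  exact (ZSpan.fundamentalDomain_isBounded b).measure_lt_top.ne

end Vale.Agent.P007
end

section

set_option autoImplicit false

namespace Vale.Agent.P007

open NumberField Filter Topology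

/-- the real embeddings of a totally real field of degree `n` can be ordered -/
theorem nonempty_ordering (K : Type*) [Field K] [NumberField K] [IsTotallyReal K] (n : ℕ)
    (h : Module.finrank ℚ K = n) : Nonempty (Fin n ≃ (K →+* ℝ)) := by
  classical
  have hinj : Function.Injective (fun ψ : K →+* ℝ => (Complex.ofRealHom).comp ψ) := by
    intro a b hab
    ext x
    have := congrArg (fun f : K →+* ℂ => f x) hab
    simpa using this
  have hsurj : Function.Surjective (fun ψ : K →+* ℝ => (Complex.ofRealHom).comp ψ) := by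
    intro φ
    have hφ := IsTotallyReal.complexEmbedding_isReal φ
    refine ⟨hφ.embedding, ?_⟩
    ext x
    simp
  have e : (K →+* ℝ) ≃ (K →+* ℂ) := Equiv.ofBijective _ ⟨hinj, hsurj⟩
  have e2 : (K →+* ℂ) ≃ Fin n := Fintype.equivFinOfCardEq (by rw [Embeddings.card, h])
  exact ⟨(e.trans e2).symm⟩

/-- the datum attached to the maximal order -/
def maxDatum {n : ℕ} (K : Type) [Field K] [NumberField K] [IsTotallyReal K]
    (h : Module.finrank ℚ K = n) (σ : Fin n ≃ (K →+* ℝ)) : Datum n where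
  K := K
  deg := h
  O := ⊤
  full := ⟨by simp⟩
  σ := σ

theorem maxDatum_disc {n : ℕ} (K : Type) [Field K] [NumberField K] [IsTotallyReal K]
    (h : Module.finrank ℚ K = n) (σ : Fin n ≃ (K →+* ℝ)) :
    (maxDatum K h σ).disc = (discr K).natAbs := by
  have h1 : (maxDatum K h σ).O.toAddSubgroup.index = 1 := by
    rw [AddSubgroup.index_eq_one]
    rfl
  rw [Datum.disc, h1, one_pow, mul_one]
  rfl

theorem exists_fields (n : ℕ) (hn : 4 ≤ n) (hc : ¬ n.Prime) :
    ∃ (B : ℝ) (D : ℕ → Datum n), (∀ i, (D i).O = ⊤) ∧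
      Tendsto (fun i => (D i).disc) atTop atTop ∧
      ∀ i, ∃ a : 𝓞 (D i).K, (∀ z : ℤ, a ≠ z) ∧ ∀ φ : (D i).K →+* ℝ, |φ a| ≤ B := by
  obtain ⟨F, i1, i2, i3, hF1, hF2, K, hK1, hK2, hK⟩ := exists_field_seq_composite n hn hc
  have hK3 : ∀ i, IsTotallyReal (K i) := fun i => (hK i).1
  have hord : ∀ i, Nonempty (Fin n ≃ (K i →+* ℝ)) := fun i =>
    nonempty_ordering (K i) n (hK i).2.1
  let σ : ∀ i, Fin n ≃ (K i →+* ℝ) := fun i => (hord i).some
  obtain ⟨α, hα⟩ := exists_not_int F hF1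
  have hfin : (Set.range (fun φ : F →+* ℝ => |φ α|)).Finite := by
    have : Finite (F →+* ℝ) := by
      obtain ⟨e⟩ := nonempty_ordering F _ rfl
      exact Finite.of_equiv _ e
    exact Set.finite_range _
  obtain ⟨B, hB⟩ := hfin.bddAbove
  refine ⟨B, fun i => maxDatum (K i) (hK i).2.1 (σ i), fun i => rfl, ?_, ?_⟩
  · simp_rw [maxDatum_disc]
    refine tendsto_atTop_mono (fun i => ?_) tendsto_id
    have := (hK i).2.2.2
    rw [Int.abs_eq_natAbs] at this
    exact_mod_cast this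
  · intro i
    obtain ⟨ι⟩ := (hK i).2.2.1
    refine ⟨(⟨ι α, ?_⟩ : 𝓞 (K i)), ?_, ?_⟩
    · exact map_isIntegral_int ι α.isIntegral_coe
    · intro z hz
      apply hα z
      have h1 : ι (α : F) = (z : K i) := by
        have := congrArg (algebraMap (𝓞 (K i)) (K i)) hz
        exact this.trans (map_intCast (algebraMap (𝓞 (K i)) (K i)) z)
      apply RingOfIntegers.coe_injective
      apply ι.injective
      rw [h1]
      simp
    · intro φ
      exact hB ⟨φ.comp ι, rfl⟩

end Vale.Agent.P007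
end

section

set_option autoImplicit false

open MeasureTheory Matrix NumberField Filter Topology
open scoped nonZeroDivisors ENNReal

namespace Vale.Agent.P007.Stab

open Vale.Agent.P007

variable {n : ℕ}

theorem tr_pt (g h : G n) : tr h (pt g) = pt (g * h) := rfl

theorem pt_eq_iff (a b : G n) : pt a = pt b ↔ b * a⁻¹ ∈ Gam n :=
  Quotient.eq.trans QuotientGroup.rightRel_apply

theorem pt_surj (x : X n) : ∃ g : G n, x = pt g := by
  obtain ⟨g, hg⟩ := Quotient.exists_rep x
  exact ⟨g, hg.symm⟩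

theorem tr_one (x : X n) : tr 1 x = x := by
  obtain ⟨g, rfl⟩ := pt_surj x
  rw [tr_pt, mul_one]

theorem tr_mul (g h : G n) (x : X n) : tr (g * h) x = tr h (tr g x) := by
  obtain ⟨a, rfl⟩ := pt_surj x
  rw [tr_pt, tr_pt, tr_pt, mul_assoc]

theorem expo_add (u v : Fin (n - 1) → ℝ) (j : Fin n) : expo (u + v) j = expo u j + expo v j := by
  unfold expo
  split_ifs
  · rfl
  · simp only [Pi.add_apply, Finset.sum_add_distrib]; ring

theorem expo_smul (c : ℝ) (u : Fin (n - 1) → ℝ) (j : Fin n) : expo (c • u) j = c * expo u j := by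
  unfold expo
  split_ifs
  · rfl
  · simp only [Pi.smul_apply, smul_eq_mul, ← Finset.mul_sum]; ring

theorem expo_zero (j : Fin n) : expo (0 : Fin (n - 1) → ℝ) j = 0 := by
  have := expo_smul (0 : ℝ) (0 : Fin (n - 1) → ℝ) j
  simpa using this

theorem expo_cast (u : Fin (n - 1) → ℝ) (i : Fin (n - 1)) :
    expo u (⟨i.1, by omega⟩ : Fin n) = u i := by
  simp only [expo, Fin.is_lt, ↓reduceDIte, Fin.eta]

theorem aexp_add (u v : Fin (n - 1) → ℝ) : aexp (u + v) = aexp u * aexp v := by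
  apply Subtype.ext
  change diagonal _ = diagonal _ * diagonal _
  rw [diagonal_mul_diagonal]
  congr 1
  ext j
  rw [expo_add, Real.exp_add]

theorem aexp_zero : aexp (0 : Fin (n - 1) → ℝ) = 1 := by
  apply Subtype.ext
  change diagonal _ = 1
  rw [← diagonal_one]
  congr 1
  ext j
  rw [expo_zero, Real.exp_zero]

/-- the stabiliser of `x` in `A_n`, in the coordinates `u` -/
def stab (x : X n) : AddSubgroup (Fin (n - 1) → ℝ) where
  carrier := {u | tr (aexp u) x = x}
  zero_mem' := by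
    change tr (aexp 0) x = x
    rw [aexp_zero, tr_one]
  add_mem' := by
    intro u v hu hv
    change tr (aexp (u + v)) x = x
    rw [aexp_add, tr_mul, hu, hv]
  neg_mem' := by
    intro u hu
    change tr (aexp (-u)) x = x
    have h1 : tr (aexp (u + -u)) x = x := by rw [add_neg_cancel, aexp_zero, tr_one]
    rw [aexp_add, tr_mul, hu] at h1
    exact h1

theorem mem_stab (x : X n) (u : Fin (n - 1) → ℝ) : u ∈ stab x ↔ tr (aexp u) x = x := Iff.rfl

theorem continuous_expo (j : Fin n) : Continuous fun u : Fin (n - 1) → ℝ => expo u j := by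
  unfold expo
  split_ifs
  · exact continuous_apply _
  · fun_prop

/-- `0` is isolated in the stabiliser. -/
theorem stab_isolated (x : X n) : ∃ r > 0, ∀ u ∈ stab x, ‖u‖ < r → u = 0 := by
  obtain ⟨g, rfl⟩ := pt_surj x
  let M : (Fin (n - 1) → ℝ) → Matrix (Fin n) (Fin n) ℝ := fun u =>
    (g : Matrix (Fin n) (Fin n) ℝ) * diagonal (fun j => Real.exp (expo u j)) *
      ((g⁻¹ : G n) : Matrix (Fin n) (Fin n) ℝ)
  have hMc : Continuous M := by
    refine (Continuous.matrix_mul continuous_const ?_).matrix_mul continuous_const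
    refine Continuous.matrix_diagonal (continuous_pi fun j => ?_)
    exact Real.continuous_exp.comp (continuous_expo j)
  have hgg : (g : Matrix (Fin n) (Fin n) ℝ) * ((g⁻¹ : G n) : Matrix (Fin n) (Fin n) ℝ) = 1 :=
    congrArg Subtype.val (mul_inv_cancel g)
  have hgg' : ((g⁻¹ : G n) : Matrix (Fin n) (Fin n) ℝ) * (g : Matrix (Fin n) (Fin n) ℝ) = 1 :=
    congrArg Subtype.val (inv_mul_cancel g)
  have hM0 : M 0 = 1 := by
    have : (fun j : Fin n => Real.exp (expo (0 : Fin (n - 1) → ℝ) j)) = fun _ => 1 := by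
      ext j; rw [expo_zero, Real.exp_zero]
    simp only [M, this, diagonal_one, mul_one]
    exact hgg
  have hev : ∀ᶠ u in 𝓝 (0 : Fin (n - 1) → ℝ), ∀ i j, |M u i j - (1 : Matrix (Fin n) (Fin n) ℝ) i j| < 1 := by
    rw [eventually_all]; intro i
    rw [eventually_all]; intro j
    have h1 : Continuous fun u => |M u i j - (1 : Matrix (Fin n) (Fin n) ℝ) i j| :=
      ((hMc.matrix_elem i j).sub continuous_const).abs
    have h2 := h1.tendsto 0
    simp only [hM0, sub_self, abs_zero] at h2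
    exact h2.eventually (gt_mem_nhds one_pos)
  obtain ⟨r, hr, hball⟩ := Metric.eventually_nhds_iff.mp hev
  refine ⟨r, hr, fun u hu hur => ?_⟩
  have hu' := hball (y := u) (by simpa using hur)
  -- integrality
  rw [mem_stab, tr_pt, eq_comm, pt_eq_iff] at hu
  obtain ⟨γ, hγ⟩ := hu
  have hMint : ∀ i j, M u i j = ((γ i j : ℤ) : ℝ) := by
    intro i j
    have h1 := congrArg (fun z : G n => (z : Matrix (Fin n) (Fin n) ℝ) i j) hγ
    simp only [SpecialLinearGroup.map_apply_coe, RingHom.mapMatrix_apply, Matrix.map_apply,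
      Int.coe_castRingHom] at h1
    exact h1.symm
  have hM1 : M u = 1 := by
    ext i j
    have h1 := hu' i j
    rw [hMint] at h1 ⊢
    have h2 : (1 : Matrix (Fin n) (Fin n) ℝ) i j = (((1 : Matrix (Fin n) (Fin n) ℤ) i j : ℤ) : ℝ) := by
      simp [Matrix.one_apply]
    rw [h2] at h1 ⊢
    have h3 : |γ i j - (1 : Matrix (Fin n) (Fin n) ℤ) i j| < 1 := by exact_mod_cast h1
    rw [Int.abs_lt_one_iff, sub_eq_zero] at h3
    rw [h3]
  have hdiag : diagonal (fun j => Real.exp (expo u j)) = (1 : Matrix (Fin n) (Fin n) ℝ) := by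
    have h1 : ((g⁻¹ : G n) : Matrix (Fin n) (Fin n) ℝ) * M u * (g : Matrix (Fin n) (Fin n) ℝ) =
        diagonal (fun j => Real.exp (expo u j)) := by
      simp only [M]
      rw [mul_assoc, mul_assoc, hgg', mul_one, ← mul_assoc, hgg', one_mul]
    rw [← h1, hM1, mul_one, hgg']
  ext i
  have h1 := congrFun (congrFun hdiag ⟨i.1, by omega⟩) ⟨i.1, by omega⟩
  rw [diagonal_apply_eq, one_apply_eq, Real.exp_eq_one_iff, expo_cast] at h1
  exact h1

theorem lat_mul (g h : G n) : lat (g * h) = (fun v => v ᵥ* (h : Matrix (Fin n) (Fin n) ℝ)) '' lat g := by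
  ext v
  constructor
  · rintro ⟨c, rfl⟩
    refine ⟨_, ⟨c, rfl⟩, ?_⟩
    simp [vecMul_vecMul]
  · rintro ⟨_, ⟨c, rfl⟩, rfl⟩
    refine ⟨c, ?_⟩
    simp [vecMul_vecMul]

/-- the lattice determines the point -/
theorem pt_eq_of_lat_eq (a b : G n) (h : lat a = lat b) : pt a = pt b := by
  -- rows of `b` are in `lat a`
  have hrow : ∀ i, ∃ c : Fin n → ℤ, (fun k => (c k : ℝ)) ᵥ* (a : Matrix (Fin n) (Fin n) ℝ) =
      (b : Matrix (Fin n) (Fin n) ℝ) i := by
    intro i
    have : (b : Matrix (Fin n) (Fin n) ℝ) i ∈ lat b := by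
      refine ⟨Pi.single i 1, ?_⟩
      have h1 : (fun k => (((Pi.single i 1 : Fin n → ℤ) k : ℤ) : ℝ)) = Pi.single i 1 := by
        ext k
        by_cases hk : k = i
        · subst hk; simp
        · simp [hk]
      change (fun k => (((Pi.single i 1 : Fin n → ℤ) k : ℤ) : ℝ)) ᵥ* _ = _
      rw [h1, single_one_vecMul]
      rfl
    rw [← h] at this
    exact this
  choose c hc using hrow
  let M : Matrix (Fin n) (Fin n) ℤ := Matrix.of c
  have hM : M.map (Int.castRingHom ℝ) * (a : Matrix (Fin n) (Fin n) ℝ) = b := by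
    ext i j
    have := congrFun (hc i) j
    rw [← this]
    rfl
  have hdet : M.det = 1 := by
    have h1 := congrArg Matrix.det hM
    rw [det_mul, a.2, b.2, mul_one] at h1
    have h2 : ((M.det : ℤ) : ℝ) = 1 := by
      rw [← h1, Int.cast_det]
      rfl
    exact_mod_cast h2
  rw [pt_eq_iff]
  refine ⟨⟨M, hdet⟩, ?_⟩
  rw [eq_mul_inv_iff_mul_eq]
  apply Subtype.ext
  exact hM

end Vale.Agent.P007.Stab
end

section

set_option autoImplicit false

open MeasureTheory Matrix NumberField Filter Topology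
open scoped nonZeroDivisors ENNReal

namespace Vale.Agent.P007.Stab

open Vale.Agent.P007 NumberField.Units NumberField.Units.dirichletUnitTheorem

variable {n : ℕ} (D : Datum n)

/-- the infinite place of the `j`-th real embedding -/
noncomputable def place (j : Fin n) : InfinitePlace D.K :=
  InfinitePlace.mk ((Complex.ofRealHom).comp (D.σ j))

theorem place_apply (j : Fin n) (x : D.K) : place D j x = |D.σ j x| := by
  rw [place, InfinitePlace.apply]
  simp only [RingHom.coe_comp, Function.comp_apply, Complex.ofRealHom_eq_coe, Complex.norm_real,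
    Real.norm_eq_abs]

theorem place_bijective : Function.Bijective (place D) := by
  have hinj : Function.Injective (fun ψ : D.K →+* ℝ => (Complex.ofRealHom).comp ψ) := by
    intro a b hab
    ext x
    have := congrArg (fun f : D.K →+* ℂ => f x) hab
    simpa only [RingHom.coe_comp, Function.comp_apply, Complex.ofRealHom_eq_coe,
      Complex.ofReal_inj] using this
  constructor
  · intro i j hij
    rw [place, place, InfinitePlace.mk_eq_iff] at hij
    apply D.σ.injective
    apply hinj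
    rcases hij with h | h
    · exact h
    · change (Complex.ofRealHom).comp (D.σ i) = (Complex.ofRealHom).comp (D.σ j)
      rw [← h]
      ext x
      simp only [RingHom.coe_comp, Function.comp_apply, Complex.ofRealHom_eq_coe,
        ComplexEmbedding.conjugate, ComplexEmbedding.conjugate_coe_eq, Complex.conj_ofReal]
  · intro w
    have hφ := IsTotallyReal.complexEmbedding_isReal w.embedding
    refine ⟨D.σ.symm hφ.embedding, ?_⟩
    rw [place, Equiv.apply_symm_apply]
    have : (Complex.ofRealHom).comp hφ.embedding = w.embedding := by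
      ext x; simp
    rw [this, InfinitePlace.mk_embedding]

noncomputable def placeEquiv : Fin n ≃ InfinitePlace D.K := Equiv.ofBijective _ (place_bijective D)

theorem placeEquiv_apply (j : Fin n) (x : D.K) : placeEquiv D j x = |D.σ j x| := place_apply D j x

theorem sum_log (ε : (𝓞 D.K)ˣ) : ∑ j, Real.log |D.σ j ((ε : 𝓞 D.K) : D.K)| = 0 := by
  have h := sum_mult_mul_log ε
  rw [← (placeEquiv D).sum_comp] at h
  rw [← h]
  refine Finset.sum_congr rfl fun j _ => ?_
  rw [placeEquiv_apply, IsTotallyReal.mult_eq]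
  simp

/-- logarithmic vector of a unit in the coordinates `u` -/
noncomputable def ulog (ε : (𝓞 D.K)ˣ) : Fin (n - 1) → ℝ :=
  fun i => Real.log |D.σ ⟨i.1, by omega⟩ ((ε : 𝓞 D.K) : D.K)|

theorem expo_of_sum_zero (v : Fin n → ℝ) (hv : ∑ j, v j = 0) (j : Fin n) :
    expo (fun i : Fin (n - 1) => v ⟨i.1, by omega⟩) j = v j := by
  obtain _ | k := n
  · exact j.elim0
  · have hs := hv
    rw [Fin.sum_univ_castSucc] at hs
    unfold expo
    split_ifs with h
    · rfl
    · have hj : j = Fin.last k := by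
        ext
        have := j.2
        simp only [Nat.add_sub_cancel, not_lt] at h
        simp only [Fin.val_last]
        omega
      subst hj
      have h2 : ∑ i : Fin k, v (⟨i.1, by omega⟩ : Fin (k + 1)) = ∑ i : Fin k, v i.castSucc := rfl
      change -∑ i : Fin k, v (⟨i.1, by omega⟩ : Fin (k + 1)) = _
      rw [h2]
      linarith only [hs]

theorem expo_ulog (ε : (𝓞 D.K)ˣ) (j : Fin n) :
    expo (ulog D ε) j = Real.log |D.σ j ((ε : 𝓞 D.K) : D.K)| :=
  expo_of_sum_zero (fun j => Real.log |D.σ j ((ε : 𝓞 D.K) : D.K)|) (sum_log D ε) j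

theorem exists_pow_mem : ∃ k : ℕ, 0 < k ∧ ∀ ε : (𝓞 D.K)ˣ, ((ε : 𝓞 D.K)) ^ k ∈ D.O := by
  set N := D.O.toAddSubgroup.index with hN
  have hN0 : N ≠ 0 := D.full.index_ne_zero
  let I : Ideal (𝓞 D.K) := Ideal.span {(N : 𝓞 D.K)}
  have hI : I ≠ ⊥ := by
    simp only [I, Ne, Ideal.span_singleton_eq_bot]
    exact_mod_cast hN0
  have hfin : Finite (𝓞 D.K ⧸ I) := Ideal.finiteQuotientOfFreeOfNeBot I hI
  refine ⟨Nat.card (𝓞 D.K ⧸ I)ˣ, Nat.card_pos, fun ε => ?_⟩
  have h1 : (Units.map (Ideal.Quotient.mk I).toMonoidHom ε) ^ (Nat.card (𝓞 D.K ⧸ I)ˣ) = 1 :=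
    pow_card_eq_one'
  have h2 : Ideal.Quotient.mk I ((ε : 𝓞 D.K) ^ (Nat.card (𝓞 D.K ⧸ I)ˣ)) = Ideal.Quotient.mk I 1 := by
    rw [map_pow, map_one]
    exact congrArg Units.val h1
  rw [Ideal.Quotient.eq, Ideal.mem_span_singleton] at h2
  obtain ⟨b, hb⟩ := h2
  have h3 : (ε : 𝓞 D.K) ^ (Nat.card (𝓞 D.K ⧸ I)ˣ) = 1 + N • b := by
    rw [nsmul_eq_mul, ← hb]; ring
  rw [h3]
  refine D.O.add_mem D.O.one_mem ?_
  exact AddSubgroup.nsmul_index_mem D.O.toAddSubgroup b

/-- a positive unit of the order stabilises every packet point -/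
theorem mem_stab_of_unit (x : X n) (hx : D.IsPacketPt x) (η : (𝓞 D.K)ˣ)
    (h1 : (η : 𝓞 D.K) ∈ D.O) (h2 : ((η⁻¹ : (𝓞 D.K)ˣ) : 𝓞 D.K) ∈ D.O) (u : Fin (n - 1) → ℝ)
    (hu : ∀ j, Real.exp (expo u j) = D.σ j ((η : 𝓞 D.K) : D.K)) : u ∈ stab x := by
  obtain ⟨I, w, c, g, hc, rfl, hlat⟩ := hx
  rw [mem_stab, tr_pt]
  apply pt_eq_of_lat_eq
  rw [lat_mul, hlat]
  have hact : ∀ v : Fin n → ℝ, v ᵥ* ((aexp u : G n) : Matrix (Fin n) (Fin n) ℝ) =
      fun j => v j * D.σ j ((η : 𝓞 D.K) : D.K) := by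
    intro v
    ext j
    rw [← hu]
    exact vecMul_diagonal _ _ _
  let e1 : D.O := ⟨_, h1⟩
  let e2 : D.O := ⟨_, h2⟩
  have he1 : algebraMap D.O D.K e1 = ((η : 𝓞 D.K) : D.K) := rfl
  have he2 : algebraMap D.O D.K e2 = (((η⁻¹ : (𝓞 D.K)ˣ) : 𝓞 D.K) : D.K) := rfl
  have hinv : ((η : 𝓞 D.K) : D.K) * (((η⁻¹ : (𝓞 D.K)ˣ) : 𝓞 D.K) : D.K) = 1 := by
    simp
  ext v
  constructor
  · rintro ⟨_, ⟨a, ha, rfl⟩, rfl⟩
    refine ⟨e1 • a, Submodule.smul_mem _ e1 ha, ?_⟩
    change (_ : Fin n → ℝ) ᵥ* _ = _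
    rw [hact]
    ext j
    rw [Algebra.smul_def, he1, map_mul]
    ring
  · rintro ⟨a, ha, rfl⟩
    refine ⟨fun j => c * D.σ j (e2 • a) * ((w j : ℤ) : ℝ), ⟨e2 • a, Submodule.smul_mem _ e2 ha, rfl⟩, ?_⟩
    change (_ : Fin n → ℝ) ᵥ* _ = _
    rw [hact]
    ext j
    rw [Algebra.smul_def, he2, map_mul]
    have h3 := congrArg (D.σ j) hinv
    rw [map_mul, map_one] at h3
    linear_combination (c * D.σ j a * ((w j : ℤ) : ℝ)) * h3

/-- the linear map from the logarithmic space of `K` to the coordinates `u` -/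
noncomputable def logMap : logSpace D.K →ₗ[ℝ] (Fin (n - 1) → ℝ) where
  toFun v := fun i => by
    classical
    exact if h : placeEquiv D ⟨i.1, by omega⟩ ≠ w₀ then v ⟨_, h⟩ else -∑ w, v w
  map_add' := by
    intro a b
    ext i
    simp only [Pi.add_apply]
    split_ifs
    · rfl
    · rw [Finset.sum_add_distrib]; ring
  map_smul' := by
    intro r a
    ext i
    simp only [Pi.smul_apply, smul_eq_mul, RingHom.id_apply]
    split_ifs
    · rfl
    · rw [← Finset.mul_sum]; ring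

theorem logMap_surjective : Function.Surjective (logMap D) := by
  classical
  intro u
  refine ⟨fun w => expo u ((placeEquiv D).symm w.1), ?_⟩
  ext i
  have hex : expo u ((placeEquiv D).symm (placeEquiv D ⟨i.1, by omega⟩)) = u i := by
    rw [Equiv.symm_apply_apply, expo_cast]
  change (if h : placeEquiv D ⟨i.1, by omega⟩ ≠ w₀ then
    expo u ((placeEquiv D).symm (placeEquiv D ⟨i.1, by omega⟩))
    else -∑ w : {w : InfinitePlace D.K // w ≠ w₀}, expo u ((placeEquiv D).symm w.1)) = u i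
  split_ifs with h
  · exact hex
  · push Not at h
    have h1 : ∑ w : InfinitePlace D.K, expo u ((placeEquiv D).symm w) = 0 := by
      rw [(placeEquiv D).symm.sum_comp (fun j => expo u j)]
      exact sum_expo u
    rw [Fintype.sum_eq_add_sum_subtype_ne _ w₀] at h1
    rw [← h, hex] at h1
    rw [h] at h1
    linarith only [h1]

theorem logMap_logEmbedding (ε : (𝓞 D.K)ˣ) :
    logMap D (logEmbedding D.K (Additive.ofMul ε)) = ulog D ε := by
  classical
  ext i
  change (if h : placeEquiv D ⟨i.1, by omega⟩ ≠ w₀ then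
    logEmbedding D.K (Additive.ofMul ε) ⟨_, h⟩
    else -∑ w, logEmbedding D.K (Additive.ofMul ε) w) = _
  have h2 : ∀ w : InfinitePlace D.K, w = placeEquiv D ⟨i.1, by omega⟩ →
      (w.mult : ℝ) * Real.log (w ((ε : 𝓞 D.K) : D.K)) = ulog D ε i := by
    intro w hw
    rw [hw, placeEquiv_apply, IsTotallyReal.mult_eq]
    simp only [Nat.cast_one, Real.log_abs, one_mul, ulog]
  split_ifs with h
  · rw [logEmbedding_component]
    exact h2 _ rfl
  · push Not at h
    have h1 := sum_logEmbedding_component ε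
    have h3 := h2 w₀ h.symm
    rw [← h3]
    convert congrArg Neg.neg h1 using 1
    ring

/-- the stabiliser of a packet point spans `ℝ^{n-1}` -/
theorem stab_span (x : X n) (hx : D.IsPacketPt x) :
    Submodule.span ℝ (stab x : Set (Fin (n - 1) → ℝ)) = ⊤ := by
  obtain ⟨k, hk, hpow⟩ := exists_pow_mem D
  have key : ∀ ε : (𝓞 D.K)ˣ, ((2 * k : ℕ) : ℝ) • ulog D ε ∈ stab x := by
    intro ε
    refine mem_stab_of_unit D x hx (ε ^ (2 * k)) ?_ ?_ _ ?_
    · rw [mul_comm, pow_mul]
      push_cast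
      exact Subring.pow_mem _ (by exact_mod_cast hpow ε) 2
    · rw [← inv_pow, mul_comm, pow_mul]
      push_cast
      exact Subring.pow_mem _ (by exact_mod_cast hpow ε⁻¹) 2
    · intro j
      rw [expo_smul, expo_ulog]
      have hne : D.σ j ((ε : 𝓞 D.K) : D.K) ≠ 0 := by
        rw [Ne, map_eq_zero]
        exact_mod_cast ε.ne_zero
      rw [← Real.log_rpow (abs_pos.mpr hne), Real.exp_log (Real.rpow_pos_of_pos (abs_pos.mpr hne) _),
        Real.rpow_natCast, pow_mul, sq_abs, ← pow_mul]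
      push_cast
      simp
  have h1 : Submodule.span ℝ ((fun v => ((2 * k : ℕ) : ℝ) • v) ''
      (logMap D '' (unitLattice D.K : Set (logSpace D.K)))) ≤
      Submodule.span ℝ (stab x : Set (Fin (n - 1) → ℝ)) := by
    apply Submodule.span_mono
    rintro _ ⟨_, ⟨l, hl, rfl⟩, rfl⟩
    obtain ⟨ε, -, rfl⟩ := hl
    have := key ε.toMul
    rw [← logMap_logEmbedding] at this
    exact this
  rw [eq_top_iff]
  refine le_trans ?_ h1
  have h2 : (fun v => ((2 * k : ℕ) : ℝ) • v) ''
      (logMap D '' (unitLattice D.K : Set (logSpace D.K))) =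
      (((2 * k : ℕ) : ℝ) • logMap D) '' (unitLattice D.K : Set (logSpace D.K)) := by
    rw [Set.image_image]; rfl
  rw [h2, Submodule.span_image, unitLattice_span_eq_top, Submodule.map_top, ← eq_top_iff,
    LinearMap.range_eq_top]
  intro v
  obtain ⟨l, hl⟩ := logMap_surjective D ((((2 * k : ℕ) : ℝ))⁻¹ • v)
  refine ⟨l, ?_⟩
  rw [LinearMap.smul_apply, hl, smul_smul, mul_inv_cancel₀, one_smul]
  exact_mod_cast (by (clear * - hk; omega) : 2 * k ≠ 0)

end Vale.Agent.P007.Stab
end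

section

set_option autoImplicit false

open MeasureTheory Matrix NumberField Filter Topology Module
open scoped nonZeroDivisors ENNReal

namespace Vale.Agent.P007.Stab

open Vale.Agent.P007

variable {n : ℕ}

theorem stab_discrete (x : X n) : DiscreteTopology (stab x) := by
  obtain ⟨r, hr, h⟩ := stab_isolated x
  refine discreteTopology_of_isOpen_singleton_zero ?_
  rw [Metric.isOpen_singleton_iff]
  refine ⟨r, hr, fun y hy => ?_⟩
  apply Subtype.ext
  apply h y.1 y.2
  simpa only [dist_zero_right, AddSubgroup.coe_norm] using hy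

/-- the stabiliser as a `ℤ`-submodule -/
def stabL (x : X n) : Submodule ℤ (Fin (n - 1) → ℝ) := AddSubgroup.toIntSubmodule (stab x)

theorem mem_stabL (x : X n) (u : Fin (n - 1) → ℝ) : u ∈ stabL x ↔ tr (aexp u) x = x := Iff.rfl

instance (x : X n) : DiscreteTopology (stabL x) := stab_discrete x

theorem stabL_isZLattice (x : X n)
    (h : Submodule.span ℝ (stab x : Set (Fin (n - 1) → ℝ)) = ⊤) : IsZLattice ℝ (stabL x) := ⟨h⟩

end Vale.Agent.P007.Stab
end

section

open MeasureTheory Matrix NumberField Filter Topology Module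
open scoped nonZeroDivisors ENNReal CompactlySupported Pointwise

namespace Vale.Agent.P007

variable {n : ℕ}

theorem exists_stabBasis (D : Datum n) {x : X n} (hx : D.IsPacketPt x) :
    ∃ b : Basis (Fin (n - 1)) ℝ (Fin (n - 1) → ℝ), StabBasis x b := by
  have hZ := Stab.stabL_isZLattice x (Stab.stab_span D x hx)
  let b₀ := Free.chooseBasis ℤ (Stab.stabL x)
  let b := b₀.ofZLatticeBasis ℝ (Stab.stabL x)
  have hspan : Submodule.span ℤ (Set.range b) = Stab.stabL x :=
    b₀.ofZLatticeBasis_span ℝ (Stab.stabL x)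
  have hcard : Fintype.card (Free.ChooseBasisIndex ℤ (Stab.stabL x)) = Fintype.card (Fin (n - 1)) := by
    rw [← Module.finrank_eq_card_basis b, Module.finrank_pi]
  let e := Fintype.equivOfCardEq hcard
  refine ⟨b.reindex e, fun u => ?_⟩
  rw [Basis.range_reindex, hspan]
  exact Stab.mem_stabL x u

theorem packetMeas_prob (D : Datum n) : IsProbabilityMeasure D.packetMeas := by
  have hfin : Finite D.packet := D.packet_finite.to_subtype
  have := Fintype.ofFinite D.packet
  have hne : Nonempty D.packet := D.packet_nonempty.to_subtype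
  have h0 : ∀ S : D.packet, orbMeas S.1 Set.univ ≠ 0 := by
    rintro ⟨_, x, hx, rfl⟩
    obtain ⟨b, hb⟩ := exists_stabBasis D hx
    exact orbMeas_univ_ne_zero hb
  have htop : ∀ S : D.packet, orbMeas S.1 Set.univ ≠ ⊤ := by
    rintro ⟨_, x, hx, rfl⟩
    obtain ⟨b, hb⟩ := exists_stabBasis D hx
    exact orbMeas_univ_ne_top hb
  constructor
  unfold Datum.packetMeas
  rw [Measure.smul_apply, Measure.sum_apply _ MeasurableSet.univ, smul_eq_mul, tsum_fintype]
  refine ENNReal.inv_mul_cancel ?_ ?_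
  · obtain ⟨S⟩ := hne
    intro h1
    exact h0 S (Finset.sum_eq_zero_iff.mp h1 S (Finset.mem_univ S))
  · exact ENNReal.sum_ne_top.mpr fun S _ => htop S

end Vale.Agent.P007
end
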