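import Vale.Agent.P007.Bdl.B7
import Vale.Agent.P007.Bdl.B1

section

open MeasureTheory Matrix NumberField Filter Topology Module
open scoped nonZeroDivisors ENNReal CompactlySupported

namespace Vale.Agent.P007

variable {n : ℕ} {K : Subfield ℝ} [NumberField K] {O : Subring (𝓞 K)} {σ : Fin n ≃ (K →+* ℝ)}

/-- The datum of a concrete triple. -/
noncomputable def mkD (h : IsDatum K O σ) : Datum n :=
  { K := K, nf := inferInstance, real := h.real, deg := h.deg, O := O, full := h.order, σ := σ }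

theorem pkt_iff (h : IsDatum K O σ) (S : Set (X n)) : Pkt K O σ S ↔ S ∈ (mkD h).packet := by
  constructor
  · rintro ⟨I, w, c, g, hc, hg⟩
    exact ⟨pt g, ⟨I, w, c, g, hc, rfl, hg⟩, rfl⟩
  · rintro ⟨_, ⟨I, w, c, g, hc, rfl, hg⟩, rfl⟩
    exact Pkt.mk I w c g hc hg

theorem OrbMeas_iff (D : Datum n) {S : Set (X n)} (hS : S ∈ D.packet) (l : Measure (X n)) :
    OrbMeas S l ↔ l = orbMeas S := by
  obtain ⟨y, hy, rfl⟩ := hS
  obtain ⟨b, hb⟩ := exists_stabBasis D hy
  constructor
  · intro h
    generalize hS' : orb y = S at h ⊢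
    obtain ⟨x, D', hD', hbij⟩ := h
    have hx : x ∈ orb y := hS' ▸ mem_orb_self x
    obtain ⟨v, rfl⟩ := hx
    exact (orbMeas_eq (hb.orb v) ⟨hD', hbij⟩).symm
  · rintro rfl
    have h1 := hb.isSection_fundamentalDomain
    rw [orbMeas_eq hb h1]
    exact OrbMeas.mk y _ h1.1 h1.2

theorem pktMeas_iff (h : IsDatum K O σ) (μ : Measure (X n)) :
    PktMeas (Pkt K O σ) μ ↔ μ = (mkD h).packetMeas := by
  have hP : Pkt K O σ = fun S => S ∈ (mkD h).packet := funext fun S => propext (pkt_iff h S)
  rw [hP]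
  constructor
  · rintro ⟨l, hl, rfl⟩
    have h1 : ∀ S : (mkD h).packet, l S = orbMeas S.1 := fun S =>
      (OrbMeas_iff (mkD h) S.2 _).mp (hl S.1 S.2)
    unfold Datum.packetMeas
    have h2 : (fun S : {S // S ∈ (mkD h).packet} => l S) = fun S => orbMeas S.1 :=
      funext fun S => h1 S
    have h3 : (fun S : {S // S ∈ (mkD h).packet} => l S Set.univ) =
        fun S => orbMeas S.1 Set.univ := funext fun S => by rw [h1 S]
    change (∑' S : {S // S ∈ (mkD h).packet}, l S Set.univ)⁻¹ •
      Measure.sum (fun S : {S // S ∈ (mkD h).packet} => l S) = _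
    rw [h2, h3]
  · rintro rfl
    exact ⟨orbMeas, fun S hS => (OrbMeas_iff (mkD h) hS _).mpr rfl, rfl⟩

theorem existsUnique_pktMeas (h : IsDatum K O σ) :
    ∃! μ : Measure (X n), PktMeas (Pkt K O σ) μ := by
  refine ⟨(mkD h).packetMeas, (pktMeas_iff h _).mpr rfl, fun μ hμ => (pktMeas_iff h μ).mp hμ⟩

theorem pktMeas_prob (h : IsDatum K O σ) {μ : Measure (X n)} (hμ : PktMeas (Pkt K O σ) μ) :
    IsProbabilityMeasure μ := by
  rw [(pktMeas_iff h μ).mp hμ]
  exact packetMeas_prob (mkD h)

/-- The necessary condition in concrete form. -/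
theorem necessary' {K : ℕ → Subfield ℝ} [∀ i, NumberField (K i)] {O : ∀ i, Subring (𝓞 (K i))}
    {σ : ∀ i, Fin n ≃ (K i →+* ℝ)} {μ : ℕ → Measure (X n)} {m : Measure (X n)}
    (h : ∀ i, IsDatum (K i) (O i) (σ i)) (hμ : ∀ i, PktMeas (Pkt (K i) (O i) (σ i)) (μ i))
    (hm : IsInvProb m) (hW : WeakTo μ m) (B : ℝ) :
    ∀ᶠ i in atTop, ∀ a ∈ O i, (∀ j, |σ i j a| ≤ B) → ∃ z : ℤ, a = z := by
  have h1 : μ = fun i => (mkD (h i)).packetMeas := funext fun i => (pktMeas_iff (h i) _).mp (hμ i)
  subst h1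
  have h2 := necessary (D := fun i => mkD (h i)) hm hW.1 B
  filter_upwards [h2] with i hi a ha haB
  exact hi ⟨a, ha⟩ haB

/-- Transport of a totally real field to a subfield of `ℝ`. -/
theorem exists_subfields (hn : 4 ≤ n) (hc : ¬ n.Prime) :
    ∃ (B : ℝ) (K : ℕ → Subfield ℝ) (_ : ∀ i, NumberField (K i)),
      (∀ i, IsTotallyReal (K i) ∧ Module.finrank ℚ (K i) = n) ∧
      Tendsto (fun i => |discr (K i)|) atTop atTop ∧
      ∀ i, ∃ a : 𝓞 (K i), (∀ z : ℤ, a ≠ z) ∧ ∀ φ : K i →+* ℝ, |φ a| ≤ B := by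
  obtain ⟨B, D, hO, hdisc, ha⟩ := exists_fields n hn hc
  have hpos : 0 < n := by omega
  let φ : ∀ i, (D i).K →+* ℝ := fun i => (D i).σ ⟨0, hpos⟩
  let K : ℕ → Subfield ℝ := fun i => (φ i).fieldRange
  let e : ∀ i, (D i).K ≃+* K i := fun i => (φ i).rangeRestrictFieldEquiv
  have hnf : ∀ i, NumberField (K i) := fun i => NumberField.of_ringEquiv _ _ (e i)
  refine ⟨B, K, hnf, fun i => ⟨IsTotallyReal.ofRingEquiv (e i), ?_⟩, ?_, ?_⟩
  · have h1 := (D i).deg
    rw [← h1]
    exact (LinearEquiv.finrank_eq ((e i).toRatAlgEquiv).toLinearEquiv).symm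
  · have h1 : (fun i => |discr (K i)|) = fun i => (((D i).disc : ℕ) : ℤ) := by
      funext i
      have h2 : (D i).O.toAddSubgroup.index = 1 := by
        rw [hO i, AddSubgroup.index_eq_one]
        rfl
      rw [Datum.disc, h2, one_pow, mul_one, Int.abs_eq_natAbs,
        discr_eq_discr_of_ringEquiv (D i).K (e i)]
    rw [h1]
    exact tendsto_natCast_atTop_atTop.comp hdisc
  · intro i
    obtain ⟨a, ha1, ha2⟩ := ha i
    refine ⟨RingOfIntegers.mapRingEquiv (e i) a, ?_, ?_⟩
    · intro z hz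
      apply ha1 z
      apply (RingOfIntegers.mapRingEquiv (e i)).injective
      rw [hz, map_intCast]
    · intro ψ
      have := ha2 (ψ.comp (e i).toRingHom)
      exact this

end Vale.Agent.P007
end

section

set_option autoImplicit false

open Module Matrix MeasureTheory Filter Topology
open scoped ENNReal

namespace Vale.Agent.P007.Exist

open Vale.Agent.P007

variable {n : ℕ}

abbrev V (n : ℕ) : Type := Fin n → Fin n → ℝ

/-- determinant on `V` -/
noncomputable def dt (A : V n) : ℝ := Matrix.det (Matrix.of A)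

/-- right multiplication -/
def rmul (h : Matrix (Fin n) (Fin n) ℝ) (A : V n) : V n := fun i => A i ᵥ* h

/-- left multiplication -/
def lmul (g : Matrix (Fin n) (Fin n) ℝ) (A : V n) : V n := fun i j => ∑ k, g i k * A k j

/-- transposition -/
def tp (A : V n) : V n := fun i j => A j i

theorem continuous_dt : Continuous (dt (n := n)) := by
  unfold dt
  have h : Continuous (fun A : V n => (Matrix.of A : Matrix (Fin n) (Fin n) ℝ)) := continuous_id
  exact h.matrix_det

theorem of_rmul (h : Matrix (Fin n) (Fin n) ℝ) (A : V n) :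
    Matrix.of (rmul h A) = Matrix.of A * h := by
  ext i j
  rfl

theorem of_lmul (g : Matrix (Fin n) (Fin n) ℝ) (A : V n) :
    Matrix.of (lmul g A) = g * Matrix.of A := by
  ext i j
  rfl

theorem dt_rmul (h : Matrix (Fin n) (Fin n) ℝ) (A : V n) : dt (rmul h A) = dt A * h.det := by
  rw [dt, of_rmul, det_mul]; rfl

theorem dt_lmul (g : Matrix (Fin n) (Fin n) ℝ) (A : V n) : dt (lmul g A) = g.det * dt A := by
  rw [dt, of_lmul, det_mul]; rfl

theorem rmul_measurePreserving (h : Matrix (Fin n) (Fin n) ℝ) (hd : h.det = 1) :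
    MeasurePreserving (rmul h) volume volume := by
  have h0 : MeasurePreserving (fun v : Fin n → ℝ => v ᵥ* h) volume volume := by
    have h1 : (fun v : Fin n → ℝ => v ᵥ* h) = toLin' hᵀ := by
      funext v
      rw [toLin'_apply, mulVec_transpose]
    rw [h1]
    refine ⟨(LinearMap.continuous_of_finiteDimensional _).measurable, ?_⟩
    rw [Real.map_matrix_volume_pi_eq_smul_volume_pi (by rw [det_transpose, hd]; exact one_ne_zero),
      det_transpose, hd]
    simp
  exact volume_preserving_pi (fun _ : Fin n => h0)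

theorem tp_measurePreserving : MeasurePreserving (tp (n := n)) volume volume := by
  let T : V n →ₗ[ℝ] V n :=
    { toFun := tp, map_add' := fun _ _ => rfl, map_smul' := fun _ _ => rfl }
  have hTT : T ∘ₗ T = LinearMap.id := rfl
  have hdet : LinearMap.det T * LinearMap.det T = 1 := by
    rw [← LinearMap.det_comp, hTT, LinearMap.det_id]
  have habs : |(LinearMap.det T)⁻¹| = 1 := by
    have h1 : |LinearMap.det T| * |LinearMap.det T| = 1 := by rw [← abs_mul, hdet, abs_one]
    have h2 : |LinearMap.det T| = 1 := by nlinarith only [abs_nonneg (LinearMap.det T), h1]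
    rw [abs_inv, h2, inv_one]
  refine ⟨(LinearMap.continuous_of_finiteDimensional T).measurable, ?_⟩
  have h3 := Measure.map_linearMap_addHaar_eq_smul_addHaar (volume : Measure (V n)) (f := T)
    (by intro h; rw [h, zero_mul] at hdet; exact zero_ne_one hdet)
  rw [habs, ENNReal.ofReal_one, one_smul] at h3
  exact h3

theorem lmul_measurePreserving (g : Matrix (Fin n) (Fin n) ℝ) (hd : g.det = 1) :
    MeasurePreserving (lmul g) volume volume := by
  have h1 : lmul g = tp ∘ rmul gᵀ ∘ tp := by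
    funext A i j
    change ∑ k, g i k * A k j = ∑ k, A k j * gᵀ k i
    exact Finset.sum_congr rfl fun k _ => by rw [transpose_apply, mul_comm]
  rw [h1]
  exact tp_measurePreserving.comp
    ((rmul_measurePreserving gᵀ (by rw [det_transpose, hd])).comp tp_measurePreserving)

/-- the action of `SL_n(ℤ)` on `V` -/
def act (γ : SpecialLinearGroup (Fin n) ℤ) (A : V n) : V n :=
  lmul ((γ : Matrix (Fin n) (Fin n) ℤ).map (Int.cast : ℤ → ℝ)) A

theorem det_cast (γ : SpecialLinearGroup (Fin n) ℤ) :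
    ((γ : Matrix (Fin n) (Fin n) ℤ).map (Int.cast : ℤ → ℝ)).det = 1 := by
  have h1 : ((γ : Matrix (Fin n) (Fin n) ℤ).map (Int.cast : ℤ → ℝ)).det =
      (((γ : Matrix (Fin n) (Fin n) ℤ).det : ℤ) : ℝ) := by
    rw [Int.cast_det]
  rw [h1, γ.2, Int.cast_one]

theorem act_measurePreserving (γ : SpecialLinearGroup (Fin n) ℤ) :
    MeasurePreserving (act γ) volume volume := lmul_measurePreserving _ (det_cast γ)

theorem act_mul (γ δ : SpecialLinearGroup (Fin n) ℤ) (A : V n) :
    act (γ * δ) A = act γ (act δ A) := by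
  have h1 : ((γ * δ : SpecialLinearGroup (Fin n) ℤ) : Matrix (Fin n) (Fin n) ℤ).map
      (Int.cast : ℤ → ℝ) = (γ : Matrix (Fin n) (Fin n) ℤ).map (Int.cast : ℤ → ℝ) *
        (δ : Matrix (Fin n) (Fin n) ℤ).map (Int.cast : ℤ → ℝ) :=
    Matrix.map_mul (f := Int.castRingHom ℝ)
  have h2 : Matrix.of (act (γ * δ) A) = Matrix.of (act γ (act δ A)) := by
    rw [act, act, act, of_lmul, of_lmul, of_lmul, h1, mul_assoc]
  exact h2

theorem act_one (A : V n) : act 1 A = A := by
  have h2 : Matrix.of (act 1 A) = Matrix.of A := by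
    rw [act, of_lmul]
    have : ((1 : SpecialLinearGroup (Fin n) ℤ) : Matrix (Fin n) (Fin n) ℤ).map
      (Int.cast : ℤ → ℝ) = 1 := Matrix.map_one _ (by simp) (by simp)
    rw [this, one_mul]
  exact h2

theorem dt_act (γ : SpecialLinearGroup (Fin n) ℤ) (A : V n) : dt (act γ A) = dt A := by
  rw [act, dt_lmul, det_cast, one_mul]

theorem act_rmul (γ : SpecialLinearGroup (Fin n) ℤ) (h : Matrix (Fin n) (Fin n) ℝ) (A : V n) :
    act γ (rmul h A) = rmul h (act γ A) := by
  have h2 : Matrix.of (act γ (rmul h A)) = Matrix.of (rmul h (act γ A)) := by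
    rw [act, act, of_lmul, of_rmul, of_rmul, of_lmul, mul_assoc]
  exact h2

/-- the set `0 < det ≤ 1` -/
def Dom (n : ℕ) : Set (V n) := {A | 0 < dt A ∧ dt A ≤ 1}

theorem measurableSet_Dom : MeasurableSet (Dom n) :=
  (isOpen_lt continuous_const continuous_dt).measurableSet.inter
    (isClosed_le continuous_dt continuous_const).measurableSet

theorem act_Dom (γ : SpecialLinearGroup (Fin n) ℤ) : act γ ⁻¹' (Dom n) = Dom n := by
  ext A
  simp only [Dom, Set.mem_preimage, Set.mem_ofPred_eq, dt_act]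

theorem act_restrict (γ : SpecialLinearGroup (Fin n) ℤ) :
    MeasurePreserving (act γ) (volume.restrict (Dom n)) (volume.restrict (Dom n)) := by
  have := (act_measurePreserving γ).restrict_preimage (measurableSet_Dom (n := n))
  rwa [act_Dom] at this

theorem rmul_Dom (h : Matrix (Fin n) (Fin n) ℝ) (hd : h.det = 1) :
    rmul h ⁻¹' (Dom n) = Dom n := by
  ext A
  simp only [Dom, Set.mem_preimage, Set.mem_ofPred_eq, dt_rmul, hd, mul_one]

theorem rmul_restrict (h : Matrix (Fin n) (Fin n) ℝ) (hd : h.det = 1) :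
    MeasurePreserving (rmul h) (volume.restrict (Dom n)) (volume.restrict (Dom n)) := by
  have := (rmul_measurePreserving h hd).restrict_preimage (measurableSet_Dom (n := n))
  rwa [rmul_Dom h hd] at this

instance countable_SLZ : Countable (SpecialLinearGroup (Fin n) ℤ) := by
  have : Countable (Matrix (Fin n) (Fin n) ℤ) := inferInstanceAs (Countable (Fin n → Fin n → ℤ))
  exact inferInstanceAs (Countable {A : Matrix (Fin n) (Fin n) ℤ // A.det = 1})

/-- Unfolding / swapping. -/
theorem swap (f g : V n → ℝ≥0∞) (hf : Measurable f) (hg : Measurable g) :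
    ∫⁻ A in Dom n, f A * ∑' γ : SpecialLinearGroup (Fin n) ℤ, g (act γ A) =
      ∫⁻ A in Dom n, g A * ∑' γ : SpecialLinearGroup (Fin n) ℤ, f (act γ A) := by
  have h1 : ∀ (f g : V n → ℝ≥0∞), Measurable f → Measurable g →
      ∫⁻ A in Dom n, f A * ∑' γ : SpecialLinearGroup (Fin n) ℤ, g (act γ A) =
      ∑' γ : SpecialLinearGroup (Fin n) ℤ, ∫⁻ A in Dom n, f A * g (act γ A) := by
    intro f g hf hg
    rw [← lintegral_tsum]
    · simp_rw [ENNReal.tsum_mul_left]
    · intro γ
      exact (hf.mul (hg.comp (act_measurePreserving γ).measurable)).aemeasurable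
  rw [h1 f g hf hg, h1 g f hg hf, ← (Equiv.inv _).tsum_eq]
  refine tsum_congr fun γ => ?_
  have h2 : Measurable fun A => f A * g (act γ⁻¹ A) :=
    hf.mul (hg.comp (act_measurePreserving γ⁻¹).measurable)
  have h3 := (act_restrict (n := n) γ).lintegral_comp h2
  change ∫⁻ A in Dom n, f A * g (act γ⁻¹ A) = _
  rw [← h3]
  refine lintegral_congr fun A => ?_
  rw [← act_mul, inv_mul_cancel, act_one, mul_comm]

/-- the standard basis of `V` -/
noncomputable def stdB (n : ℕ) : Basis (Σ _ : Fin n, Fin n) ℝ (V n) :=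
  Pi.basis (fun _ => Pi.basisFun ℝ (Fin n))

/-- the lattice of integer matrices -/
def intL (n : ℕ) : Submodule ℤ (V n) := Submodule.span ℤ (Set.range (stdB n))

instance : DiscreteTopology (intL n) :=
  inferInstanceAs (DiscreteTopology (Submodule.span ℤ (Set.range (stdB n))))

instance : IsZLattice ℝ (intL n) :=
  inferInstanceAs (IsZLattice ℝ (Submodule.span ℤ (Set.range (stdB n))))

theorem int_mem (M : Matrix (Fin n) (Fin n) ℤ) : (fun i j => (M i j : ℝ) : V n) ∈ intL n := by
  have h1 : (fun i j => (M i j : ℝ) : V n) = ∑ p : (Σ _ : Fin n, Fin n), M p.1 p.2 • stdB n p := by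
    funext i j
    rw [Finset.sum_apply, Finset.sum_apply, Fintype.sum_sigma, Finset.sum_eq_single i]
    · rw [Finset.sum_eq_single j]
      · simp [stdB, Pi.basis_apply]
      · intro b _ hb
        simp [stdB, Pi.basis_apply, hb.symm]
      · simp only [Finset.mem_univ, not_true_eq_false, Pi.smul_apply, zsmul_eq_mul, mul_eq_zero,
          Int.cast_eq_zero, IsEmpty.forall_iff]
    · intro a _ ha
      apply Finset.sum_eq_zero
      intro b _
      simp [stdB, Pi.basis_apply, ha.symm]
    · simp only [Finset.mem_univ, not_true_eq_false, Pi.smul_apply, zsmul_eq_mul,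
        IsEmpty.forall_iff]
  rw [h1]
  exact Submodule.sum_mem _ fun p _ => Submodule.smul_mem _ _ (Submodule.subset_span ⟨p, rfl⟩)

theorem summable_intL : Summable fun z : intL n => ‖z‖ ^ (-((n * n : ℕ) : ℝ) - 1) := by
  apply ZLattice.summable_norm_rpow
  have h1 : finrank ℤ (intL n) = n * n := by
    have : finrank ℤ (intL n) = finrank ℝ (V n) := ZLattice.rank ℝ (intL n)
    rw [this, finrank_pi_fintype]
    simp only [finrank_fintype_fun_eq_card, Fintype.card_fin, Finset.sum_const, Finset.card_univ,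
      smul_eq_mul]
  rw [h1]
  linarith only []

/-- the weight -/
noncomputable def psi (A : V n) : ℝ≥0∞ := ENNReal.ofReal (‖A‖ ^ (-((n * n : ℕ) : ℝ) - 1))

noncomputable def Psi (A : V n) : ℝ≥0∞ := ∑' γ : SpecialLinearGroup (Fin n) ℤ, psi (act γ A)

theorem measurable_psi : Measurable (psi (n := n)) := by
  unfold psi
  fun_prop

theorem measurable_Psi : Measurable (Psi (n := n)) := by
  unfold Psi
  exact Measurable.tsum fun γ => measurable_psi.comp (act_measurePreserving γ).measurable

theorem Psi_act (γ : SpecialLinearGroup (Fin n) ℤ) (A : V n) : Psi (act γ A) = Psi A := by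
  unfold Psi
  simp_rw [← act_mul]
  exact (Equiv.mulRight γ).tsum_eq (fun δ => psi (act δ A))

/-- the integer matrix as an element of `V` -/
def castV (γ : SpecialLinearGroup (Fin n) ℤ) : V n :=
  fun i j => ((γ : Matrix (Fin n) (Fin n) ℤ) i j : ℝ)

theorem castV_injective : Function.Injective (castV (n := n)) := by
  intro γ δ h
  apply Subtype.ext
  ext i j
  have h1 : ((γ.1 i j : ℤ) : ℝ) = ((δ.1 i j : ℤ) : ℝ) := congrFun (congrFun h i) j
  exact_mod_cast h1

theorem exists_bound (A : V n) (hA : dt A ≠ 0) :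
    ∃ C : ℝ, 0 < C ∧ ∀ γ : SpecialLinearGroup (Fin n) ℤ, ‖castV γ‖ ≤ C * ‖act γ A‖ := by
  let h : Matrix (Fin n) (Fin n) ℝ := (Matrix.of A)⁻¹
  let T : V n →ₗ[ℝ] V n :=
    { toFun := rmul h
      map_add' := fun B C => by
        funext i; exact add_vecMul h (B i) (C i)
      map_smul' := fun c B => by
        funext i; exact smul_vecMul c (B i) h }
  let L : V n →L[ℝ] V n := LinearMap.toContinuousLinearMap T
  refine ⟨‖L‖ + 1, by positivity, fun γ => ?_⟩
  have h1 : castV γ = L (act γ A) := by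
    have h2 : Matrix.of (castV γ) = Matrix.of (rmul h (act γ A)) := by
      rw [of_rmul, act, of_lmul, mul_assoc, mul_nonsing_inv _ (isUnit_iff_ne_zero.mpr hA), mul_one]
      rfl
    exact h2
  calc ‖castV γ‖ = ‖L (act γ A)‖ := by rw [h1]
    _ ≤ ‖L‖ * ‖act γ A‖ := L.le_opNorm _
    _ ≤ _ := by nlinarith only [norm_nonneg (act γ A)]

theorem castV_ne_zero (γ : SpecialLinearGroup (Fin (n + 1)) ℤ) : castV γ ≠ 0 := by
  intro h
  have h1 : (γ : Matrix (Fin (n + 1)) (Fin (n + 1)) ℤ).det = 1 := γ.2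
  have h2 : (γ : Matrix (Fin (n + 1)) (Fin (n + 1)) ℤ) = 0 := by
    ext i j
    have h3 : ((γ.1 i j : ℤ) : ℝ) = ((0 : ℤ) : ℝ) := by
      rw [Int.cast_zero]; exact congrFun (congrFun h i) j
    exact_mod_cast h3
  rw [h2, det_zero] at h1
  exact zero_ne_one h1

/-- the integer matrix as an element of the lattice -/
def castL (γ : SpecialLinearGroup (Fin n) ℤ) : intL n := ⟨castV γ, int_mem _⟩

theorem castL_injective : Function.Injective (castL (n := n)) := by
  intro γ δ h
  exact castV_injective (congrArg Subtype.val h)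

theorem norm_castL (γ : SpecialLinearGroup (Fin n) ℤ) : ‖castL γ‖ = ‖castV γ‖ :=
  Submodule.coe_norm (castL γ)

theorem rpow_le_aux (x y C r : ℝ) (hx : 0 < x) (hC : 0 < C) (hr : r ≤ 0) (h : x ≤ C * y) :
    y ^ r ≤ C ^ (-r) * x ^ r := by
  have h2 : x / C ≤ y := by
    rw [div_le_iff₀ hC, mul_comm]; exact h
  have h3 := Real.rpow_le_rpow_of_nonpos (div_pos hx hC) h2 hr
  refine h3.trans (le_of_eq ?_)
  rw [Real.div_rpow hx.le hC.le, Real.rpow_neg hC.le]
  field_simp

theorem tsum_aux (A : V (n + 1)) (hA : dt A ≠ 0) (r : ℝ) (hr : r ≤ 0)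
    (hs : Summable fun z : intL (n + 1) => ‖z‖ ^ r) :
    ∑' γ : SpecialLinearGroup (Fin (n + 1)) ℤ, ENNReal.ofReal (‖act γ A‖ ^ r) < ⊤ := by
  obtain ⟨C, hC, hb⟩ := exists_bound A hA
  have hsum : Summable fun γ : SpecialLinearGroup (Fin (n + 1)) ℤ => C ^ (-r) * ‖castV γ‖ ^ r := by
    apply Summable.mul_left
    exact (hs.comp_injective castL_injective).congr fun γ => by
      rw [Function.comp_apply, norm_castL]
  have hle : ∑' γ : SpecialLinearGroup (Fin (n + 1)) ℤ, ENNReal.ofReal (‖act γ A‖ ^ r) ≤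
      ∑' γ : SpecialLinearGroup (Fin (n + 1)) ℤ, ENNReal.ofReal (C ^ (-r) * ‖castV γ‖ ^ r) := by
    refine ENNReal.tsum_le_tsum fun γ => ?_
    refine ENNReal.ofReal_le_ofReal ?_
    exact rpow_le_aux _ _ _ _ (norm_pos_iff.mpr (castV_ne_zero γ)) hC hr (hb γ)
  refine lt_of_le_of_lt hle ?_
  rw [← ENNReal.ofReal_tsum_of_nonneg _ hsum]
  · exact ENNReal.ofReal_lt_top
  · intro γ
    exact mul_nonneg (Real.rpow_nonneg hC.le _) (Real.rpow_nonneg (norm_nonneg _) _)

theorem Psi_lt_top (A : V (n + 1)) (hA : dt A ≠ 0) : Psi A < ⊤ := by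
  refine tsum_aux A hA _ ?_ summable_intL
  have : (0 : ℝ) ≤ (((n + 1) * (n + 1) : ℕ) : ℝ) := Nat.cast_nonneg _
  linarith

theorem psi_pos (A : V (n + 1)) (hA : dt A ≠ 0) : 0 < psi A := by
  rw [psi, ENNReal.ofReal_pos]
  apply Real.rpow_pos_of_pos
  rw [norm_pos_iff]
  rintro rfl
  apply hA
  rw [dt]
  exact det_zero

theorem Psi_pos (A : V (n + 1)) (hA : dt A ≠ 0) : 0 < Psi A := by
  refine lt_of_lt_of_le (psi_pos A hA) ?_
  have h1 := ENNReal.le_tsum (f := fun γ : SpecialLinearGroup (Fin (n + 1)) ℤ => psi (act γ A)) 1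
  simp only [act_one] at h1
  exact h1

/-- the weight with total mass one on orbits -/
noncomputable def wt (A : V n) : ℝ≥0∞ := psi A / Psi A

theorem measurable_wt : Measurable (wt (n := n)) := measurable_psi.div measurable_Psi

theorem wt_sum (A : V (n + 1)) (hA : dt A ≠ 0) :
    ∑' γ : SpecialLinearGroup (Fin (n + 1)) ℤ, wt (act γ A) = 1 := by
  simp only [wt, Psi_act, div_eq_mul_inv]
  rw [ENNReal.tsum_mul_right]
  exact ENNReal.mul_inv_cancel (Psi_pos A hA).ne' (Psi_lt_top A hA).ne

theorem wt_pos (A : V (n + 1)) (hA : dt A ≠ 0) : 0 < wt A :=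
  ENNReal.div_pos (psi_pos A hA).ne' (Psi_lt_top A hA).ne

theorem lintegral_wt_lt_top : ∫⁻ A in Dom (n + 1), wt A < ⊤ := by
  obtain ⟨F, hF1, hF2, hF3⟩ := Red.exists_covers_SL n
  have h1 : ∫⁻ A in Dom (n + 1), wt A ≤ ∫⁻ A in Dom (n + 1), wt A *
      ∑' γ : SpecialLinearGroup (Fin (n + 1)) ℤ, F.indicator 1 (act γ A) := by
    refine setLIntegral_mono' measurableSet_Dom fun A hA => ?_
    obtain ⟨γ, hγ⟩ := hF3 (Matrix.of A) hA.1 hA.2
    have h2 : (1 : ℝ≥0∞) ≤ ∑' γ : SpecialLinearGroup (Fin (n + 1)) ℤ, F.indicator 1 (act γ A) := by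
      refine le_trans ?_ (ENNReal.le_tsum γ)
      have h3 : act γ A ∈ F := hγ
      rw [Set.indicator_of_mem h3]
      rfl
    calc wt A = wt A * 1 := (mul_one _).symm
      _ ≤ _ := by gcongr
  refine lt_of_le_of_lt h1 ?_
  rw [swap _ _ measurable_wt (measurable_one.indicator hF1)]
  have h4 : ∫⁻ A in Dom (n + 1), F.indicator 1 A *
      ∑' γ : SpecialLinearGroup (Fin (n + 1)) ℤ, wt (act γ A) =
      ∫⁻ A in Dom (n + 1), F.indicator 1 A := by
    refine setLIntegral_congr_fun measurableSet_Dom fun A hA => ?_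
    rw [wt_sum A hA.1.ne', mul_one]
  rw [h4]
  calc ∫⁻ A in Dom (n + 1), F.indicator 1 A ≤ ∫⁻ A, F.indicator 1 A := setLIntegral_le_lintegral _ _
    _ = volume F := by rw [lintegral_indicator_one hF1]
    _ < ⊤ := hF2

/-- normalisation to determinant one -/
noncomputable def toG (A : {A : V (n + 1) // 0 < dt A}) : G (n + 1) :=
  ⟨(dt A.1 ^ (-(1 / ((n + 1 : ℕ) : ℝ)))) • Matrix.of A.1, by
    rw [det_smul, Fintype.card_fin, ← Real.rpow_natCast, ← Real.rpow_mul A.2.le]
    have h1 : -(1 / ((n + 1 : ℕ) : ℝ)) * ((n + 1 : ℕ) : ℝ) = -1 := by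
      field_simp
    rw [h1, Real.rpow_neg_one]
    exact inv_mul_cancel₀ A.2.ne'⟩

theorem continuous_toG : Continuous (toG (n := n)) := by
  refine (Matrix.SpecialLinearGroup.isClosedEmbedding_val.isEmbedding.isInducing.continuous_iff).mpr ?_
  have h1 : Continuous fun A : {A : V (n + 1) // 0 < dt A} =>
      (dt A.1 ^ (-(1 / ((n + 1 : ℕ) : ℝ)))) := by
    refine (continuous_dt.comp continuous_subtype_val).rpow_const fun A => Or.inl ?_
    exact A.2.ne'
  have h2 : Continuous fun A : {A : V (n + 1) // 0 < dt A} =>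
      (Matrix.of A.1 : Matrix (Fin (n + 1)) (Fin (n + 1)) ℝ) := continuous_subtype_val
  exact h1.smul h2

open Classical in
/-- the projection of matrices of positive determinant to `X_n` -/
noncomputable def proj (A : V (n + 1)) : X (n + 1) :=
  if h : 0 < dt A then pt (toG ⟨A, h⟩) else pt 1

theorem measurable_proj : Measurable (proj (n := n)) := by
  classical
  unfold proj
  have h1 : Measurable fun A : {A : V (n + 1) // 0 < dt A} => pt (toG A) :=
    (continuous_pt.comp continuous_toG).measurable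
  have h2 : MeasurableSet {A : V (n + 1) | 0 < dt A} :=
    (isOpen_lt continuous_const continuous_dt).measurableSet
  exact Measurable.dite h1 (measurable_const (a := pt (1 : G (n + 1)))) h2

theorem proj_of_pos (A : V (n + 1)) (h : 0 < dt A) : proj A = pt (toG ⟨A, h⟩) := by
  rw [proj, dif_pos h]

theorem proj_act (γ : SpecialLinearGroup (Fin (n + 1)) ℤ) (A : V (n + 1)) :
    proj (act γ A) = proj A := by
  by_cases h : 0 < dt A
  · have h' : 0 < dt (act γ A) := by rw [dt_act]; exact h
    rw [proj_of_pos A h, proj_of_pos _ h', eq_comm, pt_eq_pt]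
    refine ⟨γ, ?_⟩
    rw [eq_mul_inv_iff_mul_eq]
    apply Subtype.ext
    change ((γ : Matrix (Fin (n + 1)) (Fin (n + 1)) ℤ).map (Int.cast : ℤ → ℝ)) *
      ((dt A ^ (-(1 / ((n + 1 : ℕ) : ℝ)))) • Matrix.of A) =
      (dt (act γ A) ^ (-(1 / ((n + 1 : ℕ) : ℝ)))) • Matrix.of (act γ A)
    rw [dt_act, act, of_lmul, Matrix.mul_smul]
  · have h' : ¬ 0 < dt (act γ A) := by rw [dt_act]; exact h
    rw [proj, dif_neg h', proj, dif_neg h]

theorem proj_rmul (g : G (n + 1)) (A : V (n + 1)) (h : 0 < dt A) :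
    proj (rmul (g : Matrix (Fin (n + 1)) (Fin (n + 1)) ℝ) A) = tr g (proj A) := by
  have hd : (g : Matrix (Fin (n + 1)) (Fin (n + 1)) ℝ).det = 1 := g.2
  have h' : 0 < dt (rmul (g : Matrix (Fin (n + 1)) (Fin (n + 1)) ℝ) A) := by
    rw [dt_rmul, hd, mul_one]; exact h
  rw [proj_of_pos A h, proj_of_pos _ h', tr_pt]
  congr 1
  apply Subtype.ext
  change (dt (rmul (g : Matrix (Fin (n + 1)) (Fin (n + 1)) ℝ) A) ^ (-(1 / ((n + 1 : ℕ) : ℝ)))) •
    Matrix.of (rmul (g : Matrix (Fin (n + 1)) (Fin (n + 1)) ℝ) A) =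
    ((dt A ^ (-(1 / ((n + 1 : ℕ) : ℝ)))) • Matrix.of A) *
      (g : Matrix (Fin (n + 1)) (Fin (n + 1)) ℝ)
  rw [dt_rmul, hd, mul_one, of_rmul, Matrix.smul_mul]

/-- the unnormalised invariant measure -/
noncomputable def mass (n : ℕ) : Measure (X (n + 1)) :=
  ((volume.restrict (Dom (n + 1))).withDensity wt).map proj

theorem mass_apply (E : Set (X (n + 1))) (hE : MeasurableSet E) :
    mass n E = ∫⁻ A in Dom (n + 1), (proj ⁻¹' E).indicator 1 A * wt A := by
  rw [mass, Measure.map_apply measurable_proj hE, withDensity_apply _ (measurable_proj hE),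
    ← lintegral_indicator (measurable_proj hE)]
  refine lintegral_congr fun A => ?_
  by_cases h : A ∈ proj ⁻¹' E
  · rw [Set.indicator_of_mem h, Set.indicator_of_mem h]; simp
  · rw [Set.indicator_of_notMem h, Set.indicator_of_notMem h]; simp

theorem mass_inv (g : G (n + 1)) : (mass n).map (tr g) = mass n := by
  ext E hE
  have hE' : MeasurableSet (tr g ⁻¹' E) := (continuous_tr g).measurable hE
  rw [Measure.map_apply (continuous_tr g).measurable hE, mass_apply _ hE', mass_apply _ hE]
  set R : V (n + 1) → V (n + 1) := rmul (g : Matrix (Fin (n + 1)) (Fin (n + 1)) ℝ) with hR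
  set R' : V (n + 1) → V (n + 1) := rmul ((g⁻¹ : G (n + 1)) : Matrix (Fin (n + 1)) (Fin (n + 1)) ℝ)
    with hR'
  have hd : (g : Matrix (Fin (n + 1)) (Fin (n + 1)) ℝ).det = 1 := g.2
  have hd' : ((g⁻¹ : G (n + 1)) : Matrix (Fin (n + 1)) (Fin (n + 1)) ℝ).det = 1 := (g⁻¹).2
  have hRR : ∀ A, R' (R A) = A := by
    intro A
    have h1 : Matrix.of (R' (R A)) = Matrix.of A := by
      rw [hR', of_rmul, hR, of_rmul, mul_assoc]
      have : (g : Matrix (Fin (n + 1)) (Fin (n + 1)) ℝ) *
          ((g⁻¹ : G (n + 1)) : Matrix (Fin (n + 1)) (Fin (n + 1)) ℝ) = 1 :=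
        congrArg Subtype.val (mul_inv_cancel g)
      rw [this, mul_one]
    exact h1
  have hmR' : Measurable R' := (rmul_measurePreserving _ hd').measurable
  have hmI : Measurable fun A => (proj ⁻¹' E).indicator (1 : V (n + 1) → ℝ≥0∞) A :=
    measurable_one.indicator (measurable_proj hE)
  have hmw : Measurable fun A => (proj ⁻¹' E).indicator (1 : V (n + 1) → ℝ≥0∞) A * wt (R' A) :=
    hmI.mul (measurable_wt.comp hmR')
  -- change of variables
  have h1 : ∫⁻ A in Dom (n + 1), (proj ⁻¹' (tr g ⁻¹' E)).indicator 1 A * wt A =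
      ∫⁻ A in Dom (n + 1), (proj ⁻¹' E).indicator 1 A * wt (R' A) := by
    rw [← (rmul_restrict _ hd).lintegral_comp hmw]
    refine setLIntegral_congr_fun measurableSet_Dom fun A hA => ?_
    change _ = (proj ⁻¹' E).indicator 1 (R A) * wt (R' (R A))
    rw [hRR]
    congr 1
    have h2 : A ∈ proj ⁻¹' (tr g ⁻¹' E) ↔ R A ∈ proj ⁻¹' E := by
      rw [Set.mem_preimage, Set.mem_preimage, Set.mem_preimage, hR, proj_rmul g A hA.1]
    by_cases h : A ∈ proj ⁻¹' (tr g ⁻¹' E)
    · rw [Set.indicator_of_mem h, Set.indicator_of_mem (h2.mp h)]; rfl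
    · rw [Set.indicator_of_notMem h, Set.indicator_of_notMem (fun h' => h (h2.mpr h'))]
  rw [h1]
  have h3 : ∫⁻ A in Dom (n + 1), (proj ⁻¹' E).indicator 1 A * wt (R' A) =
      ∫⁻ A in Dom (n + 1), ((proj ⁻¹' E).indicator 1 A * wt (R' A)) *
        ∑' γ : SpecialLinearGroup (Fin (n + 1)) ℤ, wt (act γ A) := by
    refine setLIntegral_congr_fun measurableSet_Dom fun A hA => ?_
    rw [wt_sum A hA.1.ne', mul_one]
  rw [h3, swap _ _ hmw measurable_wt]
  refine setLIntegral_congr_fun measurableSet_Dom fun A hA => ?_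
  have h4 : ∀ γ : SpecialLinearGroup (Fin (n + 1)) ℤ,
      (proj ⁻¹' E).indicator (1 : V (n + 1) → ℝ≥0∞) (act γ A) * wt (R' (act γ A)) =
      (proj ⁻¹' E).indicator 1 A * wt (act γ (R' A)) := by
    intro γ
    congr 1
    · have h5 : act γ A ∈ proj ⁻¹' E ↔ A ∈ proj ⁻¹' E := by
        rw [Set.mem_preimage, Set.mem_preimage, proj_act]
      by_cases h : A ∈ proj ⁻¹' E
      · rw [Set.indicator_of_mem h, Set.indicator_of_mem (h5.mpr h)]; rfl
      · rw [Set.indicator_of_notMem h, Set.indicator_of_notMem (fun h' => h (h5.mp h'))]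
    · rw [hR', act_rmul]
  change wt A * ∑' γ : SpecialLinearGroup (Fin (n + 1)) ℤ,
      ((proj ⁻¹' E).indicator (1 : V (n + 1) → ℝ≥0∞) (act γ A) * wt (R' (act γ A))) = _
  simp_rw [h4]
  rw [ENNReal.tsum_mul_left, wt_sum (R' A) (by
    rw [hR', dt_rmul, hd', mul_one]; exact hA.1.ne'), mul_one, mul_comm]

theorem mass_univ_lt_top : mass n Set.univ < ⊤ := by
  rw [mass_apply _ MeasurableSet.univ]
  simpa using lintegral_wt_lt_top (n := n)

theorem mass_univ_pos : 0 < mass n Set.univ := by
  rw [mass_apply _ MeasurableSet.univ]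
  have h1 : ∫⁻ A in Dom (n + 1), (proj ⁻¹' (Set.univ : Set (X (n + 1)))).indicator 1 A * wt A =
      ∫⁻ A in Dom (n + 1), wt A := by simp
  rw [h1, setLIntegral_pos_iff measurable_wt]
  have hU : IsOpen {A : V (n + 1) | 0 < dt A ∧ dt A < 1} :=
    (isOpen_lt continuous_const continuous_dt).inter (isOpen_lt continuous_dt continuous_const)
  have hne : {A : V (n + 1) | 0 < dt A ∧ dt A < 1}.Nonempty := by
    let D : Matrix (Fin (n + 1)) (Fin (n + 1)) ℝ := diagonal fun _ => (1 / 2 : ℝ)
    have hD : D.det = (1 / 2 : ℝ) ^ (n + 1) := by simp [D]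
    refine ⟨D, ?_, ?_⟩
    · change 0 < D.det
      rw [hD]; positivity
    · change D.det < 1
      rw [hD]
      exact pow_lt_one₀ (by norm_num) (by norm_num) (by omega)
  refine lt_of_lt_of_le (hU.measure_pos volume hne) (measure_mono ?_)
  intro A hA
  exact ⟨(wt_pos A hA.1.ne').ne', hA.1, hA.2.le⟩

theorem exists_invProb (n : ℕ) : ∃ m : Measure (X (n + 1)), IsInvProb m := by
  refine ⟨(mass n Set.univ)⁻¹ • mass n, ⟨⟨?_⟩, ?_⟩⟩
  · rw [Measure.smul_apply, smul_eq_mul]
    exact ENNReal.inv_mul_cancel mass_univ_pos.ne' mass_univ_lt_top.ne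
  · intro h
    rw [Measure.map_smul, mass_inv]

end Vale.Agent.P007.Exist
end

section

open MeasureTheory Matrix NumberField Filter Topology Module
open scoped nonZeroDivisors ENNReal CompactlySupported

namespace Vale.Agent.P007

/-- **Failure in composite degree.** -/
theorem composite_fails (n : ℕ) (hn : 4 ≤ n) (hc : ¬ n.Prime) :
    ∃ (K : ℕ → Subfield ℝ) (_ : ∀ i, NumberField (K i)),
      (∀ i, IsTotallyReal (K i) ∧ Module.finrank ℚ (K i) = n) ∧
      Tendsto (fun i => |discr (K i)|) atTop atTop ∧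
      ∃ Y : Set (X n), IsClosed Y ∧ (∀ m : Measure (X n), IsInvProb m → m Y = 0) ∧
        ∀ (σ : ∀ i, Fin n ≃ (K i →+* ℝ)) (μ : ℕ → Measure (X n)),
          (∀ i, PktMeas (Pkt (K i) ⊤ (σ i)) (μ i)) →
            (∀ i, μ i Y = 1) ∧ ∀ m, IsInvProb m → ¬ WeakTo μ m := by
  obtain ⟨B, K, hnf, hK, hdisc, ha⟩ := exists_subfields hn hc
  refine ⟨K, hnf, hK, hdisc, YB n B, isClosed_YB n B, fun m hm => measure_YB B hm,
    fun σ μ hμ => ?_⟩
  have hD : ∀ i, IsDatum (K i) ⊤ (σ i) := fun i => ⟨(hK i).1, (hK i).2, ⟨by simp⟩⟩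
  refine ⟨fun i => ?_, fun m hm hW => ?_⟩
  · obtain ⟨a, ha1, ha2⟩ := ha i
    have h1 := packetMeas_YB (mkD (hD i)) (B := B) ⟨a, Subring.mem_top a⟩ ha1 (fun j => ha2 _)
    have h2 := packetMeas_prob (mkD (hD i))
    rw [(pktMeas_iff (hD i) _).mp (hμ i)]
    exact (prob_compl_eq_zero_iff (isClosed_YB n B).measurableSet).mp h1
  · obtain ⟨i, hi⟩ := (necessary' hD hμ hm hW B).exists
    obtain ⟨a, ha1, ha2⟩ := ha i
    obtain ⟨z, hz⟩ := hi a (Subring.mem_top a) (fun j => ha2 _)
    exact ha1 z hz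

/-- `Q1` is false for composite `n`, as soon as an invariant probability measure exists. -/
theorem not_Q1_of_invProb (n : ℕ) (hn : 4 ≤ n) (hc : ¬ n.Prime) {m : Measure (X n)}
    (hm : IsInvProb m) : ¬ Q1 n := by
  intro hQ
  obtain ⟨K, hnf, hK, hdisc, Y, hY, hm0, h⟩ := composite_fails n hn hc
  have σ : ∀ i, Fin n ≃ (K i →+* ℝ) := by
    intro i
    have := (hK i).1
    exact (nonempty_ordering (K i) n (hK i).2).some
  have hD : ∀ i, IsDatum (K i) ⊤ (σ i) := fun i => ⟨(hK i).1, (hK i).2, ⟨by simp⟩⟩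
  choose μ hμ using fun i => (existsUnique_pktMeas (hD i)).exists
  refine (h σ μ hμ).2 m hm (hQ K (fun _ => ⊤) σ μ m hD hμ ?_ hm)
  have h1 : (fun i => |discr (K i)|) = fun i => ((disc (K i) ⊤ : ℕ) : ℤ) := by
    funext i
    have h2 : (⊤ : Subring (𝓞 (K i))).toAddSubgroup.index = 1 := by
      rw [AddSubgroup.index_eq_one]
      rfl
    rw [disc, h2, one_pow, mul_one, Int.abs_eq_natAbs]
  rw [h1] at hdisc
  exact tendsto_natCast_atTop_iff.mp hdisc

theorem exists_invProb' (n : ℕ) (hn : 1 ≤ n) : ∃ m : Measure (X n), IsInvProb m := by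
  obtain ⟨k, rfl⟩ : ∃ k, n = k + 1 := ⟨n - 1, by omega⟩
  exact Exist.exists_invProb k

theorem not_Q1 (n : ℕ) (hn : 4 ≤ n) (hc : ¬ n.Prime) : ¬ Q1 n := by
  obtain ⟨m, hm⟩ := exists_invProb' n (by omega)
  exact not_Q1_of_invProb n hn hc hm

end Vale.Agent.P007
end

section

set_option autoImplicit false

open Matrix Filter Topology
open scoped RealInnerProductSpace

namespace Vale.Agent.P007.Mautner

open Vale.Agent.P007

variable {n : ℕ}

/-- the diagonal element with `c` at `i`, `c⁻¹` at `j` as a product of transvections -/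
theorem diag2n_eq {i j : Fin n} (hij : i ≠ j) (c s : ℝ) (hc : c ≠ 0) (hs : s ≠ 0) :
    SpecialLinearGroup.diag2n hij c hc =
      tv hij.symm (-s / c) * tv hij ((c - 1) / s) * tv hij.symm s * tv hij (-(c - 1) / (c * s)) := by
  apply Subtype.ext
  rw [SpecialLinearGroup.diag2n_coe]
  change _ = transvection j i (-s / c) * transvection i j ((c - 1) / s) * transvection j i s *
    transvection i j (-(c - 1) / (c * s))
  simp only [transvection, add_mul, mul_add, one_mul, mul_one]
  simp only [single_mul_single_same, single_mul_single_of_ne _ _ _ _ hij.symm,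
    single_mul_single_of_ne _ _ _ _ hij, zero_mul, add_zero]
  ext x y
  simp only [Matrix.add_apply, single_apply, diagonal_apply, one_apply]
  by_cases hxi : x = i
  · subst hxi
    by_cases hyi : y = x
    · subst hyi
      simp [hij.symm]
      field_simp
      ring
    · by_cases hyj : y = j
      · subst hyj
        simp only [hij, ↓reduceIte, hij.symm, and_self, add_zero, and_true, zero_add, and_false,
          neg_sub]
        field_simp
        ring
      · simp [Ne.symm hyi, Ne.symm hyj]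
  · by_cases hxj : x = j
    · subst hxj
      by_cases hyi : y = i
      · subst hyi
        simp only [hij.symm, ↓reduceIte, and_self, zero_add, hij, and_false, add_zero, and_true]
        field_simp
        ring
      · by_cases hyj : y = x
        · subst hyj
          simp only [↓reduceIte, hij.symm, hij, and_false, add_zero, and_true, and_self, zero_add,
            neg_sub]
          field_simp
          ring
        · simp [hij, Ne.symm hyi, Ne.symm hyj]
    · simp [hxi, hxj, Ne.symm hxi, Ne.symm hxj]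

/-- A strongly continuous orthogonal representation of `SL_n(ℝ)`. -/
structure Rep (n : ℕ) (H : Type*) [NormedAddCommGroup H] [InnerProductSpace ℝ H] where
  U : G n → H → H
  one : ∀ v, U 1 v = v
  mul : ∀ g h v, U (g * h) v = U g (U h v)
  inner : ∀ g v w, ⟪U g v, U g w⟫ = ⟪v, w⟫
  cont : ∀ v, Continuous fun g => U g v

section rep

variable {H : Type*} [NormedAddCommGroup H] [InnerProductSpace ℝ H] (ρ : Rep n H) (w : H)

end rep

end Vale.Agent.P007.Mautner
end

section

set_option autoImplicit false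

open MeasureTheory Matrix Filter Topology
open scoped RealInnerProductSpace ENNReal

namespace Vale.Agent.P007.Koopman

open Vale.Agent.P007 Vale.Agent.P007.Mautner

variable {n : ℕ} {m : Measure (X n)}

instance metrizable_X : TopologicalSpace.MetrizableSpace (X n) :=
  TopologicalSpace.metrizableSpace_of_t3_secondCountable _

theorem mp_tr (hm : IsInvProb m) (g : G n) : MeasurePreserving (tr g) m m :=
  ⟨(continuous_tr g).measurable, hm.2 g⟩

/-- The Koopman operator. -/
noncomputable def K (hm : IsInvProb m) (g : G n) : Lp ℝ 2 m →ₗᵢ[ℝ] Lp ℝ 2 m :=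
  Lp.compMeasurePreservingₗᵢ ℝ (tr g) (mp_tr hm g)

theorem K_coe (hm : IsInvProb m) (g : G n) (f : Lp ℝ 2 m) : K hm g f =ᵐ[m] f ∘ tr g :=
  Lp.coeFn_compMeasurePreserving f (mp_tr hm g)

theorem K_one (hm : IsInvProb m) (f : Lp ℝ 2 m) : K hm 1 f = f := by
  apply Lp.ext
  filter_upwards [K_coe hm 1 f] with x hx
  rw [hx, Function.comp_apply, tr_one]

theorem K_mul (hm : IsInvProb m) (g h : G n) (f : Lp ℝ 2 m) :
    K hm (g * h) f = K hm g (K hm h f) := by
  apply Lp.ext
  have h1 := K_coe hm (g * h) f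
  have h2 := K_coe hm g (K hm h f)
  have h3 := (mp_tr hm g).quasiMeasurePreserving.ae_eq_comp (K_coe hm h f)
  filter_upwards [h1, h2, h3] with x hx1 hx2 hx3
  rw [hx1, hx2, hx3]
  simp only [Function.comp_apply]
  rw [tr_tr]

theorem continuous_trC : Continuous fun g : G n => (⟨tr g, continuous_tr g⟩ : C(X n, X n)) := by
  refine ContinuousMap.continuous_of_continuous_uncurry _ ?_
  exact continuous_tr_uncurry.comp (continuous_snd.prodMk continuous_fst)

theorem K_cont (hm : IsInvProb m) (f : Lp ℝ 2 m) : Continuous fun g => K hm g f := by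
  have := hm.1
  exact Continuous.compMeasurePreservingLp (f := fun _ : G n => f) continuous_const continuous_trC
    (fun g => mp_tr hm g) (by norm_num)

/-- the Koopman representation on `L²(X_n, m)` -/
noncomputable def rep (hm : IsInvProb m) : Rep n (Lp ℝ 2 m) where
  U g := K hm g
  one := K_one hm
  mul := K_mul hm
  inner g v w := (K hm g).inner_map_map v w
  cont := K_cont hm

end Vale.Agent.P007.Koopman
end

section

set_option autoImplicit false

open MeasureTheory Matrix Filter Topology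
open scoped RealInnerProductSpace ENNReal

namespace Vale.Agent.P007.Koopman

open Vale.Agent.P007 Vale.Agent.P007.Mautner

variable {n : ℕ} {m : Measure (X n)}

instance measurableSpace_G : MeasurableSpace (G n) := borel (G n)

instance borelSpace_G : BorelSpace (G n) := ⟨rfl⟩

/-- Haar measure on `SL_n(ℝ)` -/
noncomputable def hG (n : ℕ) : Measure (G n) := Measure.haar

instance : (hG n).IsHaarMeasure := inferInstanceAs (Measure.haar (G := G n)).IsHaarMeasure

theorem measurable_tr_uncurry : Measurable fun p : X n × G n => tr p.2 p.1 :=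
  continuous_tr_uncurry.measurable

theorem exists_tr (x y : X n) : ∃ h : G n, y = tr h x := by
  obtain ⟨a, rfl⟩ := pt_surjective x
  obtain ⟨b, rfl⟩ := pt_surjective y
  exact ⟨a⁻¹ * b, by rw [tr_pt, mul_inv_cancel_left]⟩

theorem haar_fiber_const (E : Set (X n)) (x y : X n) :
    hG n {g | tr g x ∈ E} = hG n {g | tr g y ∈ E} := by
  obtain ⟨h, rfl⟩ := exists_tr x y
  have h1 : {g : G n | tr g (tr h x) ∈ E} = (fun g => h * g) ⁻¹' {g | tr g x ∈ E} := by
    ext g
    simp only [Set.mem_ofPred_eq, Set.mem_preimage, tr_tr]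
  rw [h1, measure_preimage_mul]

/-- Weil-type formula. -/
theorem haar_fiber (hm : IsInvProb m) (E : Set (X n)) (hE : MeasurableSet E) (x : X n) :
    hG n {g | tr g x ∈ E} = m E * hG n Set.univ := by
  have := hm.1
  have hS : MeasurableSet ((fun p : X n × G n => tr p.2 p.1) ⁻¹' E) := measurable_tr_uncurry hE
  have h1 : (m.prod (hG n)) ((fun p : X n × G n => tr p.2 p.1) ⁻¹' E) =
      hG n {g | tr g x ∈ E} := by
    rw [Measure.prod_apply hS]
    have h2 : ∀ y : X n, hG n (Prod.mk y ⁻¹' ((fun p : X n × G n => tr p.2 p.1) ⁻¹' E)) =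
        hG n {g | tr g x ∈ E} := fun y => haar_fiber_const E y x
    simp only [h2, lintegral_const, measure_univ, mul_one]
  rw [← h1, Measure.prod_apply_symm hS]
  have h3 : ∀ g : G n, m ((fun y => (y, g)) ⁻¹' ((fun p : X n × G n => tr p.2 p.1) ⁻¹' E)) = m E :=
    fun g => (mp_tr hm g).measure_preimage hE.nullMeasurableSet
  simp only [h3, lintegral_const]

theorem hG_univ_ne_zero : hG n Set.univ ≠ 0 := by
  rw [Ne, Measure.measure_univ_eq_zero]
  exact NeZero.ne _

/-- `G`-invariant square integrable functions are constant. -/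
theorem const_of_invariant (hm : IsInvProb m) (f : Lp ℝ 2 m) (h : ∀ g, K hm g f = f) :
    ∃ c : ℝ, f =ᵐ[m] fun _ => c := by
  have := hm.1
  have hfm : Measurable f := (Lp.stronglyMeasurable f).measurable
  let S : Set (X n × G n) := {p | f (tr p.2 p.1) = f p.1}ᶜ
  have hS : MeasurableSet S :=
    (measurableSet_eq_fun (hfm.comp measurable_tr_uncurry) (hfm.comp measurable_fst)).compl
  have h1 : (m.prod (hG n)) S = 0 := by
    rw [Measure.prod_apply_symm hS]
    have h2 : ∀ g : G n, m ((fun y => (y, g)) ⁻¹' S) = 0 := by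
      intro g
      have h3 := K_coe hm g f
      rw [h g] at h3
      have h4 : (fun y => (y, g)) ⁻¹' S = {y | ¬ (f y = (f ∘ tr g) y)} := by
        ext y
        simp only [S, Set.mem_preimage, Set.mem_compl_iff, Set.mem_ofPred_eq, Function.comp_apply]
        exact not_congr eq_comm
      rw [h4]
      exact h3
    simp only [h2, lintegral_zero]
  rw [Measure.measure_prod_null hS] at h1
  obtain ⟨x₀, hx₀⟩ := h1.exists
  refine ⟨f x₀, ?_⟩
  let E : Set (X n) := {x | f x = f x₀}ᶜ
  have hE : MeasurableSet E := (measurableSet_eq_fun hfm measurable_const).compl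
  have h5 : hG n {g | tr g x₀ ∈ E} = 0 := hx₀
  rw [haar_fiber hm E hE x₀, mul_eq_zero] at h5
  exact h5.resolve_right hG_univ_ne_zero

end Vale.Agent.P007.Koopman
end

section

set_option autoImplicit false

open MeasureTheory Matrix Filter Topology
open scoped RealInnerProductSpace ENNReal

namespace Vale.Agent.P007.Koopman

open Vale.Agent.P007 Vale.Agent.P007.Mautner

variable {n : ℕ} {m : Measure (X n)}

end Vale.Agent.P007.Koopman
end

section

set_option autoImplicit false

open MeasureTheory Matrix Filter Topology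
open scoped RealInnerProductSpace ENNReal

namespace Vale.Agent.P007.Koopman

open Vale.Agent.P007 Vale.Agent.P007.Mautner

variable {n k : ℕ}

end Vale.Agent.P007.Koopman
end

section

set_option autoImplicit false

open MeasureTheory Matrix Filter Topology
open scoped RealInnerProductSpace ENNReal

namespace Vale.Agent.P007.Koopman

open Vale.Agent.P007 Vale.Agent.P007.Mautner

variable {n k : ℕ}

end Vale.Agent.P007.Koopman
end

section

set_option autoImplicit false

open MeasureTheory Matrix Filter Topology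
open scoped RealInnerProductSpace ENNReal CompactlySupported Pointwise

namespace Vale.Agent.P007.Koopman

open Vale.Agent.P007 Vale.Agent.P007.Mautner

variable {n k : ℕ}

end Vale.Agent.P007.Koopman
end
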