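import Vale.Agent.P007.Bdl.B9
import Vale.Agent.P007.Bdl.B7
import Vale.Agent.P007.Bdl.B8

section

set_option autoImplicit false

open MeasureTheory Matrix NumberField Filter Topology Module
open scoped nonZeroDivisors ENNReal CompactlySupported Pointwise

namespace Vale.Agent.P007.Fib

open Vale.Agent.P007

variable {n : ℕ}

/-- counting residues of a subgroup of `ℤ^n` containing `f ℤ^n` -/
theorem card_residues {f : ℕ} (hf : f ≠ 0) (N : AddSubgroup (Fin n → ℤ))
    (hN : ∀ y : Fin n → ℤ, (fun i => (f : ℤ) * y i) ∈ N) :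
    Nat.card {z : Fin n → Fin f // (fun i => ((z i : ℕ) : ℤ)) ∈ N} * N.index = f ^ n := by
  have : NeZero f := ⟨hf⟩
  let ψ : (Fin n → ℤ) →+ (Fin n → ZMod f) :=
    { toFun := fun y i => ((y i : ℤ) : ZMod f)
      map_zero' := by funext i; simp
      map_add' := by intro x y; funext i; simp }
  have hψ : Function.Surjective ψ := by
    intro z
    refine ⟨fun i => ((ZMod.val (z i) : ℕ) : ℤ), ?_⟩
    funext i
    change (((ZMod.val (z i) : ℕ) : ℤ) : ZMod f) = z i
    simp
  have hker : ψ.ker ≤ N := by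
    intro y hy
    rw [AddMonoidHom.mem_ker] at hy
    have h1 : ∀ i, (f : ℤ) ∣ y i := by
      intro i
      have h2 : ((y i : ℤ) : ZMod f) = 0 := congrFun hy i
      exact (ZMod.intCast_zmod_eq_zero_iff_dvd (y i) f).mp h2
    choose w hw using h1
    have h3 : y = fun i => (f : ℤ) * w i := funext hw
    rw [h3]
    exact hN w
  have h1 := (N.map ψ).card_mul_index
  rw [AddSubgroup.index_map_eq N hψ hker, Nat.card_fun, Nat.card_zmod, Nat.card_fin] at h1
  rw [← h1]
  congr 1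
  refine Nat.card_congr (Equiv.ofBijective (fun z : {z : Fin n → Fin f //
    (fun i => ((z i : ℕ) : ℤ)) ∈ N} => (⟨ψ (fun i => ((z.1 i : ℕ) : ℤ)), ⟨_, z.2, rfl⟩⟩ :
      N.map ψ)) ⟨?_, ?_⟩)
  · rintro ⟨z, hz⟩ ⟨z', hz'⟩ h
    apply Subtype.ext
    funext i
    have h2 : (((z i : ℕ) : ℤ) : ZMod f) = (((z' i : ℕ) : ℤ) : ZMod f) :=
      congrFun (congrArg Subtype.val h) i
    rw [ZMod.intCast_eq_intCast_iff] at h2
    have h3 := h2
    rw [Int.ModEq, Int.emod_eq_of_lt (by (clear * -; positivity)) (by exact_mod_cast (z i).2),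
      Int.emod_eq_of_lt (by (clear * -; positivity)) (by exact_mod_cast (z' i).2)] at h3
    apply Fin.ext
    exact_mod_cast h3
  · rintro ⟨x, y, hy, rfl⟩
    have hval : ∀ i, ((ψ y i).val : ℤ) = y i % f := fun i => ZMod.val_intCast (y i)
    have hmem : (fun i => ((ψ y i).val : ℤ)) ∈ N := by
      have h2 : (fun i => ((ψ y i).val : ℤ)) = y + fun i => (f : ℤ) * (-(y i / f)) := by
        funext i
        rw [hval, Pi.add_apply]
        have := Int.emod_add_mul_ediv (y i) f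
        linarith only [this]
      rw [h2]
      exact N.add_mem hy (hN _)
    refine ⟨⟨fun i => ⟨(ψ y i).val, ZMod.val_lt _⟩, hmem⟩, ?_⟩
    apply Subtype.ext
    funext i
    change ((((ψ y i).val : ℕ) : ℤ) : ZMod f) = ψ y i
    simp

/-- `{z | z g ∈ M}` -/
def coordL (g : G n) (M : Submodule ℤ (Fin n → ℝ)) : AddSubgroup (Fin n → ℤ) where
  carrier := {z | (fun i => (z i : ℝ)) ᵥ* (g : Matrix (Fin n) (Fin n) ℝ) ∈ M}
  zero_mem' := by
    change (fun i => (((0 : Fin n → ℤ) i : ℤ) : ℝ)) ᵥ* (g : Matrix (Fin n) (Fin n) ℝ) ∈ M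
    have : (fun i => (((0 : Fin n → ℤ) i : ℤ) : ℝ)) = 0 := by funext i; simp
    rw [this, zero_vecMul]
    exact M.zero_mem
  add_mem' := by
    intro a b ha hb
    change (fun i => (((a + b) i : ℤ) : ℝ)) ᵥ* (g : Matrix (Fin n) (Fin n) ℝ) ∈ M
    have : (fun i => (((a + b) i : ℤ) : ℝ)) = (fun i => (a i : ℝ)) + fun i => (b i : ℝ) := by
      funext i; simp
    rw [this, add_vecMul]
    exact M.add_mem ha hb
  neg_mem' := by
    intro a ha
    change (fun i => (((-a) i : ℤ) : ℝ)) ᵥ* (g : Matrix (Fin n) (Fin n) ℝ) ∈ M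
    have : (fun i => (((-a) i : ℤ) : ℝ)) = -fun i => (a i : ℝ) := by
      funext i; simp
    rw [this, neg_vecMul]
    exact M.neg_mem ha

theorem mem_coordL {g : G n} {M : Submodule ℤ (Fin n → ℝ)} {z : Fin n → ℤ} :
    z ∈ coordL g M ↔ (fun i => (z i : ℝ)) ᵥ* (g : Matrix (Fin n) (Fin n) ℝ) ∈ M := Iff.rfl

theorem natCast_mul_vecMul (g : G n) (f : ℕ) (y : Fin n → ℤ) :
    (fun i => (((f : ℤ) * y i : ℤ) : ℝ)) ᵥ* (g : Matrix (Fin n) (Fin n) ℝ) =
      (f : Fin n → ℝ) * ((fun i => (y i : ℝ)) ᵥ* (g : Matrix (Fin n) (Fin n) ℝ)) := by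
  have h3 : (fun i => (((f : ℤ) * y i : ℤ) : ℝ)) = (f : ℝ) • fun i => (y i : ℝ) := by
    funext i
    simp
  rw [h3, smul_vecMul]
  funext j
  rw [Pi.mul_apply, Pi.smul_apply, smul_eq_mul, Pi.natCast_apply]

/-- Normalisation of a sublattice, with the formula for the scaling factor. -/
theorem exists_sub_pt (hn : 0 < n) {g : G n} {f : ℕ} (hf : f ≠ 0) {M : Submodule ℤ (Fin n → ℝ)}
    (hM : M ≤ latS g) (hfM : ∀ y ∈ latS g, (f : Fin n → ℝ) * y ∈ M) :
    ∃ (g' : G n) (c : ℝ), 0 < c ∧ latS g' = vmul (fun _ => c) M ∧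
      (Nat.card {z : Fin n → Fin f // vz g z ∈ M} : ℝ) = c ^ n * f ^ n := by
  set N : AddSubgroup (Fin n → ℤ) := coordL g M with hN
  have hfN : ∀ y : Fin n → ℤ, (fun i => (f : ℤ) * y i) ∈ N := by
    intro y
    rw [hN, mem_coordL, natCast_mul_vecMul]
    exact hfM _ ⟨y, rfl⟩
  have hcard := card_residues hf N hfN
  -- a basis
  let NZ : Submodule ℤ (Fin n → ℤ) := AddSubgroup.toIntSubmodule N
  have hrank : Module.finrank ℤ NZ = n := by
    refine le_antisymm ?_ ?_
    · have h1 := Submodule.finrank_le NZ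
      rwa [Module.finrank_fin_fun] at h1
    · have h1 : Function.Injective (LinearMap.codRestrict NZ
          ((f : ℤ) • (LinearMap.id : (Fin n → ℤ) →ₗ[ℤ] (Fin n → ℤ))) (fun y => hfN y)) := by
        intro x y hxy
        have h2 : (f : ℤ) • x = (f : ℤ) • y := congrArg Subtype.val hxy
        exact smul_right_injective (Fin n → ℤ) (by exact_mod_cast hf : (f : ℤ) ≠ 0) h2
      have h3 := LinearMap.finrank_le_finrank_of_injective h1
      rwa [Module.finrank_fin_fun] at h3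
  let b : Basis (Fin n) ℤ NZ := Module.finBasisOfFinrankEq ℤ NZ hrank
  let P : Matrix (Fin n) (Fin n) ℤ := Matrix.of fun i => (b i : Fin n → ℤ)
  have hidx : N.index = P.det.natAbs := by
    have h1 := AddSubgroup.index_eq_natAbs_det (Pi.basisFun ℤ (Fin n)) N b
    rw [h1]
    congr 1
    rw [Basis.det_apply, ← Matrix.det_transpose]
    rfl
  have hNP : ∀ z : Fin n → ℤ, z ∈ N ↔ ∃ c : Fin n → ℤ, z = c ᵥ* P := by
    intro z
    have hsum : ∀ c : Fin n → ℤ, ((∑ i, c i • b i : NZ) : Fin n → ℤ) = c ᵥ* P := by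
      intro c
      rw [Submodule.coe_sum]
      funext j
      rw [Finset.sum_apply]
      simp only [vecMul, dotProduct, P, Matrix.of_apply, Submodule.coe_smul, Pi.smul_apply,
        smul_eq_mul]
    constructor
    · intro hz
      refine ⟨fun i => b.repr ⟨z, hz⟩ i, ?_⟩
      rw [← hsum]
      exact (congrArg Subtype.val (b.sum_repr ⟨z, hz⟩)).symm
    · rintro ⟨c, rfl⟩
      rw [← hsum]
      exact (∑ i, c i • b i : NZ).2
  have hMP : (M : Set (Fin n → ℝ)) = latM (castM P * (g : Matrix (Fin n) (Fin n) ℝ)) := by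
    have hcast : ∀ c : Fin n → ℤ, (fun i => (((c ᵥ* P) i : ℤ) : ℝ)) = (fun i => (c i : ℝ)) ᵥ* castM P
        := by
      intro c
      funext j
      simp only [vecMul, dotProduct, Int.cast_sum, Int.cast_mul, castM, map_apply]
    ext v
    constructor
    · intro hv
      obtain ⟨z, rfl⟩ := hM hv
      have hz : z ∈ N := hv
      obtain ⟨c, rfl⟩ := (hNP z).mp hz
      refine ⟨c, ?_⟩
      simp only
      rw [hcast, vecMul_vecMul]
    · rintro ⟨c, rfl⟩
      have hz : c ᵥ* P ∈ N := (hNP _).mpr ⟨c, rfl⟩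
      rw [hN, mem_coordL, hcast, vecMul_vecMul] at hz
      exact hz
  have hidx0 : N.index ≠ 0 := by
    intro h0
    rw [h0, mul_zero] at hcard
    exact pow_ne_zero n hf hcard.symm
  have hdet : (castM P * (g : Matrix (Fin n) (Fin n) ℝ)).det ≠ 0 := by
    rw [det_mul, det_G, mul_one, cast_det]
    intro h0
    have h1 : P.det = 0 := by exact_mod_cast h0
    rw [hidx, h1] at hidx0
    simp at hidx0
  obtain ⟨c, g', hc, hg'⟩ := exists_normalize hn hdet
  have hlat : latS g' = vmul (fun _ => c) M := by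
    ext v
    rw [mem_latS, hg', mem_vmul]
    constructor
    · rintro ⟨u, hu, rfl⟩
      exact ⟨u, by rw [← SetLike.mem_coe, hMP]; exact hu, rfl⟩
    · rintro ⟨u, hu, rfl⟩
      exact ⟨u, by rw [← hMP]; exact hu, rfl⟩
  refine ⟨g', c, hc, hlat, ?_⟩
  -- determinants
  have h2 : latM (g' : Matrix (Fin n) (Fin n) ℝ) =
      latM (castM P * (g : Matrix (Fin n) (Fin n) ℝ) * diagonal fun _ => c) := by
    rw [latM_mul_diagonal, ← hg']
    rfl
  obtain ⟨Q, hQ, hQu⟩ := exists_unimodular (by rw [det_G]; exact one_ne_zero) h2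
  have h3 := congrArg Matrix.det hQ
  rw [det_mul, det_mul, det_mul, det_G, det_G, det_diagonal, Finset.prod_const, Finset.card_univ,
    Fintype.card_fin, cast_det, cast_det, mul_one] at h3
  have h4 : c ^ n * |(P.det : ℝ)| = 1 := by
    have h5 := congrArg abs h3
    rw [abs_mul, abs_mul, abs_one, abs_of_pos (pow_pos hc n)] at h5
    have h6 : |((Q.det : ℤ) : ℝ)| = 1 := by
      rw [← Int.cast_abs, Int.isUnit_iff_abs_eq.mp hQu, Int.cast_one]
    rw [h6, one_mul] at h5
    rw [mul_comm]; exact h5.symm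
  have h5 : ((N.index : ℕ) : ℝ) = |(P.det : ℝ)| := by
    rw [hidx, Nat.cast_natAbs, Int.cast_abs]
  have h6 : Nat.card {z : Fin n → Fin f // vz g z ∈ M} =
      Nat.card {z : Fin n → Fin f // (fun i => ((z i : ℕ) : ℤ)) ∈ N} := rfl
  have h7 : (Nat.card {z : Fin n → Fin f // vz g z ∈ M} : ℝ) * (N.index : ℝ) = f ^ n := by
    rw [h6]
    exact_mod_cast hcard
  rw [h5] at h7
  calc (Nat.card {z : Fin n → Fin f // vz g z ∈ M} : ℝ)
      = (Nat.card {z : Fin n → Fin f // vz g z ∈ M} : ℝ) * (c ^ n * |(P.det : ℝ)|) := by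
        rw [h4, mul_one]
    _ = c ^ n * ((Nat.card {z : Fin n → Fin f // vz g z ∈ M} : ℝ) * |(P.det : ℝ)|) := by ring
    _ = _ := by rw [h7]

end Vale.Agent.P007.Fib
end

section

set_option autoImplicit false

open MeasureTheory Matrix NumberField Filter Topology Module
open scoped nonZeroDivisors ENNReal CompactlySupported Pointwise

namespace Vale.Agent.P007.Fib

open Vale.Agent.P007

variable {n : ℕ}

/-- `x` is the point of the lattice `S Λ_y` -/
def Over (S : Subring (Fin n → ℝ)) (x y : X n) : Prop :=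
  ∃ g : G n, y = pt g ∧ IsPtOf (RM S * latS g) x

theorem Over.unique (hn : 0 < n) {S : Subring (Fin n → ℝ)} {x x' y : X n} (h : Over S x y)
    (h' : Over S x' y) : x = x' := by
  obtain ⟨g, rfl, hg⟩ := h
  obtain ⟨g', hgg, hg'⟩ := h'
  rw [(pt_eq_iff_latS hn).mp hgg] at hg
  exact hg.unique hn hg'

theorem Over.tr {S : Subring (Fin n → ℝ)} {x y : X n} (h : Over S x y) (u : Fin (n - 1) → ℝ) :
    Over S (tr (aexp u) x) (tr (aexp u) y) := by
  obtain ⟨g, rfl, hg⟩ := h
  refine ⟨g * aexp u, rfl, ?_⟩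
  rw [latS_mul_aexp, mul_vmul]
  exact hg.tr u

/-- the fibre over `x` -/
def Fset (R S : Subring (Fin n → ℝ)) (x : X n) : Set (X n) := {y | InvPt R y ∧ Over S x y}

theorem tr_neg_tr (u : Fin (n - 1) → ℝ) (x : X n) : tr (aexp (-u)) (tr (aexp u) x) = x := by
  rw [tr_tr, ← aexp_add, add_neg_cancel, aexp_zero, tr_one]

theorem tr_tr_neg (u : Fin (n - 1) → ℝ) (x : X n) : tr (aexp u) (tr (aexp (-u)) x) = x := by
  rw [tr_tr, ← aexp_add, neg_add_cancel, aexp_zero, tr_one]

/-- the data for the fibre formula -/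
structure Pair (R S : Subring (Fin n → ℝ)) (f : ℕ) : Prop where
  hn : 0 < n
  f0 : f ≠ 0
  le : R ≤ S
  mul : ∀ s ∈ S, (f : Fin n → ℝ) * s ∈ R
  finR : {M : Ideal R | M.IsMaximal ∧ (f : R) ∈ M}.Finite
  finS : {M : Ideal S | M.IsMaximal ∧ (f : S) ∈ M}.Finite

variable {R S : Subring (Fin n → ℝ)} {f : ℕ}

theorem sub_congr {L : Submodule ℤ (Fin n → ℝ)} (hRS : R ≤ S) (hL : Stable S L)
    {v w y : Fin n → ℝ} (hy : y ∈ L) (h : v = w + f * y) : sub R L f v = sub R L f w := by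
  refine le_antisymm ?_ ?_
  · rintro _ ⟨a, ha, z, hz, rfl⟩
    refine ⟨a, ha, z + a * y, L.add_mem hz (hL a (hRS ha) y hy), ?_⟩
    rw [h]; ring
  · rintro _ ⟨a, ha, z, hz, rfl⟩
    refine ⟨a, ha, z - a * y, L.sub_mem hz (hL a (hRS ha) y hy), ?_⟩
    rw [h]; ring

theorem gen_congr {L : Submodule ℤ (Fin n → ℝ)} (hL : Stable S L)
    {v w y : Fin n → ℝ} (hw : w ∈ L) (hy : y ∈ L) (h : v = w + f * y) (hv : Gen S L f v) :
    Gen S L f w := by
  refine ⟨hw, fun x hx => ?_⟩
  obtain ⟨s, hs, z, hz, rfl⟩ := hv.2 x hx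
  refine ⟨s, hs, z + s * y, L.add_mem hz (hL s hs y hy), ?_⟩
  rw [h]; ring

theorem RM_mul_eq {L : Submodule ℤ (Fin n → ℝ)} (hL : Stable S L) : RM S * L = L := by
  refine le_antisymm ?_ ?_
  · rw [Submodule.mul_le]
    exact fun s hs x hx => hL s hs x hx
  · intro x hx
    have := Submodule.mul_mem_mul (M := RM S) S.one_mem hx
    rwa [one_mul] at this

/-- existence of the sublattice points -/
theorem exists_isPtOf (hp : Pair R S f) {g : G n} (hL : Stable S (latS g)) {v : Fin n → ℝ}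
    (hv : v ∈ latS g) : ∃ x, IsPtOf (sub R (latS g) f v) x := by
  obtain ⟨g', c, hc, hg', -⟩ := exists_sub_pt hp.hn hp.f0 (g := g) (M := sub R (latS g) f v)
    (sub_le hp.le hL hv) (fun y hy => mul_mem_sub hy)
  exact ⟨pt g', g', c, hc, rfl, hg'⟩

open Classical in
/-- the points of the fibre -/
noncomputable def yz (R : Subring (Fin n → ℝ)) (g : G n) {f : ℕ} (z : Fin n → Fin f) : X n :=
  if h : ∃ x, IsPtOf (sub R (latS g) f (vz g z)) x then h.choose else pt 1

theorem yz_spec (hp : Pair R S f) {g : G n} (hL : Stable S (latS g)) (z : Fin n → Fin f) :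
    IsPtOf (sub R (latS g) f (vz g z)) (yz R g z) := by
  have h := exists_isPtOf hp hL (vz_mem g z)
  unfold yz
  rw [dif_pos h]
  exact h.choose_spec

theorem yz_eq_iff (hp : Pair R S f) {g : G n} (hL : Stable S (latS g)) {z z' : Fin n → Fin f}
    (hz : Gen S (latS g) f (vz g z)) (hz' : Gen S (latS g) f (vz g z')) :
    yz R g z = yz R g z' ↔ sub R (latS g) f (vz g z) = sub R (latS g) f (vz g z') := by
  constructor
  · intro h
    obtain ⟨g₁, c₁, hc₁, h₁, hg₁⟩ := yz_spec (R := R) hp hL z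
    obtain ⟨g₂, c₂, hc₂, h₂, hg₂⟩ := yz_spec (R := R) hp hL z'
    rw [h₁, h₂, pt_eq_iff_latS hp.hn] at h
    -- both lattices agree
    have e1 : RM S * latS g₁ = vmul (fun _ => c₁) (latS g) := by
      rw [hg₁, mul_vmul, hz.mul_sub hp.le hL]
    have e2 : RM S * latS g₂ = vmul (fun _ => c₂) (latS g) := by
      rw [hg₂, mul_vmul, hz'.mul_sub hp.le hL]
    rw [h, e2] at e1
    have e3 : latS g = vmul (fun _ => c₁⁻¹ * c₂) (latS g) := by
      have := congrArg (vmul (fun _ : Fin n => c₁⁻¹)) e1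
      rw [vmul_vmul, vmul_vmul] at this
      have h4 : ((fun _ => c₁⁻¹) * fun _ => c₁ : Fin n → ℝ) = 1 := by
        funext j
        rw [Pi.mul_apply, Pi.one_apply, inv_mul_cancel₀ hc₁.ne']
      rw [h4, vmul_one] at this
      exact this.symm
    have e4 := (pt_eq_of_smul hp.hn (by positivity) e3).2
    have e5 : c₁ = c₂ := by field_simp at e4; linarith only [e4]
    rw [hg₁, hg₂, e5] at h
    have h5 := congrArg (vmul (fun _ : Fin n => c₂⁻¹)) h
    rw [vmul_vmul, vmul_vmul] at h5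
    have h6 : ((fun _ => c₂⁻¹) * fun _ => c₂ : Fin n → ℝ) = 1 := by
      funext j
      rw [Pi.mul_apply, Pi.one_apply, inv_mul_cancel₀ hc₂.ne']
    rw [h6, vmul_one, vmul_one] at h5
    exact h5
  · intro h
    have h1 := yz_spec (R := R) hp hL z
    rw [h] at h1
    exact h1.unique hp.hn (yz_spec (R := R) hp hL z')

/-- generators exist -/
theorem exists_GS (hp : Pair R S f) {g : G n} (h : Inv S (latS g)) :
    ∃ z : Fin n → Fin f, Gen S (latS g) f (vz g z) := by
  have hS : ∀ s ∈ S, (f : Fin n → ℝ) * s ∈ S := fun s hs => S.mul_mem (natCast_mem S f) hs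
  obtain ⟨v, hv, hv'⟩ := exists_gen le_rfl hS (latS g) h hp.finS
  have h1 := gen_of_eq_sub (latS g) h.1 le_rfl hv hv'
  rw [RM_mul_eq h.1] at h1
  obtain ⟨z, y, hy, h2⟩ := exists_vz g hp.f0 hv
  exact ⟨z, gen_congr h.1 (vz_mem g z) hy h2 h1⟩

theorem Fset_eq_image (hp : Pair R S f) {g : G n} (h : Inv S (latS g)) :
    Fset R S (pt g) = yz R g '' {z : Fin n → Fin f | Gen S (latS g) f (vz g z)} := by
  obtain ⟨hL, L', hL', hLL⟩ := h
  ext y
  constructor
  · rintro ⟨⟨g₁, rfl, hg₁⟩, g₂, hg₂, g₃, c, hc, hpt, hlat⟩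
    rw [pt_eq_iff_latS hp.hn] at hg₂ hpt
    rw [← hg₂, ← hpt] at hlat
    set M : Submodule ℤ (Fin n → ℝ) := vmul (fun _ => c) (latS g₁) with hM
    have hcc : ((fun _ => c) * fun _ => c⁻¹ : Fin n → ℝ) = 1 := by
      funext j
      rw [Pi.mul_apply, Pi.one_apply, mul_inv_cancel₀ hc.ne']
    have hMinv : Inv R M := hg₁.vmul hcc
    have hSM : RM S * M = latS g := by rw [hM, mul_vmul, hlat]
    obtain ⟨v, hv, hv'⟩ := exists_gen hp.le hp.mul M hMinv hp.finR
    have hgen := gen_of_eq_sub M hMinv.1 hp.le hv hv'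
    rw [hSM] at hv' hgen
    obtain ⟨z, y, hy, h2⟩ := exists_vz g hp.f0 hgen.1
    have hgz := gen_congr hL (vz_mem g z) hy h2 hgen
    refine ⟨z, hgz, ?_⟩
    have h3 : sub R (latS g) f (vz g z) = M := by
      rw [hv', sub_congr hp.le hL hy h2]
    have h4 := yz_spec (R := R) hp hL z
    rw [h3, hM] at h4
    exact h4.unique hp.hn ((isPtOf_self g₁).smul hc)
  · rintro ⟨z, hz, rfl⟩
    obtain ⟨g₁, c, hc, h₁, hg₁⟩ := yz_spec (R := R) hp hL z
    have hinv : Inv R (sub R (latS g) f (vz g z)) :=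
      Gen.inv_sub hz hp.le hp.mul hL hL' hLL
    have hcc : ((fun _ => c) * fun _ => c⁻¹ : Fin n → ℝ) = 1 := by
      funext j
      rw [Pi.mul_apply, Pi.one_apply, mul_inv_cancel₀ hc.ne']
    refine ⟨⟨g₁, h₁, ?_⟩, g₁, h₁, ?_⟩
    · rw [hg₁]; exact hinv.vmul hcc
    · rw [hg₁, mul_vmul, hz.mul_sub hp.le hL]
      exact (isPtOf_self g).smul hc

/-- the multiplicity -/
noncomputable def mult (R S : Subring (Fin n → ℝ)) (f : ℕ) : ℕ :=
  Nat.card {b : BQ S f // ∃ r r' : S, (r : Fin n → ℝ) ∈ R ∧ (r' : Fin n → ℝ) ∈ R ∧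
      b = Ideal.Quotient.mk _ r ∧ Ideal.Quotient.mk (Ideal.span {(f : S)}) (r * r') = 1}

theorem card_GS (hp : Pair R S f) {g : G n} (h : Inv S (latS g)) :
    Nat.card {z : Fin n → Fin f // Gen S (latS g) f (vz g z)} = Nat.card (BQ S f)ˣ := by
  obtain ⟨z₀, hz₀⟩ := exists_GS hp h
  obtain ⟨hL, L', hL', hLL⟩ := h
  obtain ⟨e, he⟩ := coef_bijective hp.f0 hL hL' hLL hz₀
  have h1 : ∀ z, Gen S (latS g) f (vz g z) ↔ IsUnit (e z) := fun z =>
    coef_gen_iff hL hL' hLL hz₀ (vz_mem g z) (he z)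
  have h2 : Nat.card {z : Fin n → Fin f // Gen S (latS g) f (vz g z)} =
      Nat.card {b : BQ S f // IsUnit b} :=
    Nat.card_congr (e.subtypeEquiv h1)
  rw [h2]
  exact Nat.card_congr ⟨fun b => b.2.unit, fun u => ⟨u, u.isUnit⟩, fun b => Subtype.ext rfl,
    fun u => Units.ext rfl⟩

theorem card_fibre (hp : Pair R S f) {g : G n} (h : Inv S (latS g)) {z₀ : Fin n → Fin f}
    (hz₀ : Gen S (latS g) f (vz g z₀)) :
    Nat.card {z : Fin n → Fin f // Gen S (latS g) f (vz g z) ∧ yz R g z = yz R g z₀} =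
      mult R S f := by
  obtain ⟨hL, L', hL', hLL⟩ := h
  obtain ⟨e, he⟩ := coef_bijective hp.f0 hL hL' hLL hz₀
  refine Nat.card_congr (e.subtypeEquiv fun z => ?_)
  rw [← coef_sub_iff hL hL' hLL hp.le hz₀ (vz_mem g z) (he z)]
  constructor
  · rintro ⟨h1, h2⟩
    exact (yz_eq_iff hp hL h1 hz₀).mp h2
  · intro h1
    have h2 : IsUnit (e z) := by
      obtain ⟨r, r', -, -, h3, h4⟩ :=
        (coef_sub_iff hL hL' hLL hp.le hz₀ (vz_mem g z) (he z)).mp h1
      rw [h3]
      refine IsUnit.of_mul_eq_one (Ideal.Quotient.mk _ r') ?_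
      rw [← map_mul]
      exact h4
    have h3 := (coef_gen_iff hL hL' hLL hz₀ (vz_mem g z) (he z)).mpr h2
    exact ⟨h3, (yz_eq_iff hp hL h3 hz₀).mpr h1⟩

end Vale.Agent.P007.Fib
end

section

set_option autoImplicit false

open MeasureTheory Matrix NumberField Filter Topology Module
open scoped nonZeroDivisors ENNReal CompactlySupported Pointwise

namespace Vale.Agent.P007.Fib

open Vale.Agent.P007

variable {n : ℕ}

/-- translation of the measure -/
theorem map_restrict_shift (D : Set (Fin (n - 1) → ℝ)) (hD : MeasurableSet D)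
    (l : Fin (n - 1) → ℝ) (y : X n) :
    (volume.restrict ((fun u => u - l) ⁻¹' D)).map (fun u => tr (aexp u) y) =
      (volume.restrict D).map fun u => tr (aexp u) (tr (aexp l) y) := by
  ext E hE
  rw [Measure.map_apply (continuous_orbMap _).measurable hE,
    Measure.map_apply (continuous_orbMap _).measurable hE,
    Measure.restrict_apply ((continuous_orbMap _).measurable hE),
    Measure.restrict_apply ((continuous_orbMap _).measurable hE)]
  have h1 : (fun u => tr (aexp u) (tr (aexp l) y)) ⁻¹' E ∩ D =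
      (fun u => u + l) ⁻¹' ((fun u => tr (aexp u) y) ⁻¹' E ∩ ((fun u => u - l) ⁻¹' D)) := by
    ext u
    simp only [Set.mem_inter_iff, Set.mem_preimage, tr_aexp_add, add_sub_cancel_right]
  rw [h1, measure_preimage_add_right]

/-- Decomposition of the orbit measure of `y₀` over a fundamental domain of the stabiliser
of `x`. -/
theorem orb_decomp {x y₀ : X n} {b : Basis (Fin (n - 1)) ℝ (Fin (n - 1) → ℝ)}
    (hb : StabBasis x b) {b₀ : Basis (Fin (n - 1)) ℝ (Fin (n - 1) → ℝ)} (hb₀ : StabBasis y₀ b₀)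
    {D : Set (Fin (n - 1) → ℝ)} (hD : IsSection x D) (F : Finset (X n))
    (hF1 : ∀ y ∈ F, ∃ l, tr (aexp l) x = x ∧ tr (aexp l) y₀ = y)
    (hF2 : ∀ l, tr (aexp l) x = x → tr (aexp l) y₀ ∈ F)
    (hst : ∀ l, tr (aexp l) y₀ = y₀ → tr (aexp l) x = x) :
    orbMeas (orb y₀) = ∑ y ∈ F, (volume.restrict D).map fun u => tr (aexp u) y := by
  classical
  choose! l hlx hly using hF1
  set D' : Set (Fin (n - 1) → ℝ) := ⋃ y ∈ F, (fun u => u - l y) ⁻¹' D with hD'
  have hpm : ∀ y, MeasurableSet ((fun u => u - l y) ⁻¹' D) := fun y =>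
    (measurable_sub_const (l y)) hD.1
  -- elements of `D` equivalent under the stabiliser of `x` agree
  have hDinj : ∀ u ∈ D, ∀ v ∈ D, tr (aexp (u - v)) x = x → u = v := by
    intro u hu v hv h
    apply hD.2.injOn hu hv
    change tr (aexp u) x = tr (aexp v) x
    have h1 : u = v + (u - v) := by abel
    rw [h1, tr_aexp_add, h]
  have hneg : ∀ w, tr (aexp w) x = x → tr (aexp (-w)) x = x := by
    intro w hw
    conv_lhs => rw [← hw]
    exact tr_neg_tr w x
  have hkey : ∀ y ∈ F, ∀ y' ∈ F, ∀ u, u - l y ∈ D → ∀ u', u' - l y' ∈ D →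
      tr (aexp u) y₀ = tr (aexp u') y₀ → y = y' ∧ u = u' := by
    intro y hy y' hy' u hu u' hu' h
    have h1 : tr (aexp (u - u')) y₀ = y₀ := by
      have h2 : u - u' = -u' + u := by abel
      rw [h2, tr_aexp_add, h, tr_neg_tr]
    have h2 : tr (aexp ((u - l y) - (u' - l y'))) x = x := by
      have h3 : (u - l y) - (u' - l y') = -(l y) + ((u - u') + l y') := by abel
      rw [h3, tr_aexp_add, tr_aexp_add, hlx y' hy', hst _ h1, hneg _ (hlx y hy)]
    have h3 := hDinj _ hu _ hu' h2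
    have h4 : tr (aexp (l y - l y')) y₀ = y₀ := by
      have h5 : l y - l y' = u - u' := by
        have : (u - l y) = (u' - l y') := h3
        have h6 : u - u' = (u - l y) - (u' - l y') + (l y - l y') := by abel
        rw [h6, this]; abel
      rw [h5]; exact h1
    have h5 : y = y' := by
      have h6 : tr (aexp (l y)) y₀ = tr (aexp (l y')) y₀ := by
        have h7 : l y = l y' + (l y - l y') := by abel
        rw [h7, tr_aexp_add, h4]
      rw [hly y hy, hly y' hy'] at h6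
      exact h6
    refine ⟨h5, ?_⟩
    subst h5
    have : u - l y = u' - l y := h3
    exact sub_left_injective this
  have hsec : IsSection y₀ D' := by
    refine ⟨?_, ?_, ?_, ?_⟩
    · exact Finset.measurableSet_biUnion F fun y _ => hpm y
    · intro u _
      exact ⟨u, rfl⟩
    · intro u hu u' hu' h
      rw [hD', Set.mem_iUnion₂] at hu hu'
      obtain ⟨y, hy, hyu⟩ := hu
      obtain ⟨y', hy', hyu'⟩ := hu'
      exact (hkey y hy y' hy' u hyu u' hyu' h).2
    · rintro _ ⟨w, rfl⟩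
      obtain ⟨u, hu, huw⟩ := hD.2.surjOn ⟨w, rfl⟩
      have huw' : tr (aexp u) x = tr (aexp w) x := huw
      have h1 : tr (aexp (w - u)) x = x := by
        have h2 : w - u = -u + w := by abel
        rw [h2, tr_aexp_add, ← huw', tr_neg_tr]
      set y := tr (aexp (w - u)) y₀ with hy
      have hyF : y ∈ F := hF2 _ h1
      refine ⟨u + l y, ?_, ?_⟩
      · rw [hD', Set.mem_iUnion₂]
        refine ⟨y, hyF, ?_⟩
        rw [Set.mem_preimage, add_sub_cancel_right]
        exact hu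
      · change tr (aexp (u + l y)) y₀ = tr (aexp w) y₀
        rw [tr_aexp_add, hly y hyF, hy, ← tr_aexp_add]
        congr 2
        abel
  rw [orbMeas_eq hb₀ hsec]
  have hdisj : Set.PairwiseDisjoint (F : Set (X n)) fun y => (fun u => u - l y) ⁻¹' D := by
    intro y hy y' hy' hne
    rw [Function.onFun, Set.disjoint_left]
    intro u hu hu'
    exact hne (hkey y hy y' hy' u hu u hu' rfl).1
  ext E hE
  rw [Measure.map_apply (continuous_orbMap _).measurable hE,
    Measure.restrict_apply ((continuous_orbMap _).measurable hE), hD', Set.inter_iUnion₂,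
    measure_biUnion_finset]
  · rw [Measure.finsetSum_apply]
    refine Finset.sum_congr rfl fun y hy => ?_
    have h1 := map_restrict_shift D hD.1 (l y) y₀
    rw [hly y hy] at h1
    rw [← h1, Measure.map_apply (continuous_orbMap _).measurable hE,
      Measure.restrict_apply ((continuous_orbMap _).measurable hE)]
  · intro y hy y' hy' hne
    exact (hdisj hy hy' hne).mono Set.inter_subset_right Set.inter_subset_right
  · intro y _
    exact ((continuous_orbMap _).measurable hE).inter (hpm y)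

end Vale.Agent.P007.Fib
end

section

set_option autoImplicit false

open MeasureTheory Matrix NumberField Filter Topology Module
open scoped nonZeroDivisors ENNReal CompactlySupported Pointwise

namespace Vale.Agent.P007.Fib

open Vale.Agent.P007

variable {n : ℕ}

theorem exists_stabBasis_inv (D : Datum n) {x : X n} (hx : InvPt (RE D) x) :
    ∃ b : Basis (Fin (n - 1)) ℝ (Fin (n - 1) → ℝ), StabBasis x b := by
  obtain ⟨u, hu⟩ := exists_packetPt_of_invPt D hx
  obtain ⟨b, hb⟩ := exists_stabBasis D hu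
  have h1 := hb.orb (-u)
  rw [tr_neg_tr] at h1
  exact ⟨b, h1⟩

variable {R S : Subring (Fin n → ℝ)} {f : ℕ}

theorem Inv.mul_ring (hRS : R ≤ S) {L : Submodule ℤ (Fin n → ℝ)} (h : Inv R L) :
    Inv S (RM S * L) := by
  obtain ⟨h1, L', h2, h3⟩ := h
  have hSS : RM S * RM S = RM S := RM_mul_eq (fun s hs x hx => S.mul_mem hs hx)
  have hSR : RM S * RM R = RM S := by
    refine le_antisymm ?_ ?_
    · rw [Submodule.mul_le]
      intro s hs r hr
      exact S.mul_mem hs (hRS hr)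
    · intro s hs
      have := Submodule.mul_mem_mul (M := RM S) (N := RM R) hs R.one_mem
      rwa [mul_one] at this
  have hst : ∀ M : Submodule ℤ (Fin n → ℝ), Stable S (RM S * M) := by
    intro M s hs x hx
    have h4 : s * x ∈ RM S * (RM S * M) := Submodule.mul_mem_mul hs hx
    rwa [← mul_assoc, hSS] at h4
  refine ⟨hst L, RM S * L', hst L', ?_⟩
  calc RM S * L * (RM S * L') = (RM S * RM S) * (L * L') := by ring
    _ = RM S := by rw [hSS, h3, hSR]

theorem exists_over (hp : Pair R S f) {y : X n} (hy : InvPt R y) :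
    ∃ x, InvPt S x ∧ Over S x y := by
  obtain ⟨g, rfl, hg⟩ := hy
  have hS := hg.mul_ring hp.le
  have hf0 : (0 : ℝ) < f := by exact_mod_cast Nat.pos_of_ne_zero hp.f0
  set M : Submodule ℤ (Fin n → ℝ) := vmul (fun _ => (f : ℝ)) (RM S * latS g) with hM
  have hcast : (fun _ => (f : ℝ)) = (f : Fin n → ℝ) := by
    funext j
    rw [Pi.natCast_apply]
  have hle : M ≤ latS g := by
    rintro _ ⟨x, hx, rfl⟩
    rw [LinearMap.mulLeft_apply, hcast]
    refine Submodule.mul_induction_on hx ?_ ?_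
    · intro s hs w hw
      have : (f : Fin n → ℝ) * (s * w) = (f * s) * w := by ring
      rw [this]
      exact hg.1 _ (hp.mul s hs) w hw
    · intro a b ha hb
      rw [mul_add]
      exact Submodule.add_mem _ ha hb
  have hfM : ∀ y ∈ latS g, (f : Fin n → ℝ) * y ∈ M := by
    intro y hy
    rw [hM, mem_vmul]
    refine ⟨y, ?_, by rw [hcast]⟩
    have := Submodule.mul_mem_mul (M := RM S) S.one_mem hy
    rwa [one_mul] at this
  obtain ⟨g', c, hc, hg', -⟩ := exists_sub_pt hp.hn hp.f0 hle hfM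
  have hlat : latS g' = vmul (fun _ => c * f) (RM S * latS g) := by
    rw [hg', hM, vmul_vmul]
    rfl
  refine ⟨pt g', ⟨g', rfl, ?_⟩, g, rfl, g', c * f, by positivity, rfl, hlat⟩
  rw [hlat]
  refine hS.vmul (s := fun _ => (c * f)⁻¹) ?_
  funext j
  rw [Pi.mul_apply, Pi.one_apply, mul_inv_cancel₀ (by positivity)]

theorem Fset_finite (hp : Pair R S f) {x : X n} (hx : InvPt S x) : (Fset R S x).Finite := by
  obtain ⟨g, rfl, hg⟩ := hx
  rw [Fset_eq_image hp hg]
  exact (Set.toFinite _).image _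

open Classical in
/-- generator classes -/
noncomputable def GS (S : Subring (Fin n → ℝ)) (g : G n) (f : ℕ) : Finset (Fin n → Fin f) :=
  Finset.univ.filter fun z => Gen S (latS g) f (vz g z)

theorem mem_GS {g : G n} {z : Fin n → Fin f} : z ∈ GS S g f ↔ Gen S (latS g) f (vz g z) := by
  simp only [GS, Finset.mem_filter, Finset.mem_univ, true_and]

theorem card_GS' (hp : Pair R S f) {g : G n} (h : Inv S (latS g)) :
    (GS S g f).card = Nat.card (BQ S f)ˣ := by
  classical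
  rw [← card_GS hp h, Nat.card_eq_fintype_card, Fintype.card_subtype]
  congr 1

/-- the fibre as a finset -/
noncomputable def FF (hp : Pair R S f) {x : X n} (hx : InvPt S x) : Finset (X n) :=
  (Fset_finite hp hx).toFinset

theorem mem_FF (hp : Pair R S f) {x y : X n} (hx : InvPt S x) :
    y ∈ FF hp hx ↔ y ∈ Fset R S x := by
  rw [FF, Set.Finite.mem_toFinset]

/-- sums over generator classes and sums over the fibre -/
theorem sum_GS (hp : Pair R S f) {g : G n} (h : Inv S (latS g)) (hx : InvPt S (pt g))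
    (φ : X n → ℝ≥0∞) :
    ∑ z ∈ GS S g f, φ (yz R g z) = mult R S f * ∑ y ∈ FF hp hx, φ y := by
  classical
  have hmaps : ∀ z ∈ GS S g f, yz R g z ∈ FF hp hx := by
    intro z hz
    rw [mem_FF, Fset_eq_image hp h]
    exact ⟨z, mem_GS.mp hz, rfl⟩
  rw [← Finset.sum_fiberwise_of_maps_to hmaps, Finset.mul_sum]
  refine Finset.sum_congr rfl fun y hy => ?_
  rw [mem_FF, Fset_eq_image hp h] at hy
  obtain ⟨z₀, hz₀, rfl⟩ := hy
  have h1 : ∀ z ∈ (GS S g f).filter fun z => yz R g z = yz R g z₀,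
      φ (yz R g z) = φ (yz R g z₀) := by
    intro z hz
    rw [(Finset.mem_filter.mp hz).2]
  rw [Finset.sum_congr rfl h1, Finset.sum_const, nsmul_eq_mul]
  congr 1
  have h2 := card_fibre hp h hz₀
  rw [← h2, Nat.card_eq_fintype_card, Fintype.card_subtype]
  congr 2
  ext z
  simp only [GS, Finset.mem_filter, Finset.mem_univ, true_and]

theorem card_FF (hp : Pair R S f) {x : X n} (hx : InvPt S x) :
    (mult R S f : ℝ≥0∞) * (FF hp hx).card = Nat.card (BQ S f)ˣ := by
  obtain ⟨g, rfl, hg⟩ := id hx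
  have h1 := sum_GS hp hg hx (fun _ => 1)
  simp only [Finset.sum_const, nsmul_eq_mul, mul_one] at h1
  rw [← h1, card_GS' hp hg]

theorem stab_of_over (hn : 0 < n) {x y : X n} (h : Over S x y) {l : Fin (n - 1) → ℝ}
    (hl : tr (aexp l) y = y) : tr (aexp l) x = x := by
  have h1 := h.tr l
  rw [hl] at h1
  exact h1.unique hn h

/-- **The fibre formula** for orbit measures. -/
theorem sum_orbMeas (D D' : Datum n) (hp : Pair (RE D) (RE D') f)
    (x : D'.packet → X n) (hx : ∀ o, InvPt (RE D') (x o)) (hox : ∀ o, o.1 = orb (x o))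
    (E : D'.packet → Set (Fin (n - 1) → ℝ)) (hE : ∀ o, IsSection (x o) (E o))
    [Fintype D.packet] [Fintype D'.packet] :
    ∑ o : D.packet, orbMeas o.1 =
      ∑ o : D'.packet, ∑ y ∈ FF hp (hx o), (volume.restrict (E o)).map fun u => tr (aexp u) y := by
  classical
  have hn := hp.hn
  -- the orbit of a point of a fibre
  have hmem : ∀ (o : D'.packet) (y : X n), y ∈ FF hp (hx o) → orb y ∈ D.packet := by
    intro o y hy
    rw [mem_FF] at hy
    rw [packet_eq]
    exact ⟨y, hy.1, rfl⟩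
  let T := Σ o : D'.packet, {y // y ∈ FF hp (hx o)}
  let θ : T → D.packet := fun t => ⟨orb t.2.1, hmem t.1 t.2.1 t.2.2⟩
  have h1 : ∑ o : D'.packet, ∑ y ∈ FF hp (hx o), (volume.restrict (E o)).map
      (fun u => tr (aexp u) y) =
      ∑ t : T, (volume.restrict (E t.1)).map fun u => tr (aexp u) t.2.1 := by
    rw [Fintype.sum_sigma]
    refine Finset.sum_congr rfl fun o _ => ?_
    exact (Finset.sum_coe_sort (FF hp (hx o)) (fun y => (volume.restrict (E o)).map
      (fun u => tr (aexp u) y))).symm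
  rw [h1, ← Finset.sum_fiberwise_of_maps_to (t := Finset.univ) (g := θ)
    (fun t _ => Finset.mem_univ _)]
  refine Finset.sum_congr rfl fun o _ => ?_
  -- a point of the orbit in a fibre
  obtain ⟨o', y₀, hy₀, hoy⟩ : ∃ (o' : D'.packet) (y₀ : X n), y₀ ∈ FF hp (hx o') ∧ o.1 = orb y₀ := by
    have h2 := (Set.ext_iff.mp (packet_eq D) _).mp o.2
    obtain ⟨y, hy, hoy⟩ := h2
    obtain ⟨x', hx', hover⟩ := exists_over hp hy
    have hmem' : orb x' ∈ D'.packet := by
      rw [packet_eq]; exact ⟨x', hx', rfl⟩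
    have h3 : x ⟨orb x', hmem'⟩ ∈ orb x' := by
      have := hox ⟨orb x', hmem'⟩
      change orb x' = _ at this
      exact (Set.ext_iff.mp this _).mpr (mem_orb_self _)
    obtain ⟨u, hu⟩ := h3
    have hu' : tr (aexp u) x' = x ⟨orb x', hmem'⟩ := hu
    refine ⟨⟨orb x', hmem'⟩, tr (aexp u) y, ?_, ?_⟩
    · rw [mem_FF]
      refine ⟨hy.tr u, ?_⟩
      rw [← hu']
      exact hover.tr u
    · rw [hoy, orb_tr]
  obtain ⟨b, hb⟩ := exists_stabBasis_inv D' (hx o')
  have hy₀' := (mem_FF hp (hx o')).mp hy₀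
  obtain ⟨b₀, hb₀⟩ := exists_stabBasis_inv D hy₀'.1
  have h4 := orb_decomp hb hb₀ (hE o') ((FF hp (hx o')).filter fun y => orb y = orb y₀) ?_ ?_ ?_
  · rw [hoy, h4]
    symm
    refine Finset.sum_bij' (i := fun t _ => t.2.1) (j := fun y hy => ⟨o', y, (Finset.mem_filter.mp hy).1⟩)
      ?_ ?_ ?_ ?_ ?_
    · intro t ht
      have h5 : θ t = o := (Finset.mem_filter.mp ht).2
      have h6 : orb t.2.1 = orb y₀ := by rw [← hoy, ← h5]
      -- the base points agree
      have h7 := (mem_FF hp (hx t.1)).mp t.2.2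
      have h8 : t.2.1 ∈ orb y₀ := h6 ▸ mem_orb_self _
      obtain ⟨u, hu⟩ := h8
      have hu' : tr (aexp u) y₀ = t.2.1 := hu
      have h9 : x t.1 = tr (aexp u) (x o') := by
        have h10 := hy₀'.2.tr u
        rw [hu'] at h10
        exact h7.2.unique hn h10
      have h11 : t.1 = o' := by
        apply Subtype.ext
        rw [hox t.1, hox o', h9, orb_tr]
      rw [Finset.mem_filter]
      refine ⟨?_, h6⟩
      rw [mem_FF]
      have h13 : x t.1 = x o' := congrArg x h11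
      rw [← h13]
      exact h7
    · intro y hy
      rw [Finset.mem_filter]
      refine ⟨Finset.mem_univ _, ?_⟩
      apply Subtype.ext
      change orb y = o.1
      rw [hoy, (Finset.mem_filter.mp hy).2]
    · intro t ht
      have h5 : θ t = o := (Finset.mem_filter.mp ht).2
      have h6 : orb t.2.1 = orb y₀ := by rw [← hoy, ← h5]
      have h7 := (mem_FF hp (hx t.1)).mp t.2.2
      have h8 : t.2.1 ∈ orb y₀ := h6 ▸ mem_orb_self _
      obtain ⟨u, hu⟩ := h8
      have hu' : tr (aexp u) y₀ = t.2.1 := hu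
      have h9 : x t.1 = tr (aexp u) (x o') := by
        have h10 := hy₀'.2.tr u
        rw [hu'] at h10
        exact h7.2.unique hn h10
      have h11 : t.1 = o' := by
        apply Subtype.ext
        rw [hox t.1, hox o', h9, orb_tr]
      obtain ⟨o₂, y, hy⟩ := t
      cases h11
      rfl
    · intro y hy
      rfl
    · intro t ht
      have h5 : θ t = o := (Finset.mem_filter.mp ht).2
      have h6 : orb t.2.1 = orb y₀ := by rw [← hoy, ← h5]
      have h7 := (mem_FF hp (hx t.1)).mp t.2.2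
      have h8 : t.2.1 ∈ orb y₀ := h6 ▸ mem_orb_self _
      obtain ⟨u, hu⟩ := h8
      have hu' : tr (aexp u) y₀ = t.2.1 := hu
      have h9 : x t.1 = tr (aexp u) (x o') := by
        have h10 := hy₀'.2.tr u
        rw [hu'] at h10
        exact h7.2.unique hn h10
      have h11 : t.1 = o' := by
        apply Subtype.ext
        rw [hox t.1, hox o', h9, orb_tr]
      have h13 : E t.1 = E o' := congrArg E h11
      rw [h13]
  · intro y hy
    rw [Finset.mem_filter, mem_FF] at hy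
    have h8 : y ∈ orb y₀ := hy.2 ▸ mem_orb_self _
    obtain ⟨u, hu⟩ := h8
    have hu' : tr (aexp u) y₀ = y := hu
    refine ⟨u, ?_, hu'⟩
    have h10 := hy₀'.2.tr u
    rw [hu'] at h10
    exact (hy.1.2.unique hn h10).symm
  · intro l hl
    rw [Finset.mem_filter, mem_FF]
    refine ⟨⟨hy₀'.1.tr l, ?_⟩, orb_tr l⟩
    have h10 := hy₀'.2.tr l
    rwa [hl] at h10
  · intro l hl
    exact stab_of_over hn hy₀'.2 hl

end Vale.Agent.P007.Fib
end

section

set_option autoImplicit false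

open MeasureTheory Matrix NumberField Filter Topology Module
open scoped nonZeroDivisors ENNReal CompactlySupported Pointwise

namespace Vale.Agent.P007.Fib

open Vale.Agent.P007

variable {n : ℕ}

/-- the sum of the orbit measures -/
noncomputable def lam (D : Datum n) [Fintype D.packet] : Measure (X n) :=
  ∑ o : D.packet, orbMeas o.1

theorem packetMeas_eq (D : Datum n) [Fintype D.packet] :
    D.packetMeas = (lam D Set.univ)⁻¹ • lam D := by
  unfold Datum.packetMeas lam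
  rw [tsum_fintype, Measure.sum_fintype, Measure.finsetSum_apply]

/-- orbit representatives -/
theorem exists_reps (D : Datum n) :
    ∃ (x : D.packet → X n) (E : D.packet → Set (Fin (n - 1) → ℝ)),
      (∀ o, InvPt (RE D) (x o)) ∧ (∀ o, o.1 = orb (x o)) ∧ (∀ o, IsSection (x o) (E o)) ∧
      ∀ o, orbMeas o.1 = (volume.restrict (E o)).map fun u => tr (aexp u) (x o) := by
  have h : ∀ o : D.packet, ∃ (x : X n) (E : Set (Fin (n - 1) → ℝ)),
      InvPt (RE D) x ∧ o.1 = orb x ∧ IsSection x E ∧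
      orbMeas o.1 = (volume.restrict E).map fun u => tr (aexp u) x := by
    rintro ⟨o, ho⟩
    obtain ⟨x, hx, rfl⟩ := (Set.ext_iff.mp (packet_eq D) _).mp ho
    obtain ⟨b, hb⟩ := exists_stabBasis_inv D hx
    exact ⟨x, _, hx, rfl, hb.isSection_fundamentalDomain,
      orbMeas_eq hb hb.isSection_fundamentalDomain⟩
  choose x E h1 h2 h3 h4 using h
  exact ⟨x, E, h1, h2, h3, h4⟩

end Vale.Agent.P007.Fib
end

section

set_option autoImplicit false

open MeasureTheory Matrix NumberField Filter Topology Module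
open scoped nonZeroDivisors ENNReal CompactlySupported Pointwise

namespace Vale.Agent.P007.Fib

open Vale.Agent.P007

variable {n : ℕ}

theorem isSection_tr {x : X n} {E : Set (Fin (n - 1) → ℝ)} (h : IsSection x E)
    (l : Fin (n - 1) → ℝ) : IsSection (tr (aexp l) x) E := by
  refine ⟨h.1, ?_⟩
  have hcomm : ∀ u : Fin (n - 1) → ℝ, tr (aexp u) (tr (aexp l) x) =
      tr (aexp l) (tr (aexp u) x) := by
    intro u
    rw [← tr_aexp_add, ← tr_aexp_add, add_comm]
  have horb : orb (tr (aexp l) x) = orb x := orb_tr l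
  rw [horb]
  refine ⟨?_, ?_, ?_⟩
  · intro u hu
    change tr (aexp u) (tr (aexp l) x) ∈ orb x
    rw [← tr_aexp_add]
    exact ⟨u + l, rfl⟩
  · intro u hu v hv huv
    apply h.2.injOn hu hv
    change tr (aexp u) (tr (aexp l) x) =
      tr (aexp v) (tr (aexp l) x) at huv
    rw [hcomm, hcomm] at huv
    exact tr_aexp_inj l huv
  · rintro y hy
    have hy' : tr (aexp (-l)) y ∈ orb x := by
      obtain ⟨w, rfl⟩ := hy
      refine ⟨-l + w, ?_⟩
      exact tr_aexp_add _ _ _
    obtain ⟨u, hu, hu'⟩ := h.2.surjOn hy'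
    refine ⟨u, hu, ?_⟩
    change tr (aexp u) (tr (aexp l) x) = y
    rw [hcomm]
    have : tr (aexp u) x = tr (aexp (-l)) y := hu'
    rw [this]
    exact tr_tr_neg l y

/-- packet measures are invariant under `A` -/
theorem packetMeas_map (D : Datum n) (l : Fin (n - 1) → ℝ) :
    D.packetMeas.map (tr (aexp l)) = D.packetMeas := by
  classical
  have hfin : Finite D.packet := D.packet_finite.to_subtype
  have := Fintype.ofFinite D.packet
  have hm : Measurable (tr (aexp l) : X n → X n) := (continuous_tr _).measurable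
  have horb : ∀ o : D.packet, (orbMeas o.1).map (tr (aexp l)) = orbMeas o.1 := by
    rintro ⟨o, ho⟩
    obtain ⟨x, hx, rfl⟩ := (Set.ext_iff.mp (packet_eq D) _).mp ho
    obtain ⟨b, hb⟩ := exists_stabBasis_inv D hx
    have hs := hb.isSection_fundamentalDomain
    have h1 := orbMeas_eq hb hs
    have h2 := orbMeas_eq (hb.orb l) (isSection_tr hs l)
    rw [orb_tr] at h2
    simp only
    rw [h1, Measure.map_map hm (continuous_orbMap _).measurable]
    rw [← h1, h2]
    congr 1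
    funext u
    simp only [Function.comp]
    rw [← tr_aexp_add, ← tr_aexp_add, add_comm]
  rw [packetMeas_eq, Measure.map_smul]
  congr 1
  unfold lam
  ext E hE
  rw [Measure.map_apply hm hE, Measure.finsetSum_apply, Measure.finsetSum_apply]
  refine Finset.sum_congr rfl fun o _ => ?_
  rw [← Measure.map_apply hm hE, horb]

end Vale.Agent.P007.Fib
end

section

/-!
Basic definitions for the measure rigidity part: `A`-invariant measures on `X n`, the root groups
`ug i j`, leafwise measures, triviality, purity, names.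
-/

set_option autoImplicit false

open MeasureTheory Matrix Filter Topology ProbabilityTheory
open scoped ENNReal

namespace Vale.Agent.P007.R

open Vale.Agent.P007 Vale.Agent.P007.Koopman Vale.Agent.P007.Mautner

variable {n : ℕ}

/-- the mean of `β` -/
noncomputable def mean (β : Fin n → ℝ) : ℝ := (∑ i, β i) / n

/-- `diag(e^{β_i - mean β})`; every element of `A` is of this form. -/
noncomputable def da (β : Fin n → ℝ) : G n :=
  ⟨diagonal fun i => Real.exp (β i - mean β), by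
    rw [det_diagonal, ← Real.exp_sum, Finset.sum_sub_distrib, Finset.sum_const, Finset.card_univ,
      Fintype.card_fin, nsmul_eq_mul, mean]
    obtain rfl | hn := Nat.eq_zero_or_pos n
    · simp
    · rw [mul_div_cancel₀ _ (by positivity : (n : ℝ) ≠ 0), sub_self, Real.exp_zero]⟩

/-- the root group element `1 + s E_ij` (`1` if `i = j`) -/
noncomputable def ug (i j : Fin n) (s : ℝ) : G n := if h : i = j then 1 else tv h s

theorem ug_of_ne {i j : Fin n} (h : i ≠ j) (s : ℝ) : ug i j s = tv h s := dif_neg h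

theorem coe_da (β : Fin n → ℝ) : ((da β : G n) : Matrix (Fin n) (Fin n) ℝ) =
    diagonal fun i => Real.exp (β i - mean β) := rfl

theorem mean_add (β γ : Fin n → ℝ) : mean (β + γ) = mean β + mean γ := by
  simp only [mean, Pi.add_apply, Finset.sum_add_distrib, add_div]

theorem mean_smul (c : ℝ) (β : Fin n → ℝ) : mean (c • β) = c * mean β := by
  simp only [mean, Pi.smul_apply, smul_eq_mul, ← Finset.mul_sum, mul_div_assoc]

theorem mean_neg (β : Fin n → ℝ) : mean (-β) = -mean β := by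
  simp only [mean, Pi.neg_apply, Finset.sum_neg_distrib, neg_div]

theorem mean_zero : mean (0 : Fin n → ℝ) = 0 := by simp only [mean, Pi.zero_apply,
                                                     Finset.sum_const_zero, zero_div]

theorem da_add (β γ : Fin n → ℝ) : da (β + γ) = da β * da γ := by
  apply Subtype.ext
  rw [coe_mul_G, coe_da, coe_da, coe_da, diagonal_mul_diagonal]
  congr 1
  funext i
  rw [mean_add, Pi.add_apply, ← Real.exp_add]
  congr 1
  ring

theorem da_zero : da (0 : Fin n → ℝ) = 1 := by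
  apply Subtype.ext
  rw [coe_da]
  simp [mean_zero]

theorem da_neg (β : Fin n → ℝ) : da (-β) = (da β)⁻¹ := by
  rw [eq_inv_iff_mul_eq_one, ← da_add, neg_add_cancel, da_zero]

theorem da_nsmul (k : ℕ) (β : Fin n → ℝ) : da ((k : ℝ) • β) = da β ^ k := by
  induction k with
  | zero => simp [da_zero]
  | succ k ih =>
    rw [pow_succ, ← ih, ← da_add]
    congr 1
    push_cast
    rw [add_smul, one_smul]

theorem da_zsmul (k : ℤ) (β : Fin n → ℝ) : da ((k : ℝ) • β) = da β ^ k := by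
  obtain ⟨m, rfl | rfl⟩ := k.eq_nat_or_neg
  · rw [Int.cast_natCast, da_nsmul, zpow_natCast]
  · rw [Int.cast_neg, neg_smul, da_neg, Int.cast_natCast, da_nsmul, _root_.zpow_neg, zpow_natCast]

/-- conjugation by `da β` multiplies the `(i,j)` entry by `e^{β_j - β_i}` -/
theorem conj_da_apply (β : Fin n → ℝ) (h : G n) (i j : Fin n) :
    (((da β)⁻¹ * h * da β : G n) : Matrix (Fin n) (Fin n) ℝ) i j =
      Real.exp (β j - β i) * (h : Matrix (Fin n) (Fin n) ℝ) i j := by
  rw [← da_neg, coe_mul_G, coe_mul_G, coe_da, coe_da, mul_diagonal, diagonal_mul, mean_neg]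
  rw [mul_right_comm, ← Real.exp_add]
  congr 2
  simp only [Pi.neg_apply]
  ring

theorem continuous_mean : Continuous (mean : (Fin n → ℝ) → ℝ) := by
  unfold mean
  fun_prop

theorem continuous_da : Continuous (da : (Fin n → ℝ) → G n) := by
  refine (Matrix.SpecialLinearGroup.isClosedEmbedding_val.isEmbedding.isInducing.continuous_iff).mpr ?_
  refine Continuous.matrix_diagonal ?_
  exact continuous_pi fun j => Real.continuous_exp.comp ((continuous_apply j).sub continuous_mean)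

theorem ug_add (i j : Fin n) (s t : ℝ) : ug i j (s + t) = ug i j s * ug i j t := by
  unfold ug
  split_ifs with h
  · rw [mul_one]
  · exact (tv_mul h s t).symm

theorem ug_zero (i j : Fin n) : ug i j 0 = 1 := by
  unfold ug
  split_ifs with h
  · rfl
  · exact tv_zero h

theorem ug_neg (i j : Fin n) (s : ℝ) : ug i j (-s) = (ug i j s)⁻¹ := by
  rw [eq_inv_iff_mul_eq_one, ← ug_add, neg_add_cancel, ug_zero]

theorem continuous_ug (i j : Fin n) : Continuous (ug i j : ℝ → G n) := by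
  by_cases h : i = j
  · have : (ug i j : ℝ → G n) = fun _ => 1 := by
      funext s; exact dif_pos h
    rw [this]; exact continuous_const
  · have : (ug i j : ℝ → G n) = tv h := by
      funext s; exact dif_neg h
    rw [this]; exact continuous_tv h

theorem ug_apply {i j : Fin n} (h : i ≠ j) (s : ℝ) (k l : Fin n) :
    ((ug i j s : G n) : Matrix (Fin n) (Fin n) ℝ) k l =
      (if k = l then 1 else 0) + if k = i ∧ l = j then s else 0 := by
  rw [ug_of_ne h, coe_tv, transvection, Matrix.add_apply, Matrix.one_apply, Matrix.single_apply]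
  simp only [eq_comm]

/-- `u_ij(s) a = a u_ij(e^{β_j - β_i} s)`, `a = da β` -/
theorem ug_mul_da (i j : Fin n) (s : ℝ) (β : Fin n → ℝ) :
    ug i j s * da β = da β * ug i j (Real.exp (β j - β i) * s) := by
  by_cases h : i = j
  · subst h
    unfold ug
    rw [dif_pos rfl, dif_pos rfl, mul_one, one_mul]
  · have key : (da β)⁻¹ * ug i j s * da β = ug i j (Real.exp (β j - β i) * s) := by
      apply Subtype.ext
      ext k l
      change (((da β)⁻¹ * ug i j s * da β : G n) : Matrix (Fin n) (Fin n) ℝ) k l =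
        ((ug i j (Real.exp (β j - β i) * s) : G n) : Matrix (Fin n) (Fin n) ℝ) k l
      rw [conj_da_apply, ug_apply h, ug_apply h]
      by_cases hkl : k = l
      · subst hkl
        have h1 : ¬ (k = i ∧ k = j) := fun h2 => h (h2.1.symm.trans h2.2)
        simp [h1]
      · by_cases h2 : k = i ∧ l = j
        · obtain ⟨rfl, rfl⟩ := h2
          simp [hkl]
        · simp [hkl, h2]
    rw [← key]
    group

/-- `μ` is `A`-invariant. -/
def AInv (μ : Measure (X n)) : Prop := ∀ β : Fin n → ℝ, μ.map (tr (da β)) = μ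

/-- `μ` is invariant under the root group `u_ij`. -/
def UInv (μ : Measure (X n)) (i j : Fin n) : Prop := ∀ s : ℝ, μ.map (tr (ug i j s)) = μ

/-- The root `(i,j)` is trivial for `μ`: a conull exactly `A`-invariant Borel set meets every
`u_ij`-orbit in at most one point. -/
def Triv (μ : Measure (X n)) (i j : Fin n) : Prop :=
  ∃ Y : Set (X n), MeasurableSet Y ∧ μ Yᶜ = 0 ∧ (∀ β : Fin n → ℝ, ∀ x ∈ Y, tr (da β) x ∈ Y) ∧
    ∀ x ∈ Y, ∀ s : ℝ, tr (ug i j s) x ∈ Y → s = 0

/-- Borel set which is almost everywhere invariant under each element of `A`. -/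
def AEInv (μ : Measure (X n)) (Ω : Set (X n)) : Prop :=
  MeasurableSet Ω ∧ ∀ β : Fin n → ℝ, (tr (da β)) ⁻¹' Ω =ᵐ[μ] Ω

/-- `μ` is pure: restricting to an `A`-invariant set of positive measure creates no new trivial
root and no new invariance. -/
def Pure (μ : Measure (X n)) : Prop :=
  ∀ Ω, AEInv μ Ω → μ Ω ≠ 0 → ∀ i j : Fin n, i ≠ j →
    (Triv (μ.restrict Ω) i j → Triv μ i j) ∧ (UInv (μ.restrict Ω) i j → UInv μ i j)

/-- the lattice of a point of `X n` -/
def latx (x : X n) : Set (Fin n → ℝ) := {v | ∃ g : G n, pt g = x ∧ v ∈ lat g}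

/-- Property (*): the measure of the set of lattices with a nonzero vector of length `< 3` whose
norm is within `ε` of `N0` is at most `C √ε`, uniformly in `N0`. -/
def Star (μ : Measure (X n)) : Prop :=
  ∃ C : ℝ, ∀ N0 ε : ℝ, 0 < ε → ε < 1 →
    μ {x | ∃ v ∈ latx x, v ≠ 0 ∧ (∀ i, |v i| < 3) ∧ |∏ i, v i - N0| < ε} ≤
      ENNReal.ofReal (C * √ε)

/-- Leafwise measures of `μ` along the root group `u_ij`. -/
structure Leafwise (μ : Measure (X n)) (i j : Fin n) where
  lam : Kernel (X n) ℝ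
  sfin : IsSFiniteKernel lam
  X0 : Set (X n)
  meas : MeasurableSet X0
  conull : μ X0ᶜ = 0
  lf : ∀ x ∈ X0, ∀ r : ℝ, lam x (Set.Icc (-r) r) < ∞
  norm : ∀ x ∈ X0, lam x (Set.Icc (-1) 1) = 1
  supp : ∀ x ∈ X0, ∀ ε : ℝ, 0 < ε → 0 < lam x (Set.Icc (-ε) ε)
  /-- (P2): for points of `X0` on the same leaf, the leafwise measures differ by translation and
  a scalar -/
  shift : ∀ x ∈ X0, ∀ s : ℝ, tr (ug i j s) x ∈ X0 →
    ∃ c : ℝ≥0∞, c ≠ 0 ∧ c ≠ ∞ ∧ (lam x).map (fun t => t - s) = c • lam (tr (ug i j s) x)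
  /-- (P3) -/
  scale : ∀ β : Fin n → ℝ, ∀ᵐ x ∂μ, ∃ c : ℝ≥0∞, c ≠ 0 ∧ c ≠ ∞ ∧
    (lam x).map (fun t => Real.exp (β j - β i) * t) = c • lam (tr (da β) x)
  /-- (P5) mass transport -/
  transport : ∀ Φ : X n × ℝ → ℝ≥0∞, Measurable Φ →
    ∫⁻ x, ∫⁻ s, Φ (x, s) ∂(lam x) ∂μ =
      ∫⁻ y, ∫⁻ t, Φ (tr (ug i j t) y, -t) / lam y (Set.Icc (t - 1) (t + 1)) ∂(lam y) ∂μ
  /-- leafwise maximal inequality, all radii at once -/
  maxi : ∀ K : Set (X n), MeasurableSet K → ∀ ε : ℝ≥0∞, ε ≠ 0 → ε ≠ ∞ →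
    μ {x | ∃ r : ℝ, 0 < r ∧ ε * lam x (Set.Icc (-r) r) <
      lam x (Set.Icc (-r) r ∩ {s | tr (ug i j s) x ∉ K})} ≤ 2 / ε * μ Kᶜ

/-- all entries of `h` are within `d` of those of `1` -/
def Bd (d : ℝ) : Set (G n) :=
  {h | ∀ i j, |(h : Matrix (Fin n) (Fin n) ℝ) i j - (1 : Matrix (Fin n) (Fin n) ℝ) i j| ≤ d}

/-- the Bowen set of `y` for `T = da β` -/
def Bow (β : Fin n → ℝ) (N : ℕ) (d : ℝ) (y : X n) : Set (X n) :=
  {z | ∃ h : G n, z = tr h y ∧ ∀ k : ℕ, k ≤ N → (da β ^ k)⁻¹ * h * da β ^ k ∈ Bd d}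

end Vale.Agent.P007.R
end

section

/-!
Assembly of the measure rigidity theorem (III.9): pure components, uniqueness of the invariant
probability, and the final argument.
-/

set_option autoImplicit false

open MeasureTheory Matrix Filter Topology ProbabilityTheory
open scoped ENNReal

namespace Vale.Agent.P007.R

open Vale.Agent.P007 Vale.Agent.P007.Koopman Vale.Agent.P007.Mautner

variable {n : ℕ}

/-- The inputs of the assembly: the statements proved in the other files. -/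
structure Inputs (n : ℕ) : Prop where
  hopf : ∀ (μ : Measure (X n)) [IsProbabilityMeasure μ] (a : G n), μ.map (tr a) = μ →
    ∀ F : X n → ℝ, Measurable F → (∀ᵐ x ∂μ, F (tr a x) = F x) →
    ∃ X' : Set (X n), MeasurableSet X' ∧ μ X'ᶜ = 0 ∧ ∀ x ∈ X', ∀ h : G n, tr h x ∈ X' →
      Tendsto (fun k : ℕ => (a ^ k)⁻¹ * h * a ^ k) atTop (𝓝 1) → F x = F (tr h x)
  star_cycle : ∀ (μ : Measure (X n)) [IsProbabilityMeasure μ], AInv μ → Star μ →
    ∀ (F : Set (Fin n × Fin n)), (∀ i j, i ≠ j → (i, j) ∉ F → Triv μ i j) →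
    (∀ i j k, i ≠ j → j ≠ k → i ≠ k → (i, j) ∈ F → (j, k) ∈ F → (i, k) ∈ F) →
    ∃ i j, i ≠ j ∧ (i, j) ∈ F ∧ (j, i) ∈ F
  haar_symm : ∀ (μ : Measure (X n)) [IsProbabilityMeasure μ], AInv μ →
    ∀ (F : Set (Fin n × Fin n)), (∀ i j, i ≠ j → (i, j) ∉ F → Triv μ i j) →
    (∀ i j k, i ≠ j → j ≠ k → i ≠ k → (i, j) ∈ F → (j, k) ∈ F → (i, k) ∈ F) →
    ∀ {i l : Fin n}, i ≠ l → UInv μ i l → (l, i) ∈ F
  not_triv_of_uinv : ∀ {μ : Measure (X n)} [IsProbabilityMeasure μ] {i j : Fin n}, i ≠ j →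
    UInv μ i j → ¬ Triv μ i j
  high : ∀ (μ : Measure (X n)) [IsProbabilityMeasure μ], AInv μ → Pure μ →
    ∀ {i j k : Fin n}, i ≠ j → j ≠ k → i ≠ k → ¬ Triv μ i j → ¬ Triv μ j k → UInv μ i k
  low : ∀ (μ : Measure (X n)) [IsProbabilityMeasure μ], AInv μ → Pure μ →
    ∀ {i j : Fin n}, i ≠ j → ¬ Triv μ i j →
    (∀ l, l ≠ i → l ≠ j → Triv μ i l ∧ Triv μ l j) → UInv μ i j
  blocks : ∀ (μ : Measure (X n)) [IsProbabilityMeasure μ], AInv μ →
    ∀ (B : Finset (Fin n)), 2 ≤ B.card → B ≠ Finset.univ →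
    (∀ i ∈ B, ∀ j ∈ B, i ≠ j → UInv μ i j) →
    (∀ i ∈ B, ∀ l ∉ B, Triv μ i l ∧ Triv μ l i) → False

theorem measurable_tr (g : G n) : Measurable (tr g : X n → X n) := (continuous_tr g).measurable

theorem map_tr_mul (μ : Measure (X n)) (g h : G n) :
    μ.map (tr (g * h)) = (μ.map (tr g)).map (tr h) := by
  rw [Measure.map_map (measurable_tr h) (measurable_tr g)]
  congr 1
  funext x
  exact (tr_tr g h x).symm

theorem map_tr_one (μ : Measure (X n)) : μ.map (tr (1 : G n)) = μ := by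
  have : (tr (1 : G n) : X n → X n) = id := by
    funext x; exact tr_one x
  rw [this, Measure.map_id]

/-- the group of the elements preserving `μ` -/
def invG (μ : Measure (X n)) : Subgroup (G n) where
  carrier := {g | μ.map (tr g) = μ}
  one_mem' := map_tr_one μ
  mul_mem' := by
    intro g h hg hh
    change μ.map (tr (g * h)) = μ
    rw [map_tr_mul, hg, hh]
  inv_mem' := by
    intro g hg
    change μ.map (tr g⁻¹) = μ
    have h1 : μ.map (tr (g * g⁻¹)) = μ.map (tr g⁻¹) := by rw [map_tr_mul, hg]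
    rw [← h1, mul_inv_cancel, map_tr_one]

theorem isInvProb_of_uinv (μ : Measure (X n)) [IsProbabilityMeasure μ] (hn : 1 < n)
    (h : ∀ i j : Fin n, i ≠ j → UInv μ i j) : IsInvProb μ := by
  refine ⟨inferInstance, fun g => ?_⟩
  have htv : ∀ (a b : Fin n) (hab : a ≠ b) (t : ℝ), tv hab t ∈ invG μ := by
    intro a b hab t
    have := h a b hab t
    rw [ug_of_ne hab] at this
    exact this
  have : Nontrivial (Fin n) := Fin.nontrivial_iff_two_le.2 hn
  have key : ∀ g : G n, g ∈ invG μ := by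
    intro g
    refine SpecialLinearGroup.diagonal_transvection_induction' (fun g => g ∈ invG μ) g ?_ ?_ ?_
    · intro a b hab c hc
      rw [diag2n_eq hab c 1 hc one_ne_zero]
      exact mul_mem (mul_mem (mul_mem (htv _ _ _ _) (htv _ _ _ _)) (htv _ _ _ _)) (htv _ _ _ _)
    · intro a b hab c
      exact htv a b hab c
    · intro A B hA hB
      exact mul_mem hA hB
  exact key g

/-! ### uniqueness of the invariant probability -/

theorem ac_of_inv {μ m : Measure (X n)} (hμ : IsInvProb μ) (hm : IsInvProb m) : μ ≪ m := by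
  refine Measure.AbsolutelyContinuous.mk fun E hE h0 => ?_
  have h1 := haar_fiber hm E hE (pt 1)
  have h2 := haar_fiber hμ E hE (pt 1)
  rw [h0, zero_mul] at h1
  rw [h1] at h2
  exact (mul_eq_zero.1 h2.symm).resolve_right hG_univ_ne_zero

theorem rnDeriv_inv {μ m : Measure (X n)} (hμ : IsInvProb μ) (hm : IsInvProb m) (g : G n) :
    (fun x => μ.rnDeriv m (tr g x)) =ᵐ[m] μ.rnDeriv m := by
  have := hμ.1
  have := hm.1
  have hac := ac_of_inv hμ hm
  have hfm : Measurable (μ.rnDeriv m) := Measure.measurable_rnDeriv μ m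
  have h1 : m.withDensity (fun x => μ.rnDeriv m (tr g x)) = μ := by
    ext E hE
    rw [withDensity_apply _ hE]
    have hE' : MeasurableSet ((tr g⁻¹ : X n → X n) ⁻¹' E) := measurable_tr _ hE
    have hEE : E = (tr g : X n → X n) ⁻¹' ((tr g⁻¹ : X n → X n) ⁻¹' E) := by
      ext x
      simp only [Set.mem_preimage, tr_tr, mul_inv_cancel, tr_one]
    have h2 : ∫⁻ x in E, μ.rnDeriv m (tr g x) ∂m =
        ∫⁻ x in (tr g⁻¹ : X n → X n) ⁻¹' E, μ.rnDeriv m x ∂m := by
      have h5 := setLIntegral_map (μ := m) hE' hfm (measurable_tr g)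
      rw [hm.2 g, ← hEE] at h5
      exact h5.symm
    rw [h2, ← withDensity_apply _ hE', Measure.withDensity_rnDeriv_eq _ _ hac,
      ← Measure.map_apply (measurable_tr _) hE, hμ.2]
  have h3 := Measure.rnDeriv_withDensity m (hfm.comp (measurable_tr g))
  have h4 : m.withDensity (μ.rnDeriv m ∘ tr g) = μ := h1
  rw [h4] at h3
  exact h3.symm

theorem unique_inv (μ m : Measure (X n)) (hμ : IsInvProb μ) (hm : IsInvProb m) : μ = m := by
  have := hμ.1
  have := hm.1
  have hac := ac_of_inv hμ hm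
  set f := μ.rnDeriv m with hf
  have hfm : Measurable f := Measure.measurable_rnDeriv μ m
  have hle : ∀ x, (1 + f x)⁻¹ ≤ 1 := fun x => by
    rw [ENNReal.inv_le_one]
    exact le_self_add
  have hne : ∀ x, (1 + f x)⁻¹ ≠ ⊤ := fun x => ((hle x).trans_lt ENNReal.one_lt_top).ne
  let F : X n → ℝ := fun x => ((1 + f x)⁻¹).toReal
  have hFm : Measurable F := ((measurable_const.add hfm).inv).ennreal_toReal
  have hFb : ∀ x, ‖F x‖ ≤ 1 := fun x => by
    rw [Real.norm_of_nonneg ENNReal.toReal_nonneg]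
    exact ENNReal.toReal_le_of_le_ofReal zero_le_one (by simp only [ENNReal.ofReal_one,
                                                           ENNReal.inv_le_one, self_le_add_right])
  have hFp : MemLp F 2 m := MemLp.of_bound hFm.aestronglyMeasurable 1 (Eventually.of_forall hFb)
  have hinv : ∀ g, K hm g (hFp.toLp F) = hFp.toLp F := by
    intro g
    apply Lp.ext
    have h1 := K_coe hm g (hFp.toLp F)
    have h2 := hFp.coeFn_toLp
    have h3 := (mp_tr hm g).quasiMeasurePreserving.ae_eq_comp h2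
    filter_upwards [h1, h2, h3, rnDeriv_inv hμ hm g] with x hx1 hx2 hx3 hx4
    rw [hx1, hx3, hx2]
    simp only [Function.comp_apply, F]
    rw [← hf] at hx4
    rw [hx4]
  obtain ⟨c, hc⟩ := const_of_invariant hm (hFp.toLp F) hinv
  have hc' : ∀ᵐ x ∂m, F x = c := by
    filter_upwards [hc, hFp.coeFn_toLp] with x h1 h2
    rw [← h2, h1]
  obtain ⟨x₀, hx₀⟩ := hc'.exists
  have h5 : f =ᵐ[m] fun _ => f x₀ := by
    filter_upwards [hc'] with x hx
    have h6 : F x = F x₀ := hx.trans hx₀.symm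
    have h7 : (1 + f x)⁻¹ = (1 + f x₀)⁻¹ := (ENNReal.toReal_eq_toReal_iff' (hne _) (hne _)).1 h6
    have h8 := inv_injective h7
    exact (ENNReal.add_right_inj ENNReal.one_ne_top).1 h8
  have h9 : μ = f x₀ • m := by
    rw [← Measure.withDensity_rnDeriv_eq _ _ hac, withDensity_congr_ae h5, withDensity_const]
  have h10 : f x₀ = 1 := by
    have h11 : μ Set.univ = f x₀ * m Set.univ := by
      conv_lhs => rw [h9]
      rfl
    rw [measure_univ, measure_univ, mul_one] at h11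
    exact h11.symm
  rw [h9, h10, one_smul]

/-! ### restriction to almost invariant sets -/

theorem map_restrict {μ : Measure (X n)} {g : G n} (hg : μ.map (tr g) = μ) {Ω : Set (X n)}
    (hΩ : MeasurableSet Ω) (h : (tr g : X n → X n) ⁻¹' Ω =ᵐ[μ] Ω) :
    (μ.restrict Ω).map (tr g) = μ.restrict Ω := by
  have hmp : MeasurePreserving (tr g : X n → X n) μ μ := ⟨measurable_tr g, hg⟩
  have h1 := (hmp.restrict_preimage hΩ).map_eq
  rwa [Measure.restrict_congr_set h] at h1

/-- the normalised restriction -/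
noncomputable def nrm (μ : Measure (X n)) (Ω : Set (X n)) : Measure (X n) :=
  (μ Ω)⁻¹ • μ.restrict Ω

theorem nrm_prob (μ : Measure (X n)) [IsFiniteMeasure μ] {Ω : Set (X n)} (h0 : μ Ω ≠ 0) :
    IsProbabilityMeasure (nrm μ Ω) := by
  constructor
  rw [nrm, Measure.smul_apply, Measure.restrict_apply_univ, smul_eq_mul]
  exact ENNReal.inv_mul_cancel h0 (measure_ne_top _ _)

theorem AInv.nrm {μ : Measure (X n)} (hA : AInv μ) {Ω : Set (X n)} (hΩ : AEInv μ Ω) :
    AInv (nrm μ Ω) := by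
  intro β
  rw [R.nrm, Measure.map_smul, map_restrict (hA β) hΩ.1 (hΩ.2 β)]

theorem Triv.mono {μ ν : Measure (X n)} {i j : Fin n} (h : Triv μ i j) (hac : ν ≪ μ) :
    Triv ν i j := by
  obtain ⟨Y, h1, h2, h3, h4⟩ := h
  exact ⟨Y, h1, hac h2, h3, h4⟩

theorem UInv.smul {μ : Measure (X n)} {i j : Fin n} (h : UInv μ i j) (c : ℝ≥0∞) :
    UInv (c • μ) i j := by
  intro s
  rw [Measure.map_smul, h s]

theorem UInv.of_smul {μ : Measure (X n)} {i j : Fin n} {c : ℝ≥0∞} (hc : c ≠ 0) (hc' : c ≠ ∞)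
    (h : UInv (c • μ) i j) : UInv μ i j := by
  have := h.smul c⁻¹
  rwa [smul_smul, ENNReal.inv_mul_cancel hc hc', one_smul] at this

theorem AEInv.of_nrm {μ : Measure (X n)} {Ω Ω' : Set (X n)} (h : AEInv μ Ω)
    (hf : μ Ω ≠ ∞) (h' : AEInv (nrm μ Ω) Ω') : AEInv μ (Ω' ∩ Ω) := by
  refine ⟨h'.1.inter h.1, fun β => ?_⟩
  have h1 := h.2 β
  have h2 := h'.2 β
  have h3 : ∀ᵐ x ∂(μ.restrict Ω), x ∈ (tr (da β) : X n → X n) ⁻¹' Ω' ↔ x ∈ Ω' := by
    have h4 : μ.restrict Ω ≪ nrm μ Ω :=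
      Measure.absolutelyContinuous_smul (ENNReal.inv_ne_zero.2 hf)
    filter_upwards [h4.ae_eq h2] with x hx
    exact iff_of_eq hx
  rw [ae_restrict_iff' h.1] at h3
  filter_upwards [h1, h3] with x hx1 hx3
  have hx1' : x ∈ (tr (da β) : X n → X n) ⁻¹' Ω ↔ x ∈ Ω := iff_of_eq hx1
  apply propext
  change (x ∈ (tr (da β) : X n → X n) ⁻¹' Ω' ∧ x ∈ (tr (da β) : X n → X n) ⁻¹' Ω) ↔
    (x ∈ Ω' ∧ x ∈ Ω)
  rw [hx1']
  constructor
  · rintro ⟨h5, h6⟩
    exact ⟨(hx3 h6).1 h5, h6⟩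
  · rintro ⟨h5, h6⟩
    exact ⟨(hx3 h6).2 h5, h6⟩

theorem tendsto_conj_ug (i j : Fin n) (hij : i ≠ j) (s : ℝ) :
    Tendsto (fun k : ℕ => ((da (Pi.single i (1 : ℝ) : Fin n → ℝ)) ^ k)⁻¹ * ug i j s *
      (da (Pi.single i (1 : ℝ) : Fin n → ℝ)) ^ k) atTop (𝓝 (1 : G n)) := by
  have h1 : ∀ k : ℕ, ((da (Pi.single i (1 : ℝ) : Fin n → ℝ)) ^ k)⁻¹ * ug i j s *
      (da (Pi.single i (1 : ℝ) : Fin n → ℝ)) ^ k = ug i j (Real.exp (-(k : ℝ)) * s) := by
    intro k
    rw [← da_nsmul, mul_assoc, ug_mul_da, inv_mul_cancel_left]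
    congr 3
    simp [hij.symm]
  simp only [h1]
  have h2 : Tendsto (fun k : ℕ => Real.exp (-(k : ℝ)) * s) atTop (𝓝 (0 * s)) :=
    (Real.tendsto_exp_neg_atTop_nhds_zero.comp tendsto_natCast_atTop_atTop).mul_const s
  rw [zero_mul] at h2
  have h3 := ((continuous_ug i j).tendsto 0).comp h2
  rwa [ug_zero] at h3

/-- `A`-invariant sets are invariant under the root groups preserving the measure. -/
theorem UInv.restrict (I : Inputs n) {μ : Measure (X n)} [IsProbabilityMeasure μ] (hA : AInv μ) {i j : Fin n}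
    (hij : i ≠ j) (hU : UInv μ i j) {Ω : Set (X n)} (hΩ : AEInv μ Ω) :
    UInv (μ.restrict Ω) i j := by
  classical
  intro s
  refine map_restrict (hU s) hΩ.1 ?_
  have hF : Measurable (Ω.indicator fun _ => (1 : ℝ)) := measurable_const.indicator hΩ.1
  obtain ⟨X', hX', hX0, h⟩ := I.hopf μ (da (Pi.single i (1 : ℝ))) (hA _)
    (Ω.indicator fun _ => (1 : ℝ)) hF (by
      filter_upwards [hΩ.2 (Pi.single i (1 : ℝ))] with x hx
      have hx' : tr (da (Pi.single i (1 : ℝ))) x ∈ Ω ↔ x ∈ Ω := iff_of_eq hx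
      by_cases hxΩ : x ∈ Ω
      · rw [Set.indicator_of_mem hxΩ, Set.indicator_of_mem (hx'.2 hxΩ)]
      · rw [Set.indicator_of_notMem hxΩ, Set.indicator_of_notMem (fun h => hxΩ (hx'.1 h))])
  have h1 : ∀ᵐ x ∂μ, x ∈ X' := by
    rw [ae_iff]; exact hX0
  have h2 : ∀ᵐ x ∂μ, tr (ug i j s) x ∈ X' := by
    have h3 : ∀ᵐ x ∂(μ.map (tr (ug i j s))), x ∈ X' := by rw [hU s]; exact h1
    exact ae_of_ae_map (measurable_tr _).aemeasurable h3
  filter_upwards [h1, h2] with x hx1 hx2
  have h4 := h x hx1 (ug i j s) hx2 (tendsto_conj_ug i j hij s)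
  apply propext
  change tr (ug i j s) x ∈ Ω ↔ x ∈ Ω
  by_cases hxΩ : x ∈ Ω
  · rw [Set.indicator_of_mem hxΩ] at h4
    refine ⟨fun _ => hxΩ, fun _ => ?_⟩
    by_contra h5
    rw [Set.indicator_of_notMem h5] at h4
    exact one_ne_zero h4
  · rw [Set.indicator_of_notMem hxΩ] at h4
    refine ⟨fun h5 => ?_, fun h5 => absurd h5 hxΩ⟩
    rw [Set.indicator_of_mem h5] at h4
    exact absurd h4.symm one_ne_zero

/-! ### pure components -/

theorem nrm_restrict (μ : Measure (X n)) (Ω Ω' : Set (X n)) (hΩ' : MeasurableSet Ω') :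
    (nrm μ Ω).restrict Ω' = (μ Ω)⁻¹ • μ.restrict (Ω' ∩ Ω) := by
  rw [nrm, Measure.restrict_smul, Measure.restrict_restrict hΩ']

theorem triv_smul {μ : Measure (X n)} {i j : Fin n} {c : ℝ≥0∞} (hc : c ≠ 0) :
    Triv (c • μ) i j ↔ Triv μ i j :=
  ⟨fun h => h.mono (Measure.absolutelyContinuous_smul hc),
    fun h => h.mono Measure.smul_absolutelyContinuous⟩

theorem uinv_smul {μ : Measure (X n)} {i j : Fin n} {c : ℝ≥0∞} (hc : c ≠ 0) (hc' : c ≠ ∞) :
    UInv (c • μ) i j ↔ UInv μ i j :=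
  ⟨fun h => h.of_smul hc hc', fun h => h.smul c⟩

open Classical in
/-- the pairs with `Triv`, resp. `UInv`, for the restriction -/
noncomputable def score (μ : Measure (X n)) (Ω : Set (X n)) : Finset ((Fin n × Fin n) × Bool) :=
  Finset.univ.filter fun p => p.1.1 ≠ p.1.2 ∧
    if p.2 then Triv (μ.restrict Ω) p.1.1 p.1.2 else UInv (μ.restrict Ω) p.1.1 p.1.2

theorem score_mono (I : Inputs n) (μ : Measure (X n)) [IsProbabilityMeasure μ] (hA : AInv μ)
    {Ω Ω' : Set (X n)} (hΩ : AEInv μ Ω) (h0 : μ Ω ≠ 0) (hΩ' : AEInv (nrm μ Ω) Ω') :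
    score μ Ω ⊆ score μ (Ω' ∩ Ω) := by
  have hinv0 : (μ Ω)⁻¹ ≠ 0 := ENNReal.inv_ne_zero.2 (measure_ne_top _ _)
  have hinvt : (μ Ω)⁻¹ ≠ ∞ := ENNReal.inv_ne_top.2 h0
  intro p hp
  simp only [score, Finset.mem_filter, Finset.mem_univ, true_and] at hp ⊢
  refine ⟨hp.1, ?_⟩
  have hp2 := hp.2
  split_ifs at hp2 ⊢ with hb
  · exact hp2.mono (Measure.absolutelyContinuous_of_le (Measure.restrict_mono_set μ
      Set.inter_subset_right))
  · have := nrm_prob μ h0
    have h1 : UInv (nrm μ Ω) p.1.1 p.1.2 := hp2.smul _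
    have h2 := h1.restrict I (hA.nrm hΩ) hp.1 hΩ'
    rw [nrm_restrict μ Ω Ω' hΩ'.1] at h2
    exact h2.of_smul hinv0 hinvt

theorem exists_pure_of (I : Inputs n) (μ : Measure (X n)) [IsProbabilityMeasure μ] (hA : AInv μ) {Ω₀ : Set (X n)}
    (h0 : AEInv μ Ω₀) (h0' : μ Ω₀ ≠ 0) :
    ∃ Ω ⊆ Ω₀, AEInv μ Ω ∧ μ Ω ≠ 0 ∧ Pure ((μ Ω)⁻¹ • μ.restrict Ω) := by
  classical
  let S : Set ℕ := {k | ∃ Ω ⊆ Ω₀, AEInv μ Ω ∧ μ Ω ≠ 0 ∧ (score μ Ω).card = k}
  have hSne : S.Nonempty := ⟨_, Ω₀, subset_rfl, h0, h0', rfl⟩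
  have hSb : BddAbove S := by
    refine ⟨Fintype.card ((Fin n × Fin n) × Bool), ?_⟩
    rintro k ⟨Ω, -, -, -, rfl⟩
    exact Finset.card_le_univ _
  obtain ⟨Ω, hΩ0, hΩ, hΩ1, hcard⟩ := Nat.sSup_mem hSne hSb
  refine ⟨Ω, hΩ0, hΩ, hΩ1, ?_⟩
  have hinv0 : (μ Ω)⁻¹ ≠ 0 := ENNReal.inv_ne_zero.2 (measure_ne_top _ _)
  have hinvt : (μ Ω)⁻¹ ≠ ∞ := ENNReal.inv_ne_top.2 hΩ1
  intro Ω' hΩ' hΩ'0 i j hij
  change AEInv (nrm μ Ω) Ω' at hΩ'
  change nrm μ Ω Ω' ≠ 0 at hΩ'0
  change (Triv ((nrm μ Ω).restrict Ω') i j → Triv (nrm μ Ω) i j) ∧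
    (UInv ((nrm μ Ω).restrict Ω') i j → UInv (nrm μ Ω) i j)
  have hAE : AEInv μ (Ω' ∩ Ω) := hΩ.of_nrm (measure_ne_top _ _) hΩ'
  have hpos : μ (Ω' ∩ Ω) ≠ 0 := by
    intro h
    apply hΩ'0
    rw [nrm, Measure.smul_apply, Measure.restrict_apply hΩ'.1, h, smul_zero]
  have hmem : (score μ (Ω' ∩ Ω)).card ∈ S :=
    ⟨Ω' ∩ Ω, Set.inter_subset_right.trans hΩ0, hAE, hpos, rfl⟩
  have hle := le_csSup hSb hmem
  have heq : score μ Ω = score μ (Ω' ∩ Ω) :=
    Finset.eq_of_subset_of_card_le (score_mono I μ hA hΩ hΩ1 hΩ') (by rw [hcard]; exact hle)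
  rw [nrm_restrict μ Ω Ω' hΩ'.1, nrm, triv_smul hinv0, triv_smul hinv0, uinv_smul hinv0 hinvt,
    uinv_smul hinv0 hinvt]
  constructor
  · intro h
    have h1 : ((i, j), true) ∈ score μ (Ω' ∩ Ω) := by
      simp only [score, Finset.mem_filter, Finset.mem_univ, true_and, if_true]
      exact ⟨hij, h⟩
    rw [← heq] at h1
    simp only [score, Finset.mem_filter, Finset.mem_univ, true_and, if_true] at h1
    exact h1.2
  · intro h
    have h1 : ((i, j), false) ∈ score μ (Ω' ∩ Ω) := by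
      simp only [score, Finset.mem_filter, Finset.mem_univ, true_and, Bool.false_eq_true, if_false]
      exact ⟨hij, h⟩
    rw [← heq] at h1
    simp only [score, Finset.mem_filter, Finset.mem_univ, true_and, Bool.false_eq_true,
      if_false] at h1
    exact h1.2

/-! ### rigidity -/

theorem Star.nrm {μ : Measure (X n)} [IsFiniteMeasure μ] (hS : Star μ) {Ω : Set (X n)}
    (h0 : μ Ω ≠ 0) : Star (nrm μ Ω) := by
  obtain ⟨C, hC⟩ := hS
  refine ⟨(μ Ω)⁻¹.toReal * C, fun N0 ε hε hε1 => ?_⟩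
  rw [R.nrm, Measure.smul_apply, smul_eq_mul, mul_assoc, ENNReal.ofReal_mul ENNReal.toReal_nonneg,
    ENNReal.ofReal_toReal (ENNReal.inv_ne_top.2 h0)]
  gcongr
  exact (Measure.restrict_apply_le _ _).trans (hC N0 ε hε hε1)

theorem pure_isInvProb (I : Inputs n) (hn1 : 1 < n) (μ : Measure (X n)) [IsProbabilityMeasure μ]
    (hA : AInv μ) (hS : Star μ) (hP : Pure μ) : IsInvProb μ := by
  classical
  set F : Set (Fin n × Fin n) := {p | p.1 ≠ p.2 ∧ ¬ Triv μ p.1 p.2} with hF
  have hF1 : ∀ i j, i ≠ j → (i, j) ∉ F → Triv μ i j := by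
    intro i j hij h
    by_contra h1
    exact h ⟨hij, h1⟩
  have hhigh : ∀ i j k : Fin n, i ≠ k → (i, j) ∈ F → (j, k) ∈ F → UInv μ i k :=
    fun i j k hik h1 h2 => I.high μ hA hP h1.1 h2.1 hik h1.2 h2.2
  have hUF : ∀ i j : Fin n, i ≠ j → UInv μ i j → (i, j) ∈ F :=
    fun i j hij hU => ⟨hij, I.not_triv_of_uinv hij hU⟩
  have hF2 : ∀ i j k, i ≠ j → j ≠ k → i ≠ k → (i, j) ∈ F → (j, k) ∈ F → (i, k) ∈ F :=
    fun i j k _ _ hik h1 h2 => hUF i k hik (hhigh i j k hik h1 h2)
  obtain ⟨i₀, j₀, hij₀, hF3, hF4⟩ := I.star_cycle μ hA hS F hF1 hF2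
  let B : Finset (Fin n) := Finset.univ.filter fun k => k = i₀ ∨ ((i₀, k) ∈ F ∧ (k, i₀) ∈ F)
  have hB : ∀ k, k ∈ B ↔ k = i₀ ∨ ((i₀, k) ∈ F ∧ (k, i₀) ∈ F) := by
    intro k; simp only [Finset.mem_filter, Finset.mem_univ, true_and, B]
  have hi₀ : i₀ ∈ B := (hB _).2 (Or.inl rfl)
  have hj₀ : j₀ ∈ B := (hB _).2 (Or.inr ⟨hF3, hF4⟩)
  have hBF : ∀ k ∈ B, ∀ l ∈ B, k ≠ l → (k, l) ∈ F := by
    intro k hk l hl hkl
    rcases (hB k).1 hk with rfl | ⟨h1, h2⟩
    · rcases (hB l).1 hl with rfl | ⟨h3, h4⟩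
      · exact absurd rfl hkl
      · exact h3
    · rcases (hB l).1 hl with rfl | ⟨h3, h4⟩
      · exact h2
      · exact hF2 k i₀ l h2.1 h3.1 hkl h2 h3
  -- an index linked in both directions to a point of `B` is in `B`
  have hBc : ∀ k ∈ B, ∀ l, (k, l) ∈ F → (l, k) ∈ F → l ∈ B := by
    intro k hk l h1 h2
    by_cases hl : l = i₀
    · rw [hl]; exact hi₀
    by_cases hk0 : k = i₀
    · rw [hk0] at h1 h2
      exact (hB l).2 (Or.inr ⟨h1, h2⟩)
    · have h3 := hBF k hk i₀ hi₀ hk0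
      have h4 := hBF i₀ hi₀ k hk (Ne.symm hk0)
      exact (hB l).2 (Or.inr ⟨hF2 _ _ _ h4.1 h1.1 (Ne.symm hl) h4 h1,
        hF2 _ _ _ h2.1 h3.1 hl h2 h3⟩)
  have hother : ∀ k ∈ B, ∃ k' ∈ B, k' ≠ k := by
    intro k hk
    by_cases h : k = i₀
    · exact ⟨j₀, hj₀, by rw [h]; exact hij₀.symm⟩
    · exact ⟨i₀, hi₀, Ne.symm h⟩
  have hout : ∀ k ∈ B, ∀ l ∉ B, Triv μ k l ∧ Triv μ l k := by
    intro k hk l hl
    have hkl : k ≠ l := fun h => hl (h ▸ hk)
    obtain ⟨k', hk', hkk'⟩ := hother k hk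
    have hkl' : k' ≠ l := fun h => hl (h ▸ hk')
    constructor
    · refine hF1 k l hkl fun h => hl ?_
      have hU : UInv μ k' l := hhigh k' k l hkl' (hBF k' hk' k hk hkk') h
      have h1 := I.haar_symm μ hA F hF1 hF2 hkl' hU
      exact hBc k' hk' l (hUF _ _ hkl' hU) h1
    · refine hF1 l k hkl.symm fun h => hl ?_
      have hU : UInv μ l k' := hhigh l k k' hkl'.symm h (hBF k hk k' hk' hkk'.symm)
      have h1 := I.haar_symm μ hA F hF1 hF2 hkl'.symm hU
      exact hBc k' hk' l h1 (hUF _ _ hkl'.symm hU)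
  have hU : ∀ i ∈ B, ∀ j ∈ B, i ≠ j → UInv μ i j := by
    intro i hi j hj hij
    by_cases h3 : ∃ k ∈ B, k ≠ i ∧ k ≠ j
    · obtain ⟨k, hk, hki, hkj⟩ := h3
      exact hhigh i k j hij (hBF i hi k hk hki.symm) (hBF k hk j hj hkj)
    · push Not at h3
      refine I.low μ hA hP hij (hBF i hi j hj hij).2 fun l hli hlj => ?_
      have hl : l ∉ B := fun h => hlj (h3 l h hli)
      exact ⟨(hout i hi l hl).1, (hout j hj l hl).2⟩
  have hB2 : 2 ≤ B.card := Finset.one_lt_card.2 ⟨i₀, hi₀, j₀, hj₀, hij₀⟩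
  have hBu : B = Finset.univ := by
    by_contra hne
    exact I.blocks μ hA B hB2 hne hU hout
  refine isInvProb_of_uinv μ hn1 fun i j hij => ?_
  exact hU i (by rw [hBu]; exact Finset.mem_univ _) j (by rw [hBu]; exact Finset.mem_univ _) hij

theorem rigidity_of (I : Inputs n) (hn1 : 1 < n) (μ : Measure (X n)) [IsProbabilityMeasure μ]
    (hA : AInv μ) (hS : Star μ) : IsInvProb μ := by
  have key : ∀ Ω₀ : Set (X n), AEInv μ Ω₀ → μ Ω₀ ≠ 0 → ∃ Ω ⊆ Ω₀, AEInv μ Ω ∧ μ Ω ≠ 0 ∧
      IsInvProb (nrm μ Ω) := by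
    intro Ω₀ h0 h0'
    obtain ⟨Ω, h1, h2, h3, h4⟩ := exists_pure_of I μ hA h0 h0'
    have := nrm_prob μ h3
    exact ⟨Ω, h1, h2, h3, pure_isInvProb I hn1 (nrm μ Ω) (hA.nrm h2) (hS.nrm h3) h4⟩
  have huniv : AEInv μ (Set.univ : Set (X n)) :=
    ⟨MeasurableSet.univ, fun β => by rw [Set.preimage_univ]; exact Filter.EventuallyEq.rfl⟩
  obtain ⟨Ω, -, hΩ, hΩ0, hinv⟩ := key Set.univ huniv (by rw [measure_univ]; exact one_ne_zero)
  have hcompl : μ Ωᶜ = 0 := by
    by_contra hne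
    have hΩc : AEInv μ Ωᶜ := ⟨hΩ.1.compl, fun β => by
      rw [Set.preimage_compl]
      exact (hΩ.2 β).compl⟩
    obtain ⟨Ω', hsub, hΩ', hΩ'0, hinv'⟩ := key Ωᶜ hΩc hne
    have heq := unique_inv _ _ hinv hinv'
    have h1 : nrm μ Ω Ω = 1 := by
      rw [nrm, Measure.smul_apply, Measure.restrict_apply_self, smul_eq_mul,
        ENNReal.inv_mul_cancel hΩ0 (measure_ne_top _ _)]
    have h2 : nrm μ Ω' Ω = 0 := by
      have h3 : Ω ∩ Ω' = ∅ := by
        ext x
        simp only [Set.mem_inter_iff, Set.mem_empty_iff_false, iff_false, not_and]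
        exact fun hx hx' => hsub hx' hx
      rw [nrm, Measure.smul_apply, Measure.restrict_apply hΩ.1, h3, measure_empty, smul_zero]
    rw [heq, h2] at h1
    exact zero_ne_one h1
  have h1 : μ Ω = 1 := (prob_compl_eq_zero_iff hΩ.1).1 hcompl
  have h2 : nrm μ Ω = μ := by
    rw [nrm, h1, inv_one, one_smul, Measure.restrict_eq_self_of_ae_mem]
    rw [ae_iff]
    exact hcompl
  rwa [h2] at hinv

end Vale.Agent.P007.R
end

section

/-!
Definitions for the arithmetic part: ideal counts of an order, local unit densities, packet volume.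
-/

set_option autoImplicit false

open MeasureTheory Matrix NumberField Filter Topology
open scoped ENNReal nonZeroDivisors

namespace Vale.Agent.P007.N

open Vale.Agent.P007 Vale.Agent.P007.R

variable {n : ℕ}

/-- The number of invertible (integral) ideals of the order of index `m`. -/
noncomputable def rO (D : Datum n) (m : ℕ) : ℕ :=
  Nat.card {J : Ideal D.O // IsUnit (J : FractionalIdeal D.O⁰ D.K) ∧ Nat.card (D.O ⧸ J) = m}

/-- `u_p = #(O/p)^× / p^n` -/
noncomputable def up (D : Datum n) (p : ℕ) : ℝ :=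
  Nat.card (D.O ⧸ Ideal.span {(p : D.O)})ˣ / (p : ℝ) ^ n

/-- the primes `≤ 2X` -/
noncomputable def P2 (X : ℝ) : Finset ℕ := (Finset.range (⌊2 * X⌋₊ + 1)).filter Nat.Prime

/-- `H_O(X) = (log X)^{-1} ∏_{p ≤ 2X} u_p^{-1}` -/
noncomputable def HO (D : Datum n) (X : ℝ) : ℝ := (Real.log X)⁻¹ * ∏ p ∈ P2 X, (up D p)⁻¹

/-- total volume of the packet -/
noncomputable def vol (D : Datum n) : ℝ≥0∞ := ∑' S : D.packet, orbMeas S.1 Set.univ

/-- the datum of the maximal order -/
noncomputable def mx (D : Datum n) : Datum n :=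
  { K := D.K, deg := D.deg, O := ⊤, full := by
      rw [Subring.toAddSubgroup_top]; infer_instance
    σ := D.σ }

/-- The hypotheses of the Hall–Tenenbaum bounds: `g` is submultiplicative,
`g(p^k) ≤ B p^{k - ⌈k/n⌉}`, `∑_{k<M} g(p^k) p^{-k} ≤ U p`. -/
structure HT (n : ℕ) (B : ℝ) (g U : ℕ → ℝ) : Prop where
  nonneg : ∀ m, 0 ≤ g m
  one : g 1 = 1
  sub : ∀ a b : ℕ, a.Coprime b → g (a * b) ≤ g a * g b
  pow : ∀ p k : ℕ, p.Prime → 1 ≤ k → g (p ^ k) * (p : ℝ) ^ ((k + n - 1) / n) ≤ B * (p : ℝ) ^ k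
  U1 : ∀ p, p.Prime → 1 ≤ U p
  sum : ∀ p M : ℕ, p.Prime → ∑ k ∈ Finset.range M, g (p ^ k) / (p : ℝ) ^ k ≤ U p

end Vale.Agent.P007.N
end

section

/-!
The limit argument: ultrafilter limits of packet measures are `A`-invariant probability measures
with property (*), hence invariant under `SL_n(ℝ)`.
-/

set_option autoImplicit false

open MeasureTheory Matrix NumberField Filter Topology
open scoped ENNReal nonZeroDivisors CompactlySupported

namespace Vale.Agent.P007.N

open Vale.Agent.P007 Vale.Agent.P007.R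

variable {n : ℕ}

/-! ### Ultrafilter limits -/

/-- bounded real sequences converge along ultrafilters -/
theorem ultra_lim (U : Ultrafilter ℕ) {a : ℕ → ℝ} {B : ℝ} (h : ∀ i, |a i| ≤ B) :
    ∃ c : ℝ, Tendsto a U (𝓝 c) := by
  have hmem : Set.Icc (-B) B ∈ U.map a := by
    rw [Ultrafilter.mem_map]
    exact Filter.mem_of_superset Filter.univ_mem fun i _ => abs_le.mp (h i)
  obtain ⟨c, -, hc⟩ := (isCompact_Icc (a := -B) (b := B)).ultrafilter_le_nhds' (U.map a) hmem
  exact ⟨c, hc⟩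

theorem cc_bound (f : C_c(X n, ℝ)) : ∃ B : ℝ, ∀ μ : Measure (X n), IsProbabilityMeasure μ →
    |∫ x, f x ∂μ| ≤ B := by
  obtain ⟨B, hB⟩ := f.hasCompactSupport.exists_bound_of_continuous f.continuous
  refine ⟨B, fun μ hμ => ?_⟩
  calc |∫ x, f x ∂μ| ≤ ∫ x, |f x| ∂μ := abs_integral_le_integral_abs
    _ ≤ ∫ _, B ∂μ := integral_mono_of_nonneg (Eventually.of_forall fun x => abs_nonneg _)
        (integrable_const B) (Eventually.of_forall fun x => hB x)
    _ = B := by simp

/-- vague limits along ultrafilters -/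
theorem exists_ultra (U : Ultrafilter ℕ) (μ : ℕ → Measure (X n))
    (hμ : ∀ i, IsProbabilityMeasure (μ i)) :
    ∃ Λ : C_c(X n, ℝ) →ₚ[ℝ] ℝ, ∀ f : C_c(X n, ℝ),
      Tendsto (fun i => ∫ x, f x ∂μ i) U (𝓝 (Λ f)) := by
  have hex : ∀ f : C_c(X n, ℝ), ∃ c : ℝ, Tendsto (fun i => ∫ x, f x ∂μ i) U (𝓝 c) := by
    intro f
    obtain ⟨B, hB⟩ := cc_bound f
    exact ultra_lim U fun i => hB (μ i) (hμ i)
  choose L hL using hex
  have hint : ∀ (f : C_c(X n, ℝ)) i, Integrable (fun x => f x) (μ i) := by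
    intro f i
    have := hμ i
    exact f.continuous.integrable_of_hasCompactSupport f.hasCompactSupport
  let L' : C_c(X n, ℝ) →ₗ[ℝ] ℝ :=
    { toFun := L
      map_add' := by
        intro f g
        refine tendsto_nhds_unique (hL (f + g)) ?_
        have h1 := (hL f).add (hL g)
        refine h1.congr fun i => ?_
        rw [← integral_add (hint f i) (hint g i)]
        rfl
      map_smul' := by
        intro c f
        refine tendsto_nhds_unique (hL (c • f)) ?_
        have h1 := (hL f).const_mul c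
        refine h1.congr fun i => ?_
        rw [← integral_const_mul]
        rfl }
  refine ⟨PositiveLinearMap.mk₀ L' ?_, hL⟩
  intro f hf
  refine ge_of_tendsto (hL f) (Eventually.of_forall fun i => ?_)
  exact integral_nonneg fun x => hf x

section Limit

variable (U : Ultrafilter ℕ) (μ : ℕ → Measure (X n)) (hμ : ∀ i, IsProbabilityMeasure (μ i))
  (Λ : C_c(X n, ℝ) →ₚ[ℝ] ℝ)
  (hΛ : ∀ f : C_c(X n, ℝ), Tendsto (fun i => ∫ x, f x ∂μ i) U (𝓝 (Λ f)))

include hμ hΛ

/-- portmanteau, open sets -/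
theorem riesz_open_le {V : Set (X n)} (hV : IsOpen V) {c : ℝ} (hc : 0 ≤ c)
    (h : ∀ᶠ i in U, μ i V ≤ ENNReal.ofReal c) :
    RealRMK.rieszMeasure Λ V ≤ ENNReal.ofReal c := by
  rw [hV.measure_eq_iSup_isCompact]
  refine iSup_le fun K => iSup_le fun hKV => iSup_le fun hK => ?_
  obtain ⟨f, hf1, hf2, hf3, hf4⟩ := exists_continuousMap_one_of_isCompact_subset_isOpen hK hV hKV
  set F : C_c(X n, ℝ) := ⟨f, hasCompactSupport_def.mpr hf2⟩ with hF
  refine (RealRMK.rieszMeasure_le_of_eq_one Λ (f := F) (fun x => (hf4 x).1) hK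
    (fun x hx => hf1 hx)).trans (ENNReal.ofReal_le_ofReal ?_)
  refine le_of_tendsto (hΛ F) ?_
  filter_upwards [h] with i hi
  have := hμ i
  have h1 : ∫ x, F x ∂μ i ≤ (μ i).real V := by
    rw [← integral_indicator_one hV.measurableSet]
    refine integral_mono (F.continuous.integrable_of_hasCompactSupport F.hasCompactSupport)
      ((integrable_const (1 : ℝ)).indicator hV.measurableSet) fun x => ?_
    by_cases hx : x ∈ V
    · rw [Set.indicator_of_mem hx]
      exact (hf4 x).2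
    · rw [Set.indicator_of_notMem hx]
      exact (image_eq_zero_of_notMem_tsupport fun hx' => hx (hf3 hx')).le
  refine h1.trans ?_
  exact ENNReal.toReal_le_of_le_ofReal hc hi

theorem riesz_univ_ge {K : Set (X n)} (hK : IsCompact K) {c : ℝ} (hc : 0 ≤ c)
    (h : ∀ᶠ i in U, μ i Kᶜ ≤ ENNReal.ofReal c) :
    ENNReal.ofReal (1 - c) ≤ RealRMK.rieszMeasure Λ Set.univ := by
  obtain ⟨f, hf1, hf2, -, hf4⟩ := exists_continuousMap_one_of_isCompact_subset_isOpen hK isOpen_univ
    (Set.subset_univ K)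
  set F : C_c(X n, ℝ) := ⟨f, hasCompactSupport_def.mpr hf2⟩ with hF
  refine le_trans (ENNReal.ofReal_le_ofReal ?_)
    (RealRMK.le_rieszMeasure_tsupport_subset Λ (f := F) (fun x => hf4 x) (Set.subset_univ _))
  refine ge_of_tendsto (hΛ F) ?_
  filter_upwards [h] with i hi
  have := hμ i
  have h1 : (μ i).real K ≤ ∫ x, F x ∂μ i := by
    rw [← integral_indicator_one hK.measurableSet]
    refine integral_mono ((integrable_const (1 : ℝ)).indicator hK.measurableSet)
      (F.continuous.integrable_of_hasCompactSupport F.hasCompactSupport) fun x => ?_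
    by_cases hx : x ∈ K
    · rw [Set.indicator_of_mem hx]
      exact (hf1 hx).ge
    · rw [Set.indicator_of_notMem hx]
      exact (hf4 x).1
  have h2 : (μ i).real Kᶜ ≤ c := ENNReal.toReal_le_of_le_ofReal hc hi
  have h3 : (μ i).real Kᶜ = 1 - (μ i).real K := probReal_compl_eq_one_sub hK.measurableSet
  linarith

theorem riesz_univ_le : RealRMK.rieszMeasure Λ Set.univ ≤ 1 := by
  have h1 := riesz_open_le U μ hμ Λ hΛ isOpen_univ zero_le_one (Eventually.of_forall fun i => by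
    have := hμ i
    rw [measure_univ, ENNReal.ofReal_one])
  rwa [ENNReal.ofReal_one] at h1

end Limit

/-- right translations are homeomorphisms -/
noncomputable def trHomeo (g : G n) : X n ≃ₜ X n where
  toFun := tr g
  invFun := tr g⁻¹
  left_inv x := by rw [tr_tr, mul_inv_cancel, tr_one]
  right_inv x := by rw [tr_tr, inv_mul_cancel, tr_one]
  continuous_toFun := continuous_tr g
  continuous_invFun := continuous_tr g⁻¹

theorem riesz_inv (U : Ultrafilter ℕ) (μ : ℕ → Measure (X n)) (Λ : C_c(X n, ℝ) →ₚ[ℝ] ℝ)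
    (hΛ : ∀ f : C_c(X n, ℝ), Tendsto (fun i => ∫ x, f x ∂μ i) U (𝓝 (Λ f))) (g : G n)
    (hg : ∀ i, (μ i).map (tr g) = μ i) :
    (RealRMK.rieszMeasure Λ).map (tr g) = RealRMK.rieszMeasure Λ := by
  have hreg : ((RealRMK.rieszMeasure Λ).map (tr g)).Regular :=
    Measure.Regular.map (μ := RealRMK.rieszMeasure Λ) (trHomeo g)
  refine Measure.ext_of_integral_eq_on_compactlySupported fun f => ?_
  set F : C_c(X n, ℝ) := ⟨⟨fun x => f (tr g x), f.continuous.comp (continuous_tr g)⟩,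
    f.hasCompactSupport.comp_homeomorph (trHomeo g)⟩ with hF
  have h1 : ∫ x, f x ∂((RealRMK.rieszMeasure Λ).map (tr g)) =
      ∫ x, F x ∂(RealRMK.rieszMeasure Λ) :=
    integral_map (continuous_tr g).measurable.aemeasurable
      f.continuous.aestronglyMeasurable
  rw [h1, RealRMK.integral_rieszMeasure, RealRMK.integral_rieszMeasure]
  refine tendsto_nhds_unique (hΛ F) ?_
  refine (hΛ f).congr fun i => ?_
  exact (Koopman.integral_tr_eq g (hg i) f f.continuous).symm

/-! ### The sets of the property (*) are open -/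

theorem isOpen_latSet {P : Set (Fin n → ℝ)} (hP : IsOpen P) :
    IsOpen {x : X n | ∃ v ∈ latx x, v ∈ P} := by
  have h1 : {x : X n | ∃ v ∈ latx x, v ∈ P} =
      ⋃ c : Fin n → ℤ, pt '' {g : G n | (fun i => (c i : ℝ)) ᵥ* g.1 ∈ P} := by
    ext x
    simp only [Set.mem_iUnion, Set.mem_image]
    constructor
    · rintro ⟨v, ⟨g, hg, c, hc⟩, hv⟩
      exact ⟨c, g, by rw [← hc] at hv; exact hv, hg⟩
    · rintro ⟨c, g, hg, rfl⟩
      exact ⟨_, ⟨g, rfl, c, rfl⟩, hg⟩
  rw [h1]
  refine isOpen_iUnion fun c => isOpenQuotientMap_pt.isOpenMap _ ?_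
  have hc : Continuous fun g : G n => (fun i => (c i : ℝ)) ᵥ* g.1 :=
    Continuous.matrix_vecMul continuous_const continuous_subtype_val
  exact hP.preimage hc

theorem isOpen_starSet (n : ℕ) (N0 ε : ℝ) :
    IsOpen {x : X n | ∃ v ∈ latx x, v ≠ 0 ∧ (∀ i, |v i| < 3) ∧ |∏ i, v i - N0| < ε} := by
  have hP : IsOpen {v : Fin n → ℝ | v ≠ 0 ∧ (∀ i, |v i| < 3) ∧ |∏ i, v i - N0| < ε} := by
    have h1 : IsOpen {v : Fin n → ℝ | v ≠ 0} := isOpen_ne
    have h2 : IsOpen {v : Fin n → ℝ | ∀ i, |v i| < 3} := by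
      rw [Set.ofPred_forall]
      exact isOpen_iInter_of_finite fun i => isOpen_lt (by fun_prop) continuous_const
    have h3 : IsOpen {v : Fin n → ℝ | |∏ i, v i - N0| < ε} :=
      isOpen_lt (by fun_prop) continuous_const
    exact h1.inter (h2.inter h3)
  exact isOpen_latSet hP

/-! ### `A`-invariance -/

theorem exists_aexp_da (hn : 0 < n) (β : Fin n → ℝ) : ∃ u, (aexp u : G n) = da β := by
  have hprod : ∏ j, Real.exp (β j - mean β) = 1 := by
    have h := (da β).2
    rw [coe_da, det_diagonal] at h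
    exact h
  obtain ⟨u, hu⟩ := exists_aexp hn (fun j => Real.exp_pos (β j - mean β)) hprod
  exact ⟨u, Subtype.ext hu⟩

/-! ### The limit theorem -/

/-- compactness of the thick part -/
theorem thick_subset_compact (hn : 0 < n) {ε : ℝ} (hε : 0 < ε) : ∃ K : Set (X n), IsCompact K ∧
    ∀ x ∉ K, ∃ v ∈ latx x, v ≠ 0 ∧ ∀ i, |v i| < ε := by
  obtain ⟨k, rfl⟩ : ∃ k, n = k + 1 := ⟨n - 1, by omega⟩
  obtain ⟨C, hC, hCt⟩ := Red.mahler k ε hε
  refine ⟨pt '' C, hC.image continuous_pt, fun x hx => ?_⟩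
  have h1 : x ∉ Red.thick (k + 1) ε := by
    intro h
    obtain ⟨g, hg, rfl⟩ := hCt x h
    exact hx ⟨g, hg, rfl⟩
  simp only [Red.thick, Set.mem_ofPred_eq] at h1
  push Not at h1
  obtain ⟨g, rfl, v, hv, hv0, hvε⟩ := h1
  exact ⟨v, ⟨g, rfl, hv⟩, hv0, fun i => (norm_le_pi_norm v i).trans_lt hvε⟩

/-- Ultrafilter limits of packet measures. -/
theorem exists_limit (hn : 0 < n) (U : Ultrafilter ℕ) (D : ℕ → Datum n) {C : ℝ}
    (hstar : ∀ ε : ℝ, 0 < ε → ε < 1 → ∀ N0 : ℝ, ∀ᶠ i in U, (D i).packetMeas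
      {x | ∃ v ∈ latx x, v ≠ 0 ∧ (∀ i, |v i| < 3) ∧ |∏ i, v i - N0| < ε} ≤
        ENNReal.ofReal (C * √ε))
    (htight : ∀ ε : ℝ, 0 < ε → ε < 1 → ∀ᶠ i in U, (D i).packetMeas
      {x | ∃ v ∈ latx x, v ≠ 0 ∧ ∀ i, |v i| < ε} ≤ ENNReal.ofReal (C * √ε)) :
    ∃ ν : Measure (X n), IsProbabilityMeasure ν ∧ AInv ν ∧ Star ν ∧
      ∀ f : C_c(X n, ℝ), Tendsto (fun i => ∫ x, f x ∂(D i).packetMeas) U (𝓝 (∫ x, f x ∂ν)) := by
  have hμ : ∀ i, IsProbabilityMeasure (D i).packetMeas := fun i => packetMeas_prob (D i)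
  obtain ⟨Λ, hΛ⟩ := exists_ultra U (fun i => (D i).packetMeas) hμ
  have hC' : C ≤ |C| := le_abs_self C
  have hmono : ∀ ε : ℝ, ENNReal.ofReal (C * √ε) ≤ ENNReal.ofReal (|C| * √ε) := fun ε =>
    ENNReal.ofReal_le_ofReal (mul_le_mul_of_nonneg_right hC' (Real.sqrt_nonneg ε))
  refine ⟨RealRMK.rieszMeasure Λ, ⟨le_antisymm (riesz_univ_le U _ hμ Λ hΛ) ?_⟩, ?_, ?_, ?_⟩
  · -- no mass escapes
    have key : ∀ ε : ℝ, 0 < ε → ε < 1 →
        ENNReal.ofReal (1 - |C| * √ε) ≤ RealRMK.rieszMeasure Λ Set.univ := by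
      intro ε hε hε1
      obtain ⟨K, hK, hKt⟩ := thick_subset_compact hn hε
      refine riesz_univ_ge U _ hμ Λ hΛ hK (by (clear * - hε; positivity)) ?_
      filter_upwards [htight ε hε hε1] with i hi
      exact (measure_mono fun x hx => hKt x hx).trans (hi.trans (hmono ε))
    have hlim : Tendsto (fun ε : ℝ => ENNReal.ofReal (1 - |C| * √ε)) (𝓝[>] 0)
        (𝓝 (ENNReal.ofReal 1)) := by
      refine ENNReal.tendsto_ofReal ?_
      have hc : Continuous fun ε : ℝ => 1 - |C| * √ε := by fun_prop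
      have := hc.tendsto 0
      simp only [Real.sqrt_zero, mul_zero, sub_zero] at this
      exact this.mono_left nhdsWithin_le_nhds
    rw [ENNReal.ofReal_one] at hlim
    refine le_of_tendsto hlim ?_
    have h1 : ∀ᶠ ε : ℝ in 𝓝[>] 0, ε < 1 :=
      (eventually_lt_nhds one_pos).filter_mono nhdsWithin_le_nhds
    filter_upwards [h1, self_mem_nhdsWithin] with ε h2 h3
    exact key ε h3 h2
  · intro β
    obtain ⟨u, hu⟩ := exists_aexp_da hn β
    refine riesz_inv U _ Λ hΛ (da β) fun i => ?_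
    rw [← hu]
    exact Fib.packetMeas_map (D i) u
  · refine ⟨|C|, fun N0 ε hε hε1 => ?_⟩
    refine riesz_open_le U _ hμ Λ hΛ (isOpen_starSet n N0 ε) (by positivity) ?_
    filter_upwards [hstar ε hε hε1 N0] with i hi
    exact hi.trans (hmono ε)
  · intro f
    rw [RealRMK.integral_rieszMeasure]
    exact hΛ f

end Vale.Agent.P007.N
end
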