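import Vale.Agent.P007.Bdl.B8
import Vale.Agent.P007.Bdl.B1
import Vale.Agent.P007.Bdl.B7

section

set_option autoImplicit false

open MeasureTheory Matrix Filter Topology
open scoped RealInnerProductSpace ENNReal CompactlySupported Pointwise

namespace Vale.Agent.P007.Koopman

open Vale.Agent.P007 Vale.Agent.P007.Mautner

variable {n k : ℕ}

end Vale.Agent.P007.Koopman
end

section

set_option autoImplicit false

open MeasureTheory Matrix Filter Topology
open scoped RealInnerProductSpace ENNReal CompactlySupported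

namespace Vale.Agent.P007.Koopman

open Vale.Agent.P007 Vale.Agent.P007.Mautner

variable {n : ℕ} {m : Measure (X n)}

end Vale.Agent.P007.Koopman
end

section

set_option autoImplicit false

open MeasureTheory Matrix Filter Topology
open scoped RealInnerProductSpace ENNReal CompactlySupported Pointwise

namespace Vale.Agent.P007.Koopman

open Vale.Agent.P007 Vale.Agent.P007.Mautner

variable {n k : ℕ}

end Vale.Agent.P007.Koopman
end

section

set_option autoImplicit false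

open MeasureTheory Matrix Filter Topology
open scoped RealInnerProductSpace ENNReal CompactlySupported Pointwise

namespace Vale.Agent.P007.Koopman

open Vale.Agent.P007 Vale.Agent.P007.Mautner

variable {n k : ℕ}

end Vale.Agent.P007.Koopman
end

section

set_option autoImplicit false

open MeasureTheory Matrix Filter Topology
open scoped RealInnerProductSpace ENNReal CompactlySupported Pointwise

namespace Vale.Agent.P007.Koopman

open Vale.Agent.P007 Vale.Agent.P007.Mautner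

variable {n k : ℕ}

/-- Convergence on compactly supported functions to a probability measure implies weak
convergence (no mass escapes). -/
theorem weakTo_of_Cc {n : ℕ} (μ : ℕ → Measure (X n)) [∀ i, IsProbabilityMeasure (μ i)]
    (m : Measure (X n)) [IsProbabilityMeasure m]
    (h : ∀ f : C_c(X n, ℝ), Tendsto (fun i => ∫ x, f x ∂μ i) atTop (𝓝 (∫ x, f x ∂m))) :
    WeakTo μ m := by
  refine ⟨h, fun ε hε => ?_⟩
  obtain ⟨η, hη0, hηε⟩ : ∃ η : ℝ, 0 < η ∧ ENNReal.ofReal η ≤ ε := by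
    rcases eq_or_ne ε ∞ with rfl | hε'
    · exact ⟨1, one_pos, le_top⟩
    · exact ⟨ε.toReal, ENNReal.toReal_pos hε.ne' hε', (ENNReal.ofReal_toReal hε').le⟩
  -- a compact set carrying most of `m`
  obtain ⟨K, -, hKc, hK⟩ := (MeasurableSet.univ (α := X n)).exists_isCompact_lt_add
    (measure_ne_top m _) (ε := ENNReal.ofReal (η / 2)) (by simpa only [ne_eq,
                                                             ENNReal.ofReal_eq_zero, not_le,
                                                             Nat.ofNat_pos,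
                                                             div_pos_iff_of_pos_right] using hη0)
  rw [measure_univ] at hK
  obtain ⟨f, hfK, -, hfc, hf01⟩ := exists_continuous_one_zero_of_isCompact hKc isClosed_empty
    (Set.disjoint_empty K)
  let F : C_c(X n, ℝ) := ⟨f, hfc⟩
  have hFm : 1 - η / 2 < ∫ x, F x ∂m := by
    have h1 : m.real K ≤ ∫ x, F x ∂m := by
      have h2 : ∫ x, K.indicator (fun _ => (1 : ℝ)) x ∂m = m.real K := by
        rw [integral_indicator hKc.measurableSet, setIntegral_const, smul_eq_mul, mul_one]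
      rw [← h2]
      refine integral_mono_of_nonneg (Eventually.of_forall fun x => ?_) ?_
        (Eventually.of_forall fun x => ?_)
      · exact Set.indicator_nonneg (fun _ _ => zero_le_one) x
      · exact F.continuous.integrable_of_hasCompactSupport F.hasCompactSupport
      · by_cases hx : x ∈ K
        · rw [Set.indicator_of_mem hx]
          exact (hfK hx).ge
        · rw [Set.indicator_of_notMem hx]
          exact (hf01 x).1
    have h3 : 1 < m.real K + η / 2 := by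
      have h4 := (ENNReal.toReal_lt_toReal ENNReal.one_ne_top
        (ENNReal.add_ne_top.mpr ⟨measure_ne_top m K, ENNReal.ofReal_ne_top⟩)).mpr hK
      rw [ENNReal.toReal_one, ENNReal.toReal_add (measure_ne_top m K) ENNReal.ofReal_ne_top,
        ENNReal.toReal_ofReal (by positivity)] at h4
      exact h4
    linarith
  refine ⟨tsupport F, F.hasCompactSupport, ?_⟩
  have h5 := (h F).eventually (lt_mem_nhds (show 1 - η < ∫ x, F x ∂m by linarith))
  filter_upwards [h5] with i hi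
  have h6 : ∫ x, F x ∂μ i ≤ (μ i).real (tsupport F) := by
    have h7 : ∫ x, (tsupport F).indicator (fun _ => (1 : ℝ)) x ∂μ i = (μ i).real (tsupport F) := by
      rw [integral_indicator (isClosed_tsupport F).measurableSet, setIntegral_const, smul_eq_mul,
        mul_one]
    rw [← h7]
    refine integral_mono_of_nonneg (Eventually.of_forall fun x => (hf01 x).1) ?_
      (Eventually.of_forall fun x => ?_)
    · exact (integrable_const (1 : ℝ)).indicator (isClosed_tsupport F).measurableSet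
    · by_cases hx : x ∈ tsupport F
      · rw [Set.indicator_of_mem hx]
        exact (hf01 x).2
      · rw [Set.indicator_of_notMem hx, image_eq_zero_of_notMem_tsupport hx]
  have h8 : (μ i).real (tsupport F)ᶜ ≤ η := by
    rw [probReal_compl_eq_one_sub (isClosed_tsupport F).measurableSet]
    linarith only [hi, h6]
  refine le_trans ?_ hηε
  rw [← ENNReal.ofReal_toReal (measure_ne_top (μ i) (tsupport F)ᶜ)]
  exact ENNReal.ofReal_le_ofReal h8

theorem integral_tr_eq {μ : Measure (X n)} (g : G n) (hμ : μ.map (tr g) = μ) (h : X n → ℝ)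
    (hh : Continuous h) : ∫ x, h (tr g x) ∂μ = ∫ x, h x ∂μ := by
  conv_rhs => rw [← hμ]
  rw [integral_map (continuous_tr g).measurable.aemeasurable]
  rw [hμ]
  exact hh.aestronglyMeasurable

end Vale.Agent.P007.Koopman
end

section

set_option autoImplicit false

open Module Matrix MeasureTheory Topology

namespace Vale.Agent.P007.Red

open Vale.Agent.P007

/-- all nonzero vectors of the lattice spanned by the rows have norm at least `ε` -/
def Thick {n : ℕ} (ε : ℝ) (A : Matrix (Fin n) (Fin n) ℝ) : Prop :=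
  ∀ z : Fin n → ℤ, z ≠ 0 → ε ≤ ‖(fun i => (z i : ℝ)) ᵥ* A‖

theorem lift_step {n : ℕ} (A : Matrix (Fin (n + 1)) (Fin (n + 1)) ℝ) (h2 : A 0 0 ≠ 0)
    (γ : Matrix (Fin n) (Fin n) ℤ) (hγ : IsUnit γ.det) :
    ∃ ε : Matrix (Fin (n + 1)) (Fin (n + 1)) ℤ, IsUnit ε.det ∧
      (∀ j, (ε.map (Int.cast : ℤ → ℝ) * A) 0 j = A 0 j) ∧
      ∀ i : Fin n, ∃ t : ℝ, |t| ≤ 1 / 2 ∧
        (ε.map (Int.cast : ℤ → ℝ) * A) i.succ 0 = t * A 0 0 ∧
        ∀ j : Fin n, (ε.map (Int.cast : ℤ → ℝ) * A) i.succ j.succ =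
          t * A 0 j.succ + (γ.map (Int.cast : ℤ → ℝ) * Matrix.of (rest A)) i j := by
  let x : Fin n → ℝ := fun i => ∑ l, (γ i l : ℝ) * (A l.succ 0 / A 0 0)
  let k : Fin n → ℤ := fun i => - round (x i)
  let ε : Matrix (Fin (n + 1)) (Fin (n + 1)) ℤ :=
    Matrix.of (Fin.cons (Fin.cons 1 0) (fun i => Fin.cons (k i) (γ i)))
  have hε00 : ε 0 0 = 1 := by simp [ε]
  have hε0s : ∀ l : Fin n, ε 0 l.succ = 0 := by intro l; simp [ε]
  have hεs0 : ∀ i : Fin n, ε i.succ 0 = k i := by intro i; simp [ε]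
  have hεss : ∀ i l : Fin n, ε i.succ l.succ = γ i l := by intro i l; simp [ε]
  have hA0 : ∀ j, (ε.map (Int.cast : ℤ → ℝ) * A) 0 j = A 0 j := by
    intro j
    rw [mul_apply, Fin.sum_univ_succ]
    simp only [map_apply, hε00, hε0s]
    simp only [Int.cast_one, one_mul, Int.cast_zero, zero_mul, Finset.sum_const_zero, add_zero]
  have hAs : ∀ (i : Fin n) j, (ε.map (Int.cast : ℤ → ℝ) * A) i.succ j =
      k i * A 0 j + ∑ l : Fin n, (γ i l : ℝ) * A l.succ j := by
    intro i j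
    rw [mul_apply, Fin.sum_univ_succ]
    simp only [map_apply, hεs0, hεss]
  have hx : ∀ i, x i * A 0 0 = ∑ l : Fin n, (γ i l : ℝ) * A l.succ 0 := by
    intro i
    simp only [x, Finset.sum_mul]
    refine Finset.sum_congr rfl fun l _ => ?_
    field_simp
  refine ⟨ε, ?_, hA0, fun i => ⟨x i - round (x i), abs_sub_round (x i), ?_, fun j => ?_⟩⟩
  · have : ε.det = γ.det := by
      rw [det_succ_row_zero, Fin.sum_univ_succ]
      simp only [hε00, hε0s, mul_zero, zero_mul, Finset.sum_const_zero, add_zero]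
      have h4 : ε.submatrix Fin.succ (Fin.succAbove 0) = γ := by
        ext i j
        rw [submatrix_apply, Fin.succAbove_zero, hεss]
      rw [h4]
      simp only [Int.reduceNeg, Nat.succ_eq_add_one, Fin.coe_ofNat_eq_mod, Nat.zero_mod, pow_zero,
        mul_one, one_mul]
    rw [this]; exact hγ
  · rw [hAs, sub_mul, hx]
    simp only [k, Int.cast_neg]
    ring
  · have h9 : (γ.map (Int.cast : ℤ → ℝ) * Matrix.of (rest A) : Matrix (Fin n) (Fin n) ℝ) i j
          = ∑ l : Fin n, (γ i l : ℝ) *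
            (A l.succ j.succ - A l.succ 0 / A 0 0 * A 0 j.succ) := rfl
    rw [hAs, h9]
    have h8 : ∀ l : Fin n, (γ i l : ℝ) * (A l.succ j.succ - A l.succ 0 / A 0 0 * A 0 j.succ)
          = (γ i l : ℝ) * A l.succ j.succ - (γ i l : ℝ) * (A l.succ 0 / A 0 0) * A 0 j.succ := by
      intro l; ring
    rw [Finset.sum_congr rfl fun l _ => h8 l, Finset.sum_sub_distrib, ← Finset.sum_mul]
    simp only [k, Int.cast_neg, x]
    ring

theorem map_mul_cast {n : ℕ} (ε γ : Matrix (Fin n) (Fin n) ℤ) (B : Matrix (Fin n) (Fin n) ℝ) :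
    (ε * γ).map (Int.cast : ℤ → ℝ) * B =
      ε.map (Int.cast : ℤ → ℝ) * (γ.map (Int.cast : ℤ → ℝ) * B) := by
  rw [← mul_assoc]
  congr 1
  exact Matrix.map_mul (f := Int.castRingHom ℝ)

/-- unimodular changes of basis preserve thickness -/
theorem Thick.unimod {n : ℕ} {ε : ℝ} {A : Matrix (Fin n) (Fin n) ℝ} (h : Thick ε A)
    (γ : Matrix (Fin n) (Fin n) ℤ) (hγ : IsUnit γ.det) :
    Thick ε (γ.map (Int.cast : ℤ → ℝ) * A) := by
  intro z hz
  have h1 : (fun i => (z i : ℝ)) ᵥ* (γ.map (Int.cast : ℤ → ℝ) * A) =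
      (fun i => (((z ᵥ* γ) i : ℤ) : ℝ)) ᵥ* A := by
    rw [← vecMul_vecMul]
    congr 1
    funext i
    simp only [vecMul, dotProduct, map_apply, Int.cast_sum, Int.cast_mul]
  rw [h1]
  apply h
  intro h0
  apply hz
  have h2 : (z ᵥ* γ) ᵥ* γ⁻¹ = 0 := by rw [h0, zero_vecMul]
  rwa [vecMul_vecMul, Matrix.mul_nonsing_inv γ hγ, vecMul_one] at h2

theorem mahler_aux (k : ℕ) : ∀ (ε D : ℝ), 0 < ε → ∃ C : ℝ,
    ∀ A : Matrix (Fin (k + 1)) (Fin (k + 1)) ℝ, A.det ≠ 0 → |A.det| ≤ D → Thick ε A →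
      ∃ γ : Matrix (Fin (k + 1)) (Fin (k + 1)) ℤ, IsUnit γ.det ∧
        ∀ i j, |(γ.map (Int.cast : ℤ → ℝ) * A) i j| ≤ C := by
  induction k with
  | zero =>
    intro ε D _
    refine ⟨D, fun A _ hD _ => ⟨1, by simp, fun i j => ?_⟩⟩
    have h1 : A.det = A 0 0 := by simp
    rw [h1] at hD
    have h2 : ((1 : Matrix (Fin (0 + 1)) (Fin (0 + 1)) ℤ).map (Int.cast : ℤ → ℝ) * A) = A := by
      rw [Matrix.map_one _ (by simp) (by simp), one_mul]
    rw [h2]
    have hi : i = 0 := Fin.ext (by omega)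
    have hj : j = 0 := Fin.ext (by omega)
    rw [hi, hj]
    exact hD
  | succ k ih =>
    intro ε D hε
    obtain ⟨C', hC'⟩ := ih (ε / 4) (D / ε) (by positivity)
    set M : ℝ := max 1 D with hM
    have hM1 : 1 ≤ M := le_max_left _ _
    have hMD : D ≤ M := le_max_right _ _
    refine ⟨C' + 4 * M, fun A hA0 hAD hAT => ?_⟩
    -- an almost shortest vector
    set S : Set ℝ := {r | ∃ z : Fin (k + 1 + 1) → ℤ, z ≠ 0 ∧ r = ‖(fun i => (z i : ℝ)) ᵥ* A‖}
      with hS
    have hSb : BddBelow S := ⟨ε, by rintro r ⟨z, hz, rfl⟩; exact hAT z hz⟩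
    obtain ⟨m₀, hm₀, hm₀A⟩ := exists_short (M⁻¹ • A) (by
        rw [det_smul]; exact mul_ne_zero (pow_ne_zero _ (by positivity)) hA0) (by
        rw [det_smul, abs_mul, abs_of_nonneg (by positivity), Fintype.card_fin]
        have h1 : M⁻¹ ^ (k + 1 + 1) ≤ M⁻¹ := by
          refine pow_le_of_le_one (by positivity) (inv_le_one_of_one_le₀ hM1) (by omega)
        calc M⁻¹ ^ (k + 1 + 1) * |A.det| ≤ M⁻¹ * M := by
              refine mul_le_mul h1 (hAD.trans hMD) (abs_nonneg _) (by positivity)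
          _ = 1 := inv_mul_cancel₀ (by positivity))
    have hm₀' : ‖(fun i => (m₀ i : ℝ)) ᵥ* A‖ ≤ 2 * M := by
      rw [vecMul_smul, norm_smul, norm_inv, Real.norm_of_nonneg (by positivity : (0 : ℝ) ≤ M),
        inv_mul_le_iff₀ (by positivity)] at hm₀A
      linarith only [hm₀A]
    have hSne : S.Nonempty := ⟨_, m₀, hm₀, rfl⟩
    set μ : ℝ := sInf S with hμ
    have hμε : ε ≤ μ := le_csInf hSne (by rintro r ⟨z, hz, rfl⟩; exact hAT z hz)
    have hμ0 : 0 < μ := lt_of_lt_of_le hε hμε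
    have hμM : μ ≤ 2 * M := (csInf_le hSb ⟨m₀, hm₀, rfl⟩).trans hm₀'
    obtain ⟨r, ⟨z, hz, rfl⟩, hzμ⟩ := exists_lt_of_csInf_lt hSne (by
      linarith only [hε, hμε] : sInf S < 4 / 3 * μ)
    obtain ⟨γ₁, a, hγ₁, ha, rfl⟩ := exists_unimodular_row z hz
    set A₁ : Matrix (Fin (k + 1 + 1)) (Fin (k + 1 + 1)) ℝ := γ₁.map (Int.cast : ℤ → ℝ) * A with hA₁
    have hrow : ‖A₁ 0‖ < 4 / 3 * μ := by
      have h2 : A₁ 0 = (fun i => (γ₁ 0 i : ℝ)) ᵥ* A := rfl
      have h3 : (fun i => (((a • γ₁ 0) i : ℤ) : ℝ)) ᵥ* A =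
          (a : ℝ) • ((fun i => (γ₁ 0 i : ℝ)) ᵥ* A) := by
        rw [← Matrix.smul_vecMul]
        congr 1
        ext i
        simp
      rw [h3, norm_smul] at hzμ
      rw [h2]
      have h4 : (1 : ℝ) ≤ ‖(a : ℝ)‖ := by
        rw [Real.norm_eq_abs, ← Int.cast_abs]
        exact_mod_cast Int.one_le_abs ha
      nlinarith only [hε, hμε, hzμ, h4]
    have hA₁T : ∀ z : Fin (k + 1 + 1) → ℤ, z ≠ 0 → μ ≤ ‖(fun i => (z i : ℝ)) ᵥ* A₁‖ := by
      have h5 : Thick μ A := fun z hz => csInf_le hSb ⟨z, hz, rfl⟩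
      exact h5.unimod γ₁ hγ₁
    have hd1 : |A₁.det| = |A.det| := by
      rw [hA₁, det_mul, abs_mul, unit_cast_det _ hγ₁, one_mul]
    -- the largest coordinate
    obtain ⟨j, -, hj⟩ := Finset.exists_max_image Finset.univ (fun j => |A₁ 0 j|)
      Finset.univ_nonempty
    have hjn : ‖A₁ 0‖ = |A₁ 0 j| := by
      refine le_antisymm ?_ ?_
      · rw [pi_norm_le_iff_of_nonneg (abs_nonneg _)]
        intro i
        exact hj i (Finset.mem_univ i)
      · exact norm_le_pi_norm (A₁ 0) j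
    let A₂ : Matrix (Fin (k + 1 + 1)) (Fin (k + 1 + 1)) ℝ := A₁.submatrix id (Equiv.swap 0 j)
    have hnorm : ∀ v : Fin (k + 1 + 1) → ℝ, ‖fun i => v (Equiv.swap 0 j i)‖ = ‖v‖ := by
      intro v
      refine le_antisymm ?_ ?_
      · rw [pi_norm_le_iff_of_nonneg (norm_nonneg _)]
        intro i
        exact norm_le_pi_norm v _
      · rw [pi_norm_le_iff_of_nonneg (norm_nonneg _)]
        intro i
        have := norm_le_pi_norm (fun i => v (Equiv.swap 0 j i)) (Equiv.swap 0 j i)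
        simpa only [Real.norm_eq_abs, ge_iff_le, Equiv.swap_apply_self] using this
    have hA₂det : |A₂.det| = |A₁.det| := by
      have := abs_det_submatrix_equiv_equiv (Equiv.refl (Fin (k + 1 + 1))) (Equiv.swap 0 j) A₁
      exact this
    have hA₂T : ∀ z : Fin (k + 1 + 1) → ℤ, z ≠ 0 → μ ≤ ‖(fun i => (z i : ℝ)) ᵥ* A₂‖ := by
      intro z hz
      have h6 : (fun i => (z i : ℝ)) ᵥ* A₂ =
          fun i => ((fun i => (z i : ℝ)) ᵥ* A₁) (Equiv.swap 0 j i) := rfl
      rw [h6, hnorm]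
      exact hA₁T z hz
    have hrow2 : ‖A₂ 0‖ = ‖A₁ 0‖ := hnorm (A₁ 0)
    have h00 : |A₂ 0 0| = ‖A₂ 0‖ := by
      rw [hrow2, hjn]
      change |A₁ 0 (Equiv.swap 0 j 0)| = _
      rw [Equiv.swap_apply_left]
    have hrow3 : μ ≤ ‖A₂ 0‖ := by
      have h7 := hA₂T (Pi.single 0 1) (by
        intro h
        have := congrFun h 0
        simp only [Pi.single_eq_same, Pi.zero_apply, one_ne_zero] at this)
      have h8 : (fun i => (((Pi.single 0 1 : Fin (k + 1 + 1) → ℤ) i : ℤ) : ℝ)) =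
          Pi.single 0 1 := by
        funext i
        by_cases hi : i = 0
        · subst hi; simp
        · simp only [ne_eq, hi, not_false_eq_true, Pi.single_eq_of_ne, Int.cast_zero]
      rw [h8, single_one_vecMul] at h7
      exact h7
    have h00' : A₂ 0 0 ≠ 0 := by
      rw [← abs_ne_zero, h00]
      exact (lt_of_lt_of_le hμ0 hrow3).ne'
    -- the rest
    have hdet := det_rest A₂ h00'
    have hrest0 : Matrix.det (Matrix.of (rest A₂)) ≠ 0 := by
      intro h
      rw [h, mul_zero] at hdet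
      have : |A₂.det| = 0 := by rw [hdet, abs_zero]
      rw [hA₂det, hd1, abs_eq_zero] at this
      exact hA0 this
    have hrestD : |Matrix.det (Matrix.of (rest A₂))| ≤ D / ε := by
      rw [le_div_iff₀ hε]
      have h9 : |A₂ 0 0| * |Matrix.det (Matrix.of (rest A₂))| = |A.det| := by
        rw [← abs_mul, ← hdet, hA₂det, hd1]
      have h10 : ε ≤ |A₂ 0 0| := by rw [h00]; linarith only [hμε, hrow3]
      nlinarith only [abs_nonneg (Matrix.det (Matrix.of (rest A₂))), hAD, hμε, h00, hrow3, h9]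
    have hrestT : Thick (ε / 4) (Matrix.of (rest A₂)) := by
      intro z hz
      set t : ℝ := ∑ l, (z l : ℝ) * (A₂ l.succ 0 / A₂ 0 0) with ht
      set z' : Fin (k + 1 + 1) → ℤ := Fin.cons (-round t) z with hz'
      have hz'0 : z' ≠ 0 := by
        intro h
        apply hz
        funext i
        have := congrFun h i.succ
        simpa [hz'] using this
      have h11 := hA₂T z' hz'0
      have htA : t * A₂ 0 0 = ∑ l, (z l : ℝ) * A₂ l.succ 0 := by
        simp only [ht, Finset.sum_mul]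
        refine Finset.sum_congr rfl fun l _ => ?_
        (clear * - h00'; field_simp)
      have h12 : ∀ i, ((fun i => (z' i : ℝ)) ᵥ* A₂) i = (t - round t) * A₂ 0 i +
          (Fin.cons 0 ((fun i => (z i : ℝ)) ᵥ* Matrix.of (rest A₂)) :
            Fin (k + 1 + 1) → ℝ) i := by
        intro i
        rw [vecMul, dotProduct, Fin.sum_univ_succ]
        simp only [hz', Fin.cons_zero, Fin.cons_succ]
        refine Fin.cases ?_ (fun i => ?_) i
        · rw [Fin.cons_zero, ← htA]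
          push_cast
          ring
        · rw [Fin.cons_succ, vecMul, dotProduct]
          have h13 : ∀ l, (z l : ℝ) * (Matrix.of (rest A₂)) l i = (z l : ℝ) * A₂ l.succ i.succ -
              (z l : ℝ) * (A₂ l.succ 0 / A₂ 0 0) * A₂ 0 i.succ := by
            intro l
            simp only [of_apply, rest]
            ring
          rw [Finset.sum_congr rfl fun l _ => h13 l, Finset.sum_sub_distrib, ← Finset.sum_mul,
            ← ht]
          push_cast
          ring
      have h14 : ‖(fun i => (z' i : ℝ)) ᵥ* A₂‖ ≤ 1 / 2 * ‖A₂ 0‖ +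
          ‖(fun i => (z i : ℝ)) ᵥ* Matrix.of (rest A₂)‖ := by
        rw [pi_norm_le_iff_of_nonneg (by (clear * -; positivity))]
        intro i
        rw [h12 i]
        refine (norm_add_le _ _).trans (add_le_add ?_ ?_)
        · rw [norm_mul]
          exact mul_le_mul (abs_sub_round t) (norm_le_pi_norm (A₂ 0) i) (norm_nonneg _)
            (by norm_num)
        · refine Fin.cases ?_ (fun i => ?_) i
          · rw [Fin.cons_zero, norm_zero]; exact norm_nonneg _
          · rw [Fin.cons_succ]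
            exact norm_le_pi_norm ((fun i => (z i : ℝ)) ᵥ* Matrix.of (rest A₂)) i
      rw [hrow2] at h14
      linarith only [hε, hμε, hrow, h11, h14]
    obtain ⟨γ, hγ, hγC⟩ := hC' (Matrix.of (rest A₂)) hrest0 hrestD hrestT
    obtain ⟨δ, hδ, hδ0, hδs⟩ := lift_step A₂ h00' γ hγ
    refine ⟨δ * γ₁, ?_, ?_⟩
    · rw [det_mul]; exact hδ.mul hγ₁
    have hrowM : ‖A₂ 0‖ ≤ 4 * M := by rw [hrow2]; linarith only [hM1, hμM, hrow]
    have hC0 : 0 ≤ C' := (abs_nonneg _).trans (hγC 0 0)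
    have hb : ∀ i j, |(δ.map (Int.cast : ℤ → ℝ) * A₂) i j| ≤ C' + 4 * M := by
      intro i l
      refine Fin.cases ?_ (fun i => ?_) i
      · rw [hδ0 l]
        have := norm_le_pi_norm (A₂ 0) l
        rw [Real.norm_eq_abs] at this
        linarith only [hM1, hμM, hrow, hrow2, hC0, this]
      · obtain ⟨t, ht, ht0, hts⟩ := hδs i
        have h16 : ∀ l, |t * A₂ 0 l| ≤ 4 * M := by
          intro l
          rw [abs_mul]
          have h17 := norm_le_pi_norm (A₂ 0) l
          rw [Real.norm_eq_abs] at h17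
          calc |t| * |A₂ 0 l| ≤ 1 * (4 * M) :=
                mul_le_mul (ht.trans (by norm_num)) (h17.trans hrowM) (abs_nonneg _) zero_le_one
            _ = 4 * M := one_mul _
        refine Fin.cases ?_ (fun l => ?_) l
        · rw [ht0]
          linarith only [h16 0, hC0, h16]
        · rw [hts l]
          refine (abs_add_le _ _).trans ?_
          linarith only [h16 l.succ, hγC i l, hγC, h16]
    intro i l
    rw [map_mul_cast, ← hA₁]
    have h18 : (δ.map (Int.cast : ℤ → ℝ) * A₁) i l =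
        (δ.map (Int.cast : ℤ → ℝ) * A₂) i (Equiv.swap 0 j l) := by
      rw [mul_apply, mul_apply]
      refine Finset.sum_congr rfl fun s _ => ?_
      change _ = _ * A₁ s (Equiv.swap 0 j (Equiv.swap 0 j l))
      rw [Equiv.swap_apply_self]
    rw [h18]
    exact hb i _

/-- points whose lattice has no nonzero vector of norm less than `ε` -/
def thick (n : ℕ) (ε : ℝ) : Set (X n) :=
  {x | ∀ g : G n, x = pt g → ∀ v ∈ lat g, v ≠ 0 → ε ≤ ‖v‖}

/-- **Mahler's criterion** -/
theorem mahler (k : ℕ) (ε : ℝ) (hε : 0 < ε) :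
    ∃ C : Set (G (k + 1)), IsCompact C ∧ ∀ x ∈ thick (k + 1) ε, ∃ g ∈ C, x = pt g := by
  obtain ⟨C₀, hC₀⟩ := mahler_aux k ε 1 hε
  set B : Set (Matrix (Fin (k + 1)) (Fin (k + 1)) ℝ) := {A | ∀ i j, |A i j| ≤ C₀} with hB
  have hBc : IsCompact B := by
    have h1 : IsCompact (Set.pi Set.univ fun _ : Fin (k + 1) =>
        Set.pi Set.univ fun _ : Fin (k + 1) => Set.Icc (-C₀) C₀) :=
      isCompact_univ_pi fun _ => isCompact_univ_pi fun _ => isCompact_Icc
    have h2 : B = (Set.pi Set.univ fun _ : Fin (k + 1) =>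
        Set.pi Set.univ fun _ : Fin (k + 1) => Set.Icc (-C₀) C₀) := by
      ext A
      constructor
      · intro hA i _ j _
        exact abs_le.mp (hA i j)
      · intro hA i j
        exact abs_le.mpr (hA i (Set.mem_univ i) j (Set.mem_univ j))
    rw [h2]
    exact h1
  refine ⟨(fun g : G (k + 1) => (g : Matrix (Fin (k + 1)) (Fin (k + 1)) ℝ)) ⁻¹' B,
    Matrix.SpecialLinearGroup.isClosedEmbedding_val.isCompact_preimage hBc, fun x hx => ?_⟩
  obtain ⟨g, rfl⟩ := pt_surjective x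
  have hT : Thick ε (g : Matrix (Fin (k + 1)) (Fin (k + 1)) ℝ) := by
    intro z hz
    refine hx g rfl _ ⟨z, rfl⟩ ?_
    intro h0
    apply hz
    have h3 : (fun i => (z i : ℝ)) = 0 := by
      have h4 := congrArg (fun v => v ᵥ* (g⁻¹ : G (k + 1)).1) h0
      simp only [vecMul_vecMul, zero_vecMul] at h4
      have h5 : (g : Matrix (Fin (k + 1)) (Fin (k + 1)) ℝ) * (g⁻¹ : G (k + 1)).1 = 1 := by
        have := congrArg Subtype.val (mul_inv_cancel g)
        exact this
      rwa [h5, vecMul_one] at h4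
    funext i
    have h6 : (z i : ℝ) = 0 := congrFun h3 i
    exact_mod_cast h6
  obtain ⟨γ, hγ, hγC⟩ := hC₀ g (by rw [g.2]; exact one_ne_zero) (by rw [g.2]; simp) hT
  -- make the determinant one
  obtain ⟨δ, hδ1, hδC⟩ : ∃ δ : Matrix (Fin (k + 1)) (Fin (k + 1)) ℤ, δ.det = 1 ∧
      ∀ i j, |(δ.map (Int.cast : ℤ → ℝ) * (g : Matrix (Fin (k + 1)) (Fin (k + 1)) ℝ)) i j| ≤ C₀ := by
    rcases Int.isUnit_iff.mp hγ with h1 | h1
    · exact ⟨γ, h1, hγC⟩
    · set P : Matrix (Fin (k + 1)) (Fin (k + 1)) ℤ :=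
        diagonal (Function.update 1 (0 : Fin (k + 1)) (-1)) with hP
      have hPd : P.det = -1 := by
        rw [hP, det_diagonal, Finset.prod_update_of_mem (Finset.mem_univ _)]
        simp
      refine ⟨P * γ, by rw [det_mul, hPd, h1]; norm_num, fun i j => ?_⟩
      rw [map_mul_cast]
      have hPm : P.map (Int.cast : ℤ → ℝ) =
          diagonal (Function.update 1 (0 : Fin (k + 1)) (-1)) := by
        ext a b
        by_cases hab : a = b
        · subst hab
          by_cases ha : a = 0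
          · subst ha; simp [hP]
          · simp [hP, ha]
        · simp [hP, hab]
      rw [hPm, diagonal_mul]
      by_cases hi : i = 0
      · subst hi
        rw [Function.update_self, neg_one_mul, abs_neg]
        exact hγC _ _
      · rw [Function.update_of_ne hi, Pi.one_apply, one_mul]
        exact hγC _ _
  have hmem : (Matrix.SpecialLinearGroup.map (Int.castRingHom ℝ)) ⟨δ, hδ1⟩ ∈ Gam (k + 1) :=
    ⟨_, rfl⟩
  refine ⟨(Matrix.SpecialLinearGroup.map (Int.castRingHom ℝ)) ⟨δ, hδ1⟩ * g, ?_, ?_⟩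
  · intro i j
    exact hδC i j
  · rw [pt_eq_pt, mul_assoc, mul_inv_cancel, mul_one]
    exact hmem

end Vale.Agent.P007.Red
end

section

set_option autoImplicit false

open MeasureTheory Matrix NumberField Filter Topology Module
open scoped nonZeroDivisors ENNReal CompactlySupported Pointwise

namespace Vale.Agent.P007.Fib

open Vale.Agent.P007

variable {n : ℕ}

/-- the lattice of `g` as a `ℤ`-submodule -/
def latS (g : G n) : Submodule ℤ (Fin n → ℝ) where
  carrier := lat g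
  zero_mem' := ⟨0, by simp [← Pi.zero_def]⟩
  add_mem' := by
    rintro _ _ ⟨a, rfl⟩ ⟨b, rfl⟩
    refine ⟨a + b, ?_⟩
    simp only
    rw [← add_vecMul]
    congr 1
    funext i
    simp
  smul_mem' := by
    rintro c _ ⟨a, rfl⟩
    refine ⟨c • a, ?_⟩
    have h : (fun i => (((c • a) i : ℤ) : ℝ)) = (c : ℝ) • fun i => (a i : ℝ) := by
      funext i
      simp
    simp only
    rw [h, smul_vecMul]
    funext i
    simp

theorem mem_latS {g : G n} {v : Fin n → ℝ} : v ∈ latS g ↔ v ∈ lat g := Iff.rfl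

theorem latS_eq_iff {g g' : G n} : latS g = latS g' ↔ lat g = lat g' := by
  constructor
  · intro h
    have := congrArg (fun S : Submodule ℤ (Fin n → ℝ) => (S : Set (Fin n → ℝ))) h
    exact this
  · intro h
    exact SetLike.coe_injective h

/-- multiplication of a lattice by a vector -/
def vmul (t : Fin n → ℝ) (L : Submodule ℤ (Fin n → ℝ)) : Submodule ℤ (Fin n → ℝ) :=
  L.map (LinearMap.mulLeft ℤ t)

theorem mem_vmul {t : Fin n → ℝ} {L : Submodule ℤ (Fin n → ℝ)} {v : Fin n → ℝ} :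
    v ∈ vmul t L ↔ ∃ x ∈ L, v = t * x := by
  constructor
  · rintro ⟨x, hx, rfl⟩
    exact ⟨x, hx, rfl⟩
  · rintro ⟨x, hx, rfl⟩
    exact ⟨x, hx, rfl⟩

theorem vmul_vmul (s t : Fin n → ℝ) (L : Submodule ℤ (Fin n → ℝ)) :
    vmul s (vmul t L) = vmul (s * t) L := by
  ext v
  simp only [mem_vmul]
  constructor
  · rintro ⟨_, ⟨x, hx, rfl⟩, rfl⟩
    exact ⟨x, hx, by ring⟩
  · rintro ⟨x, hx, rfl⟩
    exact ⟨t * x, ⟨x, hx, rfl⟩, by ring⟩

theorem vmul_one (L : Submodule ℤ (Fin n → ℝ)) : vmul 1 L = L := by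
  ext v
  simp only [mem_vmul, one_mul]
  constructor
  · rintro ⟨x, hx, rfl⟩; exact hx
  · intro h; exact ⟨v, h, rfl⟩

theorem vmul_mul (t : Fin n → ℝ) (L M : Submodule ℤ (Fin n → ℝ)) :
    vmul t (L * M) = vmul t L * M := by
  refine le_antisymm ?_ ?_
  · rintro _ ⟨x, hx, rfl⟩
    refine Submodule.mul_induction_on hx ?_ ?_
    · intro a ha b hb
      rw [LinearMap.mulLeft_apply, ← mul_assoc]
      exact Submodule.mul_mem_mul (mem_vmul.mpr ⟨a, ha, rfl⟩) hb
    · intro a b ha hb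
      rw [map_add]
      exact Submodule.add_mem _ ha hb
  · rw [Submodule.mul_le]
    rintro _ ⟨a, ha, rfl⟩ b hb
    refine mem_vmul.mpr ⟨a * b, Submodule.mul_mem_mul ha hb, ?_⟩
    rw [LinearMap.mulLeft_apply, mul_assoc]

theorem mul_vmul (t : Fin n → ℝ) (L M : Submodule ℤ (Fin n → ℝ)) :
    L * vmul t M = vmul t (L * M) := by
  rw [mul_comm L, ← vmul_mul, mul_comm M]

/-- the vector of the diagonal element `aexp u` -/
noncomputable def ev (u : Fin (n - 1) → ℝ) : Fin n → ℝ := fun j => Real.exp (expo u j)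

theorem ev_pos (u : Fin (n - 1) → ℝ) (j : Fin n) : 0 < ev u j := Real.exp_pos _

theorem ev_add (u v : Fin (n - 1) → ℝ) : ev (n := n) (u + v) = ev u * ev v := by
  funext j
  rw [ev, Pi.mul_apply, ev, ev, expo_add, Real.exp_add]

theorem ev_zero : ev (n := n) 0 = 1 := by
  funext j
  rw [ev, expo_zero, Real.exp_zero]
  rfl

theorem latS_mul_aexp (g : G n) (u : Fin (n - 1) → ℝ) :
    latS (g * aexp u) = vmul (ev u) (latS g) := by
  ext v
  rw [mem_vmul, mem_latS, lat_eq_latM, coe_mul_G, coe_aexp, latM_mul_diagonal]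
  constructor
  · rintro ⟨x, hx, rfl⟩
    exact ⟨x, hx, rfl⟩
  · rintro ⟨x, hx, rfl⟩
    exact ⟨x, hx, rfl⟩

theorem latS_Gam {g γ : G n} (hγ : γ ∈ Gam n) : latS (γ * g) = latS g := by
  obtain ⟨γ', rfl⟩ := hγ
  rw [latS_eq_iff, lat_eq_latM, lat_eq_latM, coe_mul_G]
  have h1 : ((Matrix.SpecialLinearGroup.map (n := Fin n) (Int.castRingHom ℝ)) γ' :
      Matrix (Fin n) (Fin n) ℝ) = castM (γ' : Matrix (Fin n) (Fin n) ℤ) := rfl
  rw [h1]
  exact latM_unimodular (by rw [γ'.2]; exact isUnit_one) _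

/-- The lattice determines the point, up to a positive scalar. -/
theorem pt_eq_of_smul (hn : 0 < n) {g g' : G n} {c : ℝ} (hc : 0 < c)
    (h : latS g' = vmul (fun _ => c) (latS g)) : pt g' = pt g ∧ c = 1 := by
  have h' : lat g' = {v | ∃ u ∈ lat g, v = fun j => c * u j} := by
    ext v
    rw [← mem_latS, h, mem_vmul]
    rfl
  have h2 := h'
  rw [lat_eq_latM, lat_eq_latM, ← latM_mul_diagonal] at h2
  obtain ⟨P, hP, hPu⟩ := exists_unimodular (by rw [det_G]; exact one_ne_zero) h2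
  have h1 := congrArg Matrix.det hP
  rw [det_mul, det_mul, det_G, det_G, one_mul, det_diagonal, cast_det] at h1
  have hpos : 0 < ∏ _j : Fin n, c := Finset.prod_pos fun j _ => hc
  have hPd : P.det = 1 := by
    rcases Int.isUnit_iff.mp hPu with h3 | h3
    · exact h3
    · rw [h3] at h1
      push_cast at h1
      linarith only [hpos, h3, h1]
  have hprod : ∏ _j : Fin n, c = 1 := by
    rw [hPd] at h1
    push_cast at h1
    linarith only [h1]
  have hc1 : c = 1 := by
    rw [Finset.prod_const, Finset.card_univ, Fintype.card_fin] at hprod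
    exact (pow_eq_one_iff_of_nonneg hc.le hn.ne').mp hprod
  refine ⟨?_, hc1⟩
  subst hc1
  rw [pt_eq_pt]
  have hmem : (Matrix.SpecialLinearGroup.map (n := Fin n) (Int.castRingHom ℝ)) ⟨P, hPd⟩ ∈ Gam n :=
    ⟨_, rfl⟩
  have hg' : g' = (Matrix.SpecialLinearGroup.map (n := Fin n) (Int.castRingHom ℝ)) ⟨P, hPd⟩ * g := by
    apply Subtype.ext
    rw [hP]
    have h4 : (diagonal fun _ : Fin n => (1 : ℝ)) = 1 := diagonal_one
    rw [h4, mul_one]
    rfl
  have h5 : g * g'⁻¹ = ((Matrix.SpecialLinearGroup.map (n := Fin n) (Int.castRingHom ℝ)) ⟨P, hPd⟩)⁻¹ := by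
    rw [hg']; group
  rw [h5]
  exact inv_mem hmem

theorem pt_eq_iff_latS (hn : 0 < n) {g g' : G n} : pt g' = pt g ↔ latS g' = latS g := by
  constructor
  · intro h
    have h1 := pt_eq_pt.mp h
    have h2 := latS_Gam (g := g') h1
    rw [inv_mul_cancel_right] at h2
    exact h2.symm
  · intro h
    refine (pt_eq_of_smul hn (c := 1) one_pos ?_).1
    rw [h]
    exact (vmul_one _).symm

/-- `x` is the point of the lattice `L`, up to scaling -/
def IsPtOf (L : Submodule ℤ (Fin n → ℝ)) (x : X n) : Prop :=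
  ∃ (g : G n) (c : ℝ), 0 < c ∧ x = pt g ∧ latS g = vmul (fun _ => c) L

theorem IsPtOf.unique (hn : 0 < n) {L : Submodule ℤ (Fin n → ℝ)} {x y : X n}
    (hx : IsPtOf L x) (hy : IsPtOf L y) : x = y := by
  obtain ⟨g, c, hc, rfl, hg⟩ := hx
  obtain ⟨g', c', hc', rfl, hg'⟩ := hy
  have h1 : latS g = vmul (fun _ => c * c'⁻¹) (latS g') := by
    rw [hg', vmul_vmul, hg]
    congr 1
    funext j
    rw [Pi.mul_apply]
    field_simp
  exact (pt_eq_of_smul hn (by positivity) h1).1

theorem IsPtOf.tr {L : Submodule ℤ (Fin n → ℝ)} {x : X n} (hx : IsPtOf L x)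
    (u : Fin (n - 1) → ℝ) : IsPtOf (vmul (ev u) L) (tr (aexp u) x) := by
  obtain ⟨g, c, hc, rfl, hg⟩ := hx
  refine ⟨g * aexp u, c, hc, rfl, ?_⟩
  rw [latS_mul_aexp, hg, vmul_vmul, vmul_vmul, mul_comm]

theorem isPtOf_self (g : G n) : IsPtOf (latS g) (pt g) :=
  ⟨g, 1, one_pos, rfl, (vmul_one _).symm⟩

theorem IsPtOf.smul {L : Submodule ℤ (Fin n → ℝ)} {x : X n} (hx : IsPtOf L x) {c : ℝ}
    (hc : 0 < c) : IsPtOf (vmul (fun _ => c) L) x := by
  obtain ⟨g, d, hd, rfl, hg⟩ := hx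
  refine ⟨g, d * c⁻¹, by positivity, rfl, ?_⟩
  rw [vmul_vmul, hg]
  congr 1
  funext j
  rw [Pi.mul_apply]
  field_simp

end Vale.Agent.P007.Fib
end

section

set_option autoImplicit false

open MeasureTheory Matrix NumberField Filter Topology Module
open scoped nonZeroDivisors ENNReal CompactlySupported Pointwise

namespace Vale.Agent.P007.Fib

open Vale.Agent.P007

variable {n : ℕ} (D : Datum n)

/-- all real embeddings together -/
noncomputable def sE : D.K →+* (Fin n → ℝ) := RingHom.pi fun j => D.σ j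

theorem sE_apply (a : D.K) (j : Fin n) : sE D a j = D.σ j a := rfl

/-- the order inside `ℝ^n` -/
noncomputable def RE : Subring (Fin n → ℝ) := D.O.map ((sE D).comp (algebraMap (𝓞 D.K) D.K))

theorem mem_RE {x : Fin n → ℝ} : x ∈ RE D ↔ ∃ r ∈ D.O, x = sE D (r : D.K) := by
  constructor
  · rintro ⟨r, hr, rfl⟩
    exact ⟨r, hr, rfl⟩
  · rintro ⟨r, hr, rfl⟩
    exact ⟨r, hr, rfl⟩

theorem sE_injective : Function.Injective (sE D) := by
  have := D.pos
  intro a b h
  exact (D.σ ⟨0, this⟩).injective (congrFun h ⟨0, this⟩)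

/-- image of a `ℤ`-submodule of `K` -/
noncomputable def sL (M : Submodule ℤ D.K) : Submodule ℤ (Fin n → ℝ) :=
  M.map (sE D).toIntAlgHom.toLinearMap

theorem mem_sL {M : Submodule ℤ D.K} {x : Fin n → ℝ} : x ∈ sL D M ↔ ∃ a ∈ M, x = sE D a := by
  constructor
  · rintro ⟨a, ha, rfl⟩
    exact ⟨a, ha, rfl⟩
  · rintro ⟨a, ha, rfl⟩
    exact ⟨a, ha, rfl⟩

theorem sL_mul (M N : Submodule ℤ D.K) : sL D (M * N) = sL D M * sL D N :=
  Submodule.map_mul M N (sE D).toIntAlgHom

theorem sL_injective : Function.Injective (sL D) :=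
  Submodule.map_injective_of_injective (sE_injective D)

theorem zmod_mul (I J : FractionalIdeal D.O⁰ D.K) : D.zmod (I * J) = D.zmod I * D.zmod J := by
  apply Submodule.toAddSubmonoid_injective
  rw [Submodule.mul_toAddSubmonoid]
  have h : ((I * J : FractionalIdeal D.O⁰ D.K) : Submodule D.O D.K).toAddSubmonoid =
      (I : Submodule D.O D.K).toAddSubmonoid * (J : Submodule D.O D.K).toAddSubmonoid := by
    rw [FractionalIdeal.coe_mul, Submodule.mul_toAddSubmonoid]
  exact h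

theorem sL_zmod_one : sL D (D.zmod 1) = RM (RE D) := by
  ext x
  rw [mem_sL, mem_RM, mem_RE]
  constructor
  · rintro ⟨a, ha, rfl⟩
    rw [D.mem_zmod, FractionalIdeal.mem_one_iff] at ha
    obtain ⟨r, rfl⟩ := ha
    exact ⟨r.1, r.2, rfl⟩
  · rintro ⟨r, hr, rfl⟩
    refine ⟨(r : D.K), ?_, rfl⟩
    rw [D.mem_zmod, FractionalIdeal.mem_one_iff]
    exact ⟨⟨r, hr⟩, rfl⟩

theorem zmod_stable (I : FractionalIdeal D.O⁰ D.K) : Stable (RE D) (sL D (D.zmod I)) := by
  intro r₀ hr₀ x hx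
  obtain ⟨r, hr, rfl⟩ := (mem_RE D).mp hr₀
  obtain ⟨a, ha, rfl⟩ := (mem_sL D).mp hx
  refine (mem_sL D).mpr ⟨(r : D.K) * a, ?_, (map_mul (sE D) _ _).symm⟩
  exact Submodule.smul_mem (I : Submodule D.O D.K) ⟨r, hr⟩ ha

theorem Stable.vmul {R : Subring (Fin n → ℝ)} {L : Submodule ℤ (Fin n → ℝ)} (h : Stable R L)
    (t : Fin n → ℝ) : Stable R (vmul t L) := by
  intro r hr x hx
  obtain ⟨y, hy, rfl⟩ := mem_vmul.mp hx
  exact mem_vmul.mpr ⟨r * y, h r hr y hy, by ring⟩

theorem Inv.vmul {R : Subring (Fin n → ℝ)} {L : Submodule ℤ (Fin n → ℝ)} (h : Inv R L)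
    {t s : Fin n → ℝ} (hts : t * s = 1) : Inv R (vmul t L) := by
  obtain ⟨h1, L', h2, h3⟩ := h
  refine ⟨h1.vmul t, Fib.vmul s L', h2.vmul s, ?_⟩
  rw [← vmul_mul, mul_vmul, vmul_vmul, hts, vmul_one, h3]

/-- `x` is the point of an invertible lattice -/
def InvPt (R : Subring (Fin n → ℝ)) (x : X n) : Prop := ∃ g : G n, x = pt g ∧ Inv R (latS g)

theorem ev_mul_neg (u : Fin (n - 1) → ℝ) : ev (n := n) u * ev (-u) = 1 := by
  rw [← ev_add, add_neg_cancel, ev_zero]

theorem InvPt.tr {R : Subring (Fin n → ℝ)} {x : X n} (h : InvPt R x) (u : Fin (n - 1) → ℝ) :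
    InvPt R (tr (aexp u) x) := by
  obtain ⟨g, rfl, hg⟩ := h
  refine ⟨g * aexp u, rfl, ?_⟩
  rw [latS_mul_aexp]
  exact hg.vmul (ev_mul_neg u)

theorem InvPt.inv (hn : 0 < n) {R : Subring (Fin n → ℝ)} {g : G n} (h : InvPt R (pt g)) :
    Inv R (latS g) := by
  obtain ⟨g', hg, h'⟩ := h
  rwa [(pt_eq_iff_latS hn).mp hg]

theorem mul_inv_vec {t : Fin n → ℝ} (ht : ∀ j, t j ≠ 0) : t * t⁻¹ = 1 := by
  funext j
  rw [Pi.mul_apply, Pi.inv_apply, mul_inv_cancel₀ (ht j), Pi.one_apply]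

/-- packet points have invertible lattices -/
theorem isPacketPt_invPt {x : X n} (hx : D.IsPacketPt x) : InvPt (RE D) x := by
  obtain ⟨I, w, c, g, hc, rfl, hlat⟩ := hx
  refine ⟨g, rfl, ?_⟩
  set t : Fin n → ℝ := fun j => c * ((w j : ℤ) : ℝ) with ht
  have ht0 : ∀ j, t j ≠ 0 := by
    intro j
    have : ((w j : ℤ) : ℝ) ≠ 0 := by exact_mod_cast (w j).ne_zero
    exact mul_ne_zero hc.ne' this
  have hL : latS g = vmul t (sL D (D.zmod (I : FractionalIdeal D.O⁰ D.K))) := by
    ext v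
    rw [mem_latS, hlat, mem_vmul]
    constructor
    · rintro ⟨a, ha, rfl⟩
      refine ⟨sE D a, (mem_sL D).mpr ⟨a, ha, rfl⟩, ?_⟩
      funext j
      rw [Pi.mul_apply, sE_apply, ht]
      ring
    · rintro ⟨x, hx, rfl⟩
      obtain ⟨a, ha, rfl⟩ := (mem_sL D).mp hx
      refine ⟨a, ha, ?_⟩
      funext j
      rw [Pi.mul_apply, sE_apply, ht]
      ring
  rw [hL]
  refine Inv.vmul ?_ (mul_inv_vec ht0)
  refine ⟨zmod_stable D _, sL D (D.zmod ((I⁻¹ : (FractionalIdeal D.O⁰ D.K)ˣ) :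
    FractionalIdeal D.O⁰ D.K)), zmod_stable D _, ?_⟩
  rw [← sL_mul, ← zmod_mul, ← Units.val_mul, mul_inv_cancel, Units.val_one, sL_zmod_one]

theorem sE_ne_zero {a : D.K} (ha : a ≠ 0) (j : Fin n) : sE D a j ≠ 0 := by
  rw [sE_apply]
  exact (map_ne_zero _).mpr ha

/-- structure of invertible lattices -/
theorem exists_of_inv {L : Submodule ℤ (Fin n → ℝ)} (h : Inv (RE D) L) :
    ∃ (t : Fin n → ℝ) (I : (FractionalIdeal D.O⁰ D.K)ˣ), (∀ j, t j ≠ 0) ∧
      L = vmul t (sL D (D.zmod (I : FractionalIdeal D.O⁰ D.K))) := by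
  obtain ⟨h1, L', h2, h3⟩ := h
  -- elements with nonzero product
  obtain ⟨t, ht, t', ht', htt⟩ : ∃ t ∈ L, ∃ t' ∈ L', t * t' ≠ 0 := by
    by_contra hcon
    push Not at hcon
    have h4 : L * L' ≤ ⊥ := by
      rw [Submodule.mul_le]
      intro a ha b hb
      rw [Submodule.mem_bot]
      exact hcon a ha b hb
    rw [h3] at h4
    have h5 : (1 : Fin n → ℝ) ∈ (⊥ : Submodule ℤ (Fin n → ℝ)) := h4 (RE D).one_mem
    rw [Submodule.mem_bot] at h5
    have := congrFun h5 ⟨0, D.pos⟩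
    simp at this
  have hmul : ∀ a ∈ L, ∀ b ∈ L', ∃ r ∈ D.O, a * b = sE D (r : D.K) := by
    intro a ha b hb
    have : a * b ∈ L * L' := Submodule.mul_mem_mul ha hb
    rw [h3] at this
    exact (mem_RE D).mp this
  obtain ⟨r, hr, hrt⟩ := hmul t ht t' ht'
  have hr0 : (r : D.K) ≠ 0 := by
    intro h0
    apply htt
    rw [hrt, h0, map_zero]
  have htt0 : ∀ j, t j * t' j ≠ 0 := by
    intro j
    have h4 := congrFun hrt j
    rw [Pi.mul_apply] at h4
    rw [h4]
    exact sE_ne_zero D hr0 j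
  have ht0 : ∀ j, t j ≠ 0 := fun j => left_ne_zero_of_mul (htt0 j)
  have ht'0 : ∀ j, t' j ≠ 0 := fun j => right_ne_zero_of_mul (htt0 j)
  -- the ideals
  let J : Submodule D.O D.K :=
    { carrier := {a | t * sE D a ∈ L}
      zero_mem' := by
        change t * sE D 0 ∈ L
        rw [map_zero, mul_zero]; exact L.zero_mem
      add_mem' := by
        intro a b ha hb
        change t * sE D (a + b) ∈ L
        rw [map_add, mul_add]; exact L.add_mem ha hb
      smul_mem' := by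
        intro s a ha
        change t * sE D (((s : 𝓞 D.K) : D.K) * a) ∈ L
        have e : t * sE D (((s : 𝓞 D.K) : D.K) * a) = sE D ((s : 𝓞 D.K) : D.K) * (t * sE D a) := by
          rw [map_mul]; ring
        rw [e]
        exact h1 _ ((mem_RE D).mpr ⟨s, s.2, rfl⟩) _ ha }
  let J' : Submodule D.O D.K :=
    { carrier := {a | t⁻¹ * sE D a ∈ L'}
      zero_mem' := by
        change t⁻¹ * sE D 0 ∈ L'
        rw [map_zero, mul_zero]; exact L'.zero_mem
      add_mem' := by
        intro a b ha hb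
        change t⁻¹ * sE D (a + b) ∈ L'
        rw [map_add, mul_add]; exact L'.add_mem ha hb
      smul_mem' := by
        intro s a ha
        change t⁻¹ * sE D (((s : 𝓞 D.K) : D.K) * a) ∈ L'
        have e : t⁻¹ * sE D (((s : 𝓞 D.K) : D.K) * a) =
            sE D ((s : 𝓞 D.K) : D.K) * (t⁻¹ * sE D a) := by
          rw [map_mul]; ring
        rw [e]
        exact h2 _ ((mem_RE D).mpr ⟨s, s.2, rfl⟩) _ ha }
  have hmemJ : ∀ a, a ∈ J ↔ t * sE D a ∈ L := fun _ => Iff.rfl
  have hmemJ' : ∀ a, a ∈ J' ↔ t⁻¹ * sE D a ∈ L' := fun _ => Iff.rfl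
  have hLJ : L = vmul t (sL D (J.restrictScalars ℤ)) := by
    ext v
    rw [mem_vmul]
    constructor
    · intro hv
      obtain ⟨s, hs, hsv⟩ := hmul v hv t' ht'
      have hva : t * sE D ((s : D.K) / (r : D.K)) = v := by
        funext j
        have e1 := congrFun hsv j
        have e2 := congrFun hrt j
        rw [Pi.mul_apply] at e1 e2
        rw [sE_apply] at e1 e2
        rw [Pi.mul_apply, sE_apply, map_div₀, ← e1, ← e2]
        have := ht0 j
        have := ht'0 j
        field_simp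
      exact ⟨sE D ((s : D.K) / (r : D.K)), (mem_sL D).mpr ⟨_, by
        change _ ∈ J
        rw [hmemJ, hva]; exact hv, rfl⟩, hva.symm⟩
    · rintro ⟨x, hx, rfl⟩
      obtain ⟨a, ha, rfl⟩ := (mem_sL D).mp hx
      exact ha
  have hL'J : L' = vmul t⁻¹ (sL D (J'.restrictScalars ℤ)) := by
    ext v
    rw [mem_vmul]
    constructor
    · intro hv
      obtain ⟨s, hs, hsv⟩ := hmul t ht v hv
      have hva : t⁻¹ * sE D (s : D.K) = v := by
        rw [← hsv, ← mul_assoc, mul_comm t⁻¹, mul_inv_vec ht0, one_mul]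
      exact ⟨sE D (s : D.K), (mem_sL D).mpr ⟨_, by
        change _ ∈ J'
        rw [hmemJ', hva]; exact hv, rfl⟩, hva.symm⟩
    · rintro ⟨x, hx, rfl⟩
      obtain ⟨a, ha, rfl⟩ := (mem_sL D).mp hx
      exact ha
  have hprodZ : J.restrictScalars ℤ * J'.restrictScalars ℤ = D.zmod 1 := by
    apply sL_injective D
    rw [sL_mul, sL_zmod_one, ← h3]
    have e1 : sL D (J.restrictScalars ℤ) = vmul t⁻¹ L := by
      rw [hLJ, vmul_vmul, mul_comm t⁻¹, mul_inv_vec ht0, vmul_one]
    have e2 : sL D (J'.restrictScalars ℤ) = vmul t L' := by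
      rw [hL'J, vmul_vmul, mul_inv_vec ht0, vmul_one]
    rw [e1, e2, ← vmul_mul, mul_vmul, vmul_vmul, mul_comm t⁻¹, mul_inv_vec ht0, vmul_one]
  have hprod : J * J' = 1 := by
    apply Submodule.toAddSubmonoid_injective
    rw [Submodule.mul_toAddSubmonoid]
    have h4 := congrArg Submodule.toAddSubmonoid hprodZ
    rw [Submodule.mul_toAddSubmonoid] at h4
    have h5 : (D.zmod 1).toAddSubmonoid = (1 : Submodule D.O D.K).toAddSubmonoid := by
      have h6 : ((1 : FractionalIdeal D.O⁰ D.K) : Submodule D.O D.K) = 1 := FractionalIdeal.coe_one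
      have h7 : (D.zmod 1).toAddSubmonoid =
        ((1 : FractionalIdeal D.O⁰ D.K) : Submodule D.O D.K).toAddSubmonoid := rfl
      rw [h7, h6]
    rw [h5] at h4
    exact h4
  -- fractionality
  have key : ∀ (A B : Submodule D.O D.K), A * B = 1 → (∃ b ∈ B, b ≠ 0) → IsFractional D.O⁰ A := by
    intro A B hAB hB
    obtain ⟨b, hb, hb0⟩ := hB
    obtain ⟨N, hN, y, hy⟩ := D.exists_mul_mem b
    have hy0 : y ≠ 0 := by
      intro h0
      rw [h0] at hy
      have hN' : (N : D.K) ≠ 0 := by exact_mod_cast hN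
      have : (N : D.K) * b = 0 := hy
      rcases mul_eq_zero.mp this with h | h
      · exact hN' h
      · exact hb0 h
    refine ⟨y, mem_nonZeroDivisors_of_ne_zero hy0, fun a ha => ?_⟩
    have h4 : a * b ∈ A * B := Submodule.mul_mem_mul ha hb
    rw [hAB, Submodule.mem_one] at h4
    obtain ⟨s, hs⟩ := h4
    refine ⟨N • s, ?_⟩
    have e1 : (algebraMap D.O D.K) (N • s) = (N : D.K) * algebraMap D.O D.K s := by
      rw [map_zsmul, zsmul_eq_mul]
    have e2 : y • a = ((y : 𝓞 D.K) : D.K) * a := rfl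
    rw [e1, hs, e2, ← hy]
    ring
  have hJne : ∃ b ∈ J, b ≠ 0 := by
    refine ⟨1, ?_, one_ne_zero⟩
    rw [hmemJ, map_one, mul_one]
    exact ht
  have hJ'ne : ∃ b ∈ J', b ≠ 0 := by
    refine ⟨(r : D.K), ?_, hr0⟩
    rw [hmemJ', ← hrt, ← mul_assoc, mul_comm t⁻¹, mul_inv_vec ht0, one_mul]
    exact ht'
  have hprod' : J' * J = 1 := by rw [mul_comm]; exact hprod
  let FJ : FractionalIdeal D.O⁰ D.K := ⟨J, key J J' hprod hJ'ne⟩
  let FJ' : FractionalIdeal D.O⁰ D.K := ⟨J', key J' J hprod' hJne⟩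
  have hF : FJ * FJ' = 1 := by
    apply FractionalIdeal.coeToSubmodule_injective
    change ((FJ * FJ' : FractionalIdeal D.O⁰ D.K) : Submodule D.O D.K) =
      ((1 : FractionalIdeal D.O⁰ D.K) : Submodule D.O D.K)
    rw [FractionalIdeal.coe_mul, FractionalIdeal.coe_one]
    exact hprod
  exact ⟨t, Units.mkOfMulEqOne FJ FJ' hF, ht0, hLJ⟩

/-- points with invertible lattices are on packet orbits -/
theorem exists_packetPt_of_invPt {x : X n} (hx : InvPt (RE D) x) :
    ∃ u : Fin (n - 1) → ℝ, D.IsPacketPt (tr (aexp u) x) := by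
  obtain ⟨g, rfl, hg⟩ := hx
  obtain ⟨t, I, ht0, hL⟩ := exists_of_inv D hg
  have hn := D.pos
  have hnr : (n : ℝ) ≠ 0 := by exact_mod_cast hn.ne'
  set P : ℝ := ∏ j, |t j| with hP
  have hPpos : 0 < P := Finset.prod_pos fun j _ => abs_pos.mpr (ht0 j)
  set c : ℝ := P ^ (1 / (n : ℝ)) with hc
  have hcpos : 0 < c := Real.rpow_pos_of_pos hPpos _
  have hcn : c ^ n = P := by
    rw [hc, ← Real.rpow_natCast, ← Real.rpow_mul hPpos.le, one_div, inv_mul_cancel₀ hnr,
      Real.rpow_one]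
  obtain ⟨u, hu⟩ := exists_aexp hn (δ := fun j => |t j| / c)
    (fun j => div_pos (abs_pos.mpr (ht0 j)) hcpos) (by
      rw [Finset.prod_div_distrib, Finset.prod_const, Finset.card_univ, Fintype.card_fin, hcn,
        div_self hPpos.ne'])
  have hev : ∀ j, ev u j = |t j| / c := by
    intro j
    rw [coe_aexp] at hu
    exact congrFun (diagonal_injective hu) j
  refine ⟨-u, I, fun j => if 0 < t j then 1 else -1, c, g * aexp (-u), hcpos, rfl, ?_⟩
  have h1 : latS (g * aexp (-u)) = vmul (ev (-u) * t) (sL D (D.zmod (I : FractionalIdeal D.O⁰ D.K)))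
      := by
    rw [latS_mul_aexp, hL, vmul_vmul]
  have h2 : ∀ j, (ev (-u) * t) j = c * ((((if 0 < t j then 1 else -1 : ℤˣ) : ℤˣ) : ℤ) : ℝ) := by
    intro j
    have e1 := congrFun (ev_mul_neg (n := n) u) j
    rw [Pi.mul_apply, hev j, Pi.one_apply] at e1
    have e2 : ev (-u) j = c / |t j| := by
      have := abs_pos.mpr (ht0 j)
      field_simp at e1 ⊢
      linarith only [e1]
    rw [Pi.mul_apply, e2]
    by_cases h : 0 < t j
    · rw [if_pos h, abs_of_pos h]
      field_simp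
      simp
    · have h' : t j < 0 := lt_of_le_of_ne (not_lt.mp h) (ht0 j)
      rw [if_neg h, abs_of_neg h']
      have := h'.ne
      field_simp
      simp
  ext v
  rw [← mem_latS, h1, mem_vmul]
  constructor
  · rintro ⟨x, hx, rfl⟩
    obtain ⟨a, ha, rfl⟩ := (mem_sL D).mp hx
    refine ⟨a, ha, ?_⟩
    funext j
    have := h2 j
    rw [Pi.mul_apply, this, sE_apply]
    ring
  · rintro ⟨a, ha, rfl⟩
    refine ⟨sE D a, (mem_sL D).mpr ⟨a, ha, rfl⟩, ?_⟩
    funext j
    have := h2 j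
    rw [Pi.mul_apply, this, sE_apply]
    ring

/-- the packet consists of the orbits of the points with invertible lattice -/
theorem packet_eq : D.packet = {S | ∃ x, InvPt (RE D) x ∧ S = orb x} := by
  ext S
  constructor
  · rintro ⟨x, hx, rfl⟩
    exact ⟨x, isPacketPt_invPt D hx, rfl⟩
  · rintro ⟨x, hx, rfl⟩
    obtain ⟨u, hu⟩ := exists_packetPt_of_invPt D hx
    exact ⟨_, hu, (orb_tr u).symm⟩

end Vale.Agent.P007.Fib
end

section

set_option autoImplicit false

open MeasureTheory Matrix NumberField Filter Topology Module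
open scoped nonZeroDivisors ENNReal CompactlySupported Pointwise

namespace Vale.Agent.P007.Fib

open Vale.Agent.P007

variable {n : ℕ}

/-- the lattice vector with coordinates `z` -/
def vz (g : G n) {f : ℕ} (z : Fin n → Fin f) : Fin n → ℝ :=
  (fun i => (((z i : ℕ) : ℤ) : ℝ)) ᵥ* (g : Matrix (Fin n) (Fin n) ℝ)

theorem vz_mem (g : G n) {f : ℕ} (z : Fin n → Fin f) : vz g z ∈ latS g :=
  ⟨fun i => ((z i : ℕ) : ℤ), rfl⟩

theorem vecMul_G_injective (g : G n) :
    Function.Injective fun v : Fin n → ℝ => v ᵥ* (g : Matrix (Fin n) (Fin n) ℝ) := by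
  intro v w h
  have h4 := congrArg (fun v => v ᵥ* ((g⁻¹ : G n) : Matrix (Fin n) (Fin n) ℝ)) h
  simp only [vecMul_vecMul, coe_mul_inv, vecMul_one] at h4
  exact h4

/-- every class modulo `f` is represented -/
theorem exists_vz (g : G n) {f : ℕ} (hf : f ≠ 0) {v : Fin n → ℝ} (hv : v ∈ latS g) :
    ∃ z : Fin n → Fin f, ∃ y ∈ latS g, v = vz g z + f * y := by
  obtain ⟨c, rfl⟩ := hv
  have hpos : ∀ i, 0 ≤ c i % f := fun i => Int.emod_nonneg _ (by exact_mod_cast hf)
  have hlt : ∀ i, c i % f < f := fun i => Int.emod_lt_of_pos _ (by positivity)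
  refine ⟨fun i => ⟨(c i % f).toNat, by have := hpos i; have := hlt i; omega⟩, _,
    ⟨fun i => c i / f, rfl⟩, ?_⟩
  simp only [vz]
  have h2 : ((f : ℕ) : Fin n → ℝ) * ((fun i => ((c i / f : ℤ) : ℝ)) ᵥ*
      (g : Matrix (Fin n) (Fin n) ℝ)) = (fun i => (f : ℝ) * ((c i / f : ℤ) : ℝ)) ᵥ*
      (g : Matrix (Fin n) (Fin n) ℝ) := by
    have h3 : (fun i => (f : ℝ) * ((c i / f : ℤ) : ℝ)) = (f : ℝ) • fun i => ((c i / f : ℤ) : ℝ) :=
      rfl
    rw [h3, smul_vecMul]
    funext j
    rw [Pi.mul_apply, Pi.smul_apply, smul_eq_mul, Pi.natCast_apply]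
  rw [h2, ← add_vecMul]
  congr 1
  funext i
  rw [Pi.add_apply, Int.toNat_of_nonneg (hpos i)]
  have h4 := Int.emod_add_mul_ediv (c i) f
  exact_mod_cast h4.symm

theorem vz_inj (g : G n) {f : ℕ} (_hf : f ≠ 0) {z z' : Fin n → Fin f} {y : Fin n → ℝ}
    (hy : y ∈ latS g) (h : vz g z = vz g z' + f * y) : z = z' := by
  obtain ⟨c, rfl⟩ := hy
  have h2 : ((f : ℕ) : Fin n → ℝ) * ((fun i => (c i : ℝ)) ᵥ*
      (g : Matrix (Fin n) (Fin n) ℝ)) = (fun i => (f : ℝ) * (c i : ℝ)) ᵥ*
      (g : Matrix (Fin n) (Fin n) ℝ) := by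
    have h3 : (fun i => (f : ℝ) * (c i : ℝ)) = (f : ℝ) • fun i => (c i : ℝ) := rfl
    rw [h3, smul_vecMul]
    funext j
    rw [Pi.mul_apply, Pi.smul_apply, smul_eq_mul, Pi.natCast_apply]
  simp only [vz] at h
  rw [h2, ← add_vecMul] at h
  have h3 := vecMul_G_injective g h
  funext i
  have h4 := congrFun h3 i
  simp only [Pi.add_apply] at h4
  have h5 : ((z i : ℕ) : ℤ) = ((z' i : ℕ) : ℤ) + f * c i := by exact_mod_cast h4
  have h6 : ((z i : ℕ) : ℤ) % f = ((z' i : ℕ) : ℤ) % f := by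
    rw [h5, Int.add_mul_emod_self_left]
  rw [Int.emod_eq_of_lt (by positivity) (by exact_mod_cast (z i).2),
    Int.emod_eq_of_lt (by positivity) (by exact_mod_cast (z' i).2)] at h6
  apply Fin.ext
  exact_mod_cast h6

section coef

variable {S : Subring (Fin n → ℝ)} {f : ℕ}

/-- the finite ring `S / f S` -/
abbrev BQ (S : Subring (Fin n → ℝ)) (f : ℕ) := S ⧸ Ideal.span {(f : S)}

theorem mk_eq_iff {s t : S} : (Ideal.Quotient.mk (Ideal.span {(f : S)}) s =
    Ideal.Quotient.mk (Ideal.span {(f : S)}) t) ↔ ∃ u : S, (s : Fin n → ℝ) = t + f * u := by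
  rw [Ideal.Quotient.eq, Ideal.mem_span_singleton']
  constructor
  · rintro ⟨u, hu⟩
    refine ⟨u, ?_⟩
    have h : s = t + f * u := by rw [mul_comm, hu]; ring
    rw [h]
    push_cast
    ring
  · rintro ⟨u, hu⟩
    refine ⟨u, ?_⟩
    apply Subtype.ext
    push_cast
    rw [hu]
    ring

variable {L L' : Submodule ℤ (Fin n → ℝ)}

/-- `w ≡ s v` modulo `f L` -/
def Coef (L : Submodule ℤ (Fin n → ℝ)) (v w : Fin n → ℝ) (b : BQ S f) : Prop :=
  ∃ s : S, Ideal.Quotient.mk _ s = b ∧ ∃ y ∈ L, w = s * v + f * y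

theorem Coef.unique (hL : Stable S L) (hL' : Stable S L') (h : L * L' = RM S) {v w : Fin n → ℝ}
    (hv : Gen S L f v) {b b' : BQ S f} (hb : Coef L v w b) (hb' : Coef L v w b') : b = b' := by
  obtain ⟨s, rfl, y, hy, h1⟩ := hb
  obtain ⟨s', rfl, y', hy', h2⟩ := hb'
  rw [mk_eq_iff]
  have h3 : ((s : Fin n → ℝ) - s') * v = f * (y' - y) := by
    have : (s : Fin n → ℝ) * v + f * y = s' * v + f * y' := by rw [← h1, ← h2]
    linear_combination this
  obtain ⟨u, hu, h4⟩ := hv.inj hL' h (S.sub_mem s.2 s'.2) (L.sub_mem hy' hy) h3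
  refine ⟨⟨u, hu⟩, ?_⟩
  change (s : Fin n → ℝ) = s' + f * u
  rw [← h4]
  ring

theorem Coef.exists {v w : Fin n → ℝ} (hv : Gen S L f v) (hw : w ∈ L) :
    ∃ b : BQ S f, Coef L v w b := by
  obtain ⟨s, hs, y, hy, h⟩ := hv.2 w hw
  exact ⟨_, ⟨s, hs⟩, rfl, y, hy, h⟩

/-- change of representative -/
theorem Coef.congr (hL : Stable S L) {v w : Fin n → ℝ} (hv : v ∈ L) {s : S}
    (h : Coef (f := f) L v w (Ideal.Quotient.mk _ s)) : ∃ y ∈ L, w = s * v + f * y := by
  obtain ⟨t, ht, y, hy, h1⟩ := h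
  obtain ⟨u, hu⟩ := mk_eq_iff.mp ht
  refine ⟨y + u * v, L.add_mem hy (hL u u.2 v hv), ?_⟩
  rw [h1, hu]
  ring

theorem coef_gen_iff (hL : Stable S L) (hL' : Stable S L') (h : L * L' = RM S) {v w : Fin n → ℝ}
    (hv : Gen S L f v) (hw : w ∈ L) {b : BQ S f} (hb : Coef L v w b) :
    Gen S L f w ↔ IsUnit b := by
  obtain ⟨s, rfl⟩ := Ideal.Quotient.mk_surjective b
  obtain ⟨y, hy, h1⟩ := hb.congr hL hv.1
  constructor
  · intro hg
    obtain ⟨t, ht, y', hy', h2⟩ := hg.2 v hv.1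
    have h3 : (1 - t * (s : Fin n → ℝ)) * v = f * (t * y + y') := by
      have e : v = t * (s * v + f * y) + f * y' := by rw [← h1]; exact h2
      linear_combination e
    obtain ⟨u, hu, h4⟩ := hv.inj hL' h (S.sub_mem S.one_mem (S.mul_mem ht s.2))
      (L.add_mem (hL t ht y hy) hy') h3
    refine IsUnit.of_mul_eq_one (Ideal.Quotient.mk _ ⟨t, ht⟩) ?_
    rw [← map_mul, ← map_one (Ideal.Quotient.mk (Ideal.span {(f : S)}))]
    rw [mk_eq_iff]
    refine ⟨-⟨u, hu⟩, ?_⟩
    push_cast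
    linear_combination -h4
  · intro hu
    obtain ⟨b', hb'⟩ := hu.exists_right_inv
    obtain ⟨t, rfl⟩ := Ideal.Quotient.mk_surjective b'
    rw [← map_mul, ← map_one (Ideal.Quotient.mk (Ideal.span {(f : S)}))] at hb'
    obtain ⟨u, hu⟩ := mk_eq_iff.mp hb'
    push_cast at hu
    refine ⟨hw, fun x hx => ?_⟩
    obtain ⟨r, hr, z, hz, rfl⟩ := hv.2 x hx
    refine ⟨r * t, S.mul_mem hr t.2, z - r * u * v - r * t * y, ?_, ?_⟩
    · refine L.sub_mem (L.sub_mem hz ?_) ?_
      · exact hL _ (S.mul_mem hr u.2) v hv.1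
      · exact hL _ (S.mul_mem hr t.2) y hy
    · rw [h1]
      linear_combination -(r * v) * hu

/-- equality of the sublattices -/
theorem coef_sub_iff (hL : Stable S L) (hL' : Stable S L') (h : L * L' = RM S)
    {R : Subring (Fin n → ℝ)} (hRS : R ≤ S) {v w : Fin n → ℝ} (hv : Gen S L f v) (hw : w ∈ L)
    {b : BQ S f} (hb : Coef L v w b) :
    sub R L f w = sub R L f v ↔ ∃ r r' : S, (r : Fin n → ℝ) ∈ R ∧ (r' : Fin n → ℝ) ∈ R ∧
      b = Ideal.Quotient.mk _ r ∧ Ideal.Quotient.mk (Ideal.span {(f : S)}) (r * r') = 1 := by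
  constructor
  · intro heq
    have h1 : w ∈ sub R L f v := heq ▸ self_mem_sub
    have h2 : v ∈ sub R L f w := heq.symm ▸ self_mem_sub
    obtain ⟨r, hr, y, hy, h3⟩ := h1
    obtain ⟨r', hr', y', hy', h4⟩ := h2
    refine ⟨⟨r, hRS hr⟩, ⟨r', hRS hr'⟩, hr, hr', ?_, ?_⟩
    · exact hb.unique hL hL' h hv ⟨⟨r, hRS hr⟩, rfl, y, hy, h3⟩
    · have h5 : (1 - r' * r) * v = f * (r' * y + y') := by
        have e : v = r' * (r * v + f * y) + f * y' := by rw [← h3]; exact h4
        linear_combination e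
      obtain ⟨u, hu, h6⟩ := hv.inj hL' h (S.sub_mem S.one_mem (S.mul_mem (hRS hr') (hRS hr)))
        (L.add_mem (hL r' (hRS hr') y hy) hy') h5
      rw [← map_one (Ideal.Quotient.mk (Ideal.span {(f : S)})), mk_eq_iff]
      refine ⟨-⟨u, hu⟩, ?_⟩
      push_cast
      linear_combination -h6
  · rintro ⟨r, r', hr, hr', rfl, h1⟩
    obtain ⟨y, hy, h3⟩ := hb.congr hL hv.1
    rw [← map_one (Ideal.Quotient.mk (Ideal.span {(f : S)})), mk_eq_iff] at h1
    obtain ⟨u, hu⟩ := h1
    push_cast at hu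
    refine le_antisymm ?_ ?_
    · rintro _ ⟨a, ha, z, hz, rfl⟩
      refine ⟨a * r, R.mul_mem ha hr, z + a * y, L.add_mem hz (hL a (hRS ha) y hy), ?_⟩
      rw [h3]; ring
    · rintro _ ⟨a, ha, z, hz, rfl⟩
      refine ⟨a * r', R.mul_mem ha hr', z - a * u * v - a * r' * y, ?_, ?_⟩
      · refine L.sub_mem (L.sub_mem hz ?_) ?_
        · exact hL _ (S.mul_mem (hRS ha) u.2) v hv.1
        · exact hL _ (S.mul_mem (hRS ha) (hRS hr')) y hy
      · rw [h3]
        linear_combination -(a * v) * hu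

/-- coordinates modulo `f` and residues correspond -/
theorem coef_bijective (hf : f ≠ 0) {g : G n} (hL : Stable S (latS g))
    (hL' : Stable S L') (h : latS g * L' = RM S) {v : Fin n → ℝ} (hv : Gen S (latS g) f v) :
    ∃ e : (Fin n → Fin f) ≃ BQ S f, ∀ z, Coef (latS g) v (vz g z) (e z) := by
  choose F hF using fun z : Fin n → Fin f => Coef.exists (f := f) hv (vz_mem g z)
  refine ⟨Equiv.ofBijective F ⟨?_, ?_⟩, hF⟩
  · intro z z' hzz
    obtain ⟨s, hs⟩ := Ideal.Quotient.mk_surjective (F z)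
    have h1 := hF z
    have h2 := hF z'
    rw [← hzz] at h2
    rw [← hs] at h1 h2
    obtain ⟨y, hy, h3⟩ := h1.congr hL hv.1
    obtain ⟨y', hy', h4⟩ := h2.congr hL hv.1
    refine vz_inj g hf (y := y - y') (Submodule.sub_mem _ hy hy') ?_
    rw [h3, h4]
    ring
  · intro b
    obtain ⟨s, rfl⟩ := Ideal.Quotient.mk_surjective b
    obtain ⟨z, y, hy, h1⟩ := exists_vz g hf (hL s s.2 v hv.1)
    refine ⟨z, (hF z).unique hL hL' h hv ⟨s, rfl, -y, Submodule.neg_mem _ hy, ?_⟩⟩
    rw [h1]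
    ring

end coef

end Vale.Agent.P007.Fib
end
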