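import Vale.Agent.P007.Stmt
import Vale.Agent.P007.Bdl.B8
import Vale.Agent.P007.Bdl.B10
import Vale.Agent.P007.Bdl.B9

section

/-!
The question for number fields given as abstract types.
-/

open MeasureTheory Matrix NumberField Filter Topology
open scoped nonZeroDivisors ENNReal CompactlySupported

namespace Vale.Agent.P007.T

open Vale.Agent.P007

/-- `(K, 𝒪, σ)`: a totally real number field of degree `n`, an order in it, and an ordering of its
real embeddings. -/
structure IsDatum {n : ℕ} (K : Type) [Field K] [NumberField K] (O : Subring (𝓞 K))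
    (σ : Fin n ≃ (K →+* ℝ)) : Prop where
  real : IsTotallyReal K
  deg : Module.finrank ℚ K = n
  order : O.toAddSubgroup.FiniteIndex

/-- `|Disc 𝒪| = |Disc K| [𝒪_K : 𝒪]^2`. -/
noncomputable def disc (K : Type) [Field K] [NumberField K] (O : Subring (𝓞 K)) : ℕ :=
  (discr K).natAbs * O.toAddSubgroup.index ^ 2

/-- `Pkt K 𝒪 σ O`: `O` is in the packet, i.e. it is the orbit of the point of `X_n` whose lattice
is `c σ(I) w` for an invertible fractional `𝒪`-ideal `I`, a sign matrix `w = diag(±1)` and a scalar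
`c > 0` (necessarily `covol(σ(I))^{-1/n}`). -/
inductive Pkt {n : ℕ} (K : Type) [Field K] [NumberField K] (O : Subring (𝓞 K))
    (σ : Fin n ≃ (K →+* ℝ)) : Set (X n) → Prop
  | mk (I : (FractionalIdeal O⁰ K)ˣ) (w : Fin n → ℤˣ) (c : ℝ)
      (g : Matrix.SpecialLinearGroup (Fin n) ℝ) (hc : 0 < c)
      (hg : lat g = {v | ∃ a ∈ (I : FractionalIdeal O⁰ K),
        v = fun j => c * σ j a * ((w j : ℤ) : ℝ)}) :
      Pkt K O σ (orb (pt g))

/-- `(K_i, 𝒪_i, σ_i)` is a sequence of triples of degree `n` and `μ_i` is the packet measure of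
`(K_i, 𝒪_i, σ_i)`. -/
structure IsSeq {n : ℕ} (K : ℕ → Type) [∀ i, Field (K i)] [∀ i, NumberField (K i)]
    (O : ∀ i, Subring (𝓞 (K i))) (σ : ∀ i, Fin n ≃ (K i →+* ℝ)) (μ : ℕ → Measure (X n)) : Prop where
  datum : ∀ i, IsDatum (K i) (O i) (σ i)
  meas : ∀ i, PktMeas (Pkt (K i) (O i) (σ i)) (μ i)

/-- The assertion of Q1 in degree `n`. -/
def Q1 (n : ℕ) : Prop :=
  ∀ (K : ℕ → Type) [∀ i, Field (K i)] [∀ i, NumberField (K i)] (O : ∀ i, Subring (𝓞 (K i)))
    (σ : ∀ i, Fin n ≃ (K i →+* ℝ)) (μ : ℕ → Measure (X n)) (m : Measure (X n)),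
    IsSeq K O σ μ → Tendsto (fun i => disc (K i) (O i)) atTop atTop → IsInvProb m → WeakTo μ m

end Vale.Agent.P007.T
end

section

open MeasureTheory Matrix NumberField Filter Topology Module
open scoped nonZeroDivisors ENNReal CompactlySupported

namespace Vale.Agent.P007.T

open Vale.Agent.P007

variable {n : ℕ} {K : Type} [Field K] [NumberField K] {O : Subring (𝓞 K)} {σ : Fin n ≃ (K →+* ℝ)}

/-- The datum of a concrete triple. -/
noncomputable def mkD (h : IsDatum K O σ) : Datum n :=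
  { K := K, nf := inferInstance, real := h.real, deg := h.deg, O := O, full := h.order, σ := σ }

theorem pkt_iff (h : IsDatum K O σ) (S : Set (X n)) : Pkt K O σ S ↔ S ∈ (mkD h).packet := by
  constructor
  · rintro ⟨I, w, c, g, hc, hg⟩
    exact ⟨pt g, ⟨I, w, c, g, hc, rfl, hg⟩, rfl⟩
  · rintro ⟨_, ⟨I, w, c, g, hc, rfl, hg⟩, rfl⟩
    exact Pkt.mk I w c g hc hg

theorem pktMeas_iff (h : IsDatum K O σ) (μ : Measure (X n)) :
    PktMeas (Pkt K O σ) μ ↔ μ = (mkD h).packetMeas := by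
  have hP : Pkt K O σ = fun S => S ∈ (mkD h).packet := funext fun S => propext (pkt_iff h S)
  rw [hP]
  constructor
  · rintro ⟨l, hl, rfl⟩
    have h1 : ∀ S : (mkD h).packet, l S = orbMeas S.1 := fun S =>
      (OrbMeas_iff (mkD h) S.2 _).mp (hl S.1 S.2)
    unfold Datum.packetMeas
    have h2 : (fun S : {S // S ∈ (mkD h).packet} => l S) = fun S => orbMeas S.1 :=
      funext fun S => h1 S
    have h3 : (fun S : {S // S ∈ (mkD h).packet} => l S Set.univ) =
        fun S => orbMeas S.1 Set.univ := funext fun S => by rw [h1 S]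
    change (∑' S : {S // S ∈ (mkD h).packet}, l S Set.univ)⁻¹ •
      Measure.sum (fun S : {S // S ∈ (mkD h).packet} => l S) = _
    rw [h2, h3]
  · rintro rfl
    exact ⟨orbMeas, fun S hS => (OrbMeas_iff (mkD h) hS _).mpr rfl, rfl⟩

theorem existsUnique_pktMeas (h : IsDatum K O σ) :
    ∃! μ : Measure (X n), PktMeas (Pkt K O σ) μ := by
  refine ⟨(mkD h).packetMeas, (pktMeas_iff h _).mpr rfl, fun μ hμ => (pktMeas_iff h μ).mp hμ⟩

theorem pktMeas_prob (h : IsDatum K O σ) {μ : Measure (X n)} (hμ : PktMeas (Pkt K O σ) μ) :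
    IsProbabilityMeasure μ := by
  rw [(pktMeas_iff h μ).mp hμ]
  exact packetMeas_prob (mkD h)

/-- The necessary condition. -/
theorem necessary' {K : ℕ → Type} [∀ i, Field (K i)] [∀ i, NumberField (K i)]
    {O : ∀ i, Subring (𝓞 (K i))}
    {σ : ∀ i, Fin n ≃ (K i →+* ℝ)} {μ : ℕ → Measure (X n)} {m : Measure (X n)}
    (h : IsSeq K O σ μ) (hm : IsInvProb m) (hW : WeakTo μ m) (B : ℝ) :
    ∀ᶠ i in atTop, ∀ a ∈ O i, (∀ j, |σ i j a| ≤ B) → ∃ z : ℤ, a = z := by
  have h1 : μ = fun i => (mkD (h.datum i)).packetMeas :=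
    funext fun i => (pktMeas_iff (h.datum i) _).mp (h.meas i)
  rw [h1] at hW
  have h2 := necessary (D := fun i => mkD (h.datum i)) hm hW.1 B
  filter_upwards [h2] with i hi a ha haB
  exact hi ⟨a, ha⟩ haB

theorem pkt_subfield {K : Subfield ℝ} [NumberField K] {O : Subring (𝓞 K)}
    {σ : Fin n ≃ (K →+* ℝ)} : Pkt K O σ = Vale.Agent.P007.Pkt K O σ := by
  funext S
  apply propext
  constructor
  · rintro ⟨I, w, c, g, hc, hg⟩
    exact Vale.Agent.P007.Pkt.mk I w c g hc hg
  · rintro ⟨I, w, c, g, hc, hg⟩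
    exact Pkt.mk I w c g hc hg

/-- **Failure in composite degree.** -/
theorem composite_fails (n : ℕ) (hn : 4 ≤ n) (hc : ¬ n.Prime) :
    ∃ (K : ℕ → Type) (_ : ∀ i, Field (K i)) (_ : ∀ i, NumberField (K i)),
      (∀ i, IsTotallyReal (K i) ∧ Module.finrank ℚ (K i) = n) ∧
      Tendsto (fun i => disc (K i) ⊤) atTop atTop ∧
      ∃ Y : Set (X n), IsClosed Y ∧ (∀ m : Measure (X n), IsInvProb m → m Y = 0) ∧
        ∀ (σ : ∀ i, Fin n ≃ (K i →+* ℝ)) (μ : ℕ → Measure (X n)), IsSeq K (fun _ => ⊤) σ μ →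
            (∀ i, μ i Y = 1) ∧ ∀ m, IsInvProb m → ¬ WeakTo μ m := by
  obtain ⟨K, hnf, hK, hdisc, Y, hY, hm, h⟩ := Vale.Agent.P007.composite_fails n hn hc
  refine ⟨fun i => K i, fun i => inferInstance, hnf, hK, ?_, Y, hY, hm, ?_⟩
  · have h1 : (fun i => |discr (K i)|) = fun i => ((disc (K i) ⊤ : ℕ) : ℤ) := by
      funext i
      have h2 : (⊤ : Subring (𝓞 (K i))).toAddSubgroup.index = 1 := by
        rw [AddSubgroup.index_eq_one]
        rfl
      rw [disc, h2, one_pow, mul_one, Int.abs_eq_natAbs]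
    rw [h1] at hdisc
    exact tendsto_natCast_atTop_iff.mp hdisc
  · intro σ μ hs
    refine h σ μ fun i => ?_
    rw [← pkt_subfield]
    exact hs.meas i

end Vale.Agent.P007.T
end

section

/-!
The limit argument for sequences of data, and the question for abstract number fields.
-/

set_option autoImplicit false

open MeasureTheory Matrix NumberField Filter Topology
open scoped ENNReal nonZeroDivisors CompactlySupported

namespace Vale.Agent.P007.N

open Vale.Agent.P007 Vale.Agent.P007.R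

variable {n : ℕ}

theorem weak_datum (hn : 0 < n)
    (hrig : ∀ μ : Measure (X n), IsProbabilityMeasure μ → AInv μ → Star μ → IsInvProb μ)
    (hstar : ∃ C : ℝ, ∀ ε : ℝ, 0 < ε → ε < 1 →
      ∃ D₀ : ℕ, ∀ D : Datum n, D₀ ≤ D.disc → ∀ N0 : ℝ,
        D.packetMeas {x | ∃ v ∈ latx x, v ≠ 0 ∧ (∀ i, |v i| < 3) ∧ |∏ i, v i - N0| < ε} ≤
          ENNReal.ofReal (C * √ε))
    (htight : ∃ C : ℝ, ∀ ε : ℝ, 0 < ε → ε < 1 →
      ∃ D₀ : ℕ, ∀ D : Datum n, D₀ ≤ D.disc →
        D.packetMeas {x | ∃ v ∈ latx x, v ≠ 0 ∧ ∀ i, |v i| < ε} ≤ ENNReal.ofReal (C * √ε))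
    (D : ℕ → Datum n) (hdisc : Tendsto (fun i => (D i).disc) atTop atTop)
    (m : Measure (X n)) (hm : IsInvProb m) : WeakTo (fun i => (D i).packetMeas) m := by
  have hmp := hm.1
  have hprob : ∀ i, IsProbabilityMeasure (D i).packetMeas := fun i => packetMeas_prob (D i)
  obtain ⟨C1, hC1⟩ := hstar
  obtain ⟨C2, hC2⟩ := htight
  have hmax1 : ∀ ε : ℝ, ENNReal.ofReal (C1 * √ε) ≤ ENNReal.ofReal (max C1 C2 * √ε) := fun ε =>
    ENNReal.ofReal_le_ofReal (mul_le_mul_of_nonneg_right (le_max_left _ _) (Real.sqrt_nonneg ε))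
  have hmax2 : ∀ ε : ℝ, ENNReal.ofReal (C2 * √ε) ≤ ENNReal.ofReal (max C1 C2 * √ε) := fun ε =>
    ENNReal.ofReal_le_ofReal (mul_le_mul_of_nonneg_right (le_max_right _ _) (Real.sqrt_nonneg ε))
  have hdisc' : ∀ D₀ : ℕ, ∀ᶠ i in atTop, D₀ ≤ (D i).disc := fun D₀ =>
    (hdisc.eventually_ge_atTop D₀).mono fun i hi => hi
  apply Koopman.weakTo_of_Cc
  intro f
  rw [tendsto_iff_ultrafilter]
  intro U hU
  obtain ⟨ν, hν, hA, hS, hlim⟩ := exists_limit hn U D (C := max C1 C2)
    (by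
      intro ε hε hε1 N0
      obtain ⟨D₀, hD₀⟩ := hC1 ε hε hε1
      filter_upwards [hU (hdisc' D₀)] with i hi
      exact (hD₀ _ hi N0).trans (hmax1 ε))
    (by
      intro ε hε hε1
      obtain ⟨D₀, hD₀⟩ := hC2 ε hε hε1
      filter_upwards [hU (hdisc' D₀)] with i hi
      exact (hD₀ _ hi).trans (hmax2 ε))
  have hνm : ν = m := unique_inv ν m (hrig ν hν hA hS) hm
  rw [← hνm]
  exact hlim f

end Vale.Agent.P007.N

namespace Vale.Agent.P007.T

open Vale.Agent.P007

theorem Q1_of {n : ℕ}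
    (h : ∀ D : ℕ → Datum n, Tendsto (fun i => (D i).disc) atTop atTop →
      ∀ m : Measure (X n), IsInvProb m → WeakTo (fun i => (D i).packetMeas) m) : Q1 n := by
  intro K hf hNF O σ μ m hs hdisc hm
  have hμ' : μ = fun i => (mkD (hs.datum i)).packetMeas :=
    funext fun i => (pktMeas_iff (hs.datum i) _).mp (hs.meas i)
  rw [hμ']
  exact h (fun i => mkD (hs.datum i)) hdisc m hm

end Vale.Agent.P007.T
end

section

/-!
Tools: maximal inequality for visits, Lusin, simultaneous visits, Hopf argument, Poincare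
recurrence, saturation.
-/

set_option autoImplicit false

open MeasureTheory Matrix Filter Topology ProbabilityTheory
open scoped ENNReal

namespace Vale.Agent.P007.R

open Vale.Agent.P007 Vale.Agent.P007.Koopman Vale.Agent.P007.Mautner

section garsia

variable {α : Type*}

/-- running maximum of the Birkhoff sums -/
noncomputable def gMax (T : α → α) (f : α → ℝ) : ℕ → α → ℝ
  | 0, _ => 0
  | N + 1, x => max 0 (f x + gMax T f N (T x))

theorem gMax_nonneg (T : α → α) (f : α → ℝ) (N : ℕ) (x : α) : 0 ≤ gMax T f N x := by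
  cases N with
  | zero => exact le_refl _
  | succ N => exact le_max_left _ _

theorem gMax_mono (T : α → α) (f : α → ℝ) (N : ℕ) : ∀ x, gMax T f N x ≤ gMax T f (N + 1) x := by
  induction N with
  | zero => intro x; exact le_max_left _ _
  | succ N ih =>
    intro x
    exact max_le_max le_rfl (add_le_add le_rfl (ih _))

theorem gMax_le (T : α → α) (f : α → ℝ) (N : ℕ) (x : α) (h : 0 < gMax T f N x) :
    gMax T f N x ≤ f x + gMax T f N (T x) := by
  cases N with
  | zero => exact absurd h (lt_irrefl _)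
  | succ N =>
    have h1 : gMax T f (N + 1) x = f x + gMax T f N (T x) := by
      rcases max_choice 0 (f x + gMax T f N (T x)) with h2 | h2
      · exact absurd (h2 : gMax T f (N + 1) x = 0) h.ne'
      · exact h2
    rw [h1]
    exact add_le_add le_rfl (gMax_mono T f N _)

theorem sum_le_gMax (T : α → α) (f : α → ℝ) (N : ℕ) : ∀ (m : ℕ), m ≤ N → ∀ x,
    ∑ k ∈ Finset.range m, f (T^[k] x) ≤ gMax T f N x := by
  induction N with
  | zero =>
    intro m hm x
    obtain rfl : m = 0 := by omega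
    simp only [Finset.range_zero, Finset.sum_empty, gMax, Std.le_refl]
  | succ N ih =>
    intro m hm x
    cases m with
    | zero => simpa only [Finset.range_zero, Finset.sum_empty] using gMax_nonneg T f (N + 1) x
    | succ m =>
      rw [Finset.sum_range_succ']
      have := ih m (by omega) (T x)
      simp only [Function.iterate_succ, Function.comp_apply, Function.iterate_zero, id]
      calc ∑ k ∈ Finset.range m, f (T^[k] (T x)) + f x ≤ f x + gMax T f N (T x) := by linarith only [this]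
        _ ≤ gMax T f (N + 1) x := le_max_right _ _

theorem gMax_le_mul (T : α → α) (f : α → ℝ) (hf : ∀ x, f x ≤ 1) (N : ℕ) : ∀ x,
    gMax T f N x ≤ N := by
  induction N with
  | zero => intro x; simp [gMax]
  | succ N ih =>
    intro x
    refine max_le (by positivity) ?_
    push_cast
    linarith [hf x, ih (T x)]

theorem measurable_gMax [MeasurableSpace α] {T : α → α} (hT : Measurable T) {f : α → ℝ}
    (hf : Measurable f) (N : ℕ) : Measurable (gMax T f N) := by
  induction N with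
  | zero => exact measurable_const
  | succ N ih => exact measurable_const.max (hf.add (ih.comp hT))

/-- Garsia -/
theorem garsia [MeasurableSpace α] {μ : Measure α} [IsFiniteMeasure μ] {T : α → α}
    (hT : MeasurePreserving T μ μ) {f : α → ℝ} (hf : Measurable f) (hf1 : ∀ x, f x ≤ 1)
    (hfi : Integrable f μ) (N : ℕ) : 0 ≤ ∫ x in {x | 0 < gMax T f N x}, f x ∂μ := by
  have hm : Measurable (gMax T f N) := measurable_gMax hT.measurable hf N
  have hA : MeasurableSet {x | 0 < gMax T f N x} := measurableSet_lt measurable_const hm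
  have hi : Integrable (gMax T f N) μ := by
    refine Integrable.of_bound hm.aestronglyMeasurable (N : ℝ) (Eventually.of_forall fun x => ?_)
    rw [Real.norm_eq_abs, abs_of_nonneg (gMax_nonneg T f N x)]
    exact gMax_le_mul T f hf1 N x
  have hi' : Integrable (fun x => gMax T f N (T x)) μ := hT.integrable_comp_of_integrable hi
  have h1 : ∫ x, gMax T f N x ∂μ = ∫ x in {x | 0 < gMax T f N x}, gMax T f N x ∂μ := by
    symm
    apply setIntegral_eq_integral_of_forall_compl_eq_zero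
    intro x hx
    exact le_antisymm (not_lt.mp hx) (gMax_nonneg T f N x)
  have h2 : ∫ x in {x | 0 < gMax T f N x}, gMax T f N (T x) ∂μ ≤ ∫ x, gMax T f N (T x) ∂μ :=
    setIntegral_le_integral hi' (Eventually.of_forall fun x => gMax_nonneg T f N (T x))
  have h3 : ∫ x, gMax T f N (T x) ∂μ = ∫ x, gMax T f N x ∂μ := by
    have := integral_map (μ := μ) hT.measurable.aemeasurable
      (f := gMax T f N) (by rw [hT.map_eq]; exact hm.aestronglyMeasurable)
    rw [hT.map_eq] at this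
    exact this.symm
  have h4 : ∫ x in {x | 0 < gMax T f N x}, gMax T f N x ∂μ ≤
      ∫ x in {x | 0 < gMax T f N x}, (f x + gMax T f N (T x)) ∂μ := by
    refine setIntegral_mono_on hi.integrableOn (hfi.add hi').integrableOn hA ?_
    intro x hx
    exact gMax_le T f N x hx
  rw [integral_add hfi.integrableOn hi'.integrableOn] at h4
  linarith

theorem ncard_eq_sum (T : α → α) (E : Set α) (x : α) (N : ℕ) :
    ((({k ∈ Set.Ico 0 N | T^[k] x ∈ E} : Set ℕ).ncard : ℕ) : ℝ) =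
      ∑ k ∈ Finset.range N, E.indicator (fun _ => (1 : ℝ)) (T^[k] x) := by
  classical
  have h1 : ({k ∈ Set.Ico 0 N | T^[k] x ∈ E} : Set ℕ) =
      (((Finset.range N).filter fun k => T^[k] x ∈ E : Finset ℕ) : Set ℕ) := by
    ext k
    simp only [Set.mem_Ico, zero_le, true_and, Set.mem_ofPred_eq, Finset.coe_filter,
      Finset.mem_range]
  rw [h1, Set.ncard_coe_finset, Finset.card_filter]
  push_cast
  refine Finset.sum_congr rfl fun k _ => ?_
  rw [Set.indicator_apply]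

/-- Garsia / maximal inequality for the counting function of visits. -/
theorem maximal_visits {α : Type*} [MeasurableSpace α] {μ : Measure α} [IsFiniteMeasure μ]
    {T : α → α}
    (hT : MeasurePreserving T μ μ) {E : Set α} (hE : MeasurableSet E) (c : ℝ≥0∞) (hc : c ≠ 0) :
    μ {x | ∃ N : ℕ, 0 < N ∧ c * N < ({k ∈ Set.Ico 0 N | T^[k] x ∈ E} : Set ℕ).ncard} ≤ μ E / c := by
  have hle : ∀ (x : α) (N : ℕ), (({k ∈ Set.Ico 0 N | T^[k] x ∈ E} : Set ℕ).ncard) ≤ N := by
    intro x N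
    calc (({k ∈ Set.Ico 0 N | T^[k] x ∈ E} : Set ℕ).ncard) ≤ (Set.Ico 0 N).ncard :=
          Set.ncard_le_ncard (fun k hk => hk.1) (Set.finite_Ico 0 N)
      _ = N := by simp only [Set.ncard_Ico_nat, tsub_zero]
  by_cases hc1 : 1 ≤ c
  · have : {x | ∃ N : ℕ, 0 < N ∧ c * N < ({k ∈ Set.Ico 0 N | T^[k] x ∈ E} : Set ℕ).ncard} = ∅ := by
      rw [Set.eq_empty_iff_forall_notMem]
      rintro x ⟨N, -, hN⟩
      have h1 : ((({k ∈ Set.Ico 0 N | T^[k] x ∈ E} : Set ℕ).ncard : ℕ) : ℝ≥0∞) ≤ c * N :=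
        calc ((({k ∈ Set.Ico 0 N | T^[k] x ∈ E} : Set ℕ).ncard : ℕ) : ℝ≥0∞) ≤ (N : ℝ≥0∞) := by
              exact_mod_cast hle x N
          _ = 1 * N := (one_mul _).symm
          _ ≤ c * N := by gcongr
      exact absurd hN (not_lt.mpr h1)
    rw [this, measure_empty]
    exact zero_le
  · push Not at hc1
    have hctop : c ≠ ∞ := (hc1.trans ENNReal.one_lt_top).ne
    set r : ℝ := c.toReal with hr
    have hr0 : 0 < r := ENNReal.toReal_pos hc hctop
    have hcr : c = ENNReal.ofReal r := (ENNReal.ofReal_toReal hctop).symm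
    set f : α → ℝ := fun x => E.indicator (fun _ => (1 : ℝ)) x - r with hfdef
    have hfm : Measurable f := (measurable_const.indicator hE).sub measurable_const
    have hf1 : ∀ x, f x ≤ 1 := by
      intro x
      have : E.indicator (fun _ => (1 : ℝ)) x ≤ 1 := Set.indicator_le_self' (fun _ _ => zero_le_one) x
      simp only [hfdef]
      linarith only [hr0, this]
    have hfi : Integrable f μ :=
      ((integrable_const (1 : ℝ)).indicator hE).sub (integrable_const r)
    let A : ℕ → Set α := fun N => {x | 0 < gMax T f N x}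
    have hAm : ∀ N, MeasurableSet (A N) := fun N =>
      measurableSet_lt measurable_const (measurable_gMax hT.measurable hfm N)
    have hAmono : Monotone A := monotone_nat_of_le_succ fun N x hx =>
      lt_of_lt_of_le hx (gMax_mono T f N x)
    have hsub : {x | ∃ N : ℕ, 0 < N ∧ c * N < ({k ∈ Set.Ico 0 N | T^[k] x ∈ E} : Set ℕ).ncard} ⊆
        ⋃ N, A N := by
      rintro x ⟨N, -, hN⟩
      rw [Set.mem_iUnion]
      refine ⟨N, lt_of_lt_of_le ?_ (sum_le_gMax T f N N le_rfl x)⟩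
      have h1 : r * N < ((({k ∈ Set.Ico 0 N | T^[k] x ∈ E} : Set ℕ).ncard : ℕ) : ℝ) := by
        rw [hcr, ← ENNReal.ofReal_natCast N, ← ENNReal.ofReal_mul hr0.le,
          ← ENNReal.ofReal_natCast] at hN
        exact (ENNReal.ofReal_lt_ofReal_iff_of_nonneg (by (clear * - hr0; positivity))).mp hN
      rw [ncard_eq_sum] at h1
      simp only [hfdef, Finset.sum_sub_distrib, Finset.sum_const, Finset.card_range, nsmul_eq_mul]
      linarith only [h1]
    refine (measure_mono hsub).trans ?_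
    rw [hAmono.measure_iUnion]
    refine iSup_le fun N => ?_
    have h2 := garsia hT hfm hf1 hfi N
    have h3 : ∫ x in A N, f x ∂μ = μ.real (E ∩ A N) - r * μ.real (A N) := by
      simp only [hfdef]
      rw [integral_sub ((integrable_const (1 : ℝ)).indicator hE).integrableOn
        (integrable_const r).integrableOn, integral_indicator hE]
      simp only [Measure.restrict_restrict hE, integral_const, Measure.real, MeasurableSet.univ,
        Measure.restrict_apply, Set.univ_inter, smul_eq_mul, mul_comm, one_mul]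
    have h4 : r * μ.real (A N) ≤ μ.real E := by
      have h5 : μ.real (E ∩ A N) ≤ μ.real E := measureReal_mono Set.inter_subset_left
      have h6 : (0 : ℝ) ≤ μ.real (E ∩ A N) - r * μ.real (A N) := by
        rw [← h3]
        exact h2
      linarith only [h2, h3, h5]
    rw [ENNReal.le_div_iff_mul_le (Or.inl hc) (Or.inl hctop), mul_comm, hcr]
    have h7 : μ (A N) = ENNReal.ofReal (μ.real (A N)) := (ofReal_measureReal).symm
    have h8 : μ E = ENNReal.ofReal (μ.real E) := (ofReal_measureReal).symm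
    rw [h7, h8, ← ENNReal.ofReal_mul hr0.le]
    exact ENNReal.ofReal_le_ofReal h4

end garsia

section tools

variable {n : ℕ}

/-- Lusin -/
theorem lusin (μ : Measure (X n)) [IsFiniteMeasure μ] {Z : Type*} [TopologicalSpace Z]
    [SecondCountableTopology Z] [MeasurableSpace Z] [OpensMeasurableSpace Z] (F : X n → Z)
    (hF : Measurable F) {E : Set (X n)} (hE : MeasurableSet E) {ε : ℝ≥0∞} (hε : ε ≠ 0) :
    ∃ K ⊆ E, IsCompact K ∧ μ (E \ K) < ε ∧ ContinuousOn F K := by
  have hfinE : ∀ S : Set (X n), μ S ≠ ∞ := fun S => measure_ne_top μ S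
  have hε2 : ε / 2 ≠ 0 := (ENNReal.half_pos hε).ne'
  obtain ⟨K0, hK0E, hK0c, hK0⟩ := hE.exists_isCompact_sdiff_lt (hfinE E) hε2
  let B := TopologicalSpace.countableBasis Z
  have hBc : Countable B := TopologicalSpace.countable_countableBasis Z
  obtain ⟨δ, hδ0, hδ⟩ := ENNReal.exists_pos_sum_of_countable' hε2 B
  have h1 : ∀ b : B, ∃ C ⊆ E ∩ F ⁻¹' b.1, IsCompact C ∧ μ ((E ∩ F ⁻¹' b.1) \ C) < δ b / 2 :=
    fun b => (hE.inter (hF (TopologicalSpace.isOpen_of_mem_countableBasis b.2).measurableSet)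
      ).exists_isCompact_sdiff_lt (hfinE _) (ENNReal.half_pos (hδ0 b).ne').ne'
  have h2 : ∀ b : B, ∃ D ⊆ E \ F ⁻¹' b.1, IsCompact D ∧ μ ((E \ F ⁻¹' b.1) \ D) < δ b / 2 :=
    fun b => (hE.diff (hF (TopologicalSpace.isOpen_of_mem_countableBasis b.2).measurableSet)
      ).exists_isCompact_sdiff_lt (hfinE _) (ENNReal.half_pos (hδ0 b).ne').ne'
  choose C hCE hCc hC using h1
  choose D hDE hDc hD using h2
  let K : Set (X n) := K0 ∩ ⋂ b : B, (C b ∪ D b)
  have hKcl : IsClosed (⋂ b : B, (C b ∪ D b)) :=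
    isClosed_iInter fun b => ((hCc b).union (hDc b)).isClosed
  refine ⟨K, Set.inter_subset_left.trans hK0E, hK0c.inter_right hKcl, ?_, ?_⟩
  · have hsub : E \ K ⊆ (E \ K0) ∪ ⋃ b : B, (((E ∩ F ⁻¹' b.1) \ C b) ∪ ((E \ F ⁻¹' b.1) \ D b)) := by
      rintro x ⟨hx, hxK⟩
      by_cases hx0 : x ∈ K0
      · right
        have : x ∉ ⋂ b : B, (C b ∪ D b) := fun h => hxK ⟨hx0, h⟩
        rw [Set.mem_iInter] at this
        push Not at this
        obtain ⟨b, hb⟩ := this
        rw [Set.mem_iUnion]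
        refine ⟨b, ?_⟩
        by_cases hFx : x ∈ F ⁻¹' b.1
        · exact Or.inl ⟨⟨hx, hFx⟩, fun h => hb (Or.inl h)⟩
        · exact Or.inr ⟨⟨hx, hFx⟩, fun h => hb (Or.inr h)⟩
      · exact Or.inl ⟨hx, hx0⟩
    calc μ (E \ K) ≤ μ (E \ K0) + μ (⋃ b : B, (((E ∩ F ⁻¹' b.1) \ C b) ∪
          ((E \ F ⁻¹' b.1) \ D b))) := (measure_mono hsub).trans (measure_union_le _ _)
      _ ≤ μ (E \ K0) + ∑' b : B, δ b := by
          refine add_le_add le_rfl ((measure_iUnion_le _).trans (ENNReal.tsum_le_tsum fun b => ?_))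
          calc μ (((E ∩ F ⁻¹' b.1) \ C b) ∪ ((E \ F ⁻¹' b.1) \ D b)) ≤
                μ ((E ∩ F ⁻¹' b.1) \ C b) + μ ((E \ F ⁻¹' b.1) \ D b) := measure_union_le _ _
            _ ≤ δ b / 2 + δ b / 2 := add_le_add (hC b).le (hD b).le
            _ = δ b := ENNReal.add_halves _
      _ < ε / 2 + ε / 2 := ENNReal.add_lt_add hK0 hδ
      _ = ε := ENNReal.add_halves _
  · rw [continuousOn_iff_continuous_domRestrict]
    rw [(TopologicalSpace.isBasis_countableBasis Z).continuous_iff]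
    intro s hs
    have h3 : K.domRestrict F ⁻¹' s = (Subtype.val ⁻¹' (D ⟨s, hs⟩))ᶜ := by
      ext ⟨x, hx⟩
      have hx1 : x ∈ C ⟨s, hs⟩ ∪ D ⟨s, hs⟩ := Set.mem_iInter.mp hx.2 ⟨s, hs⟩
      constructor
      · intro h h'
        exact (hDE ⟨s, hs⟩ h').2 h
      · intro h
        rcases hx1 with h4 | h4
        · exact (hCE ⟨s, hs⟩ h4).2
        · exact absurd h4 h
    rw [h3, isOpen_compl_iff]
    exact (hDc ⟨s, hs⟩).isClosed.preimage continuous_subtype_val

theorem iterate_tr (a : G n) (k : ℕ) (x : X n) : (tr a)^[k] x = tr (a ^ k) x := by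
  induction k generalizing x with
  | zero => simp [tr_one]
  | succ k ih =>
    rw [Function.iterate_succ_apply, ih, tr_tr, ← pow_succ']

theorem mp_of_map {μ : Measure (X n)} {a : G n} (ha : μ.map (tr a) = μ) :
    MeasurePreserving (tr a) μ μ := ⟨(continuous_tr a).measurable, ha⟩

/-- Any two typical points visit a common compact set simultaneously, infinitely often. -/
theorem covisit (μ : Measure (X n)) [IsProbabilityMeasure μ] (a : G n) (ha : μ.map (tr a) = μ)
    {Z : Type*} [TopologicalSpace Z] [SecondCountableTopology Z] [MeasurableSpace Z]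
    [OpensMeasurableSpace Z] (F : X n → Z) (hF : Measurable F)
    {E : Set (X n)} (hE : MeasurableSet E) (hE0 : μ Eᶜ = 0) :
    ∃ X' ⊆ E, MeasurableSet X' ∧ μ X'ᶜ = 0 ∧ ∀ x ∈ X', ∀ y ∈ X', ∃ K ⊆ E, IsCompact K ∧
      ContinuousOn F K ∧ ∃ᶠ k : ℕ in atTop, tr (a ^ k) x ∈ K ∧ tr (a ^ k) y ∈ K := by
  have h8 : ∀ m : ℕ, ((8 : ℝ≥0∞)⁻¹) ^ m ≠ 0 := fun m =>
    pow_ne_zero _ (ENNReal.inv_ne_zero.mpr (by norm_num))
  choose K hKE hKc hK hFK using fun m : ℕ => lusin μ F hF hE (h8 m)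
  have hT := mp_of_map ha
  let Bad : ℕ → Set (X n) := fun m =>
    {x | ∃ N : ℕ, 0 < N ∧ (4 : ℝ≥0∞)⁻¹ * N <
      ({k ∈ Set.Ico 0 N | (tr a)^[k] x ∈ (K m)ᶜ} : Set ℕ).ncard}
  have hBad : ∀ m, μ (Bad m) ≤ 4 * ((8 : ℝ≥0∞)⁻¹) ^ m := by
    intro m
    refine (maximal_visits hT (hKc m).isClosed.measurableSet.compl (4 : ℝ≥0∞)⁻¹
      (ENNReal.inv_ne_zero.mpr (by norm_num))).trans ?_
    rw [div_eq_mul_inv, inv_inv, mul_comm]
    gcongr
    have h1 : (K m)ᶜ ⊆ Eᶜ ∪ (E \ K m) := by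
      intro x hx
      by_cases hxE : x ∈ E
      · exact Or.inr ⟨hxE, hx⟩
      · exact Or.inl hxE
    calc μ (K m)ᶜ ≤ μ Eᶜ + μ (E \ K m) := (measure_mono h1).trans (measure_union_le _ _)
      _ = μ (E \ K m) := by rw [hE0, zero_add]
      _ ≤ _ := (hK m).le
  have hsum : ∑' m, μ (Bad m) ≠ ∞ := by
    refine ne_top_of_le_ne_top ?_ (ENNReal.tsum_le_tsum hBad)
    rw [ENNReal.tsum_mul_left, ENNReal.tsum_geometric]
    refine ENNReal.mul_ne_top (by norm_num) (ENNReal.inv_ne_top.mpr ?_)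
    rw [Ne, tsub_eq_zero_iff_le, not_le]
    exact ENNReal.inv_lt_one.mpr (by norm_num)
  have hae := ae_eventually_notMem hsum
  let W : Set (X n) := {x | ¬ ∀ᶠ m in atTop, x ∉ Bad m}
  have hW : μ W = 0 := hae
  refine ⟨E ∩ (toMeasurable μ W)ᶜ, Set.inter_subset_left,
    hE.inter (measurableSet_toMeasurable μ W).compl, ?_, ?_⟩
  · rw [Set.compl_inter, compl_compl]
    refine measure_union_null hE0 ?_
    rw [measure_toMeasurable, hW]
  · rintro x ⟨-, hx⟩ y ⟨-, hy⟩
    have hx' : ∀ᶠ m in atTop, x ∉ Bad m := by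
      by_contra h
      exact hx (subset_toMeasurable μ W h)
    have hy' : ∀ᶠ m in atTop, y ∉ Bad m := by
      by_contra h
      exact hy (subset_toMeasurable μ W h)
    obtain ⟨m, hxm, hym⟩ := (hx'.and hy').exists
    refine ⟨K m, hKE m, hKc m, hFK m, ?_⟩
    have key : ∀ z : X n, z ∉ Bad m → ∀ N : ℕ, 0 < N →
        4 * ({k ∈ Set.Ico 0 N | tr (a ^ k) z ∉ K m} : Set ℕ).ncard ≤ N := by
      intro z hz N hN
      have h1 : ¬ ((4 : ℝ≥0∞)⁻¹ * N <
          ({k ∈ Set.Ico 0 N | (tr a)^[k] z ∈ (K m)ᶜ} : Set ℕ).ncard) := fun h => hz ⟨N, hN, h⟩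
      rw [not_lt] at h1
      simp only [iterate_tr, Set.mem_compl_iff] at h1
      have h2 : (4 : ℝ≥0∞) * (({k ∈ Set.Ico 0 N | tr (a ^ k) z ∉ K m} : Set ℕ).ncard : ℕ) ≤ N := by
        calc (4 : ℝ≥0∞) * (({k ∈ Set.Ico 0 N | tr (a ^ k) z ∉ K m} : Set ℕ).ncard : ℕ) ≤
            4 * ((4 : ℝ≥0∞)⁻¹ * N) := by (clear * - h1; gcongr)
          _ = N := by
            rw [← mul_assoc, ENNReal.mul_inv_cancel (by norm_num) (by norm_num), one_mul]
      exact_mod_cast h2
    rw [frequently_atTop]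
    intro k0
    by_contra hcon
    push Not at hcon
    set N := 2 * k0 + 1 with hN
    set Sx := ({k ∈ Set.Ico 0 N | tr (a ^ k) x ∉ K m} : Set ℕ)
    set Sy := ({k ∈ Set.Ico 0 N | tr (a ^ k) y ∉ K m} : Set ℕ)
    have h1 : 4 * Sx.ncard ≤ N := key x hxm N (by omega)
    have h2 : 4 * Sy.ncard ≤ N := key y hym N (by omega)
    have hfx : Sx.Finite := (Set.finite_Ico 0 N).subset fun k hk => hk.1
    have hfy : Sy.Finite := (Set.finite_Ico 0 N).subset fun k hk => hk.1
    have h3 : Set.Ico k0 N ⊆ Sx ∪ Sy := by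
      intro k hk
      by_cases h4 : tr (a ^ k) x ∈ K m
      · exact Or.inr ⟨⟨Nat.zero_le _, hk.2⟩, hcon k hk.1 h4⟩
      · exact Or.inl ⟨⟨Nat.zero_le _, hk.2⟩, h4⟩
    have h5 : (Set.Ico k0 N).ncard ≤ Sx.ncard + Sy.ncard :=
      (Set.ncard_le_ncard h3 (hfx.union hfy)).trans (Set.ncard_union_le _ _)
    have h6 : (Set.Ico k0 N).ncard = N - k0 := by
      rw [← Finset.coe_Ico, Set.ncard_coe_finset, Nat.card_Ico]
    omega

/-- Hopf argument -/
theorem hopf (μ : Measure (X n)) [IsProbabilityMeasure μ] (a : G n) (ha : μ.map (tr a) = μ)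
    {Z : Type*} [TopologicalSpace Z] [T2Space Z] [SecondCountableTopology Z] [MeasurableSpace Z]
    [OpensMeasurableSpace Z] (F : X n → Z) (hF : Measurable F)
    (hinv : ∀ᵐ x ∂μ, F (tr a x) = F x) :
    ∃ X' : Set (X n), MeasurableSet X' ∧ μ X'ᶜ = 0 ∧ ∀ x ∈ X', ∀ h : G n, tr h x ∈ X' →
      Tendsto (fun k : ℕ => (a ^ k)⁻¹ * h * a ^ k) atTop (𝓝 1) → F x = F (tr h x) := by
  have hT := mp_of_map ha
  have h1 : ∀ᵐ x ∂μ, ∀ k : ℕ, F (tr (a ^ k) x) = F x := by
    rw [ae_all_iff]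
    intro k
    induction k with
    | zero => exact Eventually.of_forall fun x => by rw [pow_zero, tr_one]
    | succ k ih =>
      have h2 : ∀ᵐ x ∂μ, F (tr a (tr (a ^ k) x)) = F (tr (a ^ k) x) := by
        have h3 : MeasurePreserving (tr (a ^ k)) μ μ := by
          have := hT.iterate k
          have h4 : (tr a)^[k] = (tr (a ^ k) : X n → X n) := funext fun x => iterate_tr a k x
          rwa [h4] at this
        exact h3.quasiMeasurePreserving.ae hinv
      filter_upwards [ih, h2] with x hx hx2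
      rw [pow_succ, ← tr_tr, hx2, hx]
  let W : Set (X n) := {x | ¬ ∀ k : ℕ, F (tr (a ^ k) x) = F x}
  have hW : μ W = 0 := h1
  let E : Set (X n) := (toMeasurable μ W)ᶜ
  have hE : MeasurableSet E := (measurableSet_toMeasurable μ W).compl
  have hE0 : μ Eᶜ = 0 := by
    rw [compl_compl, measure_toMeasurable, hW]
  have hEinv : ∀ x ∈ E, ∀ k : ℕ, F (tr (a ^ k) x) = F x := by
    intro x hx
    by_contra h
    exact hx (subset_toMeasurable μ W h)
  obtain ⟨X', hX'E, hX', hX'0, hco⟩ := covisit μ a ha F hF hE hE0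
  refine ⟨X', hX', hX'0, fun x hx h hy hlim => ?_⟩
  obtain ⟨K, -, hKc, hFK, hfreq⟩ := hco x hx (tr h x) hy
  obtain ⟨φ, hφ, hφK⟩ := extraction_of_frequently_atTop hfreq
  obtain ⟨z, hzK, ψ, hψ, hz⟩ := hKc.tendsto_subseq fun k => (hφK k).1
  have hφψ : Tendsto (fun k => φ (ψ k)) atTop atTop := hφ.tendsto_atTop.comp hψ.tendsto_atTop
  have hy' : ∀ k : ℕ, tr (a ^ k) (tr h x) = tr ((a ^ k)⁻¹ * h * a ^ k) (tr (a ^ k) x) := by
    intro k
    rw [tr_tr, tr_tr]
    congr 1
    group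
  have hz2 : Tendsto (fun k => tr (a ^ φ (ψ k)) (tr h x)) atTop (𝓝 z) := by
    simp only [hy']
    have h3 : Tendsto (fun k => (tr (a ^ φ (ψ k)) x, (a ^ φ (ψ k))⁻¹ * h * a ^ φ (ψ k))) atTop
        (𝓝 (z, (1 : G n))) := by
      rw [nhds_prod_eq]
      exact hz.prodMk (hlim.comp hφψ)
    have h4 := (continuous_tr_uncurry (n := n)).tendsto (z, (1 : G n))
    have h5 := h4.comp h3
    simp only [tr_one] at h5
    exact h5
  have hc : ContinuousWithinAt F K z := hFK z hzK
  have hl1 : Tendsto (fun k => F (tr (a ^ φ (ψ k)) x)) atTop (𝓝 (F z)) :=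
    hc.tendsto.comp (tendsto_nhdsWithin_iff.mpr
      ⟨hz, Eventually.of_forall fun k => (hφK (ψ k)).1⟩)
  have hl2 : Tendsto (fun k => F (tr (a ^ φ (ψ k)) (tr h x))) atTop (𝓝 (F z)) :=
    hc.tendsto.comp (tendsto_nhdsWithin_iff.mpr
      ⟨hz2, Eventually.of_forall fun k => (hφK (ψ k)).2⟩)
  simp only [hEinv x (hX'E hx)] at hl1
  simp only [hEinv (tr h x) (hX'E hy)] at hl2
  rw [tendsto_nhds_unique tendsto_const_nhds hl1]
  exact (tendsto_nhds_unique tendsto_const_nhds hl2).symm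

/-- small sets of `X n` consist of points with small displacement -/
theorem exists_small (x0 : X n) {U : Set (G n)} (hU : U ∈ 𝓝 (1 : G n)) :
    ∃ V : Set (X n), IsOpen V ∧ x0 ∈ V ∧ ∀ x ∈ V, ∀ y ∈ V, ∃ h ∈ U, y = tr h x := by
  obtain ⟨g, rfl⟩ := pt_surjective x0
  have h1 : Tendsto (fun p : G n × G n => p.1⁻¹ * p.2) (𝓝 (g, g)) (𝓝 (1 : G n)) := by
    have h2 : Continuous (fun p : G n × G n => p.1⁻¹ * p.2) := by fun_prop
    have := h2.tendsto (g, g)
    rwa [inv_mul_cancel] at this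
  have h3 := h1 hU
  rw [Filter.mem_map, nhds_prod_eq, Filter.mem_prod_same_iff] at h3
  obtain ⟨W, hW, hWU⟩ := h3
  obtain ⟨W', hW'W, hW'o, hgW'⟩ := mem_nhds_iff.mp hW
  refine ⟨pt '' W', isOpenQuotientMap_pt.isOpenMap _ hW'o, ⟨g, hgW', rfl⟩, ?_⟩
  intro x hx y hy
  obtain ⟨a, ha, hax⟩ := hx
  obtain ⟨b, hb, hby⟩ := hy
  have h4 : (a, b) ∈ (fun p : G n × G n => p.1⁻¹ * p.2) ⁻¹' U :=
    hWU (Set.mk_mem_prod (hW'W ha) (hW'W hb))
  have h5 : a⁻¹ * b ∈ U := h4
  refine ⟨a⁻¹ * b, h5, ?_⟩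
  rw [← hax, ← hby, tr_pt, mul_inv_cancel_left]

/-- Poincaré recurrence with return displacement: almost every point of `E` returns to `E`
along `m → ∞` with displacement tending to `1`. -/
theorem poincare (μ : Measure (X n)) [IsFiniteMeasure μ] (a : G n) (ha : μ.map (tr a) = μ)
    {E : Set (X n)} (hE : MeasurableSet E) :
    ∀ᵐ x ∂μ, x ∈ E → ∀ U ∈ 𝓝 (1 : G n), ∃ᶠ m : ℕ in atTop, ∃ h ∈ U, tr (a ^ m) x = tr h x ∧
      tr (a ^ m) x ∈ E := by
  have hT := mp_of_map ha
  have hcons : Conservative (tr a) μ := hT.conservative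
  obtain ⟨U, hU⟩ := (𝓝 (1 : G n)).exists_antitone_basis
  -- for each `i` a countable cover by small open sets
  have hcov : ∀ i : ℕ, ∃ V : ℕ → Set (X n), (∀ j, IsOpen (V j)) ∧ (⋃ j, V j) = Set.univ ∧
      ∀ j, ∀ x ∈ V j, ∀ y ∈ V j, ∃ h ∈ U i, y = tr h x := by
    intro i
    choose V hVo hVx hV using fun x0 : X n => exists_small x0 (hU.toHasBasis.mem_of_mem trivial :
      U i ∈ 𝓝 (1 : G n))
    obtain ⟨T, hTc, hT⟩ := TopologicalSpace.isOpen_iUnion_countable V hVo
    have huniv : (⋃ x, V x) = Set.univ := Set.eq_univ_of_forall fun x => Set.mem_iUnion.mpr ⟨x, hVx x⟩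
    rw [huniv] at hT
    have hne : T.Nonempty := by
      by_contra hcon
      rw [Set.not_nonempty_iff_eq_empty] at hcon
      rw [hcon, Set.biUnion_empty] at hT
      have : Nonempty (X n) := ⟨pt 1⟩
      exact (Set.empty_ne_univ (α := X n)) hT
    obtain ⟨f, hf⟩ := hTc.exists_eq_range hne
    refine ⟨fun j => V (f j), fun j => hVo _, ?_, fun j => hV (f j)⟩
    rw [← hT, hf, Set.biUnion_range]
  choose V hVo hVu hV using hcov
  have hae : ∀ᵐ x ∂μ, ∀ i j : ℕ, x ∈ E ∩ V i j → ∃ᶠ m in atTop, (tr a)^[m] x ∈ E ∩ V i j := by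
    rw [ae_all_iff]
    intro i
    rw [ae_all_iff]
    intro j
    exact hcons.ae_mem_imp_frequently_image_mem
      (hE.inter (hVo i j).measurableSet).nullMeasurableSet
  filter_upwards [hae] with x hx hxE W hW
  obtain ⟨i, -, hi⟩ := hU.toHasBasis.mem_iff.mp hW
  have hxi : x ∈ ⋃ j, V i j := by
    rw [hVu i]
    trivial
  obtain ⟨j, hj⟩ := Set.mem_iUnion.mp hxi
  refine (hx i j ⟨hxE, hj⟩).mono fun m hm => ?_
  rw [iterate_tr] at hm
  obtain ⟨h, hhU, hh⟩ := hV i j x hj _ hm.2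
  exact ⟨h, hi hhU, hh, hm.1⟩

/-- saturation: every conull Borel set contains an exactly `A`-invariant essential version -/
theorem saturate (μ : Measure (X n)) [IsProbabilityMeasure μ] (hA : AInv μ) {Y : Set (X n)}
    (hY : MeasurableSet Y) (hY0 : μ Yᶜ = 0) :
    ∃ Z : Set (X n), MeasurableSet Z ∧ μ Zᶜ = 0 ∧ (∀ β : Fin n → ℝ, ∀ x ∈ Z, tr (da β) x ∈ Z) ∧
      ∀ x ∈ Z, ∀ᵐ β : Fin n → ℝ, tr (da β) x ∈ Y := by
  let S : Set (X n × (Fin n → ℝ)) := {p | tr (da p.2) p.1 ∈ Yᶜ}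
  have hmeas : Measurable fun p : X n × (Fin n → ℝ) => tr (da p.2) p.1 :=
    (continuous_tr_uncurry.comp
      (continuous_fst.prodMk (continuous_da.comp continuous_snd))).measurable
  have hS : MeasurableSet S := hmeas hY.compl
  let Z : Set (X n) := {x | volume (Prod.mk x ⁻¹' S) = 0}
  have hZ : MeasurableSet Z := (measurable_measure_prodMk_left hS) (measurableSet_singleton 0)
  refine ⟨Z, hZ, ?_, ?_, ?_⟩
  · have h1 : (μ.prod (volume : Measure (Fin n → ℝ))) S = 0 := by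
      rw [Measure.prod_apply_symm hS]
      have h2 : ∀ β : Fin n → ℝ, μ ((fun x => (x, β)) ⁻¹' S) = 0 := by
        intro β
        have h3 : (fun x => (x, β)) ⁻¹' S = (tr (da β)) ⁻¹' Yᶜ := rfl
        rw [h3, (mp_of_map (hA β)).measure_preimage hY.compl.nullMeasurableSet, hY0]
      simp only [h2, lintegral_zero]
    rw [Measure.measure_prod_null hS] at h1
    exact h1
  · intro β x hx
    have h1 : Prod.mk (tr (da β) x) ⁻¹' S = (fun γ => β + γ) ⁻¹' (Prod.mk x ⁻¹' S) := by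
      ext γ
      simp only [S, Set.mem_preimage, Set.mem_ofPred_eq, tr_tr, da_add]
    change volume (Prod.mk (tr (da β) x) ⁻¹' S) = 0
    rw [h1, measure_preimage_add]
    exact hx
  · intro x hx
    have h1 : volume (Prod.mk x ⁻¹' S) = 0 := hx
    have h2 : Prod.mk x ⁻¹' S = {β | ¬ tr (da β) x ∈ Y} := rfl
    rw [h2] at h1
    exact h1

end tools

end Vale.Agent.P007.R
end

section

/-!
First consequence of the names lemma (III.6 (a)): for a measure with property `Star`, the set `F`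
of possibly nontrivial roots contains a 2-cycle.
-/

set_option autoImplicit false

open MeasureTheory Matrix Filter Topology ProbabilityTheory
open scoped ENNReal

namespace Vale.Agent.P007.R

open Vale.Agent.P007 Vale.Agent.P007.Koopman Vale.Agent.P007.Mautner

/-- The statement of the names lemma (III.6). -/
def NamesStmt (n : ℕ) : Prop := ∃ C : ℝ, ∀ (μ : Measure (X n)) [IsProbabilityMeasure μ] (_ : AInv μ)
    (F : Set (Fin n × Fin n)) (_ : ∀ i j, i ≠ j → (i, j) ∉ F → Triv μ i j)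
    (_ : ∀ i j k, i ≠ j → j ≠ k → i ≠ k → (i, j) ∈ F → (j, k) ∈ F → (i, k) ∈ F)
    (α : Fin n → ℝ) (_ : Function.Injective α) (ε : ℝ) (_ : 0 ≤ ε)
    (_ : ∀ i j, i ≠ j → (i, j) ∈ F → α j - α i ≤ ε) (M : ℕ) (_ : 0 < M) (d : ℝ) (_ : 0 < d)
    (_ : d ≤ 1 / 2),
    ∃ K : Set (X n), IsCompact K ∧ ∃ N₀ : ℕ, ∀ N : ℕ, N₀ ≤ N → ∃ P : Finset (X n),
      (∀ y ∈ P, y ∈ K ∧ tr (da ((M : ℝ) • α) ^ N) y ∈ K) ∧
      (P.card : ℝ) ≤ Real.exp (C * N * (1 + ε * M)) ∧
      1 / 2 ≤ μ (⋃ y ∈ P, Bow ((M : ℝ) • α) N d y)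

namespace NA

variable {n : ℕ}

theorem prod_sub_prod_le {ι : Type*} (s : Finset ι) (a b : ι → ℝ) (e : ℝ) (he : 0 ≤ e)
    (ha : ∀ i ∈ s, |a i| ≤ 3) (hb : ∀ i ∈ s, |b i| ≤ 3) (hab : ∀ i ∈ s, |a i - b i| ≤ e) :
    |∏ i ∈ s, a i - ∏ i ∈ s, b i| ≤ s.card * 3 ^ s.card * e := by
  classical
  induction s using Finset.induction_on with
  | empty => simp
  | insert x s hx ih =>
    rw [Finset.prod_insert hx, Finset.prod_insert hx, Finset.card_insert_of_notMem hx]
    have h1 := ih (fun i hi => ha i (Finset.mem_insert_of_mem hi))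
      (fun i hi => hb i (Finset.mem_insert_of_mem hi))
      (fun i hi => hab i (Finset.mem_insert_of_mem hi))
    have h2 : |∏ i ∈ s, a i| ≤ 3 ^ s.card := by
      rw [Finset.abs_prod]
      calc ∏ i ∈ s, |a i| ≤ ∏ _i ∈ s, (3 : ℝ) :=
            Finset.prod_le_prod (fun i _ => abs_nonneg _)
              fun i hi => ha i (Finset.mem_insert_of_mem hi)
        _ = 3 ^ s.card := by simp
    have h3 := hab x (Finset.mem_insert_self _ _)
    have h4 := hb x (Finset.mem_insert_self _ _)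
    have h5 : a x * ∏ i ∈ s, a i - b x * ∏ i ∈ s, b i =
        (a x - b x) * ∏ i ∈ s, a i + b x * (∏ i ∈ s, a i - ∏ i ∈ s, b i) := by ring
    rw [h5]
    have h6 : |(a x - b x) * ∏ i ∈ s, a i| ≤ e * 3 ^ s.card := by
      rw [abs_mul]
      exact mul_le_mul h3 h2 (abs_nonneg _) he
    have h7 : |b x * (∏ i ∈ s, a i - ∏ i ∈ s, b i)| ≤ 3 * (s.card * 3 ^ s.card * e) := by
      rw [abs_mul]
      exact mul_le_mul h4 h1 (abs_nonneg _) (by norm_num)
    refine (abs_add_le _ _).trans ((add_le_add h6 h7).trans ?_)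
    push_cast
    have h8 : (0 : ℝ) ≤ 3 ^ s.card * e := by positivity
    have h9 : (0 : ℝ) ≤ (s.card : ℝ) * 3 ^ s.card * e := by (clear * - he; positivity)
    rw [pow_succ]
    nlinarith only [h8]

theorem det_close (h : Matrix (Fin n) (Fin n) ℝ) (η : ℝ) (hη : 0 ≤ η) (hη1 : η ≤ 2)
    (hdet : h.det = 1) (hoff : ∀ i j, i ≠ j → |h i j| ≤ η) (hdiag : ∀ i, |h i i| ≤ 2) :
    |∏ i, h i i - 1| ≤ (n.factorial : ℝ) * 2 ^ n * η := by
  classical
  have h1 := Matrix.det_apply h
  rw [hdet, ← Finset.add_sum_erase _ _ (Finset.mem_univ (1 : Equiv.Perm (Fin n)))] at h1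
  simp only [Equiv.Perm.sign_one, one_smul, Equiv.Perm.coe_one, id_eq] at h1
  have h2 : ∏ i, h i i - 1 = -∑ x ∈ Finset.univ.erase (1 : Equiv.Perm (Fin n)),
      Equiv.Perm.sign x • ∏ i, h (x i) i := by linarith
  rw [h2, abs_neg]
  have hall : ∀ i j, |h i j| ≤ 2 := by
    intro i j
    by_cases hij : i = j
    · subst hij; exact hdiag i
    · exact (hoff i j hij).trans hη1
  calc |∑ x ∈ Finset.univ.erase (1 : Equiv.Perm (Fin n)), Equiv.Perm.sign x • ∏ i, h (x i) i|
      ≤ ∑ x ∈ Finset.univ.erase (1 : Equiv.Perm (Fin n)),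
          |Equiv.Perm.sign x • ∏ i, h (x i) i| := Finset.abs_sum_le_sum_abs _ _
    _ ≤ ∑ _x ∈ Finset.univ.erase (1 : Equiv.Perm (Fin n)), 2 ^ n * η := by
        refine Finset.sum_le_sum fun x hx => ?_
        have hx1 : x ≠ 1 := (Finset.mem_erase.1 hx).1
        obtain ⟨i₀, hi₀⟩ : ∃ i, x i ≠ i := by
          by_contra hcon
          push Not at hcon
          exact hx1 (Equiv.ext hcon)
        have h3 : |Equiv.Perm.sign x • ∏ i, h (x i) i| = ∏ i, |h (x i) i| := by
          rw [← Finset.abs_prod]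
          rcases Int.units_eq_one_or (Equiv.Perm.sign x) with h | h
          · rw [h, one_smul]
          · rw [h, Units.neg_smul, one_smul, abs_neg]
        rw [h3, ← Finset.mul_prod_erase _ _ (Finset.mem_univ i₀)]
        have h4 : ∏ i ∈ Finset.univ.erase i₀, |h (x i) i| ≤ 2 ^ n := by
          calc ∏ i ∈ Finset.univ.erase i₀, |h (x i) i| ≤
                ∏ _i ∈ Finset.univ.erase i₀, (2 : ℝ) :=
                Finset.prod_le_prod (fun i _ => abs_nonneg _) fun i _ => hall _ _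
            _ = 2 ^ (n - 1) := by simp only [Finset.prod_const, Finset.mem_univ,
                                    Finset.card_erase_of_mem, Finset.card_univ, Fintype.card_fin]
            _ ≤ 2 ^ n := pow_le_pow_right₀ (by norm_num) (by omega)
        calc |h (x i₀) i₀| * ∏ i ∈ Finset.univ.erase i₀, |h (x i) i| ≤ η * 2 ^ n :=
              mul_le_mul (hoff _ _ hi₀) h4 (Finset.prod_nonneg fun i _ => abs_nonneg _) hη
          _ = 2 ^ n * η := mul_comm _ _
    _ ≤ (n.factorial : ℝ) * 2 ^ n * η := by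
        rw [Finset.sum_const, nsmul_eq_mul, mul_assoc]
        refine mul_le_mul_of_nonneg_right ?_ (by (clear * - hη; positivity))
        have : (Finset.univ.erase (1 : Equiv.Perm (Fin n))).card ≤ n.factorial := by
          refine (Finset.card_erase_le).trans ?_
          rw [Finset.card_univ, Fintype.card_perm, Fintype.card_fin]
        exact_mod_cast this

/-- the constant -/
noncomputable def cn (n : ℕ) : ℝ := n * 3 ^ n * (2 * n) + 2 ^ n * (n.factorial * 2 ^ n)

theorem cn_nonneg (n : ℕ) : 0 ≤ cn n := by unfold cn; positivity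

theorem prod_close (h : Matrix (Fin n) (Fin n) ℝ) (η : ℝ) (hη : 0 ≤ η) (hη1 : η ≤ 1)
    (hη2 : 8 * n * η ≤ 1) (hdet : h.det = 1) (hoff : ∀ i j, i ≠ j → |h i j| ≤ η)
    (hdiag : ∀ i, |h i i - 1| ≤ 1 / 8) (v : Fin n → ℝ) (hv : ∀ i, |v i| ≤ 2) :
    (∀ i, |(v ᵥ* h) i| < 3) ∧ |∏ i, (v ᵥ* h) i - ∏ i, v i| ≤ cn n * η := by
  classical
  have hd1 : ∀ i, |h i i| ≤ 9 / 8 := by
    intro i
    have := abs_le.1 (hdiag i)
    rw [abs_le]
    constructor <;> linarith
  have hdiff : ∀ j, |(v ᵥ* h) j - v j * h j j| ≤ 2 * n * η := by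
    intro j
    have h1 : (v ᵥ* h) j - v j * h j j = ∑ i ∈ Finset.univ.erase j, v i * h i j := by
      rw [Matrix.vecMul, dotProduct, ← Finset.add_sum_erase _ _ (Finset.mem_univ j)]
      ring
    rw [h1]
    calc |∑ i ∈ Finset.univ.erase j, v i * h i j| ≤
          ∑ i ∈ Finset.univ.erase j, |v i * h i j| := Finset.abs_sum_le_sum_abs _ _
      _ ≤ ∑ _i ∈ Finset.univ.erase j, 2 * η := by
          refine Finset.sum_le_sum fun i hi => ?_
          rw [abs_mul]
          exact mul_le_mul (hv i) (hoff i j (Finset.mem_erase.1 hi).1) (abs_nonneg _) (by norm_num)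
      _ ≤ 2 * n * η := by
          rw [Finset.sum_const, nsmul_eq_mul, Finset.card_erase_of_mem (Finset.mem_univ j),
            Finset.card_univ, Fintype.card_fin]
          have : ((n - 1 : ℕ) : ℝ) ≤ n := by exact_mod_cast Nat.sub_le n 1
          nlinarith only [hη, this]
  have hb : ∀ j, |v j * h j j| ≤ 9 / 4 := by
    intro j
    rw [abs_mul]
    calc |v j| * |h j j| ≤ 2 * (9 / 8) := mul_le_mul (hv j) (hd1 j) (abs_nonneg _) (by norm_num)
      _ = 9 / 4 := by norm_num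
  have ha : ∀ j, |(v ᵥ* h) j| ≤ 5 / 2 := by
    intro j
    have h1 := hdiff j
    have h2 := hb j
    have h3 : (v ᵥ* h) j = ((v ᵥ* h) j - v j * h j j) + v j * h j j := by ring
    rw [h3]
    refine (abs_add_le _ _).trans ?_
    linarith
  refine ⟨fun j => by linarith [ha j], ?_⟩
  have h1 := prod_sub_prod_le Finset.univ (fun j => (v ᵥ* h) j) (fun j => v j * h j j)
    (2 * n * η) (by (clear * - hη; positivity)) (fun j _ => by linarith only [ha j, ha]) (fun j _ => by linarith [hb j])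
    fun j _ => hdiff j
  rw [Finset.card_univ, Fintype.card_fin, Finset.prod_mul_distrib] at h1
  have h2 := det_close h η hη (by linarith) hdet hoff (fun i => by linarith [hd1 i])
  have h3 : |∏ i, v i| ≤ 2 ^ n := by
    rw [Finset.abs_prod]
    calc ∏ i, |v i| ≤ ∏ _i : Fin n, (2 : ℝ) :=
          Finset.prod_le_prod (fun i _ => abs_nonneg _) fun i _ => hv i
      _ = 2 ^ n := by simp only [Finset.prod_const, Finset.card_univ, Fintype.card_fin]
  have h4 : ∏ i, (v ᵥ* h) i - ∏ i, v i = (∏ i, (v ᵥ* h) i - (∏ i, v i) * ∏ i, h i i) +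
      (∏ i, v i) * (∏ i, h i i - 1) := by ring
  rw [h4]
  refine (abs_add_le _ _).trans ?_
  have h5 : |(∏ i, v i) * (∏ i, h i i - 1)| ≤ 2 ^ n * ((n.factorial : ℝ) * 2 ^ n * η) := by
    rw [abs_mul]
    exact mul_le_mul h3 h2 (abs_nonneg _) (by positivity)
  unfold cn
  linarith only [h1, h5]

/-- the exceptional set of `Star` -/
def SS (n : ℕ) (N0 ε : ℝ) : Set (X n) :=
  {x | ∃ v ∈ latx x, v ≠ 0 ∧ (∀ i, |v i| < 3) ∧ |∏ i, v i - N0| < ε}

theorem vecMul_ne_zero (g : G n) (z : Fin n → ℤ) (hz : z ≠ 0) :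
    (fun i => (z i : ℝ)) ᵥ* (g : Matrix (Fin n) (Fin n) ℝ) ≠ 0 := by
  intro h0
  apply hz
  have h3 : (fun i => (z i : ℝ)) = 0 := by
    have h4 := congrArg (fun v => v ᵥ* (g⁻¹ : G n).1) h0
    simp only [vecMul_vecMul, zero_vecMul] at h4
    have h5 : (g : Matrix (Fin n) (Fin n) ℝ) * (g⁻¹ : G n).1 = 1 := by
      have := congrArg Subtype.val (mul_inv_cancel g)
      exact this
    rwa [h5, vecMul_one] at h4
  funext i
  have h6 : (z i : ℝ) = 0 := congrFun h3 i
  exact_mod_cast h6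

/-- half-time translates of Bowen balls lie in an exceptional set -/
theorem bow_subset (hn : 0 < n) (β : Fin n → ℝ) (g : ℝ) (hg : 0 < g)
    (hβ : ∀ i j, i ≠ j → g ≤ |β j - β i|) (N : ℕ)
    (hN : 8 * n * Real.exp (-(N * g / 2)) ≤ 1) (y : X n) :
    ∃ N0 : ℝ, Bow β N (1 / 8) y ⊆
      (tr (da (((N : ℝ) / 2) • β))) ⁻¹' SS n N0 ((cn n + 1) * Real.exp (-(N * g / 2))) := by
  obtain ⟨k, rfl⟩ : ∃ k, n = k + 1 := ⟨n - 1, by omega⟩
  obtain ⟨y0, rfl⟩ := pt_surjective y
  set γ : Fin (k + 1) → ℝ := ((N : ℝ) / 2) • β with hγ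
  obtain ⟨z0, hz0, hz1⟩ := Red.exists_short
    ((y0 * da γ : G (k + 1)) : Matrix (Fin (k + 1)) (Fin (k + 1)) ℝ)
    (by rw [(y0 * da γ).2]; exact one_ne_zero) (by rw [(y0 * da γ).2]; simp)
  set v0 : Fin (k + 1) → ℝ := (fun i => (z0 i : ℝ)) ᵥ*
    ((y0 * da γ : G (k + 1)) : Matrix (Fin (k + 1)) (Fin (k + 1)) ℝ) with hv0
  have hv0' : ∀ i, |v0 i| ≤ 2 := fun i => (norm_le_pi_norm v0 i).trans hz1
  refine ⟨∏ i, v0 i, ?_⟩
  rintro z ⟨h, rfl, hh⟩
  have h0 := hh 0 (Nat.zero_le _)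
  rw [pow_zero, inv_one, one_mul, mul_one] at h0
  have hNN := hh N le_rfl
  rw [← da_nsmul] at hNN
  set η : ℝ := Real.exp (-(N * g / 2)) with hη
  have hη0 : 0 < η := Real.exp_pos _
  have hη1 : η ≤ 1 := by
    rw [hη]
    apply Real.exp_le_one_iff.2
    have : 0 ≤ (N : ℝ) * g / 2 := by (clear * - hg; positivity)
    linarith only [this]
  set h' : G (k + 1) := (da γ)⁻¹ * h * da γ with hh'
  have hent : ∀ i j, (h' : Matrix (Fin (k + 1)) (Fin (k + 1)) ℝ) i j =
      Real.exp (γ j - γ i) * (h : Matrix (Fin (k + 1)) (Fin (k + 1)) ℝ) i j :=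
    fun i j => conj_da_apply γ h i j
  have hγd : ∀ i j, γ j - γ i = (N : ℝ) / 2 * (β j - β i) := by
    intro i j
    simp only [hγ, Pi.smul_apply, smul_eq_mul]
    ring
  have hoff : ∀ i j, i ≠ j →
      |(h' : Matrix (Fin (k + 1)) (Fin (k + 1)) ℝ) i j| ≤ η := by
    intro i j hij
    rw [hent, abs_mul, abs_of_pos (Real.exp_pos _), hγd]
    have e0 := h0 i j
    rw [Matrix.one_apply_ne hij, sub_zero] at e0
    have eN := hNN i j
    rw [Matrix.one_apply_ne hij, sub_zero, conj_da_apply, abs_mul, abs_of_pos (Real.exp_pos _)]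
      at eN
    have hgap := hβ i j hij
    have hN0 : (0 : ℝ) ≤ N := by (clear * -; positivity)
    rcases le_or_gt 0 (β j - β i) with hs | hs
    · rw [abs_of_nonneg hs] at hgap
      have e1 : Real.exp ((N : ℝ) / 2 * (β j - β i)) *
          |(h : Matrix (Fin (k + 1)) (Fin (k + 1)) ℝ) i j| =
          Real.exp (-((N : ℝ) / 2 * (β j - β i))) *
          (Real.exp (((N : ℝ) • β) j - ((N : ℝ) • β) i) *
            |(h : Matrix (Fin (k + 1)) (Fin (k + 1)) ℝ) i j|) := by
        rw [← mul_assoc, ← Real.exp_add]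
        congr 2
        simp only [Pi.smul_apply, smul_eq_mul]
        ring
      rw [e1]
      calc Real.exp (-((N : ℝ) / 2 * (β j - β i))) *
          (Real.exp (((N : ℝ) • β) j - ((N : ℝ) • β) i) *
            |(h : Matrix (Fin (k + 1)) (Fin (k + 1)) ℝ) i j|) ≤ η * 1 := by
            refine mul_le_mul ?_ (eN.trans (by norm_num)) (by (clear * -; positivity)) hη0.le
            rw [hη]
            apply Real.exp_le_exp.2
            nlinarith
        _ = η := mul_one _
    · rw [abs_of_neg hs] at hgap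
      calc Real.exp ((N : ℝ) / 2 * (β j - β i)) *
          |(h : Matrix (Fin (k + 1)) (Fin (k + 1)) ℝ) i j| ≤ η * 1 := by
            refine mul_le_mul ?_ (e0.trans (by norm_num)) (by positivity) hη0.le
            rw [hη]
            apply Real.exp_le_exp.2
            nlinarith
        _ = η := mul_one _
  have hdiag : ∀ i, |(h' : Matrix (Fin (k + 1)) (Fin (k + 1)) ℝ) i i - 1| ≤ 1 / 8 := by
    intro i
    rw [hent, sub_self, Real.exp_zero, one_mul]
    have := h0 i i
    rwa [Matrix.one_apply_eq] at this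
  obtain ⟨hc1, hc2⟩ := prod_close (h' : Matrix (Fin (k + 1)) (Fin (k + 1)) ℝ) η hη0.le hη1 hN
    h'.2 hoff hdiag v0 hv0'
  have hpt : tr (da γ) (tr h (pt y0)) = pt (y0 * da γ * h') := by
    rw [tr_pt, tr_pt]
    congr 1
    rw [hh']
    group
  have hvv : v0 ᵥ* (h' : Matrix (Fin (k + 1)) (Fin (k + 1)) ℝ) = (fun i => (z0 i : ℝ)) ᵥ*
      ((y0 * da γ * h' : G (k + 1)) : Matrix (Fin (k + 1)) (Fin (k + 1)) ℝ) := by
    rw [hv0, vecMul_vecMul, ← coe_mul_G]
  refine ⟨v0 ᵥ* (h' : Matrix (Fin (k + 1)) (Fin (k + 1)) ℝ), ?_, ?_, hc1, ?_⟩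
  · refine ⟨y0 * da γ * h', hpt.symm, ?_⟩
    rw [hvv]
    exact ⟨z0, rfl⟩
  · rw [hvv]
    exact vecMul_ne_zero _ z0 hz0
  · refine lt_of_le_of_lt hc2 ?_
    nlinarith only [hη0]

theorem bow_measure_le (hn : 0 < n) (μ : Measure (X n)) (hA : AInv μ) (β : Fin n → ℝ) (g : ℝ)
    (hg : 0 < g) (hβ : ∀ i j, i ≠ j → g ≤ |β j - β i|) (N : ℕ)
    (hN : 8 * n * Real.exp (-(N * g / 2)) ≤ 1) {C : ℝ}
    (hC : ∀ N0 ε : ℝ, 0 < ε → ε < 1 → μ (SS n N0 ε) ≤ ENNReal.ofReal (C * √ε))
    (hN' : (cn n + 1) * Real.exp (-(N * g / 2)) < 1) (y : X n) :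
    μ (Bow β N (1 / 8) y) ≤
      ENNReal.ofReal (C * √((cn n + 1) * Real.exp (-(N * g / 2)))) := by
  obtain ⟨N0, h⟩ := bow_subset hn β g hg hβ N hN y
  have hpos : 0 < (cn n + 1) * Real.exp (-(N * g / 2)) := by
    have := cn_nonneg n
    positivity
  calc μ (Bow β N (1 / 8) y) ≤ μ ((tr (da (((N : ℝ) / 2) • β))) ⁻¹'
        SS n N0 ((cn n + 1) * Real.exp (-(N * g / 2)))) := measure_mono h
    _ ≤ (μ.map (tr (da (((N : ℝ) / 2) • β))))
        (SS n N0 ((cn n + 1) * Real.exp (-(N * g / 2)))) :=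
        Measure.le_map_apply (continuous_tr _).measurable.aemeasurable _
    _ = μ (SS n N0 ((cn n + 1) * Real.exp (-(N * g / 2)))) := by rw [hA]
    _ ≤ _ := hC N0 _ hpos hN'

/-- order function of an acyclic transitive relation -/
theorem exists_order (F : Set (Fin n × Fin n))
    (hF' : ∀ i j k, i ≠ j → j ≠ k → i ≠ k → (i, j) ∈ F → (j, k) ∈ F → (i, k) ∈ F)
    (hno : ∀ i j, i ≠ j → (i, j) ∈ F → (j, i) ∉ F) :
    ∃ α : Fin n → ℝ, (∀ i j, i ≠ j → 1 ≤ |α j - α i|) ∧
      ∀ i j, i ≠ j → (i, j) ∈ F → α j - α i ≤ 0 := by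
  classical
  let r : Fin n → Fin n → Prop := fun i j => i = j ∨ (i, j) ∈ F
  have hr : IsPartialOrder (Fin n) r :=
    { refl := fun i => Or.inl rfl
      trans := by
        rintro i j k (rfl | h1) (rfl | h2)
        · exact Or.inl rfl
        · exact Or.inr h2
        · exact Or.inr h1
        · by_cases hij : i = j
          · subst hij; exact Or.inr h2
          by_cases hjk : j = k
          · subst hjk; exact Or.inr h1
          by_cases hik : i = k
          · exact Or.inl hik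
          · exact Or.inr (hF' i j k hij hjk hik h1 h2)
      antisymm := by
        rintro i j (h1 | h1) (h2 | h2)
        · exact h1
        · exact h1
        · exact h2.symm
        · by_contra hij
          exact hno i j hij h1 h2 }
  obtain ⟨s, hs, hrs⟩ := extend_partialOrder r
  let c : Fin n → ℕ := fun i => (Finset.univ.filter fun k => s k i).card
  have hmono : ∀ i j, i ≠ j → s i j → c i < c j := by
    intro i j hij hsij
    apply Finset.card_lt_card
    constructor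
    · intro k hk
      simp only [Finset.mem_filter, Finset.mem_univ, true_and] at hk ⊢
      exact trans_of s hk hsij
    · intro hsub
      have hj : j ∈ Finset.univ.filter fun k => s k j := by
        simp only [Finset.mem_filter, Finset.mem_univ, true_and]
        exact refl_of s j
      have := hsub hj
      simp only [Finset.mem_filter, Finset.mem_univ, true_and] at this
      exact hij (antisymm_of s hsij this)
  refine ⟨fun i => -(c i : ℝ), ?_, ?_⟩
  · intro i j hij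
    rcases total_of s i j with h | h
    · have := hmono i j hij h
      have h2 : (c i : ℝ) + 1 ≤ c j := by exact_mod_cast this
      rw [abs_of_nonpos (by linarith only [h2])]
      linarith
    · have := hmono j i (Ne.symm hij) h
      have h2 : (c j : ℝ) + 1 ≤ c i := by exact_mod_cast this
      rw [abs_of_nonneg (by linarith)]
      linarith
  · intro i j hij hF
    have := hmono i j hij (hrs i j (Or.inr hF))
    have h2 : (c i : ℝ) + 1 ≤ c j := by exact_mod_cast this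
    linarith

theorem tendsto_exp_neg (c : ℝ) (hc : 0 < c) :
    Tendsto (fun N : ℕ => Real.exp (-(N * c))) atTop (𝓝 0) := by
  refine Real.tendsto_exp_neg_atTop_nhds_zero.comp ?_
  exact tendsto_natCast_atTop_atTop.atTop_mul_const hc

theorem tendsto_const_mul_exp (a c : ℝ) (hc : 0 < c) :
    Tendsto (fun N : ℕ => a * Real.exp (-(N * c))) atTop (𝓝 0) := by
  simpa using (tendsto_exp_neg c hc).const_mul a

end NA

open NA in
/-- III.6 (a), from the names lemma -/
theorem star_cycle_of_names {n : ℕ} (hnames : NamesStmt n) (hn : 1 < n) (μ : Measure (X n))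
    [IsProbabilityMeasure μ] (hA : AInv μ) (hS : Star μ)
    (F : Set (Fin n × Fin n)) (hF : ∀ i j, i ≠ j → (i, j) ∉ F → Triv μ i j)
    (hF' : ∀ i j k, i ≠ j → j ≠ k → i ≠ k → (i, j) ∈ F → (j, k) ∈ F → (i, k) ∈ F) :
    ∃ i j, i ≠ j ∧ (i, j) ∈ F ∧ (j, i) ∈ F := by
  by_contra hcon
  push Not at hcon
  obtain ⟨α, hα1, hα2⟩ := exists_order F hF' hcon
  have hinj : Function.Injective α := by
    intro i j hij
    by_contra hne
    have := hα1 i j hne
    rw [hij, sub_self, abs_zero] at this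
    linarith only [this]
  obtain ⟨C, hC⟩ := hnames
  obtain ⟨Cs, hCs⟩ := hS
  obtain ⟨M, hM⟩ := exists_nat_ge (4 * (|C| + 1))
  have hM1 : (4 : ℝ) ≤ M := by
    have := abs_nonneg C
    linarith
  have hM0 : 0 < M := by
    have : (0 : ℝ) < M := by linarith
    exact_mod_cast this
  obtain ⟨K, -, N₀, hN₀⟩ := hC μ hA F hF hF' α hinj 0 le_rfl hα2 M hM0 (1 / 8) (by norm_num)
    (by norm_num)
  have hgap : ∀ i j, i ≠ j → (M : ℝ) ≤ |((M : ℝ) • α) j - ((M : ℝ) • α) i| := by
    intro i j hij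
    have h1 := hα1 i j hij
    have h2 : ((M : ℝ) • α) j - ((M : ℝ) • α) i = M * (α j - α i) := by
      simp only [Pi.smul_apply, smul_eq_mul]
      ring
    rw [h2, abs_mul, abs_of_nonneg (by linarith only [hM1] : (0 : ℝ) ≤ M)]
    nlinarith only [h1]
  have hMpos : (0 : ℝ) < M := by linarith only [hM1]
  set A : ℝ := max Cs 0 * √(cn n + 1) with hAdef
  have hA0 : 0 ≤ A := mul_nonneg (le_max_right _ _) (Real.sqrt_nonneg _)
  have e1 : ∀ᶠ N : ℕ in atTop, (8 * n : ℝ) * Real.exp (-(N * ((M : ℝ) / 2))) < 1 :=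
    (tendsto_const_mul_exp _ _ (by positivity)).eventually (gt_mem_nhds one_pos)
  have e2 : ∀ᶠ N : ℕ in atTop, (cn n + 1) * Real.exp (-(N * ((M : ℝ) / 2))) < 1 :=
    (tendsto_const_mul_exp _ _ (by positivity)).eventually (gt_mem_nhds one_pos)
  have e3 : ∀ᶠ N : ℕ in atTop, A * Real.exp (-(N * (1 : ℝ))) < 1 / 2 :=
    (tendsto_const_mul_exp _ _ (by positivity)).eventually (gt_mem_nhds (by norm_num))
  obtain ⟨N, h1, h2, h3, h4⟩ := (e1.and (e2.and (e3.and (eventually_ge_atTop N₀)))).exists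
  rw [← mul_div_assoc] at h1 h2
  obtain ⟨P, -, hPc, hPm⟩ := hN₀ N h4
  have hbow : ∀ y ∈ P, μ (Bow ((M : ℝ) • α) N (1 / 8) y) ≤
      ENNReal.ofReal (Cs * √((cn n + 1) * Real.exp (-(N * (M : ℝ) / 2)))) := fun y _ =>
    bow_measure_le (by omega) μ hA _ M hMpos hgap N h1.le hCs h2 y
  have h5 : μ (⋃ y ∈ P, Bow ((M : ℝ) • α) N (1 / 8) y) ≤
      ENNReal.ofReal (Real.exp (C * N) * (A * Real.exp (-(N * (M : ℝ) / 4)))) := by
    calc μ (⋃ y ∈ P, Bow ((M : ℝ) • α) N (1 / 8) y)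
        ≤ ∑ y ∈ P, μ (Bow ((M : ℝ) • α) N (1 / 8) y) := measure_biUnion_finset_le _ _
      _ ≤ ∑ _y ∈ P, ENNReal.ofReal (Cs * √((cn n + 1) * Real.exp (-(N * (M : ℝ) / 2)))) :=
          Finset.sum_le_sum hbow
      _ = (P.card : ℝ≥0∞) *
          ENNReal.ofReal (Cs * √((cn n + 1) * Real.exp (-(N * (M : ℝ) / 2)))) := by
          rw [Finset.sum_const, nsmul_eq_mul]
      _ = ENNReal.ofReal (P.card : ℝ) *
          ENNReal.ofReal (Cs * √((cn n + 1) * Real.exp (-(N * (M : ℝ) / 2)))) := by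
          rw [ENNReal.ofReal_natCast]
      _ ≤ ENNReal.ofReal (Real.exp (C * N)) *
          ENNReal.ofReal (A * Real.exp (-(N * (M : ℝ) / 4))) := by
          refine mul_le_mul' (ENNReal.ofReal_le_ofReal ?_) (ENNReal.ofReal_le_ofReal ?_)
          · simpa only [zero_mul, add_zero, mul_one] using hPc
          · have h6 : Real.exp (-(N * (M : ℝ) / 2)) = (Real.exp (-(N * (M : ℝ) / 4))) ^ 2 := by
              rw [← Real.exp_nat_mul]
              congr 1
              push_cast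
              ring
            rw [h6, Real.sqrt_mul (by have := cn_nonneg n; linarith only [this]),
              Real.sqrt_sq (Real.exp_pos _).le, hAdef, mul_assoc]
            refine mul_le_mul_of_nonneg_right (le_max_left _ _) ?_
            (clear * -; positivity)
      _ = _ := by rw [← ENNReal.ofReal_mul (Real.exp_pos _).le]
  have h6 : Real.exp (C * N) * (A * Real.exp (-(N * (M : ℝ) / 4))) ≤
      A * Real.exp (-(N * (1 : ℝ))) := by
    have h7 : Real.exp (C * N) * (A * Real.exp (-(N * (M : ℝ) / 4))) =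
        A * Real.exp (C * N - N * (M : ℝ) / 4) := by
      rw [sub_eq_add_neg, Real.exp_add]
      ring
    rw [h7]
    refine mul_le_mul_of_nonneg_left (Real.exp_le_exp.2 ?_) hA0
    have h8 : C ≤ |C| := le_abs_self C
    have h9 : (0 : ℝ) ≤ N := by (clear * -; positivity)
    nlinarith only [hM, h8]
  have h7 : (1 / 2 : ℝ≥0∞) ≤ ENNReal.ofReal (A * Real.exp (-(N * (1 : ℝ)))) :=
    hPm.trans (h5.trans (ENNReal.ofReal_le_ofReal h6))
  have h8 : ENNReal.ofReal (A * Real.exp (-(N * (1 : ℝ)))) < ENNReal.ofReal (1 / 2) :=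
    (ENNReal.ofReal_lt_ofReal_iff (by norm_num)).2 h3
  have h9 : ENNReal.ofReal (1 / 2) = (1 / 2 : ℝ≥0∞) := by
    rw [ENNReal.ofReal_div_of_pos (by norm_num)]
    simp
  rw [h9] at h8
  exact absurd h7 (not_le.2 h8)

end Vale.Agent.P007.R
end

section

/-!
Second consequence of the names lemma (III.6 (b)): if `μ` is `u_il`-invariant then `(l,i)` belongs
to every transitive set `F` containing all nontrivial roots.
-/

set_option autoImplicit false

open MeasureTheory Matrix Filter Topology ProbabilityTheory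
open scoped ENNReal Pointwise

namespace Vale.Agent.P007.R

open Vale.Agent.P007 Vale.Agent.P007.Koopman Vale.Agent.P007.Mautner

namespace NB

variable {n : ℕ}

theorem exists_compact_lift (K : Set (X n)) (hK : IsCompact K) :
    ∃ L : Set (G n), IsCompact L ∧ ∀ y ∈ K, ∃ g ∈ L, pt g = y := by
  refine hK.induction_on (p := fun S => ∃ L : Set (G n), IsCompact L ∧ ∀ y ∈ S, ∃ g ∈ L, pt g = y)
    ?_ ?_ ?_ ?_
  · exact ⟨∅, isCompact_empty, fun y hy => absurd hy (Set.notMem_empty y)⟩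
  · rintro S T hST ⟨L, hL, h⟩
    exact ⟨L, hL, fun y hy => h y (hST hy)⟩
  · rintro S T ⟨L, hL, h⟩ ⟨L', hL', h'⟩
    refine ⟨L ∪ L', hL.union hL', ?_⟩
    rintro y (hy | hy)
    · obtain ⟨g, hg, he⟩ := h y hy
      exact ⟨g, Or.inl hg, he⟩
    · obtain ⟨g, hg, he⟩ := h' y hy
      exact ⟨g, Or.inr hg, he⟩
  · intro x _
    obtain ⟨g, rfl⟩ := pt_surjective x
    obtain ⟨L, hL, hgL⟩ := exists_compact_mem_nhds g
    refine ⟨pt '' L, mem_nhdsWithin_of_mem_nhds
      (isOpenQuotientMap_pt.isOpenMap.image_mem_nhds hgL), L, hL, ?_⟩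
    rintro y ⟨g', hg', rfl⟩
    exact ⟨g', hg', rfl⟩

theorem finite_Gam_inter (Q : Set (G n)) (hQ : IsCompact Q) :
    Set.Finite {γ : Gam n | (γ : G n) ∈ Q} := by
  have h := tendsto_Gam (n := n) (hQ.compl_mem_cocompact)
  rw [Filter.mem_map, mem_cofinite] at h
  refine h.subset ?_
  intro γ hγ
  simp only [Set.mem_compl_iff, Set.mem_preimage, not_not]
  exact hγ

theorem isCompact_Bd (d : ℝ) : IsCompact (Bd d : Set (G n)) := by
  set B : Set (Matrix (Fin n) (Fin n) ℝ) :=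
    {A | ∀ i j, |A i j - (1 : Matrix (Fin n) (Fin n) ℝ) i j| ≤ d} with hB
  have hBc : IsCompact B := by
    have h1 : IsCompact (Set.pi Set.univ fun i : Fin n => Set.pi Set.univ fun j : Fin n =>
        Set.Icc ((1 : Matrix (Fin n) (Fin n) ℝ) i j - d) ((1 : Matrix (Fin n) (Fin n) ℝ) i j + d)) :=
      isCompact_univ_pi fun _ => isCompact_univ_pi fun _ => isCompact_Icc
    have h2 : B = (Set.pi Set.univ fun i : Fin n => Set.pi Set.univ fun j : Fin n =>
        Set.Icc ((1 : Matrix (Fin n) (Fin n) ℝ) i j - d)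
          ((1 : Matrix (Fin n) (Fin n) ℝ) i j + d)) := by
      ext A
      constructor
      · intro h i _ j _
        have := abs_le.1 (h i j)
        constructor <;> linarith only [this.1, this]
      · intro h i j
        have := h i (Set.mem_univ i) j (Set.mem_univ j)
        rw [abs_le]
        constructor <;> linarith [this.1, this.2]
    rw [h2]
    exact h1
  exact Matrix.SpecialLinearGroup.isClosedEmbedding_val.isCompact_preimage hBc

theorem continuous_entry (i j : Fin n) :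
    Continuous fun h : G n => (h : Matrix (Fin n) (Fin n) ℝ) i j :=
  (Matrix.SpecialLinearGroup.isClosedEmbedding_val.continuous).matrix_elem i j

/-- thin set around `y` -/
def EE (i l : Fin n) (δ : ℝ) (y : X n) : Set (X n) :=
  {z | ∃ h : G n, z = tr h y ∧ h ∈ Bd (1 / 2) ∧ |(h : Matrix (Fin n) (Fin n) ℝ) i l| ≤ δ}

theorem isCompact_EE (i l : Fin n) (δ : ℝ) (y : X n) : IsCompact (EE i l δ y) := by
  have h1 : IsCompact ((Bd (1 / 2) : Set (G n)) ∩
      {h : G n | |(h : Matrix (Fin n) (Fin n) ℝ) i l| ≤ δ}) :=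
    (isCompact_Bd (1 / 2)).inter_right (isClosed_le (continuous_entry i l).abs continuous_const)
  have h2 : EE i l δ y = (fun h : G n => tr h y) '' ((Bd (1 / 2) : Set (G n)) ∩
      {h : G n | |(h : Matrix (Fin n) (Fin n) ℝ) i l| ≤ δ}) := by
    ext z
    constructor
    · rintro ⟨h, rfl, hb, hd⟩
      exact ⟨h, ⟨hb, hd⟩, rfl⟩
    · rintro ⟨h, ⟨hb, hd⟩, rfl⟩
      exact ⟨h, rfl, hb, hd⟩
  rw [h2]
  exact h1.image (continuous_tr_uncurry.comp (continuous_const.prodMk continuous_id))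

theorem mul_ug_apply {i l : Fin n} (hil : i ≠ l) (h : G n) (t : ℝ) :
    ((h * ug i l t : G n) : Matrix (Fin n) (Fin n) ℝ) i l =
      (h : Matrix (Fin n) (Fin n) ℝ) i l + t * (h : Matrix (Fin n) (Fin n) ℝ) i i := by
  rw [coe_mul_G, Matrix.mul_apply]
  simp only [ug_apply hil]
  simp only [and_true, mul_add, mul_ite, mul_one, mul_zero, Finset.sum_add_distrib]
  simp only [Finset.sum_ite_eq', Finset.mem_univ, ↓reduceIte, mul_comm]

/-- the number of visits to thin sets is bounded -/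
theorem exists_card (i l : Fin n) (hil : i ≠ l) (L : Set (G n)) (hL : IsCompact L) :
    ∃ m : ℕ, ∀ g' ∈ L, ∀ δ : ℝ, 0 ≤ δ → ∀ x : X n,
      volume {s : ℝ | s ∈ Set.Icc (0 : ℝ) 1 ∧ tr (ug i l s) x ∈ EE i l δ (pt g')} ≤
        m * ENNReal.ofReal (4 * δ) := by
  classical
  set Q : Set (G n) := L * (Bd (1 / 2) * ((ug i l '' Set.Icc (-1) 1) *
    ((Bd (1 / 2) : Set (G n))⁻¹ * L⁻¹))) with hQdef
  have hQ : IsCompact Q :=
    hL.mul ((isCompact_Bd _).mul (((isCompact_Icc).image (continuous_ug i l)).mul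
      ((isCompact_Bd _).inv.mul hL.inv)))
  have hfin := finite_Gam_inter Q hQ
  refine ⟨hfin.toFinset.card, fun g' hg' δ hδ x => ?_⟩
  set S : Set ℝ := {s : ℝ | s ∈ Set.Icc (0 : ℝ) 1 ∧ tr (ug i l s) x ∈ EE i l δ (pt g')} with hS
  rcases S.eq_empty_or_nonempty with he | ⟨s0, hs0, h0, hh0, hb0, hd0⟩
  · rw [he, measure_empty]
    exact zero_le
  obtain ⟨g, rfl⟩ := pt_surjective x
  rw [tr_pt, tr_pt, pt_eq_pt] at hh0
  set γ0 : G n := (g' * h0) * (g * ug i l s0)⁻¹ with hγ0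
  let T : Gam n → Set ℝ := fun κ => {s : ℝ | ∃ h : G n, h ∈ Bd (1 / 2) ∧
    |(h : Matrix (Fin n) (Fin n) ℝ) i l| ≤ δ ∧ g' * h = κ * γ0 * g * ug i l s}
  have hsub : S ⊆ ⋃ κ ∈ hfin.toFinset, T κ := by
    rintro s ⟨hs, h, hh, hb, hd⟩
    rw [tr_pt, tr_pt, pt_eq_pt] at hh
    set γ : G n := (g' * h) * (g * ug i l s)⁻¹ with hγ
    have hκ : γ * γ0⁻¹ ∈ Gam n := (Gam n).mul_mem hh ((Gam n).inv_mem hh0)
    have hκQ : γ * γ0⁻¹ ∈ Q := by
      have e1 : γ * γ0⁻¹ = g' * (h * (ug i l (s0 - s) * (h0⁻¹ * g'⁻¹))) := by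
        have e2 : ug i l (s0 - s) = (ug i l s)⁻¹ * ug i l s0 := by
          rw [← ug_neg, ← ug_add]
          congr 1
          ring
        rw [e2, hγ, hγ0]
        group
      rw [e1]
      refine Set.mul_mem_mul hg' (Set.mul_mem_mul hb (Set.mul_mem_mul ⟨s0 - s, ?_, rfl⟩
        (Set.mul_mem_mul (Set.inv_mem_inv.2 hb0) (Set.inv_mem_inv.2 hg'))))
      constructor <;> linarith [hs.1, hs.2, hs0.1, hs0.2]
    refine Set.mem_biUnion (x := (⟨γ * γ0⁻¹, hκ⟩ : Gam n)) ?_ ?_
    · simp only [Set.Finite.coe_toFinset]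
      exact hκQ
    · refine ⟨h, hb, hd, ?_⟩
      simp only [hγ]
      group
  have hT : ∀ κ, volume (T κ) ≤ ENNReal.ofReal (4 * δ) := by
    intro κ
    refine (Real.volume_le_diam _).trans ?_
    refine Metric.ediam_le ?_
    rintro s ⟨h, hb, hd, he⟩ s' ⟨h', hb', hd', he'⟩
    have e1 : h' = h * ug i l (s' - s) := by
      have e2 : h = g'⁻¹ * (κ * γ0 * g * ug i l s) := by rw [← he]; group
      have e3 : h' = g'⁻¹ * (κ * γ0 * g * ug i l s') := by rw [← he']; group
      have e4 : ug i l (s' - s) = (ug i l s)⁻¹ * ug i l s' := by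
        rw [← ug_neg, ← ug_add]
        congr 1
        ring
      rw [e3, e4, e2]
      group
    have e5 := mul_ug_apply hil h (s' - s)
    rw [← e1] at e5
    have e6 := hb i i
    rw [Matrix.one_apply_eq] at e6
    have e7 : (1 / 2 : ℝ) ≤ (h : Matrix (Fin n) (Fin n) ℝ) i i := by
      have := abs_le.1 e6
      linarith only [this.1, this]
    rw [edist_dist, Real.dist_eq]
    apply ENNReal.ofReal_le_ofReal
    have e8 : |(s' - s) * (h : Matrix (Fin n) (Fin n) ℝ) i i| ≤ 2 * δ := by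
      have : (s' - s) * (h : Matrix (Fin n) (Fin n) ℝ) i i =
        (h' : Matrix (Fin n) (Fin n) ℝ) i l - (h : Matrix (Fin n) (Fin n) ℝ) i l := by
        rw [e5]; ring
      rw [this]
      refine (abs_sub _ _).trans ?_
      linarith only [hd, hd']
    rw [abs_mul, abs_of_pos (by linarith only [e7] : (0 : ℝ) < (h : Matrix (Fin n) (Fin n) ℝ) i i)] at e8
    rw [abs_sub_comm]
    nlinarith only [hδ, e7, e8]
  calc volume S ≤ volume (⋃ κ ∈ hfin.toFinset, T κ) := measure_mono hsub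
    _ ≤ ∑ κ ∈ hfin.toFinset, volume (T κ) := measure_biUnion_finset_le _ _
    _ ≤ ∑ _κ ∈ hfin.toFinset, ENNReal.ofReal (4 * δ) := Finset.sum_le_sum fun κ _ => hT κ
    _ = _ := by rw [Finset.sum_const, nsmul_eq_mul]

theorem measure_EE_le (μ : Measure (X n)) [IsProbabilityMeasure μ] (i l : Fin n)
    (hU : UInv μ i l) (δ : ℝ) (y : X n) (c : ℝ≥0∞)
    (hc : ∀ x : X n, volume {s : ℝ | s ∈ Set.Icc (0 : ℝ) 1 ∧ tr (ug i l s) x ∈ EE i l δ y} ≤ c) :
    μ (EE i l δ y) ≤ c := by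
  set E := EE i l δ y with hE
  have hEm : MeasurableSet E := (isCompact_EE i l δ y).measurableSet
  set ν : Measure ℝ := volume.restrict (Set.Icc (0 : ℝ) 1) with hν
  have hνp : IsProbabilityMeasure ν := by
    constructor
    rw [hν, Measure.restrict_apply MeasurableSet.univ, Set.univ_inter, Real.volume_Icc]
    norm_num
  set W : Set (ℝ × X n) := {p | tr (ug i l p.1) p.2 ∈ E} with hW
  have hcont : Continuous fun p : ℝ × X n => tr (ug i l p.1) p.2 :=
    continuous_tr_uncurry.comp (continuous_snd.prodMk ((continuous_ug i l).comp continuous_fst))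
  have hWm : MeasurableSet W := hcont.measurable hEm
  have h1 : (ν.prod μ) W = μ E := by
    rw [Measure.prod_apply hWm]
    have h2 : ∀ s : ℝ, μ (Prod.mk s ⁻¹' W) = μ E := by
      intro s
      have h3 : Prod.mk s ⁻¹' W = tr (ug i l s) ⁻¹' E := rfl
      rw [h3, ← Measure.map_apply (continuous_tr _).measurable hEm, hU s]
    simp only [h2, lintegral_const, measure_univ, mul_one]
  rw [← h1, Measure.prod_apply_symm hWm]
  calc ∫⁻ x, ν ((fun s => (s, x)) ⁻¹' W) ∂μ ≤ ∫⁻ _x, c ∂μ := by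
        refine lintegral_mono fun x => ?_
        have h4 : MeasurableSet ((fun s => (s, x)) ⁻¹' W) := measurable_prodMk_right hWm
        rw [hν, Measure.restrict_apply h4]
        refine le_trans (measure_mono ?_) (hc x)
        rintro s ⟨hs1, hs2⟩
        exact ⟨hs2, hs1⟩
    _ = c := by simp only [lintegral_const, measure_univ, mul_one]

theorem bow_subset_EE (i l : Fin n) (hil : i ≠ l) (β : Fin n → ℝ) (N : ℕ) (y : X n) (c : ℝ)
    (hc : β l - β i ≤ -c) :
    Bow β N (1 / 2) y ⊆ (tr (da ((N : ℝ) • β))) ⁻¹'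
      EE i l (Real.exp (-(N * c))) (tr (da β ^ N) y) := by
  rintro z ⟨h, rfl, hh⟩
  have h0 := hh 0 (Nat.zero_le _)
  rw [pow_zero, inv_one, one_mul, mul_one] at h0
  have hNN := hh N le_rfl
  refine ⟨(da β ^ N)⁻¹ * h * da β ^ N, ?_, hNN, ?_⟩
  · rw [tr_tr, tr_tr, da_nsmul]
    congr 1
    group
  · rw [← da_nsmul, conj_da_apply, abs_mul, abs_of_pos (Real.exp_pos _)]
    have e0 := h0 i l
    rw [Matrix.one_apply_ne hil, sub_zero] at e0
    calc Real.exp (((N : ℝ) • β) l - ((N : ℝ) • β) i) *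
          |(h : Matrix (Fin n) (Fin n) ℝ) i l| ≤ Real.exp (-(N * c)) * 1 := by
          refine mul_le_mul (Real.exp_le_exp.2 ?_) (e0.trans (by norm_num)) (abs_nonneg _)
            (Real.exp_pos _).le
          simp only [Pi.smul_apply, smul_eq_mul]
          have hN : (0 : ℝ) ≤ N := by positivity
          nlinarith only [hc]
      _ = _ := mul_one _

end NB

open NB NA in
/-- III.6 (b), from the names lemma -/
theorem haar_symm_of_names {n : ℕ} (hnames : NamesStmt n) (μ : Measure (X n))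
    [IsProbabilityMeasure μ] (hA : AInv μ)
    (F : Set (Fin n × Fin n)) (hF : ∀ i j, i ≠ j → (i, j) ∉ F → Triv μ i j)
    (hF' : ∀ i j k, i ≠ j → j ≠ k → i ≠ k → (i, j) ∈ F → (j, k) ∈ F → (i, k) ∈ F)
    {i l : Fin n} (hil : i ≠ l) (hU : UInv μ i l) : (l, i) ∈ F := by
  classical
  by_contra hli
  set S : Set (Fin n) := {k | k = l ∨ (l, k) ∈ F} with hSdef
  have hlS : l ∈ S := Or.inl rfl
  have hiS : i ∉ S := by
    rintro (h | h)
    · exact hil h
    · exact hli h
  have hS : ∀ p q, p ≠ q → (p, q) ∈ F → p ∈ S → q ∈ S := by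
    rintro p q hpq hF1 (rfl | hp)
    · exact Or.inr hF1
    · by_cases hpl : l = p
      · subst hpl
        exact Or.inr hF1
      by_cases hql : l = q
      · exact Or.inl hql.symm
      · exact Or.inr (hF' l p q hpl hpq hql hp hF1)
  obtain ⟨C, hC⟩ := hnames
  have hC0 : 0 ≤ |C| := abs_nonneg C
  set ε : ℝ := 1 / (4 * (|C| + 1)) with hε
  have hε0 : 0 < ε := by positivity
  have hε1 : ε ≤ 1 / 4 := by
    rw [hε, div_le_div_iff₀ (by positivity) (by norm_num)]
    linarith only [hC0]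
  have hn : 0 < n := Fin.pos i
  have hn' : (0 : ℝ) < n := by exact_mod_cast hn
  set α : Fin n → ℝ := fun k => (if k ∈ S then (-1 : ℝ) else 0) + ε / 2 * ((k : ℕ) / n) with hα
  have hfr : ∀ k : Fin n, 0 ≤ ε / 2 * (((k : ℕ) : ℝ) / n) ∧ ε / 2 * (((k : ℕ) : ℝ) / n) ≤ ε / 2 := by
    intro k
    constructor
    · (clear * - hn; positivity)
    · have h1 : ((k : ℕ) : ℝ) / n ≤ 1 := by
        rw [div_le_one hn']
        exact_mod_cast k.2.le
      nlinarith only [hε0, h1]
  have hαS : ∀ k ∈ S, -1 ≤ α k ∧ α k ≤ -1 + ε / 2 := by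
    intro k hk
    have := hfr k
    simp only [hα, if_pos hk]
    constructor <;> linarith only [this.1, this.2, this]
  have hαS' : ∀ k ∉ S, 0 ≤ α k ∧ α k ≤ ε / 2 := by
    intro k hk
    have := hfr k
    simp only [hα, if_neg hk]
    constructor <;> linarith only [this.1, this.2, this]
  have hinj : Function.Injective α := by
    have key : ∀ a b : Fin n, ε / 2 * (((a : ℕ) : ℝ) / n) = ε / 2 * (((b : ℕ) : ℝ) / n) →
        a = b := by
      intro a b h
      have h1 := mul_left_cancel₀ (by positivity : ε / 2 ≠ 0) h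
      rw [div_left_inj' hn'.ne'] at h1
      exact Fin.ext (by exact_mod_cast h1)
    intro a b hab
    by_cases ha : a ∈ S <;> by_cases hb : b ∈ S
    · simp only [hα, if_pos ha, if_pos hb, add_right_inj] at hab
      exact key a b hab
    · have := hαS a ha
      have := hαS' b hb
      linarith
    · have := hαS b hb
      have := hαS' a ha
      linarith
    · simp only [hα, if_neg ha, if_neg hb, add_right_inj] at hab
      exact key a b hab
  have hedge : ∀ p q, p ≠ q → (p, q) ∈ F → α q - α p ≤ ε := by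
    intro p q hpq hF1
    by_cases hp : p ∈ S
    · have hq := hS p q hpq hF1 hp
      have := hαS p hp
      have := hαS q hq
      linarith
    · have h1 := hαS' p hp
      by_cases hq : q ∈ S
      · have := hαS q hq
        linarith only [hε0, hε1, h1, this]
      · have := hαS' q hq
        linarith only [hε0, h1, this]
  obtain ⟨M, hM⟩ := exists_nat_ge (2 * (|C| + 1))
  have hMpos : (0 : ℝ) < M := by linarith only [hC0, hε0, hε1, hM]
  have hM0 : 0 < M := by exact_mod_cast hMpos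
  obtain ⟨K, hK, N₀, hN₀⟩ := hC μ hA F hF hF' α hinj ε hε0.le hedge M hM0 (1 / 2) (by norm_num)
    le_rfl
  obtain ⟨L, hL, hKL⟩ := exists_compact_lift K hK
  obtain ⟨m, hm⟩ := exists_card i l hil L hL
  have hbow : ∀ N : ℕ, ∀ y : X n, tr (da ((M : ℝ) • α) ^ N) y ∈ K →
      μ (Bow ((M : ℝ) • α) N (1 / 2) y) ≤
        m * ENNReal.ofReal (4 * Real.exp (-(N * (7 / 8 * (M : ℝ))))) := by
    intro N y hy
    obtain ⟨g', hg', hg'y⟩ := hKL _ hy
    have h1 : ((M : ℝ) • α) l - ((M : ℝ) • α) i ≤ -(7 / 8 * (M : ℝ)) := by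
      have h2 := (hαS l hlS).2
      have h3 := (hαS' i hiS).1
      have h4 : ((M : ℝ) • α) l - ((M : ℝ) • α) i = M * (α l - α i) := by
        simp only [Pi.smul_apply, smul_eq_mul]
        ring
      rw [h4]
      nlinarith only [hε1, h2, h3]
    have h2 := bow_subset_EE i l hil ((M : ℝ) • α) N y (7 / 8 * (M : ℝ)) h1
    calc μ (Bow ((M : ℝ) • α) N (1 / 2) y) ≤ μ ((tr (da ((N : ℝ) • ((M : ℝ) • α)))) ⁻¹'
          EE i l (Real.exp (-(N * (7 / 8 * (M : ℝ))))) (tr (da ((M : ℝ) • α) ^ N) y)) :=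
          measure_mono h2
      _ ≤ (μ.map (tr (da ((N : ℝ) • ((M : ℝ) • α)))))
          (EE i l (Real.exp (-(N * (7 / 8 * (M : ℝ))))) (tr (da ((M : ℝ) • α) ^ N) y)) :=
          Measure.le_map_apply (continuous_tr _).measurable.aemeasurable _
      _ = μ (EE i l (Real.exp (-(N * (7 / 8 * (M : ℝ))))) (tr (da ((M : ℝ) • α) ^ N) y)) := by
          rw [hA]
      _ ≤ _ := by
          refine measure_EE_le μ i l hU _ _ _ fun x => ?_
          rw [← hg'y]
          exact hm g' hg' _ (Real.exp_pos _).le x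
  have e3 : ∀ᶠ N : ℕ in atTop, (4 * m : ℝ) * Real.exp (-(N * (1 / 4 : ℝ))) < 1 / 2 :=
    (tendsto_const_mul_exp _ _ (by positivity)).eventually (gt_mem_nhds (by norm_num))
  obtain ⟨N, h3, h4⟩ := (e3.and (eventually_ge_atTop N₀)).exists
  obtain ⟨P, hPK, hPc, hPm⟩ := hN₀ N h4
  have h5 : μ (⋃ y ∈ P, Bow ((M : ℝ) • α) N (1 / 2) y) ≤
      ENNReal.ofReal (Real.exp (C * N * (1 + ε * M)) *
        (4 * m * Real.exp (-(N * (7 / 8 * (M : ℝ)))))) := by
    calc μ (⋃ y ∈ P, Bow ((M : ℝ) • α) N (1 / 2) y)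
        ≤ ∑ y ∈ P, μ (Bow ((M : ℝ) • α) N (1 / 2) y) := measure_biUnion_finset_le _ _
      _ ≤ ∑ _y ∈ P, (m : ℝ≥0∞) * ENNReal.ofReal (4 * Real.exp (-(N * (7 / 8 * (M : ℝ))))) :=
          Finset.sum_le_sum fun y hy => hbow N y (hPK y hy).2
      _ = (P.card : ℝ≥0∞) *
          ((m : ℝ≥0∞) * ENNReal.ofReal (4 * Real.exp (-(N * (7 / 8 * (M : ℝ)))))) := by
          rw [Finset.sum_const, nsmul_eq_mul]
      _ = ENNReal.ofReal (P.card : ℝ) *
          ENNReal.ofReal (4 * m * Real.exp (-(N * (7 / 8 * (M : ℝ))))) := by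
          rw [ENNReal.ofReal_natCast, ← ENNReal.ofReal_natCast m,
            ← ENNReal.ofReal_mul (by (clear * -; positivity))]
          congr 2
          ring
      _ ≤ ENNReal.ofReal (Real.exp (C * N * (1 + ε * M))) *
          ENNReal.ofReal (4 * m * Real.exp (-(N * (7 / 8 * (M : ℝ))))) :=
          mul_le_mul' (ENNReal.ofReal_le_ofReal hPc) le_rfl
      _ = _ := by rw [← ENNReal.ofReal_mul (Real.exp_pos _).le]
  have h6 : Real.exp (C * N * (1 + ε * M)) * (4 * m * Real.exp (-(N * (7 / 8 * (M : ℝ))))) ≤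
      (4 * m : ℝ) * Real.exp (-(N * (1 / 4 : ℝ))) := by
    have h7 : Real.exp (C * N * (1 + ε * M)) * (4 * m * Real.exp (-(N * (7 / 8 * (M : ℝ))))) =
        4 * m * Real.exp (C * N * (1 + ε * M) - N * (7 / 8 * (M : ℝ))) := by
      rw [sub_eq_add_neg, Real.exp_add]
      ring
    rw [h7]
    refine mul_le_mul_of_nonneg_left (Real.exp_le_exp.2 ?_) (by (clear * -; positivity))
    have h8 : C ≤ |C| := le_abs_self C
    have h9 : (0 : ℝ) ≤ N := by (clear * -; positivity)
    have h10 : |C| * ε ≤ 1 / 4 := by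
      rw [hε, mul_one_div, div_le_div_iff₀ (by (clear * -; positivity)) (by norm_num)]
      linarith only [hε0, hε1]
    have h11 : C * (1 + ε * M) ≤ |C| + 1 / 4 * M := by
      calc C * (1 + ε * M) ≤ |C| * (1 + ε * M) :=
            mul_le_mul_of_nonneg_right h8 (by (clear * - hM0; positivity))
        _ = |C| + (|C| * ε) * M := by ring
        _ ≤ |C| + 1 / 4 * M := by nlinarith only [h10]
    have h12 : C * N * (1 + ε * M) - N * (7 / 8 * (M : ℝ)) =
        N * (C * (1 + ε * M) - 7 / 8 * M) := by ring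
    rw [h12]
    have h13 : C * (1 + ε * M) - 7 / 8 * M ≤ -(1 / 4) := by linarith only [hC0, hε0, hε1, hM, h11]
    nlinarith only [hM, h11]
  have h7 : (1 / 2 : ℝ≥0∞) ≤ ENNReal.ofReal ((4 * m : ℝ) * Real.exp (-(N * (1 / 4 : ℝ)))) :=
    hPm.trans (h5.trans (ENNReal.ofReal_le_ofReal h6))
  have h8 : ENNReal.ofReal ((4 * m : ℝ) * Real.exp (-(N * (1 / 4 : ℝ)))) <
      ENNReal.ofReal (1 / 2) :=
    (ENNReal.ofReal_lt_ofReal_iff (by norm_num)).2 h3
  have h9 : ENNReal.ofReal (1 / 2) = (1 / 2 : ℝ≥0∞) := by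
    rw [ENNReal.ofReal_div_of_pos (by norm_num)]
    simp
  rw [h9] at h8
  exact absurd h7 (not_le.2 h8)

end Vale.Agent.P007.R
end

section

/-!
Names lemma (III.6): preliminary lemmas.
-/

set_option autoImplicit false

open MeasureTheory Matrix Filter Topology ProbabilityTheory
open scoped ENNReal

namespace Vale.Agent.P007.R.Names

open Vale.Agent.P007 Vale.Agent.P007.Koopman Vale.Agent.P007.Mautner Vale.Agent.P007.R

variable {n : ℕ}

theorem isCompact_Bd (d : ℝ) : IsCompact (Bd d : Set (G n)) := by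
  have h1 : IsCompact {m : Matrix (Fin n) (Fin n) ℝ | ∀ i j,
      |m i j - (1 : Matrix (Fin n) (Fin n) ℝ) i j| ≤ d} := by
    have h2 : {m : Matrix (Fin n) (Fin n) ℝ | ∀ i j,
        |m i j - (1 : Matrix (Fin n) (Fin n) ℝ) i j| ≤ d} =
        Set.pi Set.univ fun i => Set.pi Set.univ fun j =>
          Set.Icc ((1 : Matrix (Fin n) (Fin n) ℝ) i j - d)
            ((1 : Matrix (Fin n) (Fin n) ℝ) i j + d) := by
      ext m
      constructor
      · intro h i _ j _
        have h3 := abs_le.mp (h i j)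
        exact ⟨by linarith [h3.1], by linarith [h3.2]⟩
      · intro h i j
        have h3 : m i j ∈ Set.Icc ((1 : Matrix (Fin n) (Fin n) ℝ) i j - d)
            ((1 : Matrix (Fin n) (Fin n) ℝ) i j + d) := h i trivial j trivial
        rw [abs_le]
        exact ⟨by linarith [h3.1], by linarith [h3.2]⟩
    rw [h2]
    exact isCompact_univ_pi fun i => isCompact_univ_pi fun j => isCompact_Icc
  exact Matrix.SpecialLinearGroup.isClosedEmbedding_val.isCompact_preimage h1

theorem continuous_entry (i j : Fin n) : Continuous fun h : G n => h.1 i j :=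
  ((continuous_apply j).comp ((continuous_apply i).comp
    Matrix.SpecialLinearGroup.isClosedEmbedding_val.continuous))

theorem inv_bound (n : ℕ) : ∃ C : ℝ, 0 < C ∧ ∀ p ∈ (Bd (1 / 2) : Set (G n)), ∀ i j,
    |(p⁻¹ : G n).1 i j| ≤ C := by
  have h1 : ∀ i j : Fin n, ∃ C : ℝ, ∀ p ∈ (Bd (1 / 2) : Set (G n)), ‖(p⁻¹ : G n).1 i j‖ ≤ C :=
    fun i j => (isCompact_Bd (1 / 2)).exists_bound_of_continuousOn
      ((continuous_entry i j).comp continuous_inv).continuousOn
  choose C hC using h1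
  refine ⟨1 + ∑ i, ∑ j, |C i j|, ?_, ?_⟩
  · have : 0 ≤ ∑ i, ∑ j, |C i j| := Finset.sum_nonneg fun i _ => Finset.sum_nonneg fun j _ =>
      abs_nonneg _
    linarith
  · intro p hp i j
    have h2 : |C i j| ≤ ∑ i, ∑ j, |C i j| :=
      (Finset.single_le_sum (f := fun j => |C i j|) (fun j _ => abs_nonneg _)
        (Finset.mem_univ j)).trans
        (Finset.single_le_sum (f := fun i => ∑ j, |C i j|)
          (fun i _ => Finset.sum_nonneg fun j _ => abs_nonneg _) (Finset.mem_univ i))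
    have h3 := hC i j p hp
    rw [Real.norm_eq_abs] at h3
    have h4 := le_abs_self (C i j)
    linarith

theorem prod_close {C : ℝ} (hC : ∀ p ∈ (Bd (1 / 2) : Set (G n)), ∀ i j,
    |(p⁻¹ : G n).1 i j| ≤ C) {p p' : G n} (hp : p ∈ (Bd (1 / 2) : Set (G n))) {δ : ℝ}
    (h : ∀ i j, |p.1 i j - p'.1 i j| ≤ δ) (i j : Fin n) :
    |(p⁻¹ * p' : G n).1 i j - (1 : Matrix (Fin n) (Fin n) ℝ) i j| ≤ n * C * δ := by
  have h1 : (p⁻¹ * p' : G n).1 - 1 = (p⁻¹ : G n).1 * (p'.1 - p.1) := by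
    have h2 : (p⁻¹ : G n).1 * p.1 = 1 := by
      rw [← Matrix.SpecialLinearGroup.coe_mul, inv_mul_cancel, Matrix.SpecialLinearGroup.coe_one]
    rw [mul_sub, h2, Matrix.SpecialLinearGroup.coe_mul]
  have h3 : (p⁻¹ * p' : G n).1 i j - (1 : Matrix (Fin n) (Fin n) ℝ) i j =
      ∑ l, (p⁻¹ : G n).1 i l * (p'.1 l j - p.1 l j) := by
    have := congrFun (congrFun h1 i) j
    rw [Matrix.sub_apply, Matrix.mul_apply] at this
    rw [this]
    rfl
  rw [h3]
  calc |∑ l, (p⁻¹ : G n).1 i l * (p'.1 l j - p.1 l j)|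
      ≤ ∑ l, |(p⁻¹ : G n).1 i l * (p'.1 l j - p.1 l j)| := Finset.abs_sum_le_sum_abs _ _
    _ ≤ ∑ _l : Fin n, C * δ := by
        refine Finset.sum_le_sum fun l _ => ?_
        rw [abs_mul]
        have h4 : |p'.1 l j - p.1 l j| ≤ δ := by rw [abs_sub_comm]; exact h l j
        exact mul_le_mul (hC p hp i l) h4 (abs_nonneg _) ((abs_nonneg _).trans (hC p hp i l))
    _ = n * C * δ := by
        rw [Finset.sum_const, Finset.card_univ, Fintype.card_fin, nsmul_eq_mul, mul_assoc]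

theorem exists_box {d : ℝ} (hd : 0 < d) {q : ℕ} (hq : 0 < q) :
    ∃ b : G n → (Fin n × Fin n → Fin (q + 1)), ∀ p ∈ (Bd d : Set (G n)), ∀ p' ∈ (Bd d : Set (G n)),
      b p = b p' → ∀ i j, |p.1 i j - p'.1 i j| ≤ 2 * d / q := by
  have hq' : (0 : ℝ) < q := by exact_mod_cast hq
  let t : G n → Fin n × Fin n → ℝ := fun p ij =>
    (p.1 ij.1 ij.2 - (1 : Matrix (Fin n) (Fin n) ℝ) ij.1 ij.2 + d) * q / (2 * d)
  refine ⟨fun p ij => ⟨min q ⌊t p ij⌋₊, Nat.lt_succ_of_le (min_le_left _ _)⟩, ?_⟩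
  intro p hp p' hp' hb i j
  have h1 : ∀ p ∈ (Bd d : Set (G n)), 0 ≤ t p (i, j) ∧ ⌊t p (i, j)⌋₊ ≤ q := by
    intro p hp
    have h2 := abs_le.mp (hp i j)
    have h3 : 0 ≤ t p (i, j) := by
      refine div_nonneg (mul_nonneg ?_ hq'.le) (by positivity)
      simp only
      linarith only [h2.1, h2]
    refine ⟨h3, ?_⟩
    have h4 : t p (i, j) ≤ q := by
      change (p.1 i j - (1 : Matrix (Fin n) (Fin n) ℝ) i j + d) * q / (2 * d) ≤ q
      rw [div_le_iff₀ (by positivity)]
      nlinarith only [h2.2, h2]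
    calc ⌊t p (i, j)⌋₊ ≤ ⌊(q : ℝ)⌋₊ := Nat.floor_le_floor h4
      _ = q := Nat.floor_natCast q
  have h5 := congrFun hb (i, j)
  simp only [Fin.mk.injEq] at h5
  rw [min_eq_right (h1 p hp).2, min_eq_right (h1 p' hp').2] at h5
  have h6 := Nat.floor_le (h1 p hp).1
  have h7 := Nat.floor_le (h1 p' hp').1
  have h8 := Nat.lt_floor_add_one (t p (i, j))
  have h9 := Nat.lt_floor_add_one (t p' (i, j))
  rw [h5] at h6 h8
  have h10 : |t p (i, j) - t p' (i, j)| ≤ 1 := by
    rw [abs_le]; constructor <;> linarith only [h6, h9, h7, h8]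
  have h11 : p.1 i j - p'.1 i j = (t p (i, j) - t p' (i, j)) * (2 * d / q) := by
    change p.1 i j - p'.1 i j =
      ((p.1 i j - (1 : Matrix (Fin n) (Fin n) ℝ) i j + d) * q / (2 * d) -
       (p'.1 i j - (1 : Matrix (Fin n) (Fin n) ℝ) i j + d) * q / (2 * d)) * (2 * d / q)
    field_simp
    ring
  rw [h11, abs_mul, abs_of_pos (show 0 < 2 * d / q by positivity)]
  calc |t p (i, j) - t p' (i, j)| * (2 * d / q) ≤ 1 * (2 * d / q) :=
        mul_le_mul_of_nonneg_right h10 (by positivity)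
    _ = 2 * d / q := one_mul _

/-- `T^{-k} h T^k`, `T = da β` -/
noncomputable def cj (β : Fin n → ℝ) (k : ℕ) (h : G n) : G n := (da β ^ k)⁻¹ * h * da β ^ k

theorem cj_zero (β : Fin n → ℝ) (h : G n) : cj β 0 h = h := by simp [cj]

theorem cj_mul (β : Fin n → ℝ) (k : ℕ) (h h' : G n) : cj β k (h * h') = cj β k h * cj β k h' := by
  unfold cj; group

theorem cj_inv (β : Fin n → ℝ) (k : ℕ) (h : G n) : cj β k h⁻¹ = (cj β k h)⁻¹ := by
  unfold cj; group

theorem cj_succ (β : Fin n → ℝ) (k : ℕ) (h : G n) :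
    cj β (k + 1) h = (da β)⁻¹ * cj β k h * da β := by
  unfold cj
  rw [pow_succ]
  group

theorem cj_apply (β : Fin n → ℝ) (k : ℕ) (h : G n) (i j : Fin n) :
    (cj β k h).1 i j = Real.exp (k * (β j - β i)) * h.1 i j := by
  unfold cj
  rw [← da_nsmul]
  have h1 := conj_da_apply ((k : ℝ) • β) h i j
  rw [h1]
  congr 2
  simp only [Pi.smul_apply, smul_eq_mul]
  ring

/-- one refinement step of a colouring -/
theorem color_step {C : ℝ} (hC : ∀ p ∈ (Bd (1 / 2) : Set (G n)), ∀ i j,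
    |(p⁻¹ : G n).1 i j| ≤ C) {β : Fin n → ℝ} {d : ℝ} (hd : 0 < d) (hd' : d ≤ 1 / 2)
    {D : Set (G n)} {k m : ℕ}
    (hc : ∃ c : G n → Fin m, ∀ h ∈ D, ∀ h' ∈ D, c h = c h' → ∀ j ≤ k, cj β j (h⁻¹ * h') ∈ Bd d)
    {q : ℕ} (hq : 0 < q)
    (hstep : ∀ h ∈ D, ∀ h' ∈ D, (∀ j ≤ k, cj β j (h⁻¹ * h') ∈ Bd d) →
      (∀ i j, |(cj β k (h⁻¹ * h')).1 i j - (1 : Matrix (Fin n) (Fin n) ℝ) i j| ≤
        n * C * (2 * d / q)) → cj β (k + 1) (h⁻¹ * h') ∈ Bd d) :
    ∃ c : G n → Fin (m * (q + 1) ^ (n * n)), ∀ h ∈ D, ∀ h' ∈ D, c h = c h' →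
      ∀ j ≤ k + 1, cj β j (h⁻¹ * h') ∈ Bd d := by
  classical
  obtain ⟨c, hc⟩ := hc
  obtain ⟨b, hb⟩ := exists_box (n := n) hd hq
  -- representatives
  have hrep : ∀ s : Fin m, ∃ r : G n, ∀ h ∈ D, c h = s → r ∈ D ∧ c r = s := by
    intro s
    by_cases hs : ∃ h ∈ D, c h = s
    · obtain ⟨r, hr, hrs⟩ := hs
      exact ⟨r, fun _ _ _ => ⟨hr, hrs⟩⟩
    · exact ⟨1, fun h hh hhs => absurd ⟨h, hh, hhs⟩ hs⟩
  choose r hr using hrep
  have hcard : Fintype.card (Fin m × (Fin n × Fin n → Fin (q + 1))) = m * (q + 1) ^ (n * n) := by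
    simp only [Fintype.card_prod, Fintype.card_fin, Fintype.card_pi, Finset.prod_const,
      Finset.card_univ]
  let e := Fintype.equivFinOfCardEq hcard
  refine ⟨fun h => e (c h, b (cj β k ((r (c h))⁻¹ * h))), ?_⟩
  intro h hh h' hh' heq j hj
  have h1 := e.injective heq
  rw [Prod.mk.injEq] at h1
  obtain ⟨h2, h3⟩ := h1
  have h4 := hc h hh h' hh' h2
  rcases Nat.lt_or_ge j (k + 1) with hjk | hjk
  · exact h4 j (Nat.lt_succ_iff.mp hjk)
  · have hj' : j = k + 1 := le_antisymm hj hjk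
    subst hj'
    refine hstep h hh h' hh' h4 ?_
    rw [← h2] at h3
    have hr1 := hr (c h) h hh rfl
    have hp : cj β k ((r (c h))⁻¹ * h) ∈ Bd d := hc _ hr1.1 h hh hr1.2 k le_rfl
    have hp' : cj β k ((r (c h))⁻¹ * h') ∈ Bd d := hc _ hr1.1 h' hh' (hr1.2.trans h2) k le_rfl
    have h5 := hb _ hp _ hp' h3
    have hp2 : cj β k ((r (c h))⁻¹ * h) ∈ (Bd (1 / 2) : Set (G n)) := fun i j =>
      (hp i j).trans hd'
    have h6 := prod_close hC hp2 h5
    have h7 : (cj β k ((r (c h))⁻¹ * h))⁻¹ * cj β k ((r (c h))⁻¹ * h') = cj β k (h⁻¹ * h') := by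
      rw [← cj_inv, ← cj_mul]
      congr 1
      group
    rw [h7] at h6
    exact h6

theorem bad_step {β : Fin n → ℝ} {A d : ℝ} (hA0 : 0 ≤ A) (hA : ∀ i j, β j - β i ≤ A)
    (hd : 0 < d) {g : G n}
    (h : ∀ i j, |g.1 i j - (1 : Matrix (Fin n) (Fin n) ℝ) i j| ≤ d * Real.exp (-A)) :
    (da β)⁻¹ * g * da β ∈ Bd d := by
  intro i j
  have h1 := conj_da_apply β g i j
  rw [h1]
  by_cases hij : i = j
  · subst hij
    rw [sub_self, Real.exp_zero, one_mul]
    refine (h i i).trans ?_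
    calc d * Real.exp (-A) ≤ d * 1 :=
          mul_le_mul_of_nonneg_left (Real.exp_le_one_iff.mpr (by linarith only [hA0])) hd.le
      _ = d := mul_one d
  · have h2 := h i j
    rw [Matrix.one_apply_ne hij, sub_zero] at h2 ⊢
    rw [abs_mul, abs_of_pos (Real.exp_pos _)]
    calc Real.exp (β j - β i) * |g.1 i j| ≤ Real.exp A * (d * Real.exp (-A)) :=
          mul_le_mul (Real.exp_le_exp.mpr (hA i j)) h2 (abs_nonneg _) (Real.exp_pos _).le
      _ = d * (Real.exp A * Real.exp (-A)) := by ring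
      _ = d := by rw [← Real.exp_add, add_neg_cancel, Real.exp_zero, mul_one]

theorem good_step {β : Fin n → ℝ} {A E d : ℝ} (hE0 : 0 ≤ E) (hA : ∀ i j, β j - β i ≤ A)
    (hd : 0 < d) {F : Set (Fin n × Fin n)} (hF : ∀ i j, i ≠ j → (i, j) ∈ F → β j - β i ≤ E)
    {g : G n} (h : ∀ i j, |g.1 i j - (1 : Matrix (Fin n) (Fin n) ℝ) i j| ≤ d * Real.exp (-E))
    (h' : ∀ i j, β i < β j → (i, j) ∉ F → |g.1 i j| ≤ d * Real.exp (-A)) :
    (da β)⁻¹ * g * da β ∈ Bd d := by
  intro i j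
  have h1 := conj_da_apply β g i j
  rw [h1]
  have h0 : d * Real.exp (-E) ≤ d := by
    calc d * Real.exp (-E) ≤ d * 1 :=
          mul_le_mul_of_nonneg_left (Real.exp_le_one_iff.mpr (by linarith only [hE0])) hd.le
      _ = d := mul_one d
  by_cases hij : i = j
  · subst hij
    rw [sub_self, Real.exp_zero, one_mul]
    exact (h i i).trans h0
  · have h2 := h i j
    rw [Matrix.one_apply_ne hij, sub_zero] at h2 ⊢
    rw [abs_mul, abs_of_pos (Real.exp_pos _)]
    rcases le_or_gt (β j) (β i) with h3 | h3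
    · calc Real.exp (β j - β i) * |g.1 i j| ≤ 1 * d :=
            mul_le_mul (Real.exp_le_one_iff.mpr (by linarith only [h3])) (h2.trans h0) (abs_nonneg _)
              zero_le_one
        _ = d := one_mul d
    · by_cases hf : (i, j) ∈ F
      · calc Real.exp (β j - β i) * |g.1 i j| ≤ Real.exp E * (d * Real.exp (-E)) :=
              mul_le_mul (Real.exp_le_exp.mpr (hF i j hij hf)) h2 (abs_nonneg _)
                (Real.exp_pos _).le
          _ = d * (Real.exp E * Real.exp (-E)) := by ring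
          _ = d := by rw [← Real.exp_add, add_neg_cancel, Real.exp_zero, mul_one]
      · calc Real.exp (β j - β i) * |g.1 i j| ≤ Real.exp A * (d * Real.exp (-A)) :=
              mul_le_mul (Real.exp_le_exp.mpr (hA i j)) (h' i j h3 hf) (abs_nonneg _)
                (Real.exp_pos _).le
          _ = d * (Real.exp A * Real.exp (-A)) := by ring
          _ = d := by rw [← Real.exp_add, add_neg_cancel, Real.exp_zero, mul_one]

end Vale.Agent.P007.R.Names
end
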