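import Vale.Agent.P007.Bdl.B11
import Vale.Agent.P007.Bdl.B10

section

/-!
Names lemma (III.6): compactness, covering, frequency of good times.
-/

set_option autoImplicit false

open MeasureTheory Matrix Filter Topology ProbabilityTheory
open scoped ENNReal

namespace Vale.Agent.P007.R.Names

open Vale.Agent.P007 Vale.Agent.P007.Koopman Vale.Agent.P007.Mautner Vale.Agent.P007.R

variable {n : ℕ}

/-- Claim 1: displacements inside `K` with small contracted entries have small trivial expanded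
entries. -/
theorem claim1 {K : Set (X n)} (hK : IsCompact K) {β : Fin n → ℝ} {F : Set (Fin n × Fin n)}
    (hX : ∀ x ∈ K, ∀ h : G n, tr h x ∈ K → (∀ i, 0 < h.1 i i) →
      (∀ i j, β j < β i → h.1 i j = 0) → ∀ i j, β i < β j → (i, j) ∉ F → h.1 i j = 0)
    {η : ℝ} (hη : 0 < η) :
    ∃ ε : ℝ, 0 < ε ∧ ∀ x ∈ K, ∀ h ∈ (Bd (1 / 2) : Set (G n)), tr h x ∈ K →
      (∀ i j, β j < β i → |h.1 i j| ≤ ε) → ∀ i j, β i < β j → (i, j) ∉ F → |h.1 i j| ≤ η := by
  classical
  let S : Set (X n × G n) := (K ×ˢ (Bd (1 / 2) : Set (G n))) ∩ ({p | tr p.2 p.1 ∈ K} ∩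
    ⋃ i : Fin n, ⋃ j : Fin n, {p | (β i < β j ∧ (i, j) ∉ F) ∧ η ≤ |p.2.1 i j|})
  have hcl : IsClosed ({p : X n × G n | tr p.2 p.1 ∈ K} ∩
      ⋃ i : Fin n, ⋃ j : Fin n, {p | (β i < β j ∧ (i, j) ∉ F) ∧ η ≤ |p.2.1 i j|}) := by
    refine IsClosed.inter (hK.isClosed.preimage continuous_tr_uncurry) ?_
    refine isClosed_iUnion_of_finite fun i => isClosed_iUnion_of_finite fun j => ?_
    by_cases hij : β i < β j ∧ (i, j) ∉ F
    · have : {p : X n × G n | (β i < β j ∧ (i, j) ∉ F) ∧ η ≤ |p.2.1 i j|} =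
        {p : X n × G n | η ≤ |p.2.1 i j|} := by
        ext p; exact ⟨fun h => h.2, fun h => ⟨hij, h⟩⟩
      rw [this]
      exact isClosed_le continuous_const (((continuous_entry i j).comp continuous_snd).abs)
    · have : {p : X n × G n | (β i < β j ∧ (i, j) ∉ F) ∧ η ≤ |p.2.1 i j|} = ∅ := by
        ext p; exact ⟨fun h => hij h.1, fun h => h.elim⟩
      rw [this]
      exact isClosed_empty
  have hSc : IsCompact S := (hK.prod (isCompact_Bd (1 / 2))).inter_right hcl
  let f : X n × G n → ℝ := fun p => ∑ i, ∑ j, if β j < β i then |p.2.1 i j| else 0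
  have hf : Continuous f := by
    refine continuous_finsetSum _ fun i _ => continuous_finsetSum _ fun j _ => ?_
    by_cases hij : β j < β i
    · simp only [hij, if_true]
      exact ((continuous_entry i j).comp continuous_snd).abs
    · simp only [hij, if_false]
      exact continuous_const
  have hfnn : ∀ p, 0 ≤ f p := fun p => Finset.sum_nonneg fun i _ => Finset.sum_nonneg fun j _ => by
    split_ifs
    · exact abs_nonneg _
    · exact le_rfl
  rcases S.eq_empty_or_nonempty with hS | hS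
  · refine ⟨1, one_pos, fun x hx h hh hxh _ i j hij hF => ?_⟩
    by_contra hcon
    rw [not_le] at hcon
    have : (x, h) ∈ S := ⟨⟨hx, hh⟩, hxh, Set.mem_iUnion.mpr ⟨i, Set.mem_iUnion.mpr
      ⟨j, ⟨hij, hF⟩, hcon.le⟩⟩⟩
    rw [hS] at this
    exact this
  · obtain ⟨p, hp, hmin⟩ := hSc.exists_isMinOn hS hf.continuousOn
    have hpos : 0 < f p := by
      refine lt_of_le_of_ne (hfnn p) fun h0 => ?_
      obtain ⟨⟨hp1, hp2⟩, hp3, hp4⟩ := hp
      obtain ⟨i, hi⟩ := Set.mem_iUnion.mp hp4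
      obtain ⟨j, hj⟩ := Set.mem_iUnion.mp hi
      obtain ⟨⟨hij, hF⟩, hη'⟩ := hj
      have hz : ∀ i j, β j < β i → p.2.1 i j = 0 := by
        intro i' j' hij'
        have h1 := (Finset.sum_eq_zero_iff_of_nonneg (fun i _ => Finset.sum_nonneg fun j _ => by
          split_ifs
          · exact abs_nonneg _
          · exact le_rfl)).mp h0.symm i' (Finset.mem_univ _)
        have h2 := (Finset.sum_eq_zero_iff_of_nonneg (fun j _ => by
          split_ifs
          · exact abs_nonneg _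
          · exact le_rfl)).mp h1 j' (Finset.mem_univ _)
        rw [if_pos hij'] at h2
        exact abs_eq_zero.mp h2
      have hdiag : ∀ i, 0 < p.2.1 i i := by
        intro i'
        have h1 := abs_le.mp (hp2 i' i')
        rw [Matrix.one_apply_eq] at h1
        linarith [h1.1]
      have h3 := hX p.1 hp1 p.2 hp3 hdiag hz i j hij hF
      rw [h3, abs_zero] at hη'
      linarith
    refine ⟨f p / (n * n + 1), by (clear * - hpos; positivity), fun x hx h hh hxh hsm i j hij hF => ?_⟩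
    by_contra hcon
    rw [not_le] at hcon
    have h1 : (x, h) ∈ S := ⟨⟨hx, hh⟩, hxh, Set.mem_iUnion.mpr ⟨i, Set.mem_iUnion.mpr
      ⟨j, ⟨hij, hF⟩, hcon.le⟩⟩⟩
    have h2 : f p ≤ f (x, h) := hmin h1
    have h3 : f (x, h) ≤ ∑ _i : Fin n, ∑ _j : Fin n, f p / (n * n + 1) := by
      refine Finset.sum_le_sum fun i _ => Finset.sum_le_sum fun j _ => ?_
      split_ifs with h4
      · exact hsm i j h4
      · (clear * - hpos; positivity)
    rw [Finset.sum_const, Finset.sum_const, Finset.card_univ, Fintype.card_fin, nsmul_eq_mul,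
      nsmul_eq_mul] at h3
    have h5 : (n : ℝ) * (n * (f p / (n * n + 1))) < f p := by
      have h6 : (n : ℝ) * (n * (f p / (n * n + 1))) = f p * ((n * n) / (n * n + 1)) := by
        (clear * - hpos; field_simp)
      rw [h6]
      have h7 : ((n : ℝ) * n) / (n * n + 1) < 1 := by
        rw [div_lt_one (by (clear * -; positivity))]
        linarith only []
      calc f p * ((n * n) / (n * n + 1)) < f p * 1 := mul_lt_mul_of_pos_left h7 hpos
        _ = f p := mul_one _
    linarith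

theorem Bd_mem_nhds {d : ℝ} (hd : 0 < d) : (Bd d : Set (G n)) ∈ 𝓝 (1 : G n) := by
  have h1 : (⋂ i : Fin n, ⋂ j : Fin n,
      {h : G n | |h.1 i j - (1 : Matrix (Fin n) (Fin n) ℝ) i j| ≤ d}) ⊆ (Bd d : Set (G n)) := by
    intro h hh i j
    exact Set.mem_iInter.mp (Set.mem_iInter.mp hh i) j
  refine Filter.mem_of_superset (Filter.iInter_mem.mpr fun i => Filter.iInter_mem.mpr fun j => ?_) h1
  have h2 : Continuous fun h : G n => |h.1 i j - (1 : Matrix (Fin n) (Fin n) ℝ) i j| :=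
    ((continuous_entry i j).sub continuous_const).abs
  have h3 := h2.tendsto 1
  have h4 : |(1 : G n).1 i j - (1 : Matrix (Fin n) (Fin n) ℝ) i j| = 0 := by
    rw [Matrix.SpecialLinearGroup.coe_one, sub_self, abs_zero]
  rw [h4] at h3
  exact h3 (Iic_mem_nhds hd)

theorem exists_nhds_inv_mul {d : ℝ} (hd : 0 < d) :
    ∃ V ∈ 𝓝 (1 : G n), ∀ h ∈ V, ∀ h' ∈ V, h⁻¹ * h' ∈ (Bd d : Set (G n)) := by
  have h1 : Tendsto (fun p : G n × G n => p.1⁻¹ * p.2) (𝓝 ((1 : G n), (1 : G n))) (𝓝 (1 : G n)) := by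
    have h2 : Continuous (fun p : G n × G n => p.1⁻¹ * p.2) := by fun_prop
    have := h2.tendsto ((1 : G n), (1 : G n))
    rwa [inv_mul_cancel] at this
  have h3 := h1 (Bd_mem_nhds hd)
  rw [Filter.mem_map, nhds_prod_eq, Filter.mem_prod_same_iff] at h3
  obtain ⟨V, hV, hVU⟩ := h3
  refine ⟨V, hV, fun h hh h' hh' => ?_⟩
  have h4 : (h, h') ∈ (fun p : G n × G n => p.1⁻¹ * p.2) ⁻¹' (Bd d) :=
    hVU (Set.mk_mem_prod hh hh')
  exact h4

theorem image_mem_nhds {V : Set (G n)} (hV : V ∈ 𝓝 (1 : G n)) (x0 : X n) :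
    (fun h : G n => tr h x0) '' V ∈ 𝓝 x0 := by
  obtain ⟨g, rfl⟩ := pt_surjective x0
  obtain ⟨V', hV'V, hV'o, hV'1⟩ := mem_nhds_iff.mp hV
  have h6 : IsOpen ((pt : G n → X n) '' ((fun h => g * h) '' V')) :=
    isOpenQuotientMap_pt.isOpenMap _ ((Homeomorph.mulLeft g).isOpenMap _ hV'o)
  rw [← Set.image_comp] at h6
  refine Filter.mem_of_superset (h6.mem_nhds ⟨1, hV'1, ?_⟩) (Set.image_mono hV'V)
  change pt (g * 1) = pt g
  rw [mul_one]

/-- finite cover of a compact set by small orbits pieces -/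
theorem exists_cover {K : Set (X n)} (hK : IsCompact K) {d : ℝ} (hd : 0 < d) :
    ∃ (V : Set (G n)) (s : Finset (X n)), (∀ h ∈ V, ∀ h' ∈ V, h⁻¹ * h' ∈ (Bd d : Set (G n))) ∧
      ∀ x ∈ K, ∃ x0 ∈ s, ∃ h ∈ V, x = tr h x0 := by
  obtain ⟨V, hV, hVV⟩ := exists_nhds_inv_mul (n := n) hd
  obtain ⟨s, -, hs⟩ := hK.elim_nhds_subcover (fun x0 => (fun h : G n => tr h x0) '' V)
    (fun x0 _ => image_mem_nhds hV x0)
  refine ⟨V, s, hVV, fun x hx => ?_⟩
  obtain ⟨x0, hx0, h, hh, hxh⟩ := Set.mem_iUnion₂.mp (hs hx)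
  exact ⟨x0, hx0, h, hh, hxh.symm⟩

/-- bad times -/
noncomputable def bad (K : Set (X n)) (β : Fin n → ℝ) (N : ℕ) (x : X n) : Finset ℕ := by
  classical exact (Finset.range N).filter fun k => tr (da β ^ k) x ∉ K

theorem mem_bad {K : Set (X n)} {β : Fin n → ℝ} {N : ℕ} {x : X n} {k : ℕ} :
    k ∈ bad K β N x ↔ k < N ∧ tr (da β ^ k) x ∉ K := by
  classical
  unfold bad
  rw [Finset.mem_filter, Finset.mem_range]

/-- the set of points with few bad times has large measure -/
theorem good_measure (μ : Measure (X n)) [IsProbabilityMeasure μ] (hA : AInv μ) (β : Fin n → ℝ)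
    {K : Set (X n)} (hK : IsCompact K) {δ : ℝ} (hδ : 0 < δ) (hδ1 : δ ≤ 1)
    (hμK : μ Kᶜ ≤ ENNReal.ofReal (δ / 8)) (N : ℕ) :
    1 / 2 ≤ μ {x | x ∈ K ∧ tr (da β ^ N) x ∈ K ∧ ((bad K β N x).card : ℝ) ≤ δ * N} := by
  classical
  have hT := mp_of_map (hA β)
  have hKm : MeasurableSet Kᶜ := hK.measurableSet.compl
  have hδ0 : ENNReal.ofReal δ ≠ 0 := by
    rw [Ne, ENNReal.ofReal_eq_zero, not_le]; exact hδ
  have h1 := maximal_visits hT hKm (ENNReal.ofReal δ) hδ0
  have h2 : μ {x | tr (da β ^ N) x ∉ K} = μ Kᶜ := by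
    have h3 := (hT.iterate N).measure_preimage hKm.nullMeasurableSet
    rw [← h3]
    congr 1
    ext x
    simp only [Set.mem_preimage, Set.mem_compl_iff]
    rw [iterate_tr]
    rfl
  have h3 : {x | x ∈ K ∧ tr (da β ^ N) x ∈ K ∧ ((bad K β N x).card : ℝ) ≤ δ * N}ᶜ ⊆
      Kᶜ ∪ {x | tr (da β ^ N) x ∉ K} ∪ {x | ∃ N : ℕ, 0 < N ∧ ENNReal.ofReal δ * N <
        ({k ∈ Set.Ico 0 N | (tr (da β))^[k] x ∈ Kᶜ} : Set ℕ).ncard} := by
    intro x hx
    by_cases hx1 : x ∈ K
    · by_cases hx2 : tr (da β ^ N) x ∈ K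
      · right
        have hx3 : ¬ ((bad K β N x).card : ℝ) ≤ δ * N := fun h => hx ⟨hx1, hx2, h⟩
        rw [not_le] at hx3
        have hN : 0 < N := by
          rcases Nat.eq_zero_or_pos N with h0 | h0
          · subst h0
            exfalso
            have h4 : bad K β 0 x = ∅ := by
              ext k
              rw [mem_bad]
              simp
            rw [h4] at hx3
            simp at hx3
          · exact h0
        refine ⟨N, hN, ?_⟩
        have h5 : ({k ∈ Set.Ico 0 N | (tr (da β))^[k] x ∈ Kᶜ} : Set ℕ) =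
            ((bad K β N x : Finset ℕ) : Set ℕ) := by
          ext k
          rw [Finset.mem_coe, mem_bad]
          constructor
          · rintro ⟨h6, h7⟩
            rw [iterate_tr] at h7
            exact ⟨h6.2, h7⟩
          · rintro ⟨h6, h7⟩
            refine ⟨⟨Nat.zero_le _, h6⟩, ?_⟩
            rw [iterate_tr]
            exact h7
        rw [h5, Set.ncard_coe_finset, ← ENNReal.ofReal_natCast N, ← ENNReal.ofReal_mul hδ.le,
          ← ENNReal.ofReal_natCast (bad K β N x).card]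
        exact (ENNReal.ofReal_lt_ofReal_iff (lt_of_le_of_lt (by positivity) hx3)).mpr hx3
      · exact Or.inl (Or.inr hx2)
    · exact Or.inl (Or.inl hx1)
  have h4 : μ {x | x ∈ K ∧ tr (da β ^ N) x ∈ K ∧ ((bad K β N x).card : ℝ) ≤ δ * N}ᶜ ≤ 1 / 2 := by
    calc μ {x | x ∈ K ∧ tr (da β ^ N) x ∈ K ∧ ((bad K β N x).card : ℝ) ≤ δ * N}ᶜ
        ≤ μ Kᶜ + μ {x | tr (da β ^ N) x ∉ K} + μ {x | ∃ N : ℕ, 0 < N ∧ ENNReal.ofReal δ * N <
        ({k ∈ Set.Ico 0 N | (tr (da β))^[k] x ∈ Kᶜ} : Set ℕ).ncard} :=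
          (measure_mono h3).trans ((measure_union_le _ _).trans
            (add_le_add (measure_union_le _ _) le_rfl))
      _ ≤ ENNReal.ofReal (δ / 8) + ENNReal.ofReal (δ / 8) +
          ENNReal.ofReal (δ / 8) / ENNReal.ofReal δ := by
          refine add_le_add (add_le_add hμK (h2.trans_le hμK)) (h1.trans ?_)
          exact ENNReal.div_le_div_right hμK _
      _ = ENNReal.ofReal (δ / 8 + δ / 8 + (δ / 8) / δ) := by
          rw [← ENNReal.ofReal_div_of_pos hδ, ← ENNReal.ofReal_add (by positivity) (by positivity),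
            ← ENNReal.ofReal_add (by positivity) (by positivity)]
      _ ≤ ENNReal.ofReal (1 / 2) := by
          refine ENNReal.ofReal_le_ofReal ?_
          have : (δ / 8) / δ = 1 / 8 := by field_simp
          rw [this]
          linarith only [hδ1]
      _ = 1 / 2 := by
          rw [ENNReal.ofReal_div_of_pos (by norm_num)]
          simp
  have h5 : (1 : ℝ≥0∞) ≤ μ {x | x ∈ K ∧ tr (da β ^ N) x ∈ K ∧
      ((bad K β N x).card : ℝ) ≤ δ * N} + 1 / 2 := by
    calc (1 : ℝ≥0∞) = μ Set.univ := measure_univ.symm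
      _ ≤ μ {x | x ∈ K ∧ tr (da β ^ N) x ∈ K ∧ ((bad K β N x).card : ℝ) ≤ δ * N} +
          μ {x | x ∈ K ∧ tr (da β ^ N) x ∈ K ∧ ((bad K β N x).card : ℝ) ≤ δ * N}ᶜ := by
          rw [← Set.union_compl_self {x | x ∈ K ∧ tr (da β ^ N) x ∈ K ∧
            ((bad K β N x).card : ℝ) ≤ δ * N}]
          exact measure_union_le _ _
      _ ≤ _ := add_le_add le_rfl h4
  have h6 : (1 : ℝ≥0∞) / 2 + 1 / 2 = 1 := ENNReal.add_halves 1
  have h7 : (1 : ℝ≥0∞) / 2 ≠ ∞ := by simp
  exact (ENNReal.add_le_add_iff_right h7).mp (h6.trans_le h5)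

end Vale.Agent.P007.R.Names
end

section

/-!
Names lemma (III.6): iteration and counting.
-/

set_option autoImplicit false

open MeasureTheory Matrix Filter Topology ProbabilityTheory
open scoped ENNReal

namespace Vale.Agent.P007.R.Names

open Vale.Agent.P007 Vale.Agent.P007.Koopman Vale.Agent.P007.Mautner Vale.Agent.P007.R

variable {n : ℕ}

open Classical in
/-- number of pieces at time `j` -/
noncomputable def wgt (n : ℕ) (Z : Finset ℕ) (k0 qg qb j : ℕ) : ℕ :=
  if j ∈ Z ∨ j < k0 then (qb + 1) ^ (n * n) else (qg + 1) ^ (n * n)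

theorem prod_wgt_le (n : ℕ) (Z : Finset ℕ) (k0 qg qb N : ℕ) :
    ∏ j ∈ Finset.range N, wgt n Z k0 qg qb j ≤
      (qg + 1) ^ (n * n * N) * (qb + 1) ^ (n * n * (Z.card + k0)) := by
  classical
  have h1 : ∀ j, wgt n Z k0 qg qb j ≤
      (qg + 1) ^ (n * n) * (if j ∈ Z ∨ j < k0 then (qb + 1) ^ (n * n) else 1) := by
    intro j
    unfold wgt
    split_ifs with h
    · exact Nat.le_mul_of_pos_left _ (by positivity)
    · rw [mul_one]
  calc ∏ j ∈ Finset.range N, wgt n Z k0 qg qb j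
      ≤ ∏ j ∈ Finset.range N,
        ((qg + 1) ^ (n * n) * (if j ∈ Z ∨ j < k0 then (qb + 1) ^ (n * n) else 1)) :=
        Finset.prod_le_prod' fun j _ => h1 j
    _ = (qg + 1) ^ (n * n * N) *
        ((qb + 1) ^ (n * n)) ^ ((Finset.range N).filter fun j => j ∈ Z ∨ j < k0).card := by
        rw [Finset.prod_mul_distrib, Finset.prod_const, Finset.card_range, ← pow_mul,
          Finset.prod_ite, Finset.prod_const, Finset.prod_const_one, mul_one]
    _ ≤ (qg + 1) ^ (n * n * N) * (qb + 1) ^ (n * n * (Z.card + k0)) := by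
        refine Nat.mul_le_mul_left _ ?_
        rw [← pow_mul]
        refine Nat.pow_le_pow_right (Nat.succ_pos _) (Nat.mul_le_mul_left _ ?_)
        calc ((Finset.range N).filter fun j => j ∈ Z ∨ j < k0).card
            ≤ (Z ∪ Finset.range k0).card := by
              refine Finset.card_le_card fun j hj => ?_
              rw [Finset.mem_filter] at hj
              rw [Finset.mem_union, Finset.mem_range]
              exact hj.2
          _ ≤ Z.card + (Finset.range k0).card := Finset.card_union_le _ _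
          _ = Z.card + k0 := by rw [Finset.card_range]

/-- data for the counting argument -/
structure Data (β : Fin n → ℝ) (K : Set (X n)) (F : Set (Fin n × Fin n)) where
  C : ℝ
  A : ℝ
  E : ℝ
  d : ℝ
  γ : ℝ
  ε : ℝ
  k0 : ℕ
  qg : ℕ
  qb : ℕ
  hC : ∀ p ∈ (Bd (1 / 2) : Set (G n)), ∀ i j, |(p⁻¹ : G n).1 i j| ≤ C
  hA0 : 0 ≤ A
  hA : ∀ i j, β j - β i ≤ A
  hE0 : 0 ≤ E
  hE : ∀ i j, i ≠ j → (i, j) ∈ F → β j - β i ≤ E
  hd : 0 < d
  hd' : d ≤ 1 / 2
  hγ0 : 0 < γ
  hγ : ∀ i j, β j < β i → γ ≤ β i - β j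
  claim : ∀ x ∈ K, ∀ h ∈ (Bd (1 / 2) : Set (G n)), tr h x ∈ K →
      (∀ i j, β j < β i → |h.1 i j| ≤ ε) → ∀ i j, β i < β j → (i, j) ∉ F →
      |h.1 i j| ≤ d * Real.exp (-A)
  hk0 : d * Real.exp (-(k0 * γ)) ≤ ε
  hqg : 0 < qg
  hqb : 0 < qb
  hqg' : n * C * (2 * d / qg) ≤ d * Real.exp (-E)
  hqb' : n * C * (2 * d / qb) ≤ d * Real.exp (-A)

theorem Data.iter {β : Fin n → ℝ} {K : Set (X n)} {F : Set (Fin n × Fin n)} (T : Data β K F)
    {N : ℕ} {Z : Finset ℕ} {D : Set (G n)} {x0 : X n}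
    (hD : ∀ h ∈ D, ∀ h' ∈ D, h⁻¹ * h' ∈ (Bd T.d : Set (G n)))
    (hDK : ∀ h ∈ D, ∀ k < N, k ∉ Z → tr (h * da β ^ k) x0 ∈ K) :
    ∀ k ≤ N, ∃ c : G n → Fin (∏ j ∈ Finset.range k, wgt n Z T.k0 T.qg T.qb j),
      ∀ h ∈ D, ∀ h' ∈ D, c h = c h' → ∀ j ≤ k, cj β j (h⁻¹ * h') ∈ Bd T.d := by
  intro k
  induction k with
  | zero =>
    intro _
    rw [Finset.range_zero, Finset.prod_empty]
    refine ⟨fun _ => 0, fun h hh h' hh' _ j hj => ?_⟩
    rw [Nat.le_zero.mp hj, cj_zero]
    exact hD h hh h' hh'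
  | succ k ih =>
    intro hk
    have ih' := ih (by omega)
    rw [Finset.prod_range_succ]
    by_cases hb : k ∈ Z ∨ k < T.k0
    · have hw : wgt n Z T.k0 T.qg T.qb k = (T.qb + 1) ^ (n * n) := by
        unfold wgt; rw [if_pos hb]
      rw [hw]
      refine color_step T.hC T.hd T.hd' ih' T.hqb fun h hh h' hh' _ hcl => ?_
      rw [cj_succ]
      exact bad_step T.hA0 T.hA T.hd fun i j => (hcl i j).trans T.hqb'
    · have hw : wgt n Z T.k0 T.qg T.qb k = (T.qg + 1) ^ (n * n) := by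
        unfold wgt; rw [if_neg hb]
      rw [hw]
      rw [not_or, not_lt] at hb
      refine color_step T.hC T.hd T.hd' ih' T.hqg fun h hh h' hh' hprev hcl => ?_
      rw [cj_succ]
      refine good_step T.hE0 T.hA T.hd T.hE (fun i j => (hcl i j).trans T.hqg') ?_
      have hx : tr (h * da β ^ k) x0 ∈ K := hDK h hh k (by omega) hb.1
      have hx' : tr (cj β k (h⁻¹ * h')) (tr (h * da β ^ k) x0) ∈ K := by
        rw [tr_tr]
        have h1 : h * da β ^ k * cj β k (h⁻¹ * h') = h' * da β ^ k := by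
          unfold cj; group
        rw [h1]
        exact hDK h' hh' k (by omega) hb.1
      refine T.claim _ hx _ (fun i j => (hprev k le_rfl i j).trans T.hd') hx' ?_
      intro i j hij
      have h2 := hprev 0 (Nat.zero_le _) i j
      have hne : i ≠ j := fun h0 => by rw [h0] at hij; exact lt_irrefl _ hij
      rw [cj_zero, Matrix.one_apply_ne hne, sub_zero] at h2
      rw [cj_apply, abs_mul, abs_of_pos (Real.exp_pos _)]
      have h3 : Real.exp (k * (β j - β i)) ≤ Real.exp (-(T.k0 * T.γ)) := by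
        refine Real.exp_le_exp.mpr ?_
        have h4 := T.hγ i j hij
        have h5 : (T.k0 : ℝ) ≤ k := by exact_mod_cast hb.2
        have h6 : (T.k0 : ℝ) * T.γ ≤ k * (β i - β j) :=
          mul_le_mul h5 h4 T.hγ0.le (Nat.cast_nonneg _)
        linarith only [h6]
      calc Real.exp (k * (β j - β i)) * |(h⁻¹ * h' : G n).1 i j|
          ≤ Real.exp (-(T.k0 * T.γ)) * T.d := mul_le_mul h3 h2 (abs_nonneg _) (Real.exp_pos _).le
        _ = T.d * Real.exp (-(T.k0 * T.γ)) := mul_comm _ _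
        _ ≤ T.ε := T.hk0

theorem Data.cover {β : Fin n → ℝ} {K : Set (X n)} {F : Set (Fin n × Fin n)} (T : Data β K F)
    {N : ℕ} {Z : Finset ℕ} {D : Set (G n)} {x0 : X n}
    (hD : ∀ h ∈ D, ∀ h' ∈ D, h⁻¹ * h' ∈ (Bd T.d : Set (G n)))
    (hDK : ∀ h ∈ D, ∀ k < N, k ∉ Z → tr (h * da β ^ k) x0 ∈ K)
    (hDK' : ∀ h ∈ D, tr h x0 ∈ K ∧ tr (da β ^ N) (tr h x0) ∈ K) :
    ∃ P : Finset (X n), (∀ y ∈ P, y ∈ K ∧ tr (da β ^ N) y ∈ K) ∧
      P.card ≤ (T.qg + 1) ^ (n * n * N) * (T.qb + 1) ^ (n * n * (Z.card + T.k0)) ∧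
      ∀ h ∈ D, ∃ y ∈ P, tr h x0 ∈ Bow β N T.d y := by
  classical
  obtain ⟨c, hc⟩ := T.iter hD hDK N le_rfl
  have hrep : ∀ s, ∃ r : G n, ∀ h ∈ D, c h = s → r ∈ D ∧ c r = s := by
    intro s
    by_cases hs : ∃ h ∈ D, c h = s
    · obtain ⟨r, hr, hrs⟩ := hs
      exact ⟨r, fun _ _ _ => ⟨hr, hrs⟩⟩
    · exact ⟨1, fun h hh hhs => absurd ⟨h, hh, hhs⟩ hs⟩
  choose r hr using hrep
  refine ⟨(Finset.univ.filter fun s => ∃ h ∈ D, c h = s).image fun s => tr (r s) x0, ?_, ?_, ?_⟩
  · intro y hy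
    rw [Finset.mem_image] at hy
    obtain ⟨s, hs, rfl⟩ := hy
    rw [Finset.mem_filter] at hs
    obtain ⟨-, h, hh, hhs⟩ := hs
    exact hDK' _ (hr s h hh hhs).1
  · refine (Finset.card_image_le.trans ((Finset.card_filter_le _ _).trans ?_)).trans
      (prod_wgt_le n Z T.k0 T.qg T.qb N)
    rw [Finset.card_univ, Fintype.card_fin]
  · intro h hh
    have h1 := hr (c h) h hh rfl
    refine ⟨tr (r (c h)) x0, ?_, (r (c h))⁻¹ * h, ?_, ?_⟩
    · rw [Finset.mem_image]
      exact ⟨c h, Finset.mem_filter.mpr ⟨Finset.mem_univ _, h, hh, rfl⟩, rfl⟩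
    · rw [tr_tr, mul_inv_cancel_left]
    · intro k hk
      exact hc _ h1.1 h hh h1.2 k hk

/-- the cover of the good set -/
theorem Data.cover_all {β : Fin n → ℝ} {K : Set (X n)} {F : Set (Fin n × Fin n)} (T : Data β K F)
    {V : Set (G n)} {s : Finset (X n)} (hV : ∀ h ∈ V, ∀ h' ∈ V, h⁻¹ * h' ∈ (Bd T.d : Set (G n)))
    (hs : ∀ x ∈ K, ∃ x0 ∈ s, ∃ h ∈ V, x = tr h x0) (N L : ℕ) :
    ∃ P : Finset (X n), (∀ y ∈ P, y ∈ K ∧ tr (da β ^ N) y ∈ K) ∧
      P.card ≤ s.card * (2 ^ N * ((T.qg + 1) ^ (n * n * N) * (T.qb + 1) ^ (n * n * (L + T.k0)))) ∧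
      {x | x ∈ K ∧ tr (da β ^ N) x ∈ K ∧ (bad K β N x).card ≤ L} ⊆ ⋃ y ∈ P, Bow β N T.d y := by
  classical
  let D : X n → Finset ℕ → Set (G n) := fun x0 Z => {h | h ∈ V ∧ tr h x0 ∈ K ∧
    tr (da β ^ N) (tr h x0) ∈ K ∧ ∀ k < N, k ∉ Z → tr (h * da β ^ k) x0 ∈ K}
  have hP : ∀ x0 Z, ∃ P : Finset (X n), (∀ y ∈ P, y ∈ K ∧ tr (da β ^ N) y ∈ K) ∧
      P.card ≤ (T.qg + 1) ^ (n * n * N) * (T.qb + 1) ^ (n * n * (Z.card + T.k0)) ∧
      ∀ h ∈ D x0 Z, ∃ y ∈ P, tr h x0 ∈ Bow β N T.d y := fun x0 Z =>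
    T.cover (fun h hh h' hh' => hV h hh.1 h' hh'.1) (fun h hh => hh.2.2.2)
      (fun h hh => ⟨hh.2.1, hh.2.2.1⟩)
  choose P hP1 hP2 hP3 using hP
  refine ⟨s.biUnion fun x0 => ((Finset.range N).powerset.filter fun Z => Z.card ≤ L).biUnion
    fun Z => P x0 Z, ?_, ?_, ?_⟩
  · intro y hy
    rw [Finset.mem_biUnion] at hy
    obtain ⟨x0, -, hy⟩ := hy
    rw [Finset.mem_biUnion] at hy
    obtain ⟨Z, -, hy⟩ := hy
    exact hP1 x0 Z y hy
  · refine Finset.card_biUnion_le_card_mul _ _ _ fun x0 _ => ?_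
    refine (Finset.card_biUnion_le_card_mul _ _
      ((T.qg + 1) ^ (n * n * N) * (T.qb + 1) ^ (n * n * (L + T.k0))) fun Z hZ => ?_).trans ?_
    · refine (hP2 x0 Z).trans (Nat.mul_le_mul_left _ (Nat.pow_le_pow_right (Nat.succ_pos _)
        (Nat.mul_le_mul_left _ (Nat.add_le_add_right (Finset.mem_filter.mp hZ).2 _))))
    · refine Nat.mul_le_mul_right _ ((Finset.card_filter_le _ _).trans ?_)
      rw [Finset.card_powerset, Finset.card_range]
  · rintro x ⟨hx1, hx2, hx3⟩
    obtain ⟨x0, hx0, h, hh, rfl⟩ := hs x hx1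
    have h1 : h ∈ D x0 (bad K β N (tr h x0)) := by
      refine ⟨hh, hx1, hx2, fun k hk hkZ => ?_⟩
      by_contra hcon
      exact hkZ (mem_bad.mpr ⟨hk, by rw [tr_tr]; exact hcon⟩)
    obtain ⟨y, hy, hy'⟩ := hP3 _ _ h h1
    refine Set.mem_iUnion₂.mpr ⟨y, ?_, hy'⟩
    refine Finset.mem_biUnion.mpr ⟨x0, hx0, Finset.mem_biUnion.mpr ⟨_, ?_, hy⟩⟩
    refine Finset.mem_filter.mpr ⟨Finset.mem_powerset.mpr fun k hk => ?_, hx3⟩
    exact Finset.mem_range.mpr (mem_bad.mp hk).1

end Vale.Agent.P007.R.Names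
end

section

/-!
Names lemma (III.6): choice of constants.
-/

set_option autoImplicit false

open MeasureTheory Matrix Filter Topology ProbabilityTheory
open scoped ENNReal

namespace Vale.Agent.P007.R.Names

open Vale.Agent.P007 Vale.Agent.P007.Koopman Vale.Agent.P007.Mautner Vale.Agent.P007.R

variable {n : ℕ}

theorem exists_gap (β : Fin n → ℝ) : ∃ γ : ℝ, 0 < γ ∧ ∀ i j, β j < β i → γ ≤ β i - β j := by
  classical
  let S : Finset (Fin n × Fin n) := Finset.univ.filter fun p => β p.2 < β p.1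
  rcases S.eq_empty_or_nonempty with hS | hS
  · refine ⟨1, one_pos, fun i j hij => ?_⟩
    have : (i, j) ∈ S := Finset.mem_filter.mpr ⟨Finset.mem_univ _, hij⟩
    rw [hS] at this
    exact absurd this (Finset.notMem_empty _)
  · obtain ⟨p, hp, hmin⟩ := S.exists_min_image (fun p => β p.1 - β p.2) hS
    refine ⟨β p.1 - β p.2, sub_pos.mpr (Finset.mem_filter.mp hp).2, fun i j hij => ?_⟩
    exact hmin (i, j) (Finset.mem_filter.mpr ⟨Finset.mem_univ _, hij⟩)

theorem exists_width (β : Fin n → ℝ) : ∃ A : ℝ, 0 ≤ A ∧ ∀ i j, β j - β i ≤ A := by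
  refine ⟨∑ i, ∑ j, |β j - β i|, Finset.sum_nonneg fun i _ => Finset.sum_nonneg fun j _ =>
    abs_nonneg _, fun i j => ?_⟩
  have h2 : |β j - β i| ≤ ∑ i, ∑ j, |β j - β i| :=
    (Finset.single_le_sum (f := fun j => |β j - β i|) (fun j _ => abs_nonneg _)
      (Finset.mem_univ j)).trans
      (Finset.single_le_sum (f := fun i => ∑ j, |β j - β i|)
        (fun i _ => Finset.sum_nonneg fun j _ => abs_nonneg _) (Finset.mem_univ i))
  exact (le_abs_self _).trans h2

theorem close_of_q {C d E : ℝ} (hd : 0 < d) {q : ℕ} (hq : 0 < q)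
    (h : 2 * (n * C) * Real.exp E ≤ q) : n * C * (2 * d / q) ≤ d * Real.exp (-E) := by
  have hq' : (0 : ℝ) < q := by exact_mod_cast hq
  have h1 : 2 * (n * C) ≤ q * Real.exp (-E) := by
    have h2 := mul_le_mul_of_nonneg_right h (Real.exp_pos (-E)).le
    rwa [mul_assoc, ← Real.exp_add, add_neg_cancel, Real.exp_zero, mul_one] at h2
  calc n * C * (2 * d / q) = d * (2 * (n * C)) / q := by ring
    _ ≤ d * (q * Real.exp (-E)) / q := by
        refine div_le_div_of_nonneg_right (mul_le_mul_of_nonneg_left h1 hd.le) hq'.le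
    _ = d * Real.exp (-E) := by field_simp

theorem log_q_le {B E : ℝ} (hB : 0 ≤ B) (hE : 0 ≤ E) :
    Real.log ((⌈B * Real.exp E⌉₊ + 1 : ℕ) + 1 : ℝ) ≤ Real.log (B + 3) + E := by
  have h1 : (⌈B * Real.exp E⌉₊ : ℝ) < B * Real.exp E + 1 :=
    Nat.ceil_lt_add_one (mul_nonneg hB (Real.exp_pos _).le)
  have h2 : (1 : ℝ) ≤ Real.exp E := Real.one_le_exp hE
  have h3 : ((⌈B * Real.exp E⌉₊ + 1 : ℕ) + 1 : ℝ) ≤ (B + 3) * Real.exp E := by
    push_cast
    nlinarith only [h1, h2]
  calc Real.log ((⌈B * Real.exp E⌉₊ + 1 : ℕ) + 1 : ℝ) ≤ Real.log ((B + 3) * Real.exp E) :=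
        Real.log_le_log (by positivity) h3
    _ = Real.log (B + 3) + E := by
        rw [Real.log_mul (by positivity) (Real.exp_pos _).ne', Real.log_exp]

/-- names lemma with `lemmaT` as a hypothesis -/
theorem names_beta (n : ℕ) : ∃ C₀ : ℝ, 0 ≤ C₀ ∧ ∀ (μ : Measure (X n)) [IsProbabilityMeasure μ]
    (_ : AInv μ) (F : Set (Fin n × Fin n)) (β : Fin n → ℝ)
    (_ : ∃ X' : Set (X n), MeasurableSet X' ∧ μ X'ᶜ = 0 ∧ ∀ x ∈ X', ∀ h : G n, tr h x ∈ X' →
      (∀ i, 0 < h.1 i i) → (∀ i j, β j < β i → h.1 i j = 0) →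
      ∀ i j, β i < β j → (i, j) ∉ F → h.1 i j = 0)
    (E : ℝ) (_ : 0 ≤ E) (_ : ∀ i j, i ≠ j → (i, j) ∈ F → β j - β i ≤ E) (d : ℝ) (_ : 0 < d)
    (_ : d ≤ 1 / 2),
    ∃ K : Set (X n), IsCompact K ∧ ∃ N₀ : ℕ, ∀ N : ℕ, N₀ ≤ N → ∃ P : Finset (X n),
      (∀ y ∈ P, y ∈ K ∧ tr (da β ^ N) y ∈ K) ∧
      (P.card : ℝ) ≤ Real.exp (C₀ * N * (1 + E)) ∧
      1 / 2 ≤ μ (⋃ y ∈ P, Bow β N d y) := by
  obtain ⟨C, hC0, hC⟩ := inv_bound n
  have hB0 : 0 ≤ 2 * (n * C) := by positivity
  have hlog0 : 0 ≤ Real.log (2 * (n * C) + 3) := Real.log_nonneg (by linarith)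
  refine ⟨3 + (n * n : ℕ) * Real.log (2 * (n * C) + 3) + (n * n : ℕ), by positivity, ?_⟩
  intro μ hμ hAI F β hX E hE0 hE d hd hd'
  obtain ⟨A, hA0, hA⟩ := exists_width β
  obtain ⟨γ, hγ0, hγ⟩ := exists_gap β
  obtain ⟨X', hX'm, hX'0, hX'⟩ := hX
  set qb : ℕ := ⌈2 * (n * C) * Real.exp A⌉₊ + 1 with hqb
  set qg : ℕ := ⌈2 * (n * C) * Real.exp E⌉₊ + 1 with hqg
  set Lb : ℝ := Real.log ((qb : ℝ) + 1) with hLb
  have hLb0 : 0 ≤ Lb := Real.log_nonneg (by linarith only [])
  set a : ℕ := n * n with ha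
  set δ : ℝ := 1 / (1 + a * Lb) with hδ
  have hden : 0 < 1 + a * Lb := by (clear * - hLb0; positivity)
  have hδ0 : 0 < δ := by (clear * - hLb0; positivity)
  have hδ1 : δ ≤ 1 := by
    rw [hδ, div_le_one hden]
    have : 0 ≤ a * Lb := by (clear * - hLb0; positivity)
    linarith only [this]
  have hδL : δ * (a * Lb) ≤ 1 := by
    rw [hδ, div_mul_eq_mul_div, one_mul, div_le_one hden]
    linarith only [hd, hd']
  have hδ8 : ENNReal.ofReal (δ / 8) ≠ 0 := by
    rw [Ne, ENNReal.ofReal_eq_zero, not_le]; (clear * - hLb0; positivity)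
  obtain ⟨K, hKX, hKc, hKμ⟩ := hX'm.exists_isCompact_sdiff_lt (measure_ne_top μ X') hδ8
  have hμK : μ Kᶜ ≤ ENNReal.ofReal (δ / 8) := by
    calc μ Kᶜ ≤ μ (X'ᶜ ∪ X' \ K) := measure_mono fun x hx => by
          by_cases h : x ∈ X'
          · exact Or.inr ⟨h, hx⟩
          · exact Or.inl h
      _ ≤ μ X'ᶜ + μ (X' \ K) := measure_union_le _ _
      _ ≤ ENNReal.ofReal (δ / 8) := by rw [hX'0, zero_add]; exact hKμ.le
  obtain ⟨ε, hε0, hε⟩ := claim1 hKc (β := β) (F := F)
    (fun x hx h hxh => hX' x (hKX hx) h (hKX hxh))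
    (show 0 < d * Real.exp (-A) by positivity)
  obtain ⟨k0, hk0⟩ : ∃ k0 : ℕ, d * Real.exp (-(k0 * γ)) ≤ ε := by
    obtain ⟨k0, hk⟩ := exists_nat_ge (d / (ε * γ))
    refine ⟨k0, ?_⟩
    rw [Real.exp_neg, ← div_eq_mul_inv, div_le_iff₀ (Real.exp_pos _)]
    have h1 : (k0 : ℝ) * γ ≤ Real.exp (k0 * γ) := by
      have := Real.add_one_le_exp ((k0 : ℝ) * γ)
      linarith only [hd, hd', this]
    rw [div_le_iff₀ (by positivity)] at hk
    nlinarith only [hd, hd', hε0, hk, h1]
  let T : Data β K F :=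
    { C := C, A := A, E := E, d := d, γ := γ, ε := ε, k0 := k0, qg := qg, qb := qb
      hC := hC, hA0 := hA0, hA := hA, hE0 := hE0, hE := hE, hd := hd, hd' := hd', hγ0 := hγ0
      hγ := hγ, claim := hε, hk0 := hk0, hqg := Nat.succ_pos _, hqb := Nat.succ_pos _
      hqg' := close_of_q hd (Nat.succ_pos _) ((Nat.le_ceil _).trans (by
        rw [hqg]; push_cast; linarith only [hd, hd']))
      hqb' := close_of_q hd (Nat.succ_pos _) ((Nat.le_ceil _).trans (by
        rw [hqb]; push_cast; linarith only [hd, hd'])) }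
  obtain ⟨V, s, hV, hs⟩ := exists_cover hKc (n := n) hd
  refine ⟨K, hKc, ⌈Real.log (s.card + 1) + a * k0 * Lb⌉₊, fun N hN => ?_⟩
  obtain ⟨P, hP1, hP2, hP3⟩ := T.cover_all hV hs N ⌊δ * N⌋₊
  refine ⟨P, hP1, ?_, ?_⟩
  · have hN' : Real.log (s.card + 1) + a * k0 * Lb ≤ N := (Nat.le_ceil _).trans (by exact_mod_cast hN)
    have h1 : (P.card : ℝ) ≤ s.card * (2 ^ N * (((qg : ℝ) + 1) ^ (a * N) *
        ((qb : ℝ) + 1) ^ (a * (⌊δ * N⌋₊ + k0)))) := by
      have := hP2
      exact_mod_cast this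
    have e1 : (s.card : ℝ) ≤ Real.exp (Real.log (s.card + 1)) := by
      rw [Real.exp_log (by (clear * -; positivity))]
      linarith only [hd, hd']
    have e2 : (2 : ℝ) ^ N ≤ Real.exp N := by
      have h2 : (2 : ℝ) ≤ Real.exp 1 := by
        have := Real.add_one_le_exp (1 : ℝ)
        linarith only [this]
      calc (2 : ℝ) ^ N ≤ Real.exp 1 ^ N := pow_le_pow_left₀ (by norm_num) h2 N
        _ = Real.exp N := by rw [← Real.exp_nat_mul, mul_one]
    have e3 : ((qg : ℝ) + 1) ^ (a * N) ≤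
        Real.exp (a * N * (Real.log (2 * (n * C) + 3) + E)) := by
      have h2 : ((qg : ℝ) + 1) = Real.exp (Real.log ((qg : ℝ) + 1)) :=
        (Real.exp_log (by (clear * -; positivity))).symm
      rw [h2, ← Real.exp_nat_mul]
      refine Real.exp_le_exp.mpr ?_
      push_cast
      refine mul_le_mul_of_nonneg_left ?_ (by (clear * -; positivity))
      have := log_q_le hB0 hE0
      rw [← hqg] at this
      exact this
    have e4 : ((qb : ℝ) + 1) ^ (a * (⌊δ * N⌋₊ + k0)) ≤ Real.exp (N + a * k0 * Lb) := by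
      have h2 : ((qb : ℝ) + 1) = Real.exp Lb := (Real.exp_log (by (clear * -; positivity))).symm
      rw [h2, ← Real.exp_nat_mul]
      refine Real.exp_le_exp.mpr ?_
      push_cast
      have h3 : (⌊δ * N⌋₊ : ℝ) ≤ δ * N := Nat.floor_le (by (clear * - hLb0; positivity))
      have h4 : (a : ℝ) * ⌊δ * N⌋₊ * Lb ≤ a * (δ * N) * Lb :=
        mul_le_mul_of_nonneg_right (mul_le_mul_of_nonneg_left h3 (Nat.cast_nonneg _)) hLb0
      have h5 : (a : ℝ) * (δ * N) * Lb = (δ * (a * Lb)) * N := by ring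
      have h6 : (δ * (a * Lb)) * N ≤ 1 * N := mul_le_mul_of_nonneg_right hδL (Nat.cast_nonneg _)
      nlinarith only [h4, h6]
    calc (P.card : ℝ) ≤ s.card * (2 ^ N * (((qg : ℝ) + 1) ^ (a * N) *
        ((qb : ℝ) + 1) ^ (a * (⌊δ * N⌋₊ + k0)))) := h1
      _ ≤ Real.exp (Real.log (s.card + 1)) * (Real.exp N *
          (Real.exp (a * N * (Real.log (2 * (n * C) + 3) + E)) * Real.exp (N + a * k0 * Lb))) := by
          (clear * - e1 e2 e3 e4; gcongr)
      _ = Real.exp (Real.log (s.card + 1) + (N + (a * N * (Real.log (2 * (n * C) + 3) + E) +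
          (N + a * k0 * Lb)))) := by
          rw [← Real.exp_add, ← Real.exp_add, ← Real.exp_add]
      _ ≤ _ := by
          refine Real.exp_le_exp.mpr ?_
          have hN0 : (0 : ℝ) ≤ N := Nat.cast_nonneg _
          have ha0 : (0 : ℝ) ≤ a := Nat.cast_nonneg _
          have k1 : 0 ≤ (N : ℝ) * E := mul_nonneg hN0 hE0
          have k2 : 0 ≤ (a : ℝ) * Real.log (2 * (n * C) + 3) * N * E := by (clear * - hlog0 hE0; positivity)
          have k3 : 0 ≤ (a : ℝ) * N := by (clear * -; positivity)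
          nlinarith only [hN', k1, k2, k3]
  · have h1 := good_measure μ hAI β hKc hδ0 hδ1 hμK N
    refine h1.trans (measure_mono (Set.Subset.trans ?_ hP3))
    rintro x ⟨hx1, hx2, hx3⟩
    exact ⟨hx1, hx2, Nat.le_floor hx3⟩

end Vale.Agent.P007.R.Names
end

section

/-!
Lemma T (III.5): triviality of the entries outside of the set of nontrivial roots.
-/

set_option autoImplicit false

open MeasureTheory Matrix Filter Topology ProbabilityTheory
open scoped ENNReal

namespace Vale.Agent.P007.R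

open Vale.Agent.P007 Vale.Agent.P007.Koopman Vale.Agent.P007.Mautner

variable {n : ℕ}

/-- A function which is strictly increasing along the strict partial order `R` except that it is
equal at the two ends of the cover `(k,l)`. -/
theorem exists_potential (R : Set (Fin n × Fin n)) (hirr : ∀ i, (i, i) ∉ R)
    (hR : ∀ i j k, (i, j) ∈ R → (j, k) ∈ R → (i, k) ∈ R) {k l : Fin n} (hkl : (k, l) ∈ R)
    (hcov : ∀ j, (k, j) ∈ R → (j, l) ∈ R → False) :
    ∃ γ : Fin n → ℝ, γ k = γ l ∧ ∀ i j, (i, j) ∈ R → (i, j) ≠ (k, l) → γ i < γ j := by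
  classical
  let 𝒰 : Finset (Finset (Fin n)) := Finset.univ.filter fun U =>
    (∀ i j, (i, j) ∈ R → i ∈ U → j ∈ U) ∧ (k ∈ U ↔ l ∈ U)
  refine ⟨fun x => ((𝒰.filter fun U => x ∈ U).card : ℝ), ?_, ?_⟩
  · have : (𝒰.filter fun U => k ∈ U) = 𝒰.filter fun U => l ∈ U := by
      refine Finset.filter_congr fun U hU => ?_
      exact (Finset.mem_filter.mp hU).2.2
    simp only [this]
  · intro i j hij hne
    have hij' : i ≠ j := fun h => hirr i (by rw [h] at hij ⊢; exact hij)
    -- the witness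
    obtain ⟨U, hU1, hU2, hjU, hiU⟩ : ∃ U : Finset (Fin n), (∀ i j, (i, j) ∈ R → i ∈ U → j ∈ U) ∧
        (k ∈ U ↔ l ∈ U) ∧ j ∈ U ∧ i ∉ U := by
      by_cases hc : (l = j ∨ (j, l) ∈ R) ∧ ¬ (k = j ∨ (j, k) ∈ R)
      · obtain ⟨hl, hk⟩ := hc
        refine ⟨Finset.univ.filter fun x => (x = j ∨ (j, x) ∈ R) ∨ (x = k ∨ (k, x) ∈ R),
          ?_, ?_, ?_, ?_⟩
        · intro a b hab ha
          simp only [Finset.mem_filter, Finset.mem_univ, true_and] at ha ⊢
          rcases ha with (rfl | ha) | (rfl | ha)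
          · exact Or.inl (Or.inr hab)
          · exact Or.inl (Or.inr (hR _ _ _ ha hab))
          · exact Or.inr (Or.inr hab)
          · exact Or.inr (Or.inr (hR _ _ _ ha hab))
        · simp only [Finset.mem_filter, Finset.mem_univ, true_and]
          exact ⟨fun _ => Or.inl hl, fun _ => Or.inr (Or.inl trivial)⟩
        · simp only [Finset.mem_filter, Finset.mem_univ, true_or, and_self]
        · simp only [Finset.mem_filter, Finset.mem_univ, true_and, not_or]
          refine ⟨⟨hij', fun h => hirr _ (hR _ _ _ hij h)⟩, ?_, ?_⟩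
          · rintro rfl
            rcases hl with rfl | hl
            · exact hne rfl
            · exact hcov _ hij hl
          · intro h
            rcases hl with rfl | hl
            · exact hcov _ h hij
            · exact hcov _ (hR _ _ _ h hij) hl
      · refine ⟨Finset.univ.filter fun x => x = j ∨ (j, x) ∈ R, ?_, ?_, ?_, ?_⟩
        · intro a b hab ha
          simp only [Finset.mem_filter, Finset.mem_univ, true_and] at ha ⊢
          rcases ha with rfl | ha
          · exact Or.inr hab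
          · exact Or.inr (hR _ _ _ ha hab)
        · simp only [Finset.mem_filter, Finset.mem_univ, true_and]
          constructor
          · rintro (rfl | h)
            · exact Or.inr hkl
            · exact Or.inr (hR _ _ _ h hkl)
          · intro h
            by_contra h'
            exact hc ⟨h, h'⟩
        · simp only [Finset.mem_filter, Finset.mem_univ, true_or, and_self]
        · simp only [Finset.mem_filter, Finset.mem_univ, true_and, not_or]
          exact ⟨hij', fun h => hirr _ (hR _ _ _ hij h)⟩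
    have hlt : (𝒰.filter fun U => i ∈ U).card < (𝒰.filter fun U => j ∈ U).card := by
      refine Finset.card_lt_card (Finset.ssubset_iff_subset_ne.mpr ⟨?_, ?_⟩)
      · intro V hV
        rw [Finset.mem_filter] at hV ⊢
        exact ⟨hV.1, (Finset.mem_filter.mp hV.1).2.1 i j hij hV.2⟩
      · intro h
        have h1 : U ∈ 𝒰.filter fun U => j ∈ U :=
          Finset.mem_filter.mpr ⟨Finset.mem_filter.mpr ⟨Finset.mem_univ _, hU1, hU2⟩, hjU⟩
        rw [← h] at h1
        exact hiU (Finset.mem_filter.mp h1).2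
    change (((𝒰.filter fun U => i ∈ U).card : ℕ) : ℝ) < (((𝒰.filter fun U => j ∈ U).card : ℕ) : ℝ)
    exact Nat.cast_lt.mpr hlt

/-- the conjugates `a^-m h a^m` converge if no entry is expanded -/
theorem conj_tendsto (h : G n) (β : Fin n → ℝ) (L : Matrix (Fin n) (Fin n) ℝ)
    (h0 : ∀ i j, (β j = β i ∧ L i j = h.1 i j) ∨ ((β j < β i ∨ h.1 i j = 0) ∧ L i j = 0)) :
    Tendsto (fun m : ℕ => (((da β ^ m)⁻¹ * h * da β ^ m : G n) : Matrix (Fin n) (Fin n) ℝ))
      atTop (𝓝 L) := by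
  refine tendsto_pi_nhds.mpr fun i => tendsto_pi_nhds.mpr fun j => ?_
  have h1 : ∀ m : ℕ, (((da β ^ m)⁻¹ * h * da β ^ m : G n) : Matrix (Fin n) (Fin n) ℝ) i j =
      Real.exp (m * (β j - β i)) * h.1 i j := by
    intro m
    rw [← da_nsmul, conj_da_apply]
    simp only [Pi.smul_apply, smul_eq_mul, mul_sub]
  simp only [h1]
  rcases h0 i j with ⟨h2, h3⟩ | ⟨h2 | h2, h3⟩
  · rw [h3, h2]
    simp
  · rw [h3]
    have h4 : Tendsto (fun m : ℕ => Real.exp (m * (β j - β i))) atTop (𝓝 0) := by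
      refine Real.tendsto_exp_atBot.comp ?_
      exact Tendsto.atTop_mul_const_of_neg (sub_neg.mpr h2) tendsto_natCast_atTop_atTop
    simpa only [zero_mul] using h4.mul_const (h.1 i j)
  · rw [h3, h2]
    simp

/-- the product of the diagonal entries of a triangular matrix -/
theorem prod_diag (h : G n) (R : Set (Fin n × Fin n)) (α : Fin n → ℝ)
    (hα : ∀ i j, (i, j) ∈ R → α i < α j) (hoff : ∀ i j, i ≠ j → (i, j) ∉ R → h.1 i j = 0) :
    ∏ i, h.1 i i = 1 := by
  have h1 := conj_tendsto h (-α) (diagonal fun i => h.1 i i) (by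
    intro i j
    by_cases hij : i = j
    · subst hij
      left
      simp
    · right
      rw [diagonal_apply_ne _ hij]
      refine ⟨?_, rfl⟩
      by_cases hr : (i, j) ∈ R
      · left
        simpa using hα i j hr
      · right
        exact hoff i j hij hr)
  have h2 := ((Continuous.matrix_det continuous_id).tendsto
    (diagonal fun i => h.1 i i)).comp h1
  have h3 : (id : Matrix (Fin n) (Fin n) ℝ → Matrix (Fin n) (Fin n) ℝ) = id := rfl
  have h4 : Tendsto (fun _ : ℕ => (1 : ℝ)) atTop (𝓝 (det (diagonal fun i => h.1 i i))) := by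
    refine h2.congr fun m => ?_
    exact ((da (-α) ^ m)⁻¹ * h * da (-α) ^ m : G n).2
  have h5 := tendsto_nhds_unique h4 tendsto_const_nhds
  rwa [det_diagonal] at h5

/-- One step: the entry of an indecomposable trivial root vanishes. -/
theorem step (μ : Measure (X n)) [IsProbabilityMeasure μ] (hA : AInv μ)
    (R : Set (Fin n × Fin n)) (α : Fin n → ℝ) (hα : ∀ i j, (i, j) ∈ R → α i < α j)
    (hR : ∀ i j k, (i, j) ∈ R → (j, k) ∈ R → (i, k) ∈ R) {k l : Fin n} (hkl : (k, l) ∈ R)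
    (hcov : ∀ j, (k, j) ∈ R → (j, l) ∈ R → False) (hT : Triv μ k l) :
    ∃ X' : Set (X n), MeasurableSet X' ∧ μ X'ᶜ = 0 ∧ ∀ x ∈ X', ∀ h : G n, tr h x ∈ X' →
      (∀ i, 0 < h.1 i i) → (∀ i j, i ≠ j → (i, j) ∉ R → h.1 i j = 0) → h.1 k l = 0 := by
  obtain ⟨Y, hYm, hY0, hYA, hY⟩ := hT
  have hirr : ∀ i, (i, i) ∉ R := fun i hi => lt_irrefl _ (hα i i hi)
  have hklne : k ≠ l := fun h => hirr k (by rw [← h] at hkl; exact hkl)
  obtain ⟨γ, hγ, hγ'⟩ := exists_potential R hirr hR hkl hcov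
  set β : Fin n → ℝ := -γ with hβ
  obtain ⟨X', hX'Y, hX'm, hX'0, hX'⟩ := covisit μ (da β) (hA β) (fun _ : X n => (0 : ℝ))
    measurable_const hYm hY0
  refine ⟨X', hX'm, hX'0, fun x hx h hhx hd hoff => ?_⟩
  obtain ⟨K, hKY, hK, -, hfr⟩ := hX' x hx (tr h x) hhx
  have hprod := prod_diag h R α hα hoff
  -- the limit element
  set β' : Fin n → ℝ := fun i => Real.log (h.1 i i) with hβ'
  set s : ℝ := h.1 k l / h.1 k k with hs
  have hmean : mean β' = 0 := by
    rw [mean, hβ']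
    rw [← Real.log_prod (fun i _ => (hd i).ne'), hprod, Real.log_one, zero_div]
  set g₀ : G n := da β' * ug k l s with hg₀
  have hentry : ∀ i j, (g₀ : Matrix (Fin n) (Fin n) ℝ) i j =
      h.1 i i * ((if i = j then 1 else 0) + if i = k ∧ j = l then s else 0) := by
    intro i j
    rw [hg₀, coe_mul_G, coe_da, diagonal_mul, ug_apply hklne, hmean, sub_zero, hβ',
      Real.exp_log (hd i)]
  have hlim : Tendsto (fun m : ℕ => ((da β ^ m)⁻¹ * h * da β ^ m : G n)) atTop (𝓝 g₀) := by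
    refine (Matrix.SpecialLinearGroup.isClosedEmbedding_val.isEmbedding.isInducing.tendsto_nhds_iff).mpr ?_
    refine conj_tendsto h β _ fun i j => ?_
    rw [hentry]
    by_cases hij : i = j
    · subst hij
      left
      have h1 : ¬ (i = k ∧ i = l) := fun h1 => hklne (h1.1.symm.trans h1.2)
      simp [h1]
    · by_cases h1 : i = k ∧ j = l
      · left
        obtain ⟨rfl, rfl⟩ := h1
        simp [hβ, hγ, hij, hs, mul_div_cancel₀ _ (hd i).ne']
      · right
        refine ⟨?_, by simp [hij, h1]⟩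
        by_cases hr : (i, j) ∈ R
        · left
          have := hγ' i j hr (fun h2 => h1 ⟨congrArg Prod.fst h2, congrArg Prod.snd h2⟩)
          simpa [hβ] using this
        · right
          exact hoff i j hij hr
  -- ultrafilter
  set S : Set ℕ := {m | tr (da β ^ m) x ∈ K ∧ tr (da β ^ m) (tr h x) ∈ K} with hS
  have hne : NeBot (atTop ⊓ 𝓟 S) := by
    rw [← Filter.frequently_mem_iff_neBot]
    exact hfr
  set U : Ultrafilter ℕ := Ultrafilter.of (atTop ⊓ 𝓟 S) with hU
  have hUle : (U : Filter ℕ) ≤ atTop ⊓ 𝓟 S := Ultrafilter.of_le _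
  have hU1 : (U : Filter ℕ) ≤ atTop := hUle.trans inf_le_left
  have hU2 : S ∈ (U : Filter ℕ) := le_principal_iff.mp (hUle.trans inf_le_right)
  obtain ⟨x₀, hx₀K, hx₀⟩ := hK.ultrafilter_le_nhds' (U.map fun m => tr (da β ^ m) x) (by
    rw [Ultrafilter.mem_map]
    filter_upwards [hU2] with m hm using hm.1)
  obtain ⟨y₀, hy₀K, hy₀⟩ := hK.ultrafilter_le_nhds' (U.map fun m => tr (da β ^ m) (tr h x)) (by
    rw [Ultrafilter.mem_map]
    filter_upwards [hU2] with m hm using hm.2)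
  have hx₁ : Tendsto (fun m => tr (da β ^ m) x) U (𝓝 x₀) := hx₀
  have hy₁ : Tendsto (fun m => tr (da β ^ m) (tr h x)) U (𝓝 y₀) := hy₀
  have hy₂ : Tendsto (fun m => tr (da β ^ m) (tr h x)) U (𝓝 (tr g₀ x₀)) := by
    have h1 : Tendsto (fun m : ℕ => (tr (da β ^ m) x, ((da β ^ m)⁻¹ * h * da β ^ m : G n)))
        U (𝓝 (x₀, g₀)) := hx₁.prodMk_nhds (hlim.mono_left hU1)
    refine ((continuous_tr_uncurry.tendsto (x₀, g₀)).comp h1).congr fun m => ?_
    simp only [Function.comp_apply, tr_tr]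
    congr 1
    group
  have hyy : y₀ = tr g₀ x₀ := tendsto_nhds_unique hy₁ hy₂
  have h1 : tr (ug k l s) (tr (da β') x₀) ∈ Y := by
    rw [tr_tr, ← hg₀, ← hyy]
    exact hKY hy₀K
  have h2 := hY _ (hYA β' x₀ (hKY hx₀K)) s h1
  rw [hs, div_eq_zero_iff] at h2
  exact h2.resolve_right (hd k).ne'

/-- `R` is a transitive set of roots, increasing for `α`; `F ∩ R` is transitive and all roots of
`R` outside `F` are trivial. -/
theorem lemmaT (μ : Measure (X n)) [IsProbabilityMeasure μ] (hA : AInv μ)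
    (R F : Set (Fin n × Fin n)) (α : Fin n → ℝ) (hα : ∀ i j, (i, j) ∈ R → α i < α j)
    (hR : ∀ i j k, (i, j) ∈ R → (j, k) ∈ R → (i, k) ∈ R)
    (hF : ∀ i j, (i, j) ∈ R → (i, j) ∉ F → Triv μ i j)
    (hF' : ∀ i j k, (i, j) ∈ R → (j, k) ∈ R → (i, j) ∈ F → (j, k) ∈ F → (i, k) ∈ F) :
    ∃ X' : Set (X n), MeasurableSet X' ∧ μ X'ᶜ = 0 ∧ ∀ x ∈ X', ∀ h : G n, tr h x ∈ X' →
      (∀ i, 0 < h.1 i i) → (∀ i j, i ≠ j → (i, j) ∉ R → h.1 i j = 0) →
      ∀ i j, (i, j) ∈ R → (i, j) ∉ F → h.1 i j = 0 := by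
  classical
  induction hN : (R \ F).ncard using Nat.strong_induction_on generalizing R with
  | _ N ih =>
  by_cases hem : (R \ F) = ∅
  · refine ⟨Set.univ, MeasurableSet.univ, by simp, fun x _ h _ _ _ i j hi hj => ?_⟩
    exact absurd (show (i, j) ∈ R \ F from ⟨hi, hj⟩) (by rw [hem]; simp)
  · obtain ⟨⟨k, l⟩, ⟨hklR, hklF⟩, hmin⟩ := Set.exists_min_image (R \ F)
      (fun p => α p.2 - α p.1) (Set.toFinite _) (Set.nonempty_iff_ne_empty.mpr hem)
    have hcov : ∀ j, (k, j) ∈ R → (j, l) ∈ R → False := by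
      intro j h1 h2
      have h3 := hα _ _ h1
      have h4 := hα _ _ h2
      by_cases h5 : (k, j) ∈ F
      · by_cases h6 : (j, l) ∈ F
        · exact hklF (hF' _ _ _ h1 h2 h5 h6)
        · have := hmin (j, l) ⟨h2, h6⟩
          simp only at this
          linarith only [h3, this]
      · have := hmin (k, j) ⟨h1, h5⟩
        simp only at this
        linarith
    obtain ⟨X₁, hX₁m, hX₁0, hX₁⟩ := step μ hA R α hα hR hklR hcov (hF k l hklR hklF)
    have hlt : ((R \ {(k, l)}) \ F).ncard < N := by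
      rw [← hN]
      refine Set.ncard_lt_ncard ?_ (Set.toFinite _)
      refine ⟨fun p hp => ⟨hp.1.1, hp.2⟩, fun h => ?_⟩
      exact (h (show (k, l) ∈ R \ F from ⟨hklR, hklF⟩)).1.2 rfl
    obtain ⟨X₂, hX₂m, hX₂0, hX₂⟩ := ih _ hlt (R \ {(k, l)}) (fun i j h => hα i j h.1)
      (by
        intro a b c h1 h2
        refine ⟨hR _ _ _ h1.1 h2.1, fun h3 => ?_⟩
        have h4 : a = k ∧ c = l := ⟨congrArg Prod.fst h3, congrArg Prod.snd h3⟩
        obtain ⟨rfl, rfl⟩ := h4
        exact hcov b h1.1 h2.1)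
      (fun i j h1 h2 => hF i j h1.1 h2)
      (fun a b c h1 h2 h3 h4 => hF' a b c h1.1 h2.1 h3 h4) rfl
    refine ⟨X₁ ∩ X₂, hX₁m.inter hX₂m, ?_, ?_⟩
    · rw [Set.compl_inter]
      exact measure_union_null hX₁0 hX₂0
    · intro x hx h hhx hd hoff i j hij hijF
      have h1 : h.1 k l = 0 := hX₁ x hx.1 h hhx.1 hd hoff
      by_cases h2 : (i, j) = (k, l)
      · rw [show i = k from congrArg Prod.fst h2, show j = l from congrArg Prod.snd h2]
        exact h1
      · refine hX₂ x hx.2 h hhx.2 hd ?_ i j ⟨hij, h2⟩ hijF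
        intro a b hab hab'
        by_cases h3 : (a, b) ∈ R
        · have h4 : (a, b) = (k, l) := by
            by_contra h4
            exact hab' ⟨h3, h4⟩
          rw [show a = k from congrArg Prod.fst h4, show b = l from congrArg Prod.snd h4]
          exact h1
        · exact hoff a b hab h3

/-- Corollary: the unipotent version for `V = U_ij ∏ U_il ∏ U_lj`. -/
theorem lemmaV (μ : Measure (X n)) [IsProbabilityMeasure μ] (hA : AInv μ)
    (B : Set (Fin n)) {i j : Fin n} (hij : i ≠ j) (hi : i ∈ B) (hj : j ∈ B)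
    (h1 : ∀ l ∉ B, Triv μ i l ∧ Triv μ l j) :
    ∃ X' : Set (X n), MeasurableSet X' ∧ μ X'ᶜ = 0 ∧ ∀ x ∈ X', ∀ c : G n, tr c x ∈ X' →
      (∀ k, c.1 k k = 1) →
      (∀ k l, k ≠ l → ¬ (k = i ∧ l = j) → ¬ (k = i ∧ l ∉ B) → ¬ (k ∉ B ∧ l = j) → c.1 k l = 0) →
      ∀ l ∉ B, c.1 i l = 0 ∧ c.1 l j = 0 := by
  classical
  set R : Set (Fin n × Fin n) := {p | (p.1 = i ∧ p.2 = j) ∨ (p.1 = i ∧ p.2 ∉ B) ∨
    (p.1 ∉ B ∧ p.2 = j)} with hRdef
  set F : Set (Fin n × Fin n) := {(i, j)} with hFdef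
  set α : Fin n → ℝ := fun x => if x = i then 0 else if x = j then 2 else 1 with hαdef
  have hnotB : ∀ l, l ∉ B → l ≠ i ∧ l ≠ j := fun l hl =>
    ⟨fun h => hl (h ▸ hi), fun h => hl (h ▸ hj)⟩
  have hαi : α i = 0 := by simp [hαdef]
  have hαj : α j = 2 := by simp [hαdef, hij.symm]
  have hαB : ∀ l ∉ B, α l = 1 := fun l hl => by simp [hαdef, hnotB l hl]
  obtain ⟨X', hm, h0, hX'⟩ := lemmaT μ hA R F α
    (by
      rintro a b (⟨h2, h3⟩ | ⟨h2, h3⟩ | ⟨h2, h3⟩)
      · simp only at h2 h3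
        rw [h2, h3, hαi, hαj]; norm_num
      · simp only at h2 h3
        rw [h2, hαi, hαB _ h3]; norm_num
      · simp only at h2 h3
        rw [h3, hαj, hαB _ h2]; norm_num)
    (by
      rintro a b c (⟨h2, h3⟩ | ⟨h2, h3⟩ | ⟨h2, h3⟩) (⟨h4, h5⟩ | ⟨h4, h5⟩ | ⟨h4, h5⟩) <;>
        simp only at h2 h3 h4 h5
      · exact absurd (h4.symm.trans h3) hij
      · exact absurd (h4.symm.trans h3) hij
      · exact absurd (h3 ▸ hj) h4
      · exact absurd (h4 ▸ hi) h3
      · exact absurd (h4 ▸ hi) h3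
      · exact Or.inl ⟨h2, h5⟩
      · exact absurd (h4.symm.trans h3) hij
      · exact absurd (h4.symm.trans h3) hij
      · exact absurd (h3 ▸ hj) h4)
    (by
      rintro a b (⟨h2, h3⟩ | ⟨h2, h3⟩ | ⟨h2, h3⟩) h4 <;> simp only at h2 h3
      · exact absurd (by rw [h2, h3]; rfl) h4
      · rw [h2]; exact (h1 b h3).1
      · rw [h3]; exact (h1 a h2).2)
    (by
      rintro a b c - - h4 h5
      have h6 : b = j := congrArg Prod.snd h4
      have h7 : b = i := congrArg Prod.fst h5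
      exact absurd (h7.symm.trans h6) hij)
  refine ⟨X', hm, h0, fun x hx c hcx hd hoff l hl => ?_⟩
  have key := hX' x hx c hcx (fun k => by rw [hd k]; exact one_pos) (by
    intro a b hab hab'
    refine hoff a b hab (fun h => hab' (Or.inl h)) (fun h => hab' (Or.inr (Or.inl h)))
      (fun h => hab' (Or.inr (Or.inr h))))
  constructor
  · refine key i l (Or.inr (Or.inl ⟨rfl, hl⟩)) ?_
    intro h
    exact (hnotB l hl).2 (congrArg Prod.snd h)
  · refine key l j (Or.inr (Or.inr ⟨hl, rfl⟩)) ?_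
    intro h
    exact (hnotB l hl).1 (congrArg Prod.fst h)

end Vale.Agent.P007.R
end

section

/-!
Names lemma (III.6).
-/

set_option autoImplicit false

open MeasureTheory Matrix Filter Topology ProbabilityTheory
open scoped ENNReal

namespace Vale.Agent.P007.R

open Vale.Agent.P007 Vale.Agent.P007.Koopman Vale.Agent.P007.Mautner

/-- The constant `C` depends on `n` only. -/
theorem names (n : ℕ) : ∃ C : ℝ, ∀ (μ : Measure (X n)) [IsProbabilityMeasure μ] (_ : AInv μ)
    (F : Set (Fin n × Fin n)) (_ : ∀ i j, i ≠ j → (i, j) ∉ F → Triv μ i j)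
    (_ : ∀ i j k, i ≠ j → j ≠ k → i ≠ k → (i, j) ∈ F → (j, k) ∈ F → (i, k) ∈ F)
    (α : Fin n → ℝ) (_ : Function.Injective α) (ε : ℝ) (_ : 0 ≤ ε)
    (_ : ∀ i j, i ≠ j → (i, j) ∈ F → α j - α i ≤ ε) (M : ℕ) (_ : 0 < M) (d : ℝ) (_ : 0 < d)
    (_ : d ≤ 1 / 2),
    ∃ K : Set (X n), IsCompact K ∧ ∃ N₀ : ℕ, ∀ N : ℕ, N₀ ≤ N → ∃ P : Finset (X n),
      (∀ y ∈ P, y ∈ K ∧ tr (da ((M : ℝ) • α) ^ N) y ∈ K) ∧
      (P.card : ℝ) ≤ Real.exp (C * N * (1 + ε * M)) ∧
      1 / 2 ≤ μ (⋃ y ∈ P, Bow ((M : ℝ) • α) N d y) := by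
  obtain ⟨C₀, -, hC⟩ := Names.names_beta n
  refine ⟨C₀, ?_⟩
  intro μ hμ hA F hF hF' α hα ε hε hεF M hM d hd hd'
  have hM' : (0 : ℝ) < M := by exact_mod_cast hM
  have hlt : ∀ i j, ((M : ℝ) • α) i < ((M : ℝ) • α) j ↔ α i < α j := by
    intro i j
    simp only [Pi.smul_apply, smul_eq_mul]
    exact mul_lt_mul_iff_right₀ hM'
  refine hC μ hA F ((M : ℝ) • α) ?_ (ε * M) (by positivity) ?_ d hd hd'
  · obtain ⟨X', h1, h2, h3⟩ := lemmaT μ hA {p | α p.1 < α p.2} F α (fun i j h => h)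
      (fun i j k h h' => by
        have h1 : α i < α j := h
        have h2 : α j < α k := h'
        exact h1.trans h2)
      (fun i j h hf => hF i j (fun h0 => by
        have h' : α i < α j := h
        rw [h0] at h'
        exact lt_irrefl _ h') hf)
      (fun i j k h h' hf hf' => by
        have h1 : α i < α j := h
        have h2 : α j < α k := h'
        refine hF' i j k ?_ ?_ ?_ hf hf'
        · rintro rfl; exact lt_irrefl _ h1
        · rintro rfl; exact lt_irrefl _ h2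
        · rintro rfl; exact lt_irrefl _ (h1.trans h2))
    refine ⟨X', h1, h2, fun x hx h hxh hdiag hcon i j hij hf => ?_⟩
    refine h3 x hx h hxh hdiag (fun k l hkl hnot => ?_) i j ((hlt i j).mp hij) hf
    have h4 : ¬ α k < α l := hnot
    have h5 : α l < α k := lt_of_le_of_ne (not_lt.mp h4) fun h0 => hkl (hα h0).symm
    exact hcon k l ((hlt l k).mpr h5)
  · intro i j hij hf
    simp only [Pi.smul_apply, smul_eq_mul]
    have := hεF i j hij hf
    nlinarith only [this]

end Vale.Agent.P007.R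
end

section

set_option autoImplicit false

open MeasureTheory Matrix Filter Topology ProbabilityTheory
open scoped ENNReal

namespace Vale.Agent.P007.R

open Vale.Agent.P007 Vale.Agent.P007.Koopman Vale.Agent.P007.Mautner

variable {n : ℕ}

theorem tr_ug_ug (i j : Fin n) (s t : ℝ) (x : X n) :
    tr (ug i j t) (tr (ug i j s) x) = tr (ug i j (s + t)) x := by
  rw [tr_tr, ← ug_add]

theorem tr_ug_cancel (i j : Fin n) (t : ℝ) (y : X n) :
    tr (ug i j (-t)) (tr (ug i j t) y) = y := by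
  rw [tr_ug_ug, add_neg_cancel, ug_zero, tr_one]

theorem measurable_tr_bd410 (h : G n) : Measurable (tr h : X n → X n) := (continuous_tr h).measurable

theorem measurable_tr_ug (i j : Fin n) : Measurable fun p : X n × ℝ => tr (ug i j p.2) p.1 :=
  (continuous_tr_uncurry.comp
    (continuous_fst.prodMk ((continuous_ug i j).comp continuous_snd))).measurable

theorem tr_da_ug (i j : Fin n) (s : ℝ) (β : Fin n → ℝ) (x : X n) :
    tr (da β) (tr (ug i j s) x) = tr (ug i j (Real.exp (β j - β i) * s)) (tr (da β) x) := by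
  rw [tr_tr, tr_tr, ug_mul_da]

/-- (P4) -/
theorem Leafwise.ae_leaf {μ : Measure (X n)} [IsProbabilityMeasure μ] {i j : Fin n}
    (L : Leafwise μ i j) {E : Set (X n)} (hE : MeasurableSet E) (hE0 : μ Eᶜ = 0) :
    ∀ᵐ x ∂μ, ∀ᵐ s ∂(L.lam x), tr (ug i j s) x ∈ E := by
  have := L.sfin
  set S : Set (X n × ℝ) := {p | tr (ug i j p.2) p.1 ∉ E} with hSdef
  have hS : MeasurableSet S := measurable_tr_ug i j hE.compl
  have h := L.transport (S.indicator 1) (measurable_one.indicator hS)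
  have h0 : ∫⁻ y, ∫⁻ t, S.indicator 1 (tr (ug i j t) y, -t) /
      L.lam y (Set.Icc (t - 1) (t + 1)) ∂(L.lam y) ∂μ = 0 := by
    have hE' : ∀ᵐ y ∂μ, y ∈ E := hE0
    rw [← lintegral_zero (μ := μ)]
    apply lintegral_congr_ae
    filter_upwards [hE'] with y hy
    rw [← lintegral_zero (μ := L.lam y)]
    apply lintegral_congr
    intro t
    have : ((tr (ug i j t) y, -t) : X n × ℝ) ∉ S := by
      simp only [hSdef, Set.mem_ofPred_eq, tr_ug_cancel, not_not]
      exact hy
    rw [Set.indicator_of_notMem this, ENNReal.zero_div]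
  rw [h0, lintegral_eq_zero_iff] at h
  · filter_upwards [h] with x hx
    simp only [Pi.zero_apply] at hx
    have hm : Measurable fun s : ℝ => (S.indicator 1 (x, s) : ℝ≥0∞) :=
      (measurable_one.indicator hS).comp measurable_prodMk_left
    rw [lintegral_eq_zero_iff hm] at hx
    filter_upwards [hx] with s hs
    by_contra hcon
    have : ((x, s) : X n × ℝ) ∈ S := hcon
    simp only [Set.indicator_of_mem this, Pi.one_apply, Pi.zero_apply] at hs
    exact one_ne_zero hs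
  · exact Measurable.lintegral_kernel_prod_right (f := fun x s => (S.indicator 1 (x, s) : ℝ≥0∞))
      (measurable_one.indicator hS)

/-- nontriviality of an invariant root -/
theorem not_triv_of_uinv {μ : Measure (X n)} [IsProbabilityMeasure μ] {i j : Fin n}
    (hij : i ≠ j) (hU : UInv μ i j) : ¬ Triv μ i j := by
  rintro ⟨Y, hY, hY0, -, h⟩
  have h1 : μ ((tr (ug i j 1)) ⁻¹' Y)ᶜ = 0 := by
    rw [← Set.preimage_compl, ← Measure.map_apply (measurable_tr_bd410 _) hY.compl, hU 1, hY0]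
  have h2 : μ (Y ∩ (tr (ug i j 1)) ⁻¹' Y)ᶜ = 0 := by
    rw [Set.compl_inter]
    exact measure_union_null hY0 h1
  have h3 : (Y ∩ (tr (ug i j 1)) ⁻¹' Y).Nonempty := by
    by_contra hcon
    rw [Set.not_nonempty_iff_eq_empty] at hcon
    rw [hcon, Set.compl_empty, measure_univ] at h2
    exact one_ne_zero h2
  obtain ⟨x, hx, hx'⟩ := h3
  exact one_ne_zero (h x hx 1 hx')

end Vale.Agent.P007.R
end

section

set_option autoImplicit false

open MeasureTheory Matrix Filter Topology ProbabilityTheory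
open scoped ENNReal

namespace Vale.Agent.P007.R

open Vale.Agent.P007 Vale.Agent.P007.Koopman Vale.Agent.P007.Mautner

variable {n : ℕ}

/-! ### elementary facts about measures on the line -/

theorem icc_lt_top {m : Measure ℝ} (h : ∀ r : ℝ, m (Set.Icc (-r) r) < ∞) (a b : ℝ) :
    m (Set.Icc a b) < ∞ := by
  refine lt_of_le_of_lt (measure_mono ?_) (h (max |a| |b|))
  intro t ht
  obtain ⟨h1, h2⟩ := ht
  have h3 := neg_abs_le a
  have h4 := le_abs_self b
  exact ⟨by linarith [le_max_left |a| |b|], by linarith [le_max_right |a| |b|]⟩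

theorem locFin {m : Measure ℝ} (h : ∀ r : ℝ, m (Set.Icc (-r) r) < ∞) :
    IsLocallyFiniteMeasure m :=
  ⟨fun x => ⟨Set.Icc (x - 1) (x + 1), Icc_mem_nhds (by linarith) (by linarith),
    icc_lt_top h _ _⟩⟩

variable {μ : Measure (X n)} {i j : Fin n}

theorem Leafwise.locFin (L : Leafwise μ i j) {x : X n} (hx : x ∈ L.X0) :
    IsLocallyFiniteMeasure (L.lam x) := R.locFin (L.lf x hx)

theorem map_sub_apply (m : Measure ℝ) (s : ℝ) {B : Set ℝ} (hB : MeasurableSet B) :
    (m.map fun t => t - s) B = m {t | t - s ∈ B} :=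
  Measure.map_apply (measurable_id.sub_const s) hB

theorem map_mul_apply (m : Measure ℝ) (s : ℝ) {B : Set ℝ} (hB : MeasurableSet B) :
    (m.map fun t => s * t) B = m {t | s * t ∈ B} :=
  Measure.map_apply (measurable_id.const_mul s) hB

theorem setOf_sub_mem_icc (s a b : ℝ) :
    {t : ℝ | t - s ∈ Set.Icc a b} = Set.Icc (s + a) (s + b) := by
  ext t
  simp only [Set.mem_Icc, Set.mem_ofPred_eq]
  constructor <;> rintro ⟨h1, h2⟩ <;> constructor <;> linarith

theorem setOf_mul_mem_icc {r : ℝ} (hr : 0 < r) (a b : ℝ) :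
    {t : ℝ | r * t ∈ Set.Icc a b} = Set.Icc (r⁻¹ * a) (r⁻¹ * b) := by
  ext t
  simp only [Set.mem_Icc, Set.mem_ofPred_eq]
  rw [inv_mul_le_iff₀ hr, le_inv_mul_iff₀ hr]

/-- (P2), explicit -/
theorem Leafwise.shift_apply (L : Leafwise μ i j) {x : X n} (hx : x ∈ L.X0) {s : ℝ}
    (hs : tr (ug i j s) x ∈ L.X0) :
    L.lam x (Set.Icc (s - 1) (s + 1)) ≠ 0 ∧ L.lam x (Set.Icc (s - 1) (s + 1)) ≠ ∞ ∧
      ∀ B : Set ℝ, MeasurableSet B → L.lam x {t | t - s ∈ B} =
        L.lam x (Set.Icc (s - 1) (s + 1)) * L.lam (tr (ug i j s) x) B := by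
  obtain ⟨c, hc0, hc1, h⟩ := L.shift x hx s hs
  have key : ∀ B : Set ℝ, MeasurableSet B →
      L.lam x {t | t - s ∈ B} = c * L.lam (tr (ug i j s) x) B := by
    intro B hB
    rw [← map_sub_apply _ s hB, h]
    rfl
  have h2 := key _ (measurableSet_Icc (a := -1) (b := 1))
  rw [setOf_sub_mem_icc, L.norm _ hs, mul_one, ← sub_eq_add_neg] at h2
  rw [h2]
  exact ⟨hc0, hc1, key⟩

/-- (P3), explicit -/
theorem Leafwise.scale_apply (L : Leafwise μ i j) {x : X n} (β : Fin n → ℝ)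
    (hβ : tr (da β) x ∈ L.X0)
    (h : ∃ c : ℝ≥0∞, c ≠ 0 ∧ c ≠ ∞ ∧
      (L.lam x).map (fun t => Real.exp (β j - β i) * t) = c • L.lam (tr (da β) x)) :
    L.lam x (Set.Icc (-Real.exp (β i - β j)) (Real.exp (β i - β j))) ≠ 0 ∧
    L.lam x (Set.Icc (-Real.exp (β i - β j)) (Real.exp (β i - β j))) ≠ ∞ ∧
      ∀ B : Set ℝ, MeasurableSet B → L.lam x {t | Real.exp (β j - β i) * t ∈ B} =
        L.lam x (Set.Icc (-Real.exp (β i - β j)) (Real.exp (β i - β j))) *
          L.lam (tr (da β) x) B := by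
  obtain ⟨c, hc0, hc1, h⟩ := h
  have key : ∀ B : Set ℝ, MeasurableSet B →
      L.lam x {t | Real.exp (β j - β i) * t ∈ B} = c * L.lam (tr (da β) x) B := by
    intro B hB
    rw [← map_mul_apply _ _ hB, h]
    rfl
  have h2 := key _ (measurableSet_Icc (a := -1) (b := 1))
  rw [setOf_mul_mem_icc (Real.exp_pos _), L.norm _ hβ] at h2
  simp only [mul_one, ← Real.exp_neg, mul_neg, neg_sub] at h2
  rw [h2]
  exact ⟨hc0, hc1, key⟩

/-- the full-measure set on which everything holds along the powers of `da β` -/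
theorem Leafwise.ae_good [IsProbabilityMeasure μ] (hA : AInv μ) (L : Leafwise μ i j)
    (β : Fin n → ℝ) : ∀ᵐ x ∂μ, ∀ k : ℤ, tr (da ((k : ℝ) • β)) x ∈ L.X0 ∧
      ∃ c : ℝ≥0∞, c ≠ 0 ∧ c ≠ ∞ ∧ (L.lam x).map (fun t => Real.exp (k * (β j - β i)) * t) =
        c • L.lam (tr (da ((k : ℝ) • β)) x) := by
  rw [ae_all_iff]
  intro k
  have h1 : ∀ᵐ x ∂μ, tr (da ((k : ℝ) • β)) x ∈ L.X0 := by
    have h2 : MeasurePreserving (tr (da ((k : ℝ) • β))) μ μ := ⟨measurable_tr _, hA _⟩
    exact h2.quasiMeasurePreserving.ae (p := fun x => x ∈ L.X0) L.conull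
  filter_upwards [h1, L.scale ((k : ℝ) • β)] with x hx hx'
  refine ⟨hx, ?_⟩
  simp only [Pi.smul_apply, smul_eq_mul, ← mul_sub] at hx'
  exact hx'

theorem ae_mem_X0 (L : Leafwise μ i j) : ∀ᵐ x ∂μ, x ∈ L.X0 := L.conull

/-- Poincaré recurrence for a real function -/
theorem recur [IsFiniteMeasure μ] {T : X n → X n} (hT : MeasurePreserving T μ μ) {φ : X n → ℝ}
    (hφ : Measurable φ) : ∀ᵐ x ∂μ, ∀ ε > 0, ∃ᶠ k in atTop, |φ (T^[k] x) - φ x| < ε := by
  have h1 : ∀ᵐ x ∂μ, ∀ p q : ℚ, x ∈ φ ⁻¹' (Set.Ioo (p : ℝ) q) →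
      ∃ᶠ k in atTop, T^[k] x ∈ φ ⁻¹' (Set.Ioo (p : ℝ) q) := by
    rw [ae_all_iff]
    intro p
    rw [ae_all_iff]
    intro q
    exact hT.conservative.ae_mem_imp_frequently_image_mem
      (hφ measurableSet_Ioo).nullMeasurableSet
  filter_upwards [h1] with x hx ε hε
  obtain ⟨p, hp1, hp2⟩ := exists_rat_btwn (show φ x - ε / 2 < φ x by linarith only [hε])
  obtain ⟨q, hq1, hq2⟩ := exists_rat_btwn (show φ x < φ x + ε / 2 by linarith)
  refine (hx p q ⟨hp2, hq1⟩).mono fun k hk => ?_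
  rw [abs_lt]
  have h2 := hk.1
  have h3 := hk.2
  constructor <;> linarith

end Vale.Agent.P007.R
end

section

set_option autoImplicit false

open MeasureTheory Matrix Filter Topology ProbabilityTheory
open scoped ENNReal

namespace Vale.Agent.P007.R

open Vale.Agent.P007 Vale.Agent.P007.Koopman Vale.Agent.P007.Mautner

variable {n : ℕ} {μ : Measure (X n)} {i j : Fin n}

theorem AEInv.restrict_map (hA : AInv μ) {Ω : Set (X n)} (hΩ : AEInv μ Ω) (β : Fin n → ℝ) :
    (μ.restrict Ω).map (tr (da β)) = μ.restrict Ω := by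
  ext B hB
  rw [Measure.map_apply (measurable_tr _) hB, Measure.restrict_apply (measurable_tr _ hB),
    Measure.restrict_apply hB]
  have h1 : (tr (da β) ⁻¹' B ∩ Ω : Set (X n)) =ᵐ[μ] tr (da β) ⁻¹' (B ∩ Ω) := by
    rw [Set.preimage_inter]
    exact (Filter.EventuallyEq.refl _ _).inter (hΩ.2 β).symm
  rw [measure_congr h1, ← Measure.map_apply (measurable_tr _) (hB.inter hΩ.1), hA β]

theorem AEInv.restrict_prob [IsProbabilityMeasure μ] {Ω : Set (X n)} (h0 : μ Ω ≠ 0) :
    IsProbabilityMeasure ((μ Ω)⁻¹ • μ.restrict Ω) := by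
  refine ⟨?_⟩
  rw [Measure.smul_apply, Measure.restrict_apply_univ, smul_eq_mul,
    ENNReal.inv_mul_cancel h0 (measure_ne_top _ _)]

theorem AEInv.restrict_ainv (hA : AInv μ) {Ω : Set (X n)} (hΩ : AEInv μ Ω) :
    AInv ((μ Ω)⁻¹ • μ.restrict Ω) := by
  intro β
  rw [Measure.map_smul, hΩ.restrict_map hA β]

theorem Leafwise.triv_of_dirac [IsProbabilityMeasure μ] (hA : AInv μ) (L : Leafwise μ i j)
    {Ω : Set (X n)} (hΩ : AEInv μ Ω) (h0 : μ Ω ≠ 0) (hsub : Ω ⊆ L.X0)
    (hd : ∀ x ∈ Ω, L.lam x {0}ᶜ = 0) : Triv (μ.restrict Ω) i j := by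
  have hprob := AEInv.restrict_prob h0
  have hmeas := hΩ.1
  have hc0 : ((μ Ω)⁻¹ • μ.restrict Ω) Ωᶜ = 0 := by
    rw [Measure.smul_apply, Measure.restrict_apply hmeas.compl, Set.compl_inter_self,
      measure_empty, smul_zero]
  obtain ⟨Z, hZ, hZ0, hZA, hZβ⟩ := saturate _ (hΩ.restrict_ainv hA) hmeas hc0
  refine ⟨Z, hZ, ?_, hZA, ?_⟩
  · rw [Measure.smul_apply, smul_eq_mul, mul_eq_zero] at hZ0
    exact hZ0.resolve_left (ENNReal.inv_ne_zero.mpr (measure_ne_top _ _))
  · intro x hx s hs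
    obtain ⟨β, h1, h2⟩ := ((hZβ x hx).and (hZβ _ hs)).exists
    rw [tr_da_ug] at h2
    set s' := Real.exp (β j - β i) * s with hs'
    set y := tr (da β) x with hy
    obtain ⟨hc0, hc1, key⟩ := L.shift_apply (hsub h1) (hsub h2)
    have h3 := key {0} (measurableSet_singleton 0)
    have h4 : {t : ℝ | t - s' ∈ ({0} : Set ℝ)} = {s'} := by
      ext t
      simp [sub_eq_zero]
    rw [h4] at h3
    have h5 : L.lam (tr (ug i j s') y) {0} ≠ 0 := by
      intro h6
      have h7 := L.norm _ (hsub h2)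
      have h8 : L.lam (tr (ug i j s') y) Set.univ = 0 := by
        rw [← Set.union_compl_self ({0} : Set ℝ)]
        exact measure_union_null h6 (hd _ h2)
      rw [measure_mono_null (Set.subset_univ _) h8] at h7
      exact zero_ne_one h7
    by_contra hs0
    have h6 : s' ≠ 0 := mul_ne_zero (Real.exp_pos _).ne' hs0
    have h7 : L.lam y {s'} = 0 :=
      measure_mono_null (by simpa using Ne.symm h6) (hd _ h1)
    rw [h7] at h3
    rcases mul_eq_zero.mp h3.symm with h8 | h8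
    · exact hc0 h8
    · exact h5 h8

/-- for `k : ℤ`: the leafwise measure of `[-e^k, e^k]` is `1` wherever there is an atom at `0` -/
theorem Leafwise.ae_atom_one [IsProbabilityMeasure μ] (hA : AInv μ) (hij : i ≠ j)
    (L : Leafwise μ i j) : ∀ᵐ x ∂μ, L.lam x {0} ≠ 0 → ∀ k : ℤ,
      L.lam x (Set.Icc (-Real.exp k) (Real.exp k)) = 1 := by
  have := L.sfin
  set β : Fin n → ℝ := Pi.single i 1 with hβ
  have hβi : β i = 1 := by simp [hβ]
  have hβj : β j = 0 := by simp [hβ, hij.symm]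
  have hgm : Measurable fun x => L.lam x {0} := Kernel.measurable_coe _ (measurableSet_singleton 0)
  have hle1 : ∀ x ∈ L.X0, L.lam x {0} ≤ 1 := by
    intro x hx
    rw [← L.norm x hx]
    exact measure_mono (by intro t ht; rw [Set.mem_singleton_iff] at ht; subst ht; simp only [Set.mem_Icc,
                                                                                     Left.neg_nonpos_iff,
                                                                                     zero_le_one,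
                                                                                     and_self])
  have hfin : ∫⁻ x, L.lam x {0} ∂μ ≠ ∞ := by
    refine ne_top_of_le_ne_top ENNReal.one_ne_top ?_
    calc ∫⁻ x, L.lam x {0} ∂μ ≤ ∫⁻ _, 1 ∂μ := by
          apply lintegral_mono_ae
          filter_upwards [ae_mem_X0 L] with x hx using hle1 x hx
      _ = 1 := by simp only [lintegral_const, measure_univ, mul_one]
  have hkey : ∀ᵐ x ∂μ, ∀ k : ℤ, x ∈ L.X0 ∧ tr (da ((k : ℝ) • β)) x ∈ L.X0 ∧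
      L.lam x {0} = L.lam x (Set.Icc (-Real.exp k) (Real.exp k)) *
        L.lam (tr (da ((k : ℝ) • β)) x) {0} := by
    filter_upwards [L.ae_good hA β, ae_mem_X0 L] with x hx hx0 k
    obtain ⟨h1, h2⟩ := hx k
    refine ⟨hx0, h1, ?_⟩
    have h3 := L.scale_apply ((k : ℝ) • β) h1 (by
      simpa only [Pi.smul_apply, smul_eq_mul, mul_sub] using h2)
    have h4 := h3.2.2 {0} (measurableSet_singleton 0)
    have h5 : {t : ℝ | Real.exp (((k : ℝ) • β) j - ((k : ℝ) • β) i) * t ∈ ({0} : Set ℝ)} = {0} := by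
      ext t
      simp [(Real.exp_pos _).ne']
    rw [h5] at h4
    simpa only [Pi.smul_apply, hβi, smul_eq_mul, mul_one, hβj, mul_zero, sub_zero] using h4
  have heq : ∀ k : ℤ, ∀ᵐ x ∂μ, L.lam (tr (da ((k : ℝ) • β)) x) {0} = L.lam x {0} := by
    intro k
    have hmp : MeasurePreserving (tr (da ((k : ℝ) • β))) μ μ := ⟨measurable_tr _, hA _⟩
    have hint : ∫⁻ x, L.lam (tr (da ((k : ℝ) • β)) x) {0} ∂μ = ∫⁻ x, L.lam x {0} ∂μ :=
      hmp.lintegral_comp hgm
    rcases le_total 0 k with hk | hk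
    · refine ae_eq_of_ae_le_of_lintegral_le ?_ (by rw [hint]; exact hfin) hgm.aemeasurable
        hint.symm.le
      filter_upwards [hkey] with x hx
      obtain ⟨h1, h2, h3⟩ := hx k
      rw [h3]
      refine le_mul_of_one_le_left' ?_
      rw [← L.norm x h1]
      refine measure_mono (Set.Icc_subset_Icc ?_ ?_)
      · simpa only [neg_le_neg_iff, Real.one_le_exp_iff,
          Int.cast_nonneg_iff] using Real.one_le_exp (by exact_mod_cast hk : (0 : ℝ) ≤ k)
      · simpa only [Real.one_le_exp_iff,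
          Int.cast_nonneg_iff] using Real.one_le_exp (by exact_mod_cast hk : (0 : ℝ) ≤ k)
    · refine (ae_eq_of_ae_le_of_lintegral_le ?_ hfin
        (hgm.comp (measurable_tr _)).aemeasurable hint.le).symm
      filter_upwards [hkey] with x hx
      obtain ⟨h1, h2, h3⟩ := hx k
      rw [h3]
      refine mul_le_of_le_one_left' ?_
      rw [← L.norm x h1]
      refine measure_mono (Set.Icc_subset_Icc ?_ ?_)
      · simpa only [neg_le_neg_iff, Real.exp_le_one_iff,
          Int.cast_nonpos] using Real.exp_le_one_iff.mpr (by exact_mod_cast hk : (k : ℝ) ≤ 0)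
      · simpa using Real.exp_le_one_iff.mpr (by exact_mod_cast hk : (k : ℝ) ≤ 0)
  rw [← ae_all_iff] at heq
  filter_upwards [hkey, heq] with x hx hx' hne k
  obtain ⟨h1, h2, h3⟩ := hx k
  rw [hx' k] at h3
  have h4 : L.lam x {0} ≠ ∞ := ne_top_of_le_ne_top ENNReal.one_ne_top (hle1 x h1)
  have h5 : 1 * L.lam x {0} = L.lam x (Set.Icc (-Real.exp k) (Real.exp k)) * L.lam x {0} := by
    rw [one_mul]; exact h3
  exact ((ENNReal.mul_left_inj hne h4).mp h5).symm

theorem Leafwise.ae_atom_dirac [IsProbabilityMeasure μ] (hA : AInv μ) (hij : i ≠ j)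
    (L : Leafwise μ i j) : ∀ᵐ x ∂μ, L.lam x {0} ≠ 0 → L.lam x {0}ᶜ = 0 := by
  filter_upwards [L.ae_atom_one hA hij] with x hx hne
  have h := hx hne
  have hanti : Antitone fun k : ℕ => Set.Icc (-Real.exp ((-(k : ℤ) : ℤ) : ℝ))
      (Real.exp ((-(k : ℤ) : ℤ) : ℝ)) := by
    intro a b hab
    have : Real.exp ((-(b : ℤ) : ℤ) : ℝ) ≤ Real.exp ((-(a : ℤ) : ℤ) : ℝ) := by
      apply Real.exp_le_exp.mpr
      push_cast
      have : (a : ℝ) ≤ b := by exact_mod_cast hab
      linarith only [this]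
    exact Set.Icc_subset_Icc (by linarith) this
  have hinter : ⋂ k : ℕ, Set.Icc (-Real.exp ((-(k : ℤ) : ℤ) : ℝ))
      (Real.exp ((-(k : ℤ) : ℤ) : ℝ)) = {0} := by
    ext t
    simp only [Set.mem_iInter, Set.mem_singleton_iff]
    constructor
    · intro ht
      have h1 : Tendsto (fun k : ℕ => Real.exp ((-(k : ℤ) : ℤ) : ℝ)) atTop (𝓝 0) := by
        have : Tendsto (fun k : ℕ => -(k : ℝ)) atTop atBot :=
          tendsto_neg_atTop_atBot.comp tendsto_natCast_atTop_atTop
        have h2 := Real.tendsto_exp_atBot.comp this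
        refine h2.congr fun k => ?_
        simp
      have h3 : t ≤ 0 := ge_of_tendsto' h1 fun k => (ht k).2
      have h4 : -t ≤ 0 := ge_of_tendsto' h1 fun k => by linarith [(ht k).1]
      linarith
    · rintro rfl k
      exact ⟨by have := Real.exp_pos ((-(k : ℤ) : ℤ) : ℝ); linarith, (Real.exp_pos _).le⟩
  have hz : L.lam x {0} = 1 := by
    have h1 := tendsto_measure_iInter_atTop (μ := L.lam x)
      (fun k : ℕ => (measurableSet_Icc (a := -Real.exp ((-(k : ℤ) : ℤ) : ℝ))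
        (b := Real.exp ((-(k : ℤ) : ℤ) : ℝ))).nullMeasurableSet) hanti
      ⟨0, by rw [h]; exact ENNReal.one_ne_top⟩
    rw [hinter] at h1
    refine tendsto_nhds_unique h1 ?_
    refine (tendsto_const_nhds (x := (1 : ℝ≥0∞))).congr fun k => ?_
    exact (h _).symm
  have hmono : Monotone fun k : ℕ => Set.Icc (-Real.exp (((k : ℤ) : ℤ) : ℝ))
      (Real.exp (((k : ℤ) : ℤ) : ℝ)) := by
    intro a b hab
    have : Real.exp (((a : ℤ) : ℤ) : ℝ) ≤ Real.exp (((b : ℤ) : ℤ) : ℝ) := by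
      apply Real.exp_le_exp.mpr
      push_cast
      exact_mod_cast hab
    exact Set.Icc_subset_Icc (by linarith only [this]) this
  have hunion : ⋃ k : ℕ, Set.Icc (-Real.exp (((k : ℤ) : ℤ) : ℝ))
      (Real.exp (((k : ℤ) : ℤ) : ℝ)) = Set.univ := by
    ext t
    simp only [Set.mem_iUnion, Set.mem_univ, iff_true]
    obtain ⟨k, hk⟩ := exists_nat_ge |t|
    refine ⟨k, ?_⟩
    have h1 : (k : ℝ) ≤ Real.exp (((k : ℤ) : ℤ) : ℝ) := by
      have := Real.add_one_le_exp (k : ℝ)
      push_cast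
      linarith only [this]
    have h2 := neg_abs_le t
    have h3 := le_abs_self t
    exact ⟨by linarith, by linarith⟩
  have hu : L.lam x Set.univ = 1 := by
    have h1 := tendsto_measure_iUnion_atTop (μ := L.lam x) hmono
    rw [hunion] at h1
    refine tendsto_nhds_unique h1 ?_
    refine (tendsto_const_nhds (x := (1 : ℝ≥0∞))).congr fun k => ?_
    exact (h _).symm
  rw [measure_compl (measurableSet_singleton 0) (by rw [hz]; exact ENNReal.one_ne_top), hu, hz,
    tsub_self]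

theorem Leafwise.noAtoms {μ : Measure (X n)} [IsProbabilityMeasure μ] (hA : AInv μ) (hP : Pure μ)
    {i j : Fin n} (hij : i ≠ j) (L : Leafwise μ i j) (hT : ¬ Triv μ i j) :
    ∀ᵐ x ∂μ, ∀ s : ℝ, L.lam x {s} = 0 := by
  have := L.sfin
  set Ω : Set (X n) := L.X0 ∩ {x | L.lam x {0}ᶜ = 0} with hΩdef
  have hΩm : MeasurableSet Ω := L.meas.inter
    (measurableSet_eq_fun (Kernel.measurable_coe _ (measurableSet_singleton (0 : ℝ)).compl)
      measurable_const)
  have hΩ : AEInv μ Ω := by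
    refine ⟨hΩm, fun β => ?_⟩
    have hmp : MeasurePreserving (tr (da β)) μ μ := ⟨measurable_tr _, hA _⟩
    have h1 : ∀ᵐ x ∂μ, tr (da β) x ∈ L.X0 :=
      hmp.quasiMeasurePreserving.ae (p := fun x => x ∈ L.X0) L.conull
    rw [eventuallyEq_set]
    filter_upwards [h1, L.scale β, ae_mem_X0 L] with x hx1 hx2 hx3
    obtain ⟨hc0, hc1, key⟩ := L.scale_apply β hx1 hx2
    have h4 := key {0}ᶜ (measurableSet_singleton 0).compl
    have h5 : {t : ℝ | Real.exp (β j - β i) * t ∈ ({0} : Set ℝ)ᶜ} = {0}ᶜ := by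
      ext t
      simp [(Real.exp_pos _).ne']
    rw [h5] at h4
    simp only [hΩdef, Set.mem_preimage, Set.mem_inter_iff, Set.mem_ofPred_eq, hx1, hx3, true_and]
    rw [h4, mul_eq_zero]
    exact ⟨fun h => Or.inr h, fun h => h.resolve_left hc0⟩
  have hΩ0 : μ Ω = 0 := by
    by_contra h0
    exact hT ((hP Ω hΩ h0 i j hij).1 (L.triv_of_dirac hA hΩ h0 Set.inter_subset_left
      fun x hx => hx.2))
  have h0 : ∀ᵐ x ∂μ, L.lam x {0} = 0 := by
    have h1 : ∀ᵐ x ∂μ, x ∉ Ω := measure_eq_zero_iff_ae_notMem.mp hΩ0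
    filter_upwards [h1, L.ae_atom_dirac hA hij, ae_mem_X0 L] with x hx1 hx2 hx3
    by_contra h
    exact hx1 ⟨hx3, hx2 h⟩
  set E : Set (X n) := L.X0 ∩ {x | L.lam x {0} = 0} with hEdef
  have hE : MeasurableSet E := L.meas.inter
    (measurableSet_eq_fun (Kernel.measurable_coe _ (measurableSet_singleton (0 : ℝ)))
      measurable_const)
  have hE0 : μ Eᶜ = 0 := by
    have : ∀ᵐ x ∂μ, x ∈ E := by
      filter_upwards [h0, ae_mem_X0 L] with x hx1 hx2 using ⟨hx2, hx1⟩
    exact this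
  filter_upwards [L.ae_leaf hE hE0, ae_mem_X0 L] with x hx hx0 s
  by_contra hs
  have h1 : tr (ug i j s) x ∈ E := by
    by_contra hcon
    rw [ae_iff] at hx
    exact hs (measure_mono_null (by simpa using hcon) hx)
  obtain ⟨hc0, hc1, key⟩ := L.shift_apply hx0 h1.1
  have h3 := key {0} (measurableSet_singleton 0)
  have h4 : {t : ℝ | t - s ∈ ({0} : Set ℝ)} = {s} := by
    ext t
    simp [sub_eq_zero]
  have h5 : L.lam (tr (ug i j s) x) {0} = 0 := h1.2
  rw [h4, h5, mul_zero] at h3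
  exact hs h3

end Vale.Agent.P007.R
end

section

set_option autoImplicit false

open MeasureTheory Matrix Filter Topology ProbabilityTheory
open scoped ENNReal

namespace Vale.Agent.P007.R

open Vale.Agent.P007 Vale.Agent.P007.Koopman Vale.Agent.P007.Mautner

variable {n : ℕ} {μ : Measure (X n)} {i j : Fin n}

/-- the leafwise measures as points of a second countable space -/
noncomputable def Leafwise.enc (L : Leafwise μ i j) (x : X n) (q : ℚ × ℚ) : ℝ≥0∞ :=
  L.lam x (Set.Ioo (q.1 : ℝ) q.2)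

theorem Leafwise.measurable_enc (L : Leafwise μ i j) : Measurable L.enc :=
  measurable_pi_lambda _ fun _ => Kernel.measurable_coe _ measurableSet_Ioo

theorem Leafwise.eq_of_enc (L : Leafwise μ i j) {x y : X n} (hx : x ∈ L.X0)
    (h : L.enc x = L.enc y) : L.lam x = L.lam y := by
  have := L.locFin hx
  exact Real.measure_ext_Ioo_rat fun a b => congrFun h (a, b)

theorem Leafwise.eq_of_smul (L : Leafwise μ i j) {x y : X n} (hx : x ∈ L.X0) (hy : y ∈ L.X0)
    {c : ℝ≥0∞} (h : L.lam x = c • L.lam y) : L.lam x = L.lam y := by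
  have h1 := congrArg (fun m : Measure ℝ => m (Set.Icc (-1) 1)) h
  simp only [Measure.smul_apply, L.norm x hx, L.norm y hy, smul_eq_mul, mul_one] at h1
  rw [h, ← h1, one_smul]

/-- III.2 (Hopf): `β_i = β_j`, `h` contracted by `da β` -/
theorem Leafwise.const {μ : Measure (X n)} [IsProbabilityMeasure μ] (hA : AInv μ) {i j : Fin n}
    (L : Leafwise μ i j) (β : Fin n → ℝ) (hβ : β i = β j) :
    ∃ X' ⊆ L.X0, MeasurableSet X' ∧ μ X'ᶜ = 0 ∧ (∀ x ∈ X', ∀ k : ℤ, tr (da β ^ k) x ∈ L.X0 ∧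
      L.lam (tr (da β ^ k) x) = L.lam x) ∧
      ∀ x ∈ X', ∀ h : G n, tr h x ∈ X' →
      Tendsto (fun k : ℕ => (da β ^ k)⁻¹ * h * da β ^ k) atTop (𝓝 1) →
      L.lam x = L.lam (tr h x) := by
  have hgood : ∀ᵐ x ∂μ, x ∈ L.X0 ∧ ∀ k : ℤ, tr (da β ^ k) x ∈ L.X0 ∧
      L.lam (tr (da β ^ k) x) = L.lam x := by
    filter_upwards [L.ae_good hA β, ae_mem_X0 L] with x hx hx0
    refine ⟨hx0, fun k => ?_⟩
    obtain ⟨h1, c, hc0, hc1, h2⟩ := hx k
    rw [da_zsmul] at h1 h2
    refine ⟨h1, ?_⟩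
    simp only [hβ, sub_self, mul_zero, Real.exp_zero, one_mul, Measure.map_id'] at h2
    exact (L.eq_of_smul hx0 h1 h2).symm
  set S : Set (X n) := L.X0 ∩
    ⋂ k : ℤ, (tr (da β ^ k) ⁻¹' L.X0 ∩ {x | L.enc (tr (da β ^ k) x) = L.enc x}) with hS
  have hSmem : ∀ x, x ∈ S ↔ x ∈ L.X0 ∧ ∀ k : ℤ, tr (da β ^ k) x ∈ L.X0 ∧
      L.enc (tr (da β ^ k) x) = L.enc x := by
    intro x
    simp only [hS, Set.mem_inter_iff, Set.mem_iInter, Set.mem_preimage, Set.mem_ofPred_eq]
  have hSm : MeasurableSet S := by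
    refine L.meas.inter (MeasurableSet.iInter fun k => (measurable_tr _ L.meas).inter ?_)
    exact measurableSet_eq_fun (L.measurable_enc.comp (measurable_tr _)) L.measurable_enc
  have hS0 : μ Sᶜ = 0 := by
    have : ∀ᵐ x ∂μ, x ∈ S := by
      filter_upwards [hgood] with x hx
      refine (hSmem x).mpr ⟨hx.1, fun k => ⟨(hx.2 k).1, ?_⟩⟩
      unfold Leafwise.enc
      rw [(hx.2 k).2]
    exact this
  obtain ⟨X', hX', hX0, hX⟩ := hopf μ (da β) (hA β) L.enc L.measurable_enc (by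
    have : ∀ᵐ x ∂μ, x ∈ S := hS0
    filter_upwards [this] with x hx
    simpa using (((hSmem x).mp hx).2 1).2)
  refine ⟨X' ∩ S, fun x hx => hx.2.1, hX'.inter hSm, ?_, ?_, ?_⟩
  · rw [Set.compl_inter]
    exact measure_union_null hX0 hS0
  · intro x hx k
    have h1 := ((hSmem x).mp hx.2).2 k
    exact ⟨h1.1, L.eq_of_enc h1.1 h1.2⟩
  · intro x hx h hh ht
    exact L.eq_of_enc hx.2.1 (hX x hx.1 h hh.1 ht)

end Vale.Agent.P007.R
end

section

set_option autoImplicit false

open MeasureTheory Matrix Filter Topology ProbabilityTheory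
open scoped ENNReal

namespace Vale.Agent.P007.R

open Vale.Agent.P007 Vale.Agent.P007.Koopman Vale.Agent.P007.Mautner

/-! ### quasi-periodic measures on the line under zooming out -/

theorem setOf_sub_mem_ioc (s a b : ℝ) :
    {t : ℝ | t - s ∈ Set.Ioc a b} = Set.Ioc (a + s) (b + s) := by
  ext t
  simp only [Set.mem_Ioc, Set.mem_ofPred_eq]
  constructor <;> rintro ⟨h1, h2⟩ <;> constructor <;> linarith

/-- A `σ`-periodic measure is Lebesgue measure up to a bounded error. -/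
theorem periodic_bound (m : Measure ℝ) [IsLocallyFiniteMeasure m] {σ : ℝ} (hσ : 0 < σ)
    (h : m.map (fun t => t - σ) = m) (u v : ℝ) (huv : u ≤ v) (B : Set ℝ)
    (hB1 : Set.Ioo u v ⊆ B) (hB2 : B ⊆ Set.Icc u v) :
    |m.real B - m.real (Set.Ioc 0 σ) / σ * (v - u)| ≤ 3 * m.real (Set.Ioc 0 σ) := by
  set P := m.real (Set.Ioc 0 σ) with hP
  have hP0 : 0 ≤ P := measureReal_nonneg
  set H : ℝ → ℝ := fun t => ∫ _ in (0 : ℝ)..t, (1 : ℝ) ∂m with hH
  have hsub : ∀ a b : ℝ, a ≤ b → H b - H a = m.real (Set.Ioc a b) := by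
    intro a b hab
    simp only [hH]
    rw [intervalIntegral.integral_interval_sub_left intervalIntegrable_const
      intervalIntegrable_const, intervalIntegral.integral_const']
    simp only [Set.Ioc_eq_empty_of_le hab, measureReal_empty, sub_zero, smul_eq_mul, mul_one]
  have hinv : ∀ a b : ℝ, m.real (Set.Ioc (a + σ) (b + σ)) = m.real (Set.Ioc a b) := by
    intro a b
    rw [Measure.real, Measure.real, ← setOf_sub_mem_ioc,
      ← map_sub_apply m σ measurableSet_Ioc, h]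
  have hH0 : H 0 = 0 := by simp [hH]
  have hHσ : H σ = P := by
    have := hsub 0 σ hσ.le
    rw [hH0, sub_zero] at this
    exact this
  have hper : ∀ t, H (t + σ) = H t + P := by
    intro t
    rw [← hHσ]
    rcases le_total 0 t with ht | ht
    · have h1 := hsub σ (t + σ) (by linarith)
      have h2 := hsub 0 t ht
      have h3 := hinv 0 t
      rw [zero_add] at h3
      rw [h3] at h1
      linarith
    · have h1 := hsub (t + σ) σ (by linarith)
      have h2 := hsub t 0 ht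
      have h3 := hinv t 0
      rw [zero_add] at h3
      rw [h3] at h1
      linarith
  have hE : ∀ t, |H t - P / σ * t| ≤ P := by
    have hp : Function.Periodic (fun t => H t - P / σ * t) σ := by
      intro t
      simp only
      rw [hper]
      field_simp
      ring
    intro t
    obtain ⟨y, hy, hy2⟩ := hp.exists_mem_Ico₀ hσ t
    rw [hy2]
    have h1 : 0 ≤ H y := by
      have := hsub 0 y hy.1
      rw [hH0, sub_zero] at this
      rw [this]
      exact measureReal_nonneg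
    have h2 : H y ≤ P := by
      have := hsub y σ hy.2.le
      have h3 : 0 ≤ m.real (Set.Ioc y σ) := measureReal_nonneg
      linarith only [hHσ, this, h3]
    have h3 : 0 ≤ P / σ * y := mul_nonneg (div_nonneg hP0 hσ.le) hy.1
    have h4 : P / σ * y ≤ P := by
      rw [div_mul_eq_mul_div, div_le_iff₀ hσ]
      exact mul_le_mul_of_nonneg_left hy.2.le hP0
    rw [abs_le]
    constructor <;> linarith only [h1, h4, h2, h3]
  have hioc : |m.real (Set.Ioc u v) - P / σ * (v - u)| ≤ 2 * P := by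
    have h1 := abs_le.mp (hE u)
    have h2 := abs_le.mp (hE v)
    rw [← hsub u v huv, abs_le]
    constructor <;> nlinarith only [h1.1, h1.2, h2.1, h2.2, h1, h2]
  have hsing : ∀ t, m.real {t} ≤ P := by
    intro t
    have h1 : m.real (Set.Ioc (t - σ) t) = P := by
      have h2 := hsub (t - σ) t (by linarith)
      have h3 := hper (t - σ)
      rw [sub_add_cancel] at h3
      rw [← h2, h3]
      ring
    rw [← h1]
    exact measureReal_mono (by intro x hx; rw [Set.mem_singleton_iff] at hx; subst hx; simp only [Set.mem_Ioc,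
                                                                                         sub_lt_self_iff,
                                                                                         hσ,
                                                                                         Std.le_refl,
                                                                                         and_self])
      (by exact (measure_Ioc_lt_top).ne)
  have hfin : m (Set.Icc u v) ≠ ∞ := measure_Icc_lt_top.ne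
  have hle : m.real B ≤ m.real (Set.Ioc u v) + P := by
    calc m.real B ≤ m.real ({u} ∪ Set.Ioc u v) := by
          refine measureReal_mono ?_ ?_
          · intro x hx
            obtain ⟨h1, h2⟩ := hB2 hx
            rcases h1.eq_or_lt with h3 | h3
            · left; exact h3.symm
            · right; exact ⟨h3, h2⟩
          · refine ((measure_union_le _ _).trans_lt ?_).ne
            exact ENNReal.add_lt_top.mpr ⟨measure_singleton_lt_top, measure_Ioc_lt_top⟩
      _ ≤ m.real {u} + m.real (Set.Ioc u v) := measureReal_union_le _ _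
      _ ≤ _ := by linarith only [hsing u, hsing]
  have hge : m.real (Set.Ioc u v) ≤ m.real B + P := by
    calc m.real (Set.Ioc u v) ≤ m.real (B ∪ {v}) := by
          refine measureReal_mono ?_ ?_
          · intro x hx
            rcases hx.2.eq_or_lt with h3 | h3
            · right; exact h3
            · left; exact hB1 ⟨hx.1, h3⟩
          · refine ((measure_union_le _ _).trans_lt ?_).ne
            exact ENNReal.add_lt_top.mpr ⟨(measure_mono hB2).trans_lt hfin.lt_top,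
              measure_singleton_lt_top⟩
      _ ≤ m.real B + m.real {v} := measureReal_union_le _ _
      _ ≤ _ := by linarith [hsing v]
  obtain ⟨h1, h2⟩ := abs_le.mp hioc
  rw [abs_le]
  constructor <;> linarith only [hge, h1, hle, h2]

theorem map_neg_shift {m : Measure ℝ} {σ : ℝ} {c : ℝ≥0∞} (hc0 : c ≠ 0) (hc1 : c ≠ ∞)
    (h : m.map (fun t => t - σ) = c • m) : m.map (fun t => t - -σ) = c⁻¹ • m := by
  have h1 : (m.map (fun t => t - σ)).map (fun t => t - -σ) = m := by
    rw [Measure.map_map (by fun_prop) (by fun_prop)]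
    have : ((fun t : ℝ => t - -σ) ∘ fun t => t - σ) = id := by
      funext t
      simp
    rw [this, Measure.map_id]
  rw [h, Measure.map_smul] at h1
  have h2 := congrArg (fun ν : Measure ℝ => c⁻¹ • ν) h1
  simp only [smul_smul] at h2
  rwa [ENNReal.inv_mul_cancel hc0 hc1, one_smul] at h2

theorem zoom_one (m : Measure ℝ) [IsLocallyFiniteMeasure m] {σ : ℝ} (hσ : σ ≠ 0)
    (h : m.map (fun t => t - σ) = m) (hm : m (Set.Icc (-1) 1) ≠ 0) {a b : ℝ} (hab : a ≤ b) :
    Tendsto (fun k : ℕ => m.real (Set.Ioo (2 ^ k * a) (2 ^ k * b)) /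
      m.real (Set.Icc (-2 ^ k) (2 ^ k))) atTop (𝓝 ((b - a) / 2)) := by
  wlog hpos : 0 < σ generalizing σ
  · have h1 : m.map (fun t => t - -σ) = m := by
      have := map_neg_shift (m := m) (σ := σ) (c := 1) one_ne_zero ENNReal.one_ne_top
        (by rw [one_smul]; exact h)
      rwa [inv_one, one_smul] at this
    exact this (neg_ne_zero.mpr hσ) h1 (by
      rcases lt_or_gt_of_ne hσ with h2 | h2
      · linarith
      · exact absurd h2 hpos)
  set P := m.real (Set.Ioc 0 σ) with hP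
  have hP0 : 0 ≤ P := measureReal_nonneg
  have hbd := periodic_bound m hpos h
  have hPpos : 0 < P := by
    rcases hP0.eq_or_lt with h0 | h0
    · exfalso
      have h1 := hbd (-1) 1 (by norm_num) (Set.Icc (-1) 1) Set.Ioo_subset_Icc_self subset_rfl
      rw [← hP, ← h0] at h1
      simp only [zero_div, zero_mul, sub_zero, mul_zero, abs_nonpos_iff] at h1
      rw [measureReal_eq_zero_iff measure_Icc_lt_top.ne] at h1
      exact hm h1
    · exact h0
  have hQ : 0 < P / σ := div_pos hPpos hpos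
  have hlim : Tendsto (fun k : ℕ => 3 * P / ((P / σ) * 2 ^ k)) atTop (𝓝 0) := by
    apply Tendsto.const_div_atTop
    apply Tendsto.const_mul_atTop hQ
    exact tendsto_pow_atTop_atTop_of_one_lt (by norm_num)
  have h1 : Tendsto (fun k : ℕ => m.real (Set.Ioo (2 ^ k * a) (2 ^ k * b)) / ((P / σ) * 2 ^ k))
      atTop (𝓝 (b - a)) := by
    rw [tendsto_iff_norm_sub_tendsto_zero]
    refine squeeze_zero (fun _ => norm_nonneg _) (fun k => ?_) hlim
    have hk : (0 : ℝ) < 2 ^ k := by positivity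
    have h2 := hbd (2 ^ k * a) (2 ^ k * b) (by (clear * - hab; gcongr)) (Set.Ioo (2 ^ k * a) (2 ^ k * b))
      subset_rfl Set.Ioo_subset_Icc_self
    rw [Real.norm_eq_abs]
    have h3 : m.real (Set.Ioo (2 ^ k * a) (2 ^ k * b)) / ((P / σ) * 2 ^ k) - (b - a) =
        (m.real (Set.Ioo (2 ^ k * a) (2 ^ k * b)) - P / σ * (2 ^ k * b - 2 ^ k * a)) /
          ((P / σ) * 2 ^ k) := by
      field_simp
    rw [h3, abs_div, abs_of_pos (mul_pos hQ hk)]
    (clear * - hpos hPpos h2; gcongr)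
  have h2 : Tendsto (fun k : ℕ => m.real (Set.Icc (-2 ^ k) (2 ^ k)) / ((P / σ) * 2 ^ k))
      atTop (𝓝 2) := by
    rw [tendsto_iff_norm_sub_tendsto_zero]
    refine squeeze_zero (fun _ => norm_nonneg _) (fun k => ?_) hlim
    have hk : (0 : ℝ) < 2 ^ k := by positivity
    have h2 := hbd (-2 ^ k) (2 ^ k) (by linarith only [hk]) (Set.Icc (-2 ^ k) (2 ^ k))
      Set.Ioo_subset_Icc_self subset_rfl
    rw [Real.norm_eq_abs]
    have h3 : m.real (Set.Icc (-2 ^ k) (2 ^ k)) / ((P / σ) * 2 ^ k) - 2 =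
        (m.real (Set.Icc (-2 ^ k) (2 ^ k)) - P / σ * (2 ^ k - -2 ^ k)) /
          ((P / σ) * 2 ^ k) := by
      field_simp
      ring
    rw [h3, abs_div, abs_of_pos (mul_pos hQ hk)]
    (clear * - hpos hPpos h2; gcongr)
  refine (h1.div h2 (by norm_num)).congr fun k => ?_
  have hk : (P / σ) * 2 ^ k ≠ 0 := by positivity
  exact div_div_div_cancel_right₀ hk _ _

theorem zoom_big (m : Measure ℝ) [IsLocallyFiniteMeasure m] {σ : ℝ} {c : ℝ≥0∞} (hc0 : c ≠ 0)
    (hc1 : c ≠ ∞) (hc : c ≠ 1) (h : m.map (fun t => t - σ) = c • m)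
    (hm : m (Set.Icc (-1) 1) ≠ 0) :
    Tendsto (fun k : ℕ => m.real (Set.Icc (2 ^ k * -(1 / 2)) (2 ^ k * (1 / 2))) /
      m.real (Set.Icc (-2 ^ k) (2 ^ k))) atTop (𝓝 0) := by
  wlog hgt : 1 < c generalizing σ c
  · have hlt : c < 1 := lt_of_le_of_ne (not_lt.mp hgt) hc
    refine this (ENNReal.inv_ne_zero.mpr hc1) (ENNReal.inv_ne_top.mpr hc0) ?_
      (map_neg_shift hc0 hc1 h) ?_
    · intro h1
      rw [ENNReal.inv_eq_one] at h1
      exact hc h1
    · exact ENNReal.one_lt_inv.mpr hlt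
  set C := c.toReal with hC
  have hC1 : 1 < C := by
    rw [hC, ← ENNReal.toReal_one]
    exact (ENNReal.toReal_lt_toReal ENNReal.one_ne_top hc1).mpr hgt
  have hshift : ∀ a b : ℝ, m.real (Set.Icc (a + σ) (b + σ)) = C * m.real (Set.Icc a b) := by
    intro a b
    rw [Measure.real, Measure.real, add_comm a, add_comm b, ← setOf_sub_mem_icc,
      ← map_sub_apply m σ measurableSet_Icc, h, Measure.smul_apply, smul_eq_mul,
      ENNReal.toReal_mul]
  have hshiftj : ∀ (j : ℕ) (a b : ℝ),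
      m.real (Set.Icc (a + j * σ) (b + j * σ)) = C ^ j * m.real (Set.Icc a b) := by
    intro j
    induction j with
    | zero => intro a b; simp only [CharP.cast_eq_zero, zero_mul, add_zero, pow_zero, one_mul]
    | succ j ih =>
      intro a b
      have h1 : a + ((j + 1 : ℕ) : ℝ) * σ = (a + j * σ) + σ := by push_cast; ring
      have h2 : b + ((j + 1 : ℕ) : ℝ) * σ = (b + j * σ) + σ := by push_cast; ring
      rw [h1, h2, hshift, ih, pow_succ]
      ring
  have hpos : ∀ k : ℕ, 0 < m.real (Set.Icc (-2 ^ k) (2 ^ k)) := by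
    intro k
    have h1 : (1 : ℝ) ≤ 2 ^ k := one_le_pow₀ (by norm_num)
    have h2 : m (Set.Icc (-1) 1) ≤ m (Set.Icc (-2 ^ k) (2 ^ k)) :=
      measure_mono (Set.Icc_subset_Icc (by linarith) h1)
    rw [Measure.real]
    refine ENNReal.toReal_pos ?_ measure_Icc_lt_top.ne
    intro h3
    exact hm (le_antisymm (h3 ▸ h2) bot_le)
  rw [Metric.tendsto_atTop]
  intro ε hε
  obtain ⟨j, hj⟩ := exists_pow_lt_of_lt_one hε (inv_lt_one_of_one_lt₀ hC1)
  obtain ⟨k₀, hk₀⟩ := pow_unbounded_of_one_lt (2 * (j * |σ|)) (by norm_num : (1 : ℝ) < 2)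
  refine ⟨k₀, fun k hk => ?_⟩
  have h1 : 2 * (j * |σ|) ≤ 2 ^ k := hk₀.le.trans (pow_le_pow_right₀ (by norm_num) hk)
  have h2 : C ^ j * m.real (Set.Icc (2 ^ k * -(1 / 2)) (2 ^ k * (1 / 2))) ≤
      m.real (Set.Icc (-2 ^ k) (2 ^ k)) := by
    rw [← hshiftj]
    refine measureReal_mono (Set.Icc_subset_Icc ?_ ?_) measure_Icc_lt_top.ne
    · have := neg_abs_le σ
      have h3 : -(j * |σ|) ≤ j * σ := by
        rw [← mul_neg]
        (clear * - this; gcongr)
      linarith only [h1, h3]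
    · have := le_abs_self σ
      have h3 : j * σ ≤ j * |σ| := by (clear * - this; gcongr)
      linarith only [h1, h3]
  have hCj : 0 < C ^ j := by positivity
  rw [Real.dist_eq, sub_zero, abs_of_nonneg (div_nonneg measureReal_nonneg measureReal_nonneg)]
  refine lt_of_le_of_lt ?_ hj
  rw [div_le_iff₀ (hpos k), inv_pow, ← div_eq_inv_mul, le_div_iff₀ hCj]
  linarith only [h2]

end Vale.Agent.P007.R
end

section

set_option autoImplicit false

open MeasureTheory Matrix Filter Topology ProbabilityTheory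
open scoped ENNReal

namespace Vale.Agent.P007.R

open Vale.Agent.P007 Vale.Agent.P007.Koopman Vale.Agent.P007.Mautner

variable {n : ℕ} {μ : Measure (X n)} {i j : Fin n}

/-- Wherever the leafwise measure has a nontrivial projective symmetry it is Lebesgue measure. -/
theorem Leafwise.ae_sym [IsProbabilityMeasure μ] (hA : AInv μ) (hij : i ≠ j)
    (L : Leafwise μ i j) : ∀ᵐ x ∂μ, ∀ σ : ℝ, σ ≠ 0 → (∃ c : ℝ≥0∞, c ≠ 0 ∧ c ≠ ∞ ∧
      (L.lam x).map (fun t => t - σ) = c • L.lam x) →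
      L.lam x = (2⁻¹ : ℝ≥0∞) • (volume : Measure ℝ) := by
  have := L.sfin
  set β : Fin n → ℝ := Pi.single i (Real.log 2) with hβ
  have hβi : β i = Real.log 2 := by simp [hβ]
  have hβj : β j = 0 := by simp [hβ, hij.symm]
  have hmp : MeasurePreserving (tr (da β)) μ μ := ⟨measurable_tr _, hA _⟩
  have hexp : ∀ k : ℕ, Real.exp (k * Real.log 2) = 2 ^ k := by
    intro k
    rw [← Real.rpow_natCast, Real.rpow_def_of_pos (by norm_num), mul_comm]
  have hr0 := recur hmp (φ := fun x => (L.lam x).real (Set.Icc (-(1 / 2)) (1 / 2)))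
    (Kernel.measurable_coe _ measurableSet_Icc).ennreal_toReal
  have hrq : ∀ᵐ x ∂μ, ∀ a b : ℚ, ∀ ε > 0, ∃ᶠ k in atTop,
      |(L.lam ((tr (da β))^[k] x)).real (Set.Ioo (a : ℝ) b) -
        (L.lam x).real (Set.Ioo (a : ℝ) b)| < ε := by
    rw [ae_all_iff]
    intro a
    rw [ae_all_iff]
    intro b
    exact recur hmp (φ := fun x => (L.lam x).real (Set.Ioo (a : ℝ) b))
      (Kernel.measurable_coe _ measurableSet_Ioo).ennreal_toReal
  filter_upwards [hr0, hrq, L.ae_good hA β, ae_mem_X0 L] with x hx1 hx2 hx3 hx0 σ hσ hsym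
  obtain ⟨c, hc0, hc1, hc⟩ := hsym
  have hlf := L.locFin hx0
  have hnorm := L.norm x hx0
  have hne : L.lam x (Set.Icc (-1) 1) ≠ 0 := by rw [hnorm]; exact one_ne_zero
  have hzoom : ∀ (k : ℕ) (B : Set ℝ), MeasurableSet B →
      (L.lam ((tr (da β))^[k] x)).real B = (L.lam x).real {t | (2 ^ k : ℝ)⁻¹ * t ∈ B} /
        (L.lam x).real (Set.Icc (-2 ^ k) (2 ^ k)) := by
    intro k B hB
    obtain ⟨h1, h2⟩ := hx3 k
    have h3 := L.scale_apply (((k : ℤ) : ℝ) • β) h1 (by
      simpa only [Pi.smul_apply, smul_eq_mul, mul_sub] using h2)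
    obtain ⟨h4, h5, h6⟩ := h3
    simp only [Pi.smul_apply, smul_eq_mul, hβi, hβj, mul_zero, sub_zero, zero_sub,
      Int.cast_natCast, hexp, Real.exp_neg] at h4 h5 h6
    rw [iterate_tr, ← da_nsmul]
    have h7 := congrArg ENNReal.toReal (h6 B hB)
    rw [ENNReal.toReal_mul] at h7
    have h8 : (L.lam x).real (Set.Icc (-2 ^ k) (2 ^ k)) ≠ 0 := (ENNReal.toReal_pos h4 h5).ne'
    rw [eq_div_iff h8, mul_comm]
    exact h7.symm
  by_cases hc2 : c = 1
  · subst hc2
    rw [one_smul] at hc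
    have hval : ∀ a b : ℚ, L.lam x (Set.Ioo (a : ℝ) b) =
        ((2⁻¹ : ℝ≥0∞) • (volume : Measure ℝ)) (Set.Ioo (a : ℝ) b) := by
      intro a b
      rcases lt_or_ge (b : ℝ) a with hab | hab
      · rw [Set.Ioo_eq_empty (by linarith only [hab]), measure_empty, measure_empty]
      · have h1 := zoom_one (L.lam x) hσ hc hne hab
        have h2 : Tendsto (fun k : ℕ => (L.lam ((tr (da β))^[k] x)).real (Set.Ioo (a : ℝ) b))
            atTop (𝓝 ((b - a) / 2)) := by
          refine h1.congr fun k => ?_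
          rw [hzoom k _ measurableSet_Ioo]
          congr 2
          ext t
          have hk : (0 : ℝ) < 2 ^ k := by positivity
          simp only [Set.mem_Ioo, Set.mem_ofPred_eq]
          rw [lt_inv_mul_iff₀ hk, inv_mul_lt_iff₀ hk]
        have h3 : (L.lam x).real (Set.Ioo (a : ℝ) b) = (b - a) / 2 := by
          by_contra hcon
          set ε := |(L.lam x).real (Set.Ioo (a : ℝ) b) - (b - a) / 2| / 2 with hε
          have hεpos : 0 < ε := by
            rw [hε]
            have := abs_pos.mpr (sub_ne_zero.mpr hcon)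
            linarith only [this]
          have h4 := Metric.tendsto_atTop.mp h2 ε hεpos
          obtain ⟨N, hN⟩ := h4
          obtain ⟨k, hk1, hk2⟩ := ((hx2 a b ε hεpos).and_eventually (eventually_ge_atTop N)).exists
          have h5 := hN k hk2
          rw [Real.dist_eq] at h5
          have h6 : |(L.lam x).real (Set.Ioo (a : ℝ) b) - (b - a) / 2| ≤
              |(L.lam ((tr (da β))^[k] x)).real (Set.Ioo (a : ℝ) b) -
                (L.lam x).real (Set.Ioo (a : ℝ) b)| +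
              |(L.lam ((tr (da β))^[k] x)).real (Set.Ioo (a : ℝ) b) - (b - a) / 2| := by
            rw [abs_sub_comm ((L.lam ((tr (da β))^[k] x)).real (Set.Ioo (a : ℝ) b))
              ((L.lam x).real (Set.Ioo (a : ℝ) b))]
            exact abs_sub_le _ _ _
          linarith only [hε, hk1, h5, h6]
        rw [Measure.smul_apply, Real.volume_Ioo, smul_eq_mul,
          ← ENNReal.ofReal_toReal (measure_Ioo_lt_top (μ := L.lam x)).ne]
        change ENNReal.ofReal ((L.lam x).real _) = _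
        rw [h3, div_eq_inv_mul, ENNReal.ofReal_mul (by norm_num)]
        congr 1
        rw [ENNReal.ofReal_inv_of_pos (by norm_num)]
        norm_num
    exact Real.measure_ext_Ioo_rat hval
  · exfalso
    have h1 := zoom_big (L.lam x) hc0 hc1 hc2 hc hne
    have h2 : Tendsto (fun k : ℕ => (L.lam ((tr (da β))^[k] x)).real
        (Set.Icc (-(1 / 2)) (1 / 2))) atTop (𝓝 0) := by
      refine h1.congr fun k => ?_
      rw [hzoom k _ measurableSet_Icc]
      congr 2
      ext t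
      have hk : (0 : ℝ) < 2 ^ k := by positivity
      simp only [Set.mem_Icc, Set.mem_ofPred_eq]
      rw [le_inv_mul_iff₀ hk, inv_mul_le_iff₀ hk]
    have hpos : 0 < (L.lam x).real (Set.Icc (-(1 / 2)) (1 / 2)) :=
      ENNReal.toReal_pos (L.supp x hx0 (1 / 2) (by norm_num)).ne' measure_Icc_lt_top.ne
    obtain ⟨N, hN⟩ := Metric.tendsto_atTop.mp h2 _ (half_pos hpos)
    obtain ⟨k, hk1, hk2⟩ :=
      ((hx1 _ (half_pos hpos)).and_eventually (eventually_ge_atTop N)).exists
    have h5 := hN k hk2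
    rw [Real.dist_eq, sub_zero] at h5
    have h6 := abs_lt.mp hk1
    have h7 := abs_lt.mp h5
    linarith only [h6.1, h7.2, h6, h7]

end Vale.Agent.P007.R
end
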