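import Vale.Agent.P007.MathlibUsed
import Vale.Agent.P007.Bdl.B1

section

open MeasureTheory ProbabilityTheory Filter Topology Set
open scoped ENNReal NNReal

namespace Vale.Agent.P007.Leaf

section Transport

lemma le_of_scaled {a b : ℝ≥0∞} {M : ℝ} (_hM : 0 ≤ M)
    (h : ∀ R : ℝ, 0 < R → ENNReal.ofReal (2 * R) * a ≤ ENNReal.ofReal (2 * (R + M)) * b) :
    a ≤ b := by
  have h1 : ∀ k : ℕ, a ≤ ENNReal.ofReal (1 + M / ((k : ℝ) + 1)) * b := by
    intro k
    have hk : (0 : ℝ) < (k : ℝ) + 1 := by positivity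
    have h2 := h ((k : ℝ) + 1) hk
    have h3 : ENNReal.ofReal (2 * ((k : ℝ) + 1 + M)) =
        ENNReal.ofReal (2 * ((k : ℝ) + 1)) * ENNReal.ofReal (1 + M / ((k : ℝ) + 1)) := by
      rw [← ENNReal.ofReal_mul (by positivity)]
      congr 1
      field_simp
    rw [h3, mul_assoc] at h2
    refine (ENNReal.mul_le_mul_iff_right ?_ ENNReal.ofReal_ne_top).1 h2
    exact (ENNReal.ofReal_pos.2 (by positivity)).ne'
  have h4 : Tendsto (fun k : ℕ => ENNReal.ofReal (1 + M / ((k : ℝ) + 1)) * b) atTop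
      (𝓝 (ENNReal.ofReal (1 + 0) * b)) := by
    refine ENNReal.Tendsto.mul_const ?_ (Or.inl (by simp))
    refine ENNReal.tendsto_ofReal (tendsto_const_nhds.add ?_)
    exact (tendsto_const_div_atTop_nhds_zero_nat M).comp (tendsto_add_atTop_nat 1) |>.congr
      (fun k => by simp only [Function.comp_apply, Nat.cast_add, Nat.cast_one])
  have h5 := ge_of_tendsto' h4 h1
  simpa only [ge_iff_le, add_zero, ENNReal.ofReal_one, one_mul] using h5

variable {X : Type*} [MeasurableSpace X] {u : ℝ → X → X}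

/-- basic formula for `A` -/
lemma formulaA (hu : IsFlow u) (μ : Measure X) [IsProbabilityMeasure μ] {Φ : X × ℝ → ℝ≥0∞}
    (hΦ : Measurable Φ) {g : ℝ → ℝ≥0∞} (hg : Measurable g) :
    ∫⁻ z, ∫⁻ s, g s * ((∫⁻ s', Φ (u s z, s' - s) ∂(ell u μ z)) /
      ell u μ z (Icc (s - 1) (s + 1))) ∂(ell u μ z) ∂(Pb u μ) =
    (∫⁻ s, g s) * ∫⁻ x, ∫⁻ t, Φ (x, t) ∂(lam hu μ x) ∂μ := by
  have hm1 : Measurable fun p : X × ℝ => ∫⁻ t, Φ (p.1, t) ∂(tau hu μ p) :=
    (hΦ.comp ((measurable_fst.comp measurable_fst).prodMk measurable_snd) :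
      Measurable fun q : (X × ℝ) × ℝ => Φ (q.1.1, q.2)).lintegral_kernel_prod_right'
  have hm2 : Measurable fun p : X × ℝ => tau hu μ p (Icc (-1) 1) :=
    Kernel.measurable_coe _ measurableSet_Icc
  have hF : Measurable fun p : X × ℝ => g p.2 * ((∫⁻ t, Φ (p.1, t) ∂(tau hu μ p)) /
      tau hu μ p (Icc (-1) 1)) :=
    (hg.comp measurable_snd).mul (hm1.div hm2)
  have h1 := disint hu μ hF
  have h0 : ∀ a : ℝ, Measurable fun t : ℝ => t - a := fun a => measurable_id.sub_const a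
  have e1 : ∀ z s, tau hu μ (u s z, s) = (ell u μ z).map (fun t => t - s) := by
    intro z s
    rw [tau_apply]
    simp only [hu.neg_self]
  have e2 : ∀ z s, ∫⁻ t, Φ (u s z, t) ∂(tau hu μ (u s z, s)) =
      ∫⁻ s', Φ (u s z, s' - s) ∂(ell u μ z) := by
    intro z s
    rw [e1, lintegral_map_sub]
    exact hΦ.comp (measurable_const.prodMk measurable_id)
  have e3 : ∀ z s, tau hu μ (u s z, s) (Icc (-1) 1) = ell u μ z (Icc (s - 1) (s + 1)) := by
    intro z s
    rw [e1, Measure.map_apply (h0 s) measurableSet_Icc]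
    congr 1
    ext t
    simp only [mem_preimage, mem_Icc]
    constructor <;> rintro ⟨h1, h2⟩ <;> constructor <;> linarith only [h1, h2]
  simp only [e2, e3] at h1
  rw [h1]
  have hX : ∀ᵐ x ∂μ, ∫⁻ s : ℝ, g s * ((∫⁻ t, Φ (x, t) ∂(tau hu μ (x, s))) /
      tau hu μ (x, s) (Icc (-1) 1)) = (∫⁻ s, g s) * ∫⁻ t, Φ (x, t) ∂(lam hu μ x) := by
    filter_upwards [X0_ae hu μ] with x hx
    rw [← lintegral_mul_const _ hg]
    refine lintegral_congr_ae ?_
    filter_upwards [lam_eq hu μ hx] with s hs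
    obtain ⟨c, hc0, hc1, hc⟩ := hs
    have h2 : c * tau hu μ (x, s) (Icc (-1) 1) = 1 := by
      have := lam_norm hu μ x
      rw [hc] at this
      exact this
    have h3 : (tau hu μ (x, s) (Icc (-1) 1))⁻¹ = c := by
      rw [← ENNReal.eq_inv_of_mul_eq_one_left h2]
    rw [ENNReal.div_eq_inv_mul, h3, hc, lintegral_smul_measure, smul_eq_mul]
  rw [lintegral_congr_ae hX, lintegral_const_mul]
  exact (hΦ.lintegral_kernel_prod_right' (κ := lam hu μ))

/-- basic formula for `B` -/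
lemma formulaB (hu : IsFlow u) (μ : Measure X) [IsProbabilityMeasure μ] {Φ : X × ℝ → ℝ≥0∞}
    (hΦ : Measurable Φ) {g : ℝ → ℝ≥0∞} (hg : Measurable g) :
    ∫⁻ z, ∫⁻ s', g s' * (∫⁻ s, Φ (u s z, s' - s) / ell u μ z (Icc (s - 1) (s + 1)) ∂(ell u μ z))
      ∂(ell u μ z) ∂(Pb u μ) =
    (∫⁻ s, g s) * ∫⁻ y, ∫⁻ t, Φ (u t y, -t) / lam hu μ y (Icc (t - 1) (t + 1))
      ∂(lam hu μ y) ∂μ := by
  have h0 : ∀ a : ℝ, Measurable fun t : ℝ => t - a := fun a => measurable_id.sub_const a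
  have hms : MeasurableSet {q : ((X × ℝ) × ℝ) × ℝ | q.2 ∈ Icc (q.1.2 - 1) (q.1.2 + 1)} := by
    have : {q : ((X × ℝ) × ℝ) × ℝ | q.2 ∈ Icc (q.1.2 - 1) (q.1.2 + 1)} =
        {q | q.1.2 - 1 ≤ q.2} ∩ {q | q.2 ≤ q.1.2 + 1} := rfl
    rw [this]
    exact (measurableSet_le (by fun_prop) (by fun_prop)).inter
      (measurableSet_le (by fun_prop) (by fun_prop))
  have hm2 : Measurable fun q : (X × ℝ) × ℝ => tau hu μ q.1 (Icc (q.2 - 1) (q.2 + 1)) := by
    have h1 := Kernel.measurable_kernel_prodMk_left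
      (κ := (tau hu μ).comap (Prod.fst : (X × ℝ) × ℝ → X × ℝ) measurable_fst) hms
    exact h1
  have hΨ : Measurable fun q : (X × ℝ) × ℝ => Φ (u q.2 q.1.1, -q.2) /
      tau hu μ q.1 (Icc (q.2 - 1) (q.2 + 1)) := by
    refine (hΦ.comp ?_).div hm2
    exact (hu.meas.comp ((measurable_fst.comp measurable_fst).prodMk measurable_snd)).prodMk
      measurable_snd.neg
  have hF : Measurable fun p : X × ℝ => g p.2 * ∫⁻ t, Φ (u t p.1, -t) /
      tau hu μ p (Icc (t - 1) (t + 1)) ∂(tau hu μ p) :=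
    (hg.comp measurable_snd).mul hΨ.lintegral_kernel_prod_right'
  have h1 := disint hu μ hF
  have e1 : ∀ z s, tau hu μ (u s z, s) = (ell u μ z).map (fun t => t - s) := by
    intro z s
    rw [tau_apply]
    simp only [hu.neg_self]
  have e3 : ∀ z s t, tau hu μ (u s z, s) (Icc (t - 1) (t + 1)) =
      ell u μ z (Icc (s + t - 1) (s + t + 1)) := by
    intro z s t
    rw [e1, Measure.map_apply (h0 s) measurableSet_Icc]
    congr 1
    ext r
    simp only [mem_preimage, mem_Icc]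
    constructor <;> rintro ⟨h1, h2⟩ <;> constructor <;> linarith
  have e2 : ∀ z s, ∫⁻ t, Φ (u t (u s z), -t) / tau hu μ (u s z, s) (Icc (t - 1) (t + 1))
      ∂(tau hu μ (u s z, s)) =
      ∫⁻ r, Φ (u r z, s - r) / ell u μ z (Icc (r - 1) (r + 1)) ∂(ell u μ z) := by
    intro z s
    simp_rw [e3]
    rw [e1, lintegral_map_sub]
    · refine lintegral_congr fun r => ?_
      rw [← hu.add]
      congr 2
      · congr 2 <;> ring
      · congr 2 <;> ring
    · have := hΨ.comp (measurable_const.prodMk measurable_id : Measurable fun t : ℝ =>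
        (((u s z, s) : X × ℝ), t))
      simp only [Function.comp_def] at this
      simp_rw [e3] at this
      exact this
  simp only [e2] at h1
  rw [h1]
  have hX : ∀ᵐ y ∂μ, ∫⁻ s : ℝ, g s * (∫⁻ t, Φ (u t y, -t) /
      tau hu μ (y, s) (Icc (t - 1) (t + 1)) ∂(tau hu μ (y, s))) =
      (∫⁻ s, g s) * ∫⁻ t, Φ (u t y, -t) / lam hu μ y (Icc (t - 1) (t + 1)) ∂(lam hu μ y) := by
    filter_upwards [X0_ae hu μ] with x hx
    rw [← lintegral_mul_const _ hg]
    refine lintegral_congr_ae ?_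
    filter_upwards [lam_eq hu μ hx] with s hs
    obtain ⟨c, hc0, hc1, hc⟩ := hs
    congr 1
    rw [hc, lintegral_smul_measure, smul_eq_mul, ← lintegral_const_mul']
    · refine lintegral_congr fun t => ?_
      simp only [Measure.smul_apply, smul_eq_mul]
      rw [ENNReal.div_eq_inv_mul, ENNReal.div_eq_inv_mul, ENNReal.mul_inv (Or.inl hc0)
        (Or.inl hc1), mul_assoc c⁻¹, ← mul_assoc c, ENNReal.mul_inv_cancel hc0 hc1, one_mul]
    · exact hc1
  have hm3 : Measurable fun q : X × ℝ => lam hu μ q.1 (Icc (q.2 - 1) (q.2 + 1)) := by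
    have hms' : MeasurableSet {q : (X × ℝ) × ℝ | q.2 ∈ Icc (q.1.2 - 1) (q.1.2 + 1)} := by
      have : {q : (X × ℝ) × ℝ | q.2 ∈ Icc (q.1.2 - 1) (q.1.2 + 1)} =
          {q | q.1.2 - 1 ≤ q.2} ∩ {q | q.2 ≤ q.1.2 + 1} := rfl
      rw [this]
      exact (measurableSet_le (by fun_prop) (by fun_prop)).inter
        (measurableSet_le (by fun_prop) (by fun_prop))
    exact Kernel.measurable_kernel_prodMk_left
      (κ := (lam hu μ).comap (Prod.fst : X × ℝ → X) measurable_fst) hms'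
  have hΨ' : Measurable fun q : X × ℝ => Φ (u q.2 q.1, -q.2) /
      lam hu μ q.1 (Icc (q.2 - 1) (q.2 + 1)) := by
    refine (hΦ.comp ?_).div hm3
    exact hu.meas.prodMk measurable_snd.neg
  rw [lintegral_congr_ae hX, lintegral_const_mul]
  exact (hΨ'.lintegral_kernel_prod_right' (κ := lam hu μ))

lemma meas_window (ν : Measure ℝ) [SFinite ν] :
    Measurable fun s : ℝ => ν (Icc (s - 1) (s + 1)) := by
  have : MeasurableSet {q : ℝ × ℝ | q.2 ∈ Icc (q.1 - 1) (q.1 + 1)} := by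
    have : {q : ℝ × ℝ | q.2 ∈ Icc (q.1 - 1) (q.1 + 1)} =
        {q | q.1 - 1 ≤ q.2} ∩ {q | q.2 ≤ q.1 + 1} := rfl
    rw [this]
    exact (measurableSet_le (by fun_prop) (by fun_prop)).inter
      (measurableSet_le (by fun_prop) (by fun_prop))
  exact measurable_measure_prodMk_left this

/-- indicator of a symmetric interval -/
noncomputable def gI (R : ℝ) : ℝ → ℝ≥0∞ := (Icc (-R) R).indicator 1

lemma meas_gI (R : ℝ) : Measurable (gI R) := measurable_one.indicator measurableSet_Icc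

lemma lint_gI (R : ℝ) : ∫⁻ s, gI R s = ENNReal.ofReal (2 * R) := by
  rw [gI, lintegral_indicator_one measurableSet_Icc, Real.volume_Icc]
  congr 1
  ring

lemma gI_le {R M s s' : ℝ} (h : |s' - s| ≤ M) : gI R s ≤ gI (R + M) s' := by
  unfold gI
  by_cases hs : s ∈ Icc (-R) R
  · have h1 := abs_le.1 h
    have : s' ∈ Icc (-(R + M)) (R + M) := ⟨by linarith [hs.1, h1.1], by linarith [hs.2, h1.2]⟩
    rw [indicator_of_mem hs, indicator_of_mem this]
    exact le_rfl
  · rw [indicator_of_notMem hs]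
    exact zero_le

/-- (P5) for kernels of bounded range -/
lemma transport_bdd (hu : IsFlow u) (μ : Measure X) [IsProbabilityMeasure μ] {Φ : X × ℝ → ℝ≥0∞}
    (hΦ : Measurable Φ) {M : ℝ} (hM : 0 ≤ M) (hΦM : ∀ x t, M < |t| → Φ (x, t) = 0) :
    ∫⁻ x, ∫⁻ s, Φ (x, s) ∂(lam hu μ x) ∂μ =
      ∫⁻ y, ∫⁻ t, Φ (u t y, -t) / lam hu μ y (Icc (t - 1) (t + 1)) ∂(lam hu μ y) ∂μ := by
  have key1 : ∀ (ν : Measure ℝ) [SFinite ν] (z : X) (R : ℝ),
      ∫⁻ s, gI R s * ((∫⁻ s', Φ (u s z, s' - s) ∂ν) / ν (Icc (s - 1) (s + 1))) ∂ν ≤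
      ∫⁻ s', gI (R + M) s' * (∫⁻ s, Φ (u s z, s' - s) / ν (Icc (s - 1) (s + 1)) ∂ν) ∂ν := by
    intro ν _ z R
    have hm : Measurable fun p : ℝ × ℝ => Φ (u p.1 z, p.2 - p.1) / ν (Icc (p.1 - 1) (p.1 + 1)) := by
      refine (hΦ.comp ?_).div ((meas_window ν).comp measurable_fst)
      exact (hu.meas.comp (measurable_const.prodMk measurable_fst)).prodMk
        (measurable_snd.sub measurable_fst)
    have hm1 : ∀ s, Measurable fun s' => Φ (u s z, s' - s) := fun s =>
      hΦ.comp (measurable_const.prodMk (measurable_id.sub_const s))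
    have hm2 : ∀ s', Measurable fun s => Φ (u s z, s' - s) / ν (Icc (s - 1) (s + 1)) :=
      fun s' => hm.comp (measurable_id.prodMk measurable_const)
    calc ∫⁻ s, gI R s * ((∫⁻ s', Φ (u s z, s' - s) ∂ν) / ν (Icc (s - 1) (s + 1))) ∂ν
        = ∫⁻ s, ∫⁻ s', gI R s * (Φ (u s z, s' - s) / ν (Icc (s - 1) (s + 1))) ∂ν ∂ν := by
          refine lintegral_congr fun s => ?_
          rw [lintegral_const_mul _ ((hm1 s).div_const _)]
          congr 1
          simp_rw [div_eq_mul_inv]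
          rw [lintegral_mul_const _ (hm1 s)]
      _ ≤ ∫⁻ s, ∫⁻ s', gI (R + M) s' * (Φ (u s z, s' - s) / ν (Icc (s - 1) (s + 1))) ∂ν ∂ν := by
          refine lintegral_mono fun s => lintegral_mono fun s' => ?_
          by_cases h : |s' - s| ≤ M
          · exact mul_le_mul_left (gI_le h) _
          · rw [hΦM _ _ (not_le.1 h)]
            simp only [ENNReal.zero_div, mul_zero, Std.le_refl]
      _ = ∫⁻ s', ∫⁻ s, gI (R + M) s' * (Φ (u s z, s' - s) / ν (Icc (s - 1) (s + 1))) ∂ν ∂ν := by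
          rw [lintegral_lintegral_swap]
          exact (((meas_gI _).comp measurable_snd).mul hm).aemeasurable
      _ = _ := by
          refine lintegral_congr fun s' => ?_
          rw [lintegral_const_mul _ (hm2 s')]
  have key2 : ∀ (ν : Measure ℝ) [SFinite ν] (z : X) (R : ℝ),
      ∫⁻ s', gI R s' * (∫⁻ s, Φ (u s z, s' - s) / ν (Icc (s - 1) (s + 1)) ∂ν) ∂ν ≤
      ∫⁻ s, gI (R + M) s * ((∫⁻ s', Φ (u s z, s' - s) ∂ν) / ν (Icc (s - 1) (s + 1))) ∂ν := by
    intro ν _ z R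
    have hm : Measurable fun p : ℝ × ℝ => Φ (u p.1 z, p.2 - p.1) / ν (Icc (p.1 - 1) (p.1 + 1)) := by
      refine (hΦ.comp ?_).div ((meas_window ν).comp measurable_fst)
      exact (hu.meas.comp (measurable_const.prodMk measurable_fst)).prodMk
        (measurable_snd.sub measurable_fst)
    have hm1 : ∀ s, Measurable fun s' => Φ (u s z, s' - s) := fun s =>
      hΦ.comp (measurable_const.prodMk (measurable_id.sub_const s))
    have hm2 : ∀ s', Measurable fun s => Φ (u s z, s' - s) / ν (Icc (s - 1) (s + 1)) :=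
      fun s' => hm.comp (measurable_id.prodMk measurable_const)
    calc ∫⁻ s', gI R s' * (∫⁻ s, Φ (u s z, s' - s) / ν (Icc (s - 1) (s + 1)) ∂ν) ∂ν
        = ∫⁻ s', ∫⁻ s, gI R s' * (Φ (u s z, s' - s) / ν (Icc (s - 1) (s + 1))) ∂ν ∂ν := by
          refine lintegral_congr fun s' => ?_
          rw [lintegral_const_mul _ (hm2 s')]
      _ = ∫⁻ s, ∫⁻ s', gI R s' * (Φ (u s z, s' - s) / ν (Icc (s - 1) (s + 1))) ∂ν ∂ν := by
          rw [lintegral_lintegral_swap]
          refine Measurable.aemeasurable ?_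
          exact ((meas_gI _).comp measurable_fst).mul (hm.comp measurable_swap)
      _ ≤ ∫⁻ s, ∫⁻ s', gI (R + M) s * (Φ (u s z, s' - s) / ν (Icc (s - 1) (s + 1))) ∂ν ∂ν := by
          refine lintegral_mono fun s => lintegral_mono fun s' => ?_
          by_cases h : |s' - s| ≤ M
          · exact mul_le_mul_left (gI_le (by rwa [abs_sub_comm])) _
          · rw [hΦM _ _ (not_le.1 h)]
            simp only [ENNReal.zero_div, mul_zero, Std.le_refl]
      _ = _ := by
          refine lintegral_congr fun s => ?_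
          rw [lintegral_const_mul _ ((hm1 s).div_const _)]
          congr 1
          simp_rw [div_eq_mul_inv]
          rw [lintegral_mul_const _ (hm1 s)]
  refine le_antisymm ?_ ?_
  · refine le_of_scaled hM fun R hR => ?_
    rw [← lint_gI, ← lint_gI, ← formulaA hu μ hΦ (meas_gI R), ← formulaB hu μ hΦ (meas_gI (R + M))]
    exact lintegral_mono fun z => key1 _ z R
  · refine le_of_scaled hM fun R hR => ?_
    rw [← lint_gI, ← lint_gI, ← formulaB hu μ hΦ (meas_gI R), ← formulaA hu μ hΦ (meas_gI (R + M))]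
    exact lintegral_mono fun z => key2 _ z R

/-- (P5) mass transport -/
theorem transport (hu : IsFlow u) (μ : Measure X) [IsProbabilityMeasure μ] {Φ : X × ℝ → ℝ≥0∞}
    (hΦ : Measurable Φ) :
    ∫⁻ x, ∫⁻ s, Φ (x, s) ∂(lam hu μ x) ∂μ =
      ∫⁻ y, ∫⁻ t, Φ (u t y, -t) / lam hu μ y (Icc (t - 1) (t + 1)) ∂(lam hu μ y) ∂μ := by
  set Ψ : ℕ → X × ℝ → ℝ≥0∞ := fun k p => gI k p.2 * Φ p with hΨ
  have hΨm : ∀ k, Measurable (Ψ k) := fun k => ((meas_gI _).comp measurable_snd).mul hΦ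
  have hmono : ∀ p, Monotone fun k => Ψ k p := by
    intro p k l hkl
    refine mul_le_mul_left ?_ _
    have h0 : (k : ℝ) ≤ l := by exact_mod_cast hkl
    have h1 := gI_le (R := (k : ℝ)) (M := (l : ℝ) - k) (s := p.2) (s' := p.2)
      (by rw [sub_self, abs_zero]; linarith only [h0])
    simpa only [ge_iff_le, add_sub_cancel] using h1
  have hsup : ∀ p, ⨆ k, Ψ k p = Φ p := by
    intro p
    refine le_antisymm (iSup_le fun k => ?_) ?_
    · have : gI (k : ℝ) p.2 ≤ 1 := by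
        unfold gI
        by_cases h : p.2 ∈ Icc (-(k : ℝ)) k
        · rw [indicator_of_mem h]; exact le_rfl
        · rw [indicator_of_notMem h]; exact zero_le
      calc Ψ k p ≤ 1 * Φ p := mul_le_mul_left this _
        _ = Φ p := one_mul _
    · obtain ⟨k, hk⟩ := exists_nat_ge |p.2|
      refine le_iSup_of_le k ?_
      have : p.2 ∈ Icc (-(k : ℝ)) k := abs_le.1 hk
      rw [hΨ]
      simp only [gI]
      rw [indicator_of_mem this, Pi.one_apply, one_mul]
  have h1 : ∀ k, ∫⁻ x, ∫⁻ s, Ψ k (x, s) ∂(lam hu μ x) ∂μ =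
      ∫⁻ y, ∫⁻ t, Ψ k (u t y, -t) / lam hu μ y (Icc (t - 1) (t + 1)) ∂(lam hu μ y) ∂μ := by
    intro k
    refine transport_bdd hu μ (hΨm k) (M := k) (Nat.cast_nonneg k) fun x t ht => ?_
    have : t ∉ Icc (-(k : ℝ)) k := fun h => not_le.2 ht (abs_le.2 h)
    rw [hΨ]
    simp only [gI]
    rw [indicator_of_notMem this, zero_mul]
  have hmt : ∀ k, Measurable fun q : X × ℝ => Ψ k (u q.2 q.1, -q.2) /
      lam hu μ q.1 (Icc (q.2 - 1) (q.2 + 1)) := by
    intro k
    have hms' : MeasurableSet {q : (X × ℝ) × ℝ | q.2 ∈ Icc (q.1.2 - 1) (q.1.2 + 1)} := by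
      have : {q : (X × ℝ) × ℝ | q.2 ∈ Icc (q.1.2 - 1) (q.1.2 + 1)} =
          {q | q.1.2 - 1 ≤ q.2} ∩ {q | q.2 ≤ q.1.2 + 1} := rfl
      rw [this]
      exact (measurableSet_le (by fun_prop) (by fun_prop)).inter
        (measurableSet_le (by fun_prop) (by fun_prop))
    have hm3 : Measurable fun q : X × ℝ => lam hu μ q.1 (Icc (q.2 - 1) (q.2 + 1)) :=
      Kernel.measurable_kernel_prodMk_left
        (κ := (lam hu μ).comap (Prod.fst : X × ℝ → X) measurable_fst) hms'
    refine ((hΨm k).comp ?_).div hm3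
    exact hu.meas.prodMk measurable_snd.neg
  have hL : ∫⁻ x, ∫⁻ s, Φ (x, s) ∂(lam hu μ x) ∂μ =
      ⨆ k, ∫⁻ x, ∫⁻ s, Ψ k (x, s) ∂(lam hu μ x) ∂μ := by
    rw [← lintegral_iSup]
    · refine lintegral_congr fun x => ?_
      rw [← lintegral_iSup]
      · simp_rw [hsup]
      · exact fun k => (hΨm k).comp (measurable_const.prodMk measurable_id)
      · exact fun k l hkl s => hmono _ hkl
    · exact fun k => (hΨm k).lintegral_kernel_prod_right' (κ := lam hu μ)
    · exact fun k l hkl x => lintegral_mono fun s => hmono _ hkl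
  have hR : ∫⁻ y, ∫⁻ t, Φ (u t y, -t) / lam hu μ y (Icc (t - 1) (t + 1)) ∂(lam hu μ y) ∂μ =
      ⨆ k, ∫⁻ y, ∫⁻ t, Ψ k (u t y, -t) / lam hu μ y (Icc (t - 1) (t + 1)) ∂(lam hu μ y) ∂μ := by
    rw [← lintegral_iSup]
    · refine lintegral_congr fun x => ?_
      rw [← lintegral_iSup]
      · refine lintegral_congr fun t => ?_
        simp_rw [div_eq_mul_inv]
        rw [← ENNReal.iSup_mul, hsup]
      · exact fun k => (hmt k).comp (measurable_const.prodMk measurable_id)
      · exact fun k l hkl s => ENNReal.div_le_div_right (hmono _ hkl) _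
    · exact fun k => (hmt k).lintegral_kernel_prod_right' (κ := lam hu μ)
    · exact fun k l hkl x => lintegral_mono fun s => ENNReal.div_le_div_right (hmono _ hkl) _
  rw [hL, hR]
  simp_rw [h1]

end Transport

section Scale

variable {X : Type*} [MeasurableSpace X] {u : ℝ → X → X}

lemma base_formula (hu : IsFlow u) (μ : Measure X) [IsProbabilityMeasure μ]
    {G : X × ℝ → ℝ≥0∞} (hG : Measurable G) :
    ∫⁻ z, ∫⁻ s, G (z, s) ∂(ell u μ z) ∂(Pb u μ) = ∫⁻ x, ∫⁻ s, G (u (-s) x, s) ∂volume ∂μ := by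
  have h1 := disint hu μ (F := fun p => G (u (-p.2) p.1, p.2)) (hG.comp hu.meas_E)
  simp only [hu.neg_self] at h1
  exact h1

lemma lintegral_mul_left_eq {κ : ℝ} (hκ : 0 < κ) {f : ℝ → ℝ≥0∞} (hf : Measurable f) :
    ENNReal.ofReal κ * ∫⁻ s, f (κ * s) = ∫⁻ s, f s := by
  have h1 := Real.map_volume_mul_left hκ.ne'
  have h2 : ∫⁻ s, f (κ * s) = ∫⁻ s, f s ∂(volume.map (κ * ·)) :=
    (lintegral_map hf (measurable_const_mul κ)).symm
  rw [h2, h1, lintegral_smul_measure, smul_eq_mul, abs_of_pos (inv_pos.2 hκ), ← mul_assoc,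
    ← ENNReal.ofReal_mul hκ.le, mul_inv_cancel₀ hκ.ne', ENNReal.ofReal_one, one_mul]

/-- scaling relation on the unnormalised leafwise measures -/
theorem scale_ae (hu : IsFlow u) (μ : Measure X) [IsProbabilityMeasure μ] {T S : X → X}
    (hT : Measurable T) (hS : Measurable S) (hST : ∀ x, S (T x) = x)
    (hμ : μ.map T = μ) {κ : ℝ} (hκ : 0 < κ) (hTu : ∀ s x, T (u s x) = u (κ * s) (T x)) :
    ∀ᵐ z ∂(Pb u μ), ∃ c : ℝ≥0∞, c ≠ 0 ∧ c ≠ ∞ ∧
      (ell u μ (S z)).map (fun s => κ * s) = c • ell u μ z := by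
  set l' : Kernel X ℝ := ((ell u μ).comap S hS).map (fun s => κ * s) with hl'
  have hms : Measurable fun s : ℝ => κ * s := measurable_const_mul κ
  have hl'z : ∀ z, l' z = (ell u μ (S z)).map (fun s => κ * s) := by
    intro z
    rw [hl', Kernel.map_apply _ hms, Kernel.comap_apply]
  have h := uniq (Pb u μ) (ENNReal.ofReal κ • (Pb u μ).map T) (ell u μ) l' w meas_w w_pos w_fin
    ?_ ?_ ?_
  · filter_upwards [h] with z hz
    obtain ⟨c, h1, h2, h3⟩ := hz
    exact ⟨c, h1, h2, by rw [← h3, hl'z]⟩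
  · intro F hF
    have e2 : ∫⁻ z, ∫⁻ s, F (z, s) ∂(l' z) ∂(ENNReal.ofReal κ • (Pb u μ).map T) =
        ENNReal.ofReal κ * ∫⁻ z, ∫⁻ s, F (T z, κ * s) ∂(ell u μ z) ∂(Pb u μ) := by
      rw [lintegral_smul_measure, smul_eq_mul, lintegral_map (hF.lintegral_kernel_prod_right') hT]
      congr 1
      refine lintegral_congr fun z => ?_
      rw [hl'z, hST, lintegral_map _ hms]
      exact hF.comp (measurable_const.prodMk measurable_id)
    have hF2 : Measurable fun p : X × ℝ => F (T p.1, κ * p.2) :=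
      hF.comp ((hT.comp measurable_fst).prodMk (hms.comp measurable_snd))
    have hF3 : Measurable fun p : X × ℝ => F (u (-p.2) p.1, p.2) := hF.comp hu.meas_E
    rw [base_formula hu μ hF, e2, base_formula hu μ hF2]
    simp only
    have e3 : ∀ x s, F (T (u (-s) x), κ * s) = F (u (-(κ * s)) (T x), κ * s) := by
      intro x s
      rw [hTu]
      congr 3
      ring
    simp_rw [e3]
    rw [← lintegral_const_mul]
    · have e4 : ∀ x, ENNReal.ofReal κ * ∫⁻ s : ℝ, F (u (-(κ * s)) (T x), κ * s) =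
          ∫⁻ s, F (u (-s) (T x), s) := fun x =>
        lintegral_mul_left_eq hκ (f := fun s => F (u (-s) (T x), s))
          (hF3.comp (measurable_const.prodMk measurable_id))
      simp_rw [e4]
      have e5 := lintegral_map (μ := μ) (g := T)
        (f := fun x => ∫⁻ s, F (u (-s) x, s) ∂volume) hF3.lintegral_prod_right' hT
      rw [← e5, hμ]
    · have : Measurable fun p : X × ℝ => F (u (-(κ * p.2)) (T p.1), κ * p.2) :=
        hF3.comp ((hT.comp measurable_fst).prodMk (hms.comp measurable_snd))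
      exact this.lintegral_prod_right'
  · simp_rw [lint_w_ell]
    simp only [lintegral_const, one_mul, ne_eq, measure_ne_top, not_false_eq_true]
  · exact Eventually.of_forall fun z => ell_ne μ z

/-- (P3) -/
theorem lam_scale (hu : IsFlow u) (μ : Measure X) [IsProbabilityMeasure μ] {T S : X → X}
    (hT : Measurable T) (hS : Measurable S) (hST : ∀ x, S (T x) = x)
    (hμ : μ.map T = μ) {κ : ℝ} (hκ : 0 < κ) (hTu : ∀ s x, T (u s x) = u (κ * s) (T x)) :
    ∀ᵐ x ∂μ, ∃ c : ℝ≥0∞, c ≠ 0 ∧ c ≠ ∞ ∧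
      (lam hu μ x).map (fun t => κ * t) = c • lam hu μ (T x) := by
  have hTp : MeasurePreserving T μ μ := ⟨hT, hμ⟩
  have h1 := hTp.quasiMeasurePreserving.ae (ae_transfer hu μ
    (scale_ae hu μ hT hS hST hμ hκ hTu))
  have h2 := hTp.quasiMeasurePreserving.ae (X0_ae hu μ)
  filter_upwards [h1, h2, X0_ae hu μ] with x hx1 hx2 hx3
  have hq : Tendsto (fun s : ℝ => s / κ) (ae volume) (ae volume) := by
    have h3 : Measure.QuasiMeasurePreserving (fun s : ℝ => s / κ) volume volume := by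
      refine ⟨measurable_id.div_const κ, ?_⟩
      have h4 := Real.map_volume_mul_right (a := κ⁻¹) (inv_ne_zero hκ.ne')
      have h5 : (fun s : ℝ => s / κ) = fun s => s * κ⁻¹ := by
        funext s; rw [div_eq_mul_inv]
      rw [h5]
      change Measure.map (· * κ⁻¹) volume ≪ volume
      rw [h4]
      exact Measure.smul_absolutelyContinuous
    exact h3.tendsto_ae
  have h6 := hq.eventually (lam_eq hu μ hx3)
  obtain ⟨s, ⟨⟨a, ha0, ha1, ha⟩, ⟨b, hb0, hb1, hb⟩⟩, ⟨c, hc0, hc1, hc⟩⟩ :=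
    ((hx1.and (lam_eq hu μ hx2)).and h6).exists
  have hms : Measurable fun s : ℝ => κ * s := measurable_const_mul κ
  have h0 : ∀ a : ℝ, Measurable fun t : ℝ => t - a := fun a => measurable_id.sub_const a
  have e1 : S (u (-s) (T x)) = u (-(s / κ)) x := by
    have : u (-s) (T x) = T (u (-(s / κ)) x) := by
      rw [hTu]
      congr 1
      (clear * - hκ; field_simp)
    rw [this, hST]
  have e2 : (tau hu μ (x, s / κ)).map (fun t => κ * t) = a • tau hu μ (T x, s) := by
    rw [tau_apply, tau_apply]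
    simp only
    rw [e1] at ha
    rw [← Measure.map_smul, ← ha, Measure.map_map hms (h0 _), Measure.map_map (h0 _) hms]
    congr 1
    funext t
    simp only [Function.comp]
    (clear * - hκ; field_simp)
  refine ⟨c * a * b⁻¹, mul_ne_zero (mul_ne_zero hc0 ha0) (ENNReal.inv_ne_zero.2 hb1),
    ENNReal.mul_ne_top (ENNReal.mul_ne_top hc1 ha1) (ENNReal.inv_ne_top.2 hb0), ?_⟩
  rw [hc, hb, Measure.map_smul, e2, smul_smul, smul_smul, mul_assoc (c * a),
    ENNReal.inv_mul_cancel hb0 hb1, mul_one]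

end Scale

section Covering

/-- A family of closed intervals which is a minimal cover has multiplicity at most two. -/
lemma mult_le_two {ι : Type*} [DecidableEq ι] (F : Finset ι) (a b : ι → ℝ) (C : Set ℝ)
    (hC : C ⊆ ⋃ i ∈ F, Icc (a i) (b i))
    (hmin : ∀ G ⊂ F, ¬ C ⊆ ⋃ i ∈ G, Icc (a i) (b i)) (x : ℝ) :
    (F.filter fun i => x ∈ Icc (a i) (b i)).card ≤ 2 := by
  classical
  by_contra hcon
  push Not at hcon
  set T := F.filter fun i => x ∈ Icc (a i) (b i) with hT
  have hTne : T.Nonempty := Finset.card_pos.1 (by omega)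
  obtain ⟨i1, hi1, h1⟩ := T.exists_min_image a hTne
  obtain ⟨i2, hi2, h2⟩ := T.exists_max_image b hTne
  have h3 : ∃ i3 ∈ T, i3 ≠ i1 ∧ i3 ≠ i2 := by
    by_contra h
    push Not at h
    have : T ⊆ {i1, i2} := by
      intro i hi
      by_cases hii : i = i1
      · simp [hii]
      · simp [h i hi hii]
    have := (Finset.card_le_card this).trans Finset.card_le_two
    omega
  obtain ⟨i3, hi3, h31, h32⟩ := h3
  have hi3F : i3 ∈ F := (Finset.mem_filter.1 hi3).1
  refine hmin (F.erase i3) (Finset.erase_ssubset hi3F) ?_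
  intro y hy
  obtain ⟨i, hiF, hyi⟩ := mem_iUnion₂.1 (hC hy)
  by_cases hii : i = i3
  · subst hii
    have hx1 := (Finset.mem_filter.1 hi1)
    have hx2 := (Finset.mem_filter.1 hi2)
    rcases le_total y x with hyx | hyx
    · refine mem_iUnion₂.2 ⟨i1, Finset.mem_erase.2 ⟨h31.symm, hx1.1⟩, ?_, ?_⟩
      · exact (h1 i hi3).trans hyi.1
      · exact hyx.trans hx1.2.2
    · refine mem_iUnion₂.2 ⟨i2, Finset.mem_erase.2 ⟨h32.symm, hx2.1⟩, ?_, ?_⟩
      · exact hx2.2.1.trans hyx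
      · exact hyi.2.trans (h2 i hi3)
  · exact mem_iUnion₂.2 ⟨i, Finset.mem_erase.2 ⟨hii, hiF⟩, hyi⟩

/-- One dimensional covering lemma. -/
lemma covering (ν : Measure ℝ) [IsLocallyFiniteMeasure ν] {N S : Set ℝ} (hN : MeasurableSet N)
    (hS : MeasurableSet S) {L m : ℝ} (hSL : S ⊆ Icc (-L) L) {ε : ℝ≥0∞} (hε0 : ε ≠ 0)
    (hε1 : ε ≠ ∞)
    (h : ∀ s ∈ S, ∃ r : ℝ, 0 < r ∧ r ≤ m ∧ ε * ν (Icc (s - r) (s + r)) ≤
      ν (Icc (s - r) (s + r) ∩ N)) :
    ν S ≤ 2 / ε * ν (N ∩ Icc (-(L + m)) (L + m)) := by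
  classical
  have hSfin : ν S ≠ ∞ := (measure_mono hSL |>.trans_lt isCompact_Icc.measure_lt_top).ne
  rw [hS.measure_eq_iSup_isCompact_of_ne_top hSfin]
  refine iSup₂_le fun C hCS => iSup_le fun hC => ?_
  choose! r hr0 hrm hr using h
  have hcov : C ⊆ ⋃ s ∈ C, Ioo (s - r s) (s + r s) := by
    intro s hs
    have := hr0 s (hCS hs)
    exact mem_iUnion₂.2 ⟨s, hs, by constructor <;> linarith⟩
  obtain ⟨F0, hF0C, hF0⟩ : ∃ F0 : Finset ℝ, (∀ s ∈ F0, s ∈ C) ∧
      C ⊆ ⋃ s ∈ F0, Icc (s - r s) (s + r s) := by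
    obtain ⟨t, ht⟩ := hC.elim_finite_subcover (fun s : C => Ioo (s.1 - r s.1) (s.1 + r s.1))
      (fun _ => isOpen_Ioo) (by simpa only [iUnion_coe_set] using hcov)
    refine ⟨t.image Subtype.val, ?_, ?_⟩
    · intro s hs
      obtain ⟨s', _, rfl⟩ := Finset.mem_image.1 hs
      exact s'.2
    · intro x hx
      obtain ⟨s, hs, hxs⟩ := mem_iUnion₂.1 (ht hx)
      exact mem_iUnion₂.2 ⟨s.1, Finset.mem_image_of_mem _ hs, Ioo_subset_Icc_self hxs⟩
  obtain ⟨F, hFmin⟩ : ∃ F : Finset ℝ, Minimal (fun G : Finset ℝ => (∀ s ∈ G, s ∈ C) ∧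
      C ⊆ ⋃ s ∈ G, Icc (s - r s) (s + r s)) F :=
    exists_minimal_of_wellFoundedLT _ ⟨F0, hF0C, hF0⟩
  have hmult := mult_le_two F (fun s => s - r s) (fun s => s + r s) C hFmin.prop.2 (by
    intro G hG hGC
    have : G ∈ {G : Finset ℝ | (∀ s ∈ G, s ∈ C) ∧ C ⊆ ⋃ s ∈ G, Icc (s - r s) (s + r s)} :=
      ⟨fun s hs => hFmin.prop.1 s (hG.1 hs), hGC⟩
    exact hG.2 (hFmin.le_of_le this hG.1))
  have hJ : MeasurableSet (N ∩ Icc (-(L + m)) (L + m)) := hN.inter measurableSet_Icc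
  have h1 : ∑ s ∈ F, ν (Icc (s - r s) (s + r s) ∩ N) ≤ 2 * ν (N ∩ Icc (-(L + m)) (L + m)) := by
    have h2 : ∀ s ∈ F, ν (Icc (s - r s) (s + r s) ∩ N) =
        ∫⁻ x, (Icc (s - r s) (s + r s) ∩ N).indicator 1 x ∂ν := by
      intro s _
      rw [lintegral_indicator_one (measurableSet_Icc.inter hN)]
    rw [Finset.sum_congr rfl h2, ← lintegral_finsetSum]
    · rw [← lintegral_indicator_one hJ, ← lintegral_const_mul _ (measurable_one.indicator hJ)]
      refine lintegral_mono fun x => ?_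
      by_cases hx : x ∈ N ∩ Icc (-(L + m)) (L + m)
      · rw [indicator_of_mem hx, Pi.one_apply, mul_one]
        calc ∑ s ∈ F, (Icc (s - r s) (s + r s) ∩ N).indicator (1 : ℝ → ℝ≥0∞) x
            ≤ ∑ s ∈ F, if x ∈ Icc (s - r s) (s + r s) then 1 else 0 := by
              refine Finset.sum_le_sum fun s _ => ?_
              by_cases hxs : x ∈ Icc (s - r s) (s + r s)
              · rw [if_pos hxs]
                exact indicator_le_self' (fun _ _ => zero_le) x
              · rw [if_neg hxs, indicator_of_notMem (fun h => hxs h.1)]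
          _ = ((F.filter fun s => x ∈ Icc (s - r s) (s + r s)).card : ℝ≥0∞) := by
              rw [Finset.sum_ite, Finset.sum_const_zero, add_zero, Finset.sum_const,
                nsmul_eq_mul, mul_one]
          _ ≤ 2 := by exact_mod_cast hmult x
      · rw [indicator_of_notMem hx, mul_zero]
        refine (Finset.sum_eq_zero fun s hs => ?_).le
        refine indicator_of_notMem (fun h => hx ⟨h.2, ?_⟩) _
        have hsC := hFmin.prop.1 s hs
        have hsL := hSL (hCS hsC)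
        have hsm := hrm s (hCS hsC)
        exact ⟨by linarith [h.1.1, hsL.1], by linarith [h.1.2, hsL.2]⟩
    · exact fun s _ => measurable_one.indicator (measurableSet_Icc.inter hN)
  have h3 : ε * ν C ≤ 2 * ν (N ∩ Icc (-(L + m)) (L + m)) := by
    calc ε * ν C ≤ ε * ∑ s ∈ F, ν (Icc (s - r s) (s + r s)) := by
          refine mul_le_mul_right ?_ _
          exact (measure_mono hFmin.prop.2).trans (measure_biUnion_finset_le _ _)
      _ = ∑ s ∈ F, ε * ν (Icc (s - r s) (s + r s)) := Finset.mul_sum _ _ _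
      _ ≤ ∑ s ∈ F, ν (Icc (s - r s) (s + r s) ∩ N) :=
          Finset.sum_le_sum fun s hs => hr s (hCS (hFmin.prop.1 s hs))
      _ ≤ _ := h1
  calc ν C = ε⁻¹ * (ε * ν C) := by
        rw [← mul_assoc, ENNReal.inv_mul_cancel hε0 hε1, one_mul]
    _ ≤ ε⁻¹ * (2 * ν (N ∩ Icc (-(L + m)) (L + m))) := mul_le_mul_right h3 _
    _ = _ := by rw [ENNReal.div_eq_inv_mul]; ring

end Covering

section Maxi

variable {X : Type*} [MeasurableSpace X] {u : ℝ → X → X}

lemma ell_lf (μ : Measure X) [IsFiniteMeasure μ] (z : X) (r : ℝ) :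
    ell u μ z (Icc (-r) r) < ∞ := by
  rw [← lintegral_indicator_one measurableSet_Icc,
    lintegral_ell μ z (measurable_one.indicator measurableSet_Icc)]
  have h1 := lint_winv ((Q u μ).condKernel z) r
  refine lt_of_le_of_lt (le_of_eq ?_) h1.lt_top
  refine lintegral_congr fun t => ?_
  by_cases ht : t ∈ Icc (-r) r <;> simp [ht]

instance ell_locfin (μ : Measure X) [IsFiniteMeasure μ] (z : X) :
    IsLocallyFiniteMeasure (ell u μ z) := by
  refine ⟨fun x => ⟨Icc (x - 1) (x + 1), Icc_mem_nhds (by linarith) (by linarith), ?_⟩⟩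
  refine (measure_mono ?_).trans_lt (ell_lf μ z (|x| + 1))
  intro t ht
  have h1 := abs_le.1 (le_refl |x|)
  exact ⟨by linarith [ht.1, h1.1], by linarith [ht.2, h1.2]⟩

lemma meas_good (hu : IsFlow u) (μ : Measure X) [IsFiniteMeasure μ] :
    MeasurableSet {q : X × ℝ | eta hu μ q = piK hu μ q.1} := by
  have e : {q : X × ℝ | eta hu μ q = piK hu μ q.1} = {q : X × ℝ | ∀ r : ℚ,
      eta hu μ q (Iic (r : ℝ)) = piK hu μ q.1 (Iic (r : ℝ))} := by
    ext q
    simp only [mem_ofPred_eq]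
    exact ⟨fun h r => by rw [h], fun h => ext_rat h (by simp)⟩
  rw [e, ofPred_forall]
  refine MeasurableSet.iInter fun r => ?_
  refine measurableSet_eq_fun ?_ ?_
  · exact (Kernel.measurable_coe (eta hu μ) measurableSet_Iic)
  · exact (Kernel.measurable_coe (piK hu μ) measurableSet_Iic).comp (by fun_prop)

lemma good_ae (hu : IsFlow u) (μ : Measure X) [IsProbabilityMeasure μ] :
    ∀ᵐ z ∂(Pb u μ), ∀ᵐ s ∂(ell u μ z), eta hu μ (u s z, s) = piK hu μ (u s z) := by
  set D := {q : X × ℝ | eta hu μ q = piK hu μ q.1} with hD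
  have hDm : MeasurableSet D := meas_good hu μ
  have hF : Measurable (Dᶜ.indicator (1 : X × ℝ → ℝ≥0∞)) := measurable_one.indicator hDm.compl
  have h1 := disint hu μ hF
  have h2 : ∫⁻ x, ∫⁻ s, Dᶜ.indicator (1 : X × ℝ → ℝ≥0∞) (x, s) ∂volume ∂μ = 0 := by
    have h3 : ∀ᵐ x ∂μ, ∫⁻ s, Dᶜ.indicator (1 : X × ℝ → ℝ≥0∞) (x, s) ∂volume = 0 := by
      filter_upwards [eta_ae hu μ] with x hx
      have h4 : ∀ᵐ s : ℝ, Dᶜ.indicator (1 : X × ℝ → ℝ≥0∞) (x, s) = 0 := by
        filter_upwards [hx] with s hs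
        have h7 : (x, s) ∉ Dᶜ := fun h => h hs
        exact indicator_of_notMem h7 _
      rw [lintegral_congr_ae h4, lintegral_zero]
    rw [lintegral_congr_ae h3, lintegral_zero]
  rw [h2] at h1
  have hm : Measurable fun p : X × ℝ => Dᶜ.indicator (1 : X × ℝ → ℝ≥0∞) (u p.2 p.1, p.2) :=
    hF.comp hu.meas_F
  have h5 := (lintegral_eq_zero_iff (hm.lintegral_kernel_prod_right' (κ := ell u μ))).1 h1
  filter_upwards [h5] with z hz
  have h6 := (lintegral_eq_zero_iff (hm.comp (measurable_const.prodMk measurable_id))).1 hz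
  filter_upwards [h6] with s hs
  by_contra hcon
  have h7 : (u s z, s) ∈ Dᶜ := hcon
  simp [h7] at hs

/-- leafwise maximal inequality -/
theorem maxi (hu : IsFlow u) (μ : Measure X) [IsProbabilityMeasure μ] {K : Set X}
    (hK : MeasurableSet K) {ε : ℝ≥0∞} (hε0 : ε ≠ 0) (hε1 : ε ≠ ∞) :
    μ {x | ∃ r : ℝ, 0 < r ∧ ε * lam hu μ x (Icc (-r) r) <
      lam hu μ x (Icc (-r) r ∩ {s | u s x ∉ K})} ≤ 2 / ε * μ Kᶜ := by
  set Nx : X → Set ℝ := fun x => {s | u s x ∉ K} with hNx
  have hNm : ∀ x, MeasurableSet (Nx x) := fun x =>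
    (hu.meas.comp (measurable_const.prodMk measurable_id) hK).compl
  have hms : ∀ r : ℝ, Measurable fun x => lam hu μ x (Icc (-r) r ∩ Nx x) := by
    intro r
    have : MeasurableSet {p : X × ℝ | p.2 ∈ Icc (-r) r ∧ u p.2 p.1 ∉ K} :=
      (measurable_snd measurableSet_Icc).inter (hu.meas hK).compl
    exact Kernel.measurable_kernel_prodMk_left (κ := lam hu μ) this
  have hms' : ∀ r : ℝ, Measurable fun x => lam hu μ x (Icc (-r) r) := fun r =>
    Kernel.measurable_coe _ measurableSet_Icc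
  set B : ℕ → Set X := fun m => X0 hu μ ∩ ⋃ q : ℚ, {x | (0 : ℝ) < q ∧ (q : ℝ) ≤ m ∧
    ε * lam hu μ x (Icc (-(q : ℝ)) q) < lam hu μ x (Icc (-(q : ℝ)) q ∩ Nx x)} with hB
  have hBm : ∀ m, MeasurableSet (B m) := by
    intro m
    refine (meas_X0 hu μ).inter (MeasurableSet.iUnion fun q => ?_)
    by_cases hq : (0 : ℝ) < q ∧ (q : ℝ) ≤ m
    · simp only [hq, true_and]
      exact measurableSet_lt ((hms' q).const_mul ε) (hms q)
    · have : {x : X | (0 : ℝ) < q ∧ (q : ℝ) ≤ m ∧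
          ε * lam hu μ x (Icc (-(q : ℝ)) q) < lam hu μ x (Icc (-(q : ℝ)) q ∩ Nx x)} = ∅ := by
        ext x
        simp only [mem_ofPred_eq, mem_empty_iff_false, iff_false]
        exact fun h => hq ⟨h.1, h.2.1⟩
      rw [this]
      exact MeasurableSet.empty
  have hKc : ∀ x, (Kᶜ).indicator (1 : X → ℝ≥0∞) x = (Kᶜ).indicator 1 x := fun _ => rfl
  have hBle : ∀ m : ℕ, μ (B m) ≤ 2 / ε * μ Kᶜ := by
    intro m
    refine le_of_scaled (M := m) (Nat.cast_nonneg m) fun R hR => ?_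
    have hF : Measurable fun p : X × ℝ => gI R p.2 * (B m).indicator (1 : X → ℝ≥0∞) p.1 :=
      ((meas_gI R).comp measurable_snd).mul ((measurable_one.indicator (hBm m)).comp measurable_fst)
    have hG : Measurable fun p : X × ℝ => gI (R + m) p.2 * (Kᶜ).indicator (1 : X → ℝ≥0∞) p.1 :=
      ((meas_gI _).comp measurable_snd).mul
        ((measurable_one.indicator hK.compl).comp measurable_fst)
    have e1 := disint hu μ hF
    have e2 := disint hu μ hG
    have e3 : ∫⁻ x, ∫⁻ s, gI R s * (B m).indicator (1 : X → ℝ≥0∞) x ∂volume ∂μ =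
        ENNReal.ofReal (2 * R) * μ (B m) := by
      simp_rw [lintegral_mul_const _ (meas_gI R), lint_gI]
      rw [lintegral_const_mul _ (measurable_one.indicator (hBm m)),
        lintegral_indicator_one (hBm m)]
    have e4 : ∫⁻ x, ∫⁻ s, gI (R + m) s * (Kᶜ).indicator (1 : X → ℝ≥0∞) x ∂volume ∂μ =
        ENNReal.ofReal (2 * (R + m)) * μ Kᶜ := by
      simp_rw [lintegral_mul_const _ (meas_gI (R + m)), lint_gI]
      rw [lintegral_const_mul _ (measurable_one.indicator hK.compl),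
        lintegral_indicator_one hK.compl]
    rw [← e3, ← e1, mul_left_comm, ← e4, ← e2]
    rw [← lintegral_const_mul]
    swap
    · exact ((hG.comp hu.meas_F).lintegral_kernel_prod_right' (κ := ell u μ))
    refine lintegral_mono_ae ?_
    filter_upwards [good_ae hu μ] with z hz
    set ν := ell u μ z with hν
    set D : Set ℝ := {s | eta hu μ (u s z, s) = piK hu μ (u s z)} with hD
    have hDm : MeasurableSet D := by
      have := (meas_good hu μ).preimage (hu.meas_F.comp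
        (measurable_const.prodMk measurable_id : Measurable fun s : ℝ => ((z, s) : X × ℝ)))
      exact this
    set S : Set ℝ := (Icc (-R) R ∩ (fun s => u s z) ⁻¹' (B m)) ∩ D with hS
    have hSm : MeasurableSet S := (measurableSet_Icc.inter
      (hu.meas.comp (measurable_const.prodMk measurable_id) (hBm m))).inter hDm
    have f1 : ∫⁻ s, gI R s * (B m).indicator (1 : X → ℝ≥0∞) (u s z) ∂ν ≤ ν S := by
      rw [← lintegral_indicator_one hSm]
      refine lintegral_mono_ae ?_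
      filter_upwards [hz] with s hs
      by_cases hs1 : s ∈ Icc (-R) R
      · by_cases hs2 : u s z ∈ B m
        · have : s ∈ S := ⟨⟨hs1, hs2⟩, hs⟩
          rw [indicator_of_mem this, indicator_of_mem hs2, gI, indicator_of_mem hs1]
          simp
        · rw [indicator_of_notMem hs2, mul_zero]
          exact zero_le
      · rw [gI, indicator_of_notMem hs1, zero_mul]
        exact zero_le
    have f2 : ∫⁻ s, gI (R + m) s * (Kᶜ).indicator (1 : X → ℝ≥0∞) (u s z) ∂ν =
        ν (Nx z ∩ Icc (-(R + m)) (R + m)) := by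
      rw [← lintegral_indicator_one ((hNm z).inter measurableSet_Icc)]
      refine lintegral_congr fun s => ?_
      by_cases hs1 : s ∈ Icc (-(R + m)) (R + m)
      · by_cases hs2 : u s z ∈ Kᶜ
        · have : s ∈ Nx z ∩ Icc (-(R + m)) (R + m) := ⟨hs2, hs1⟩
          rw [indicator_of_mem this, indicator_of_mem hs2, gI, indicator_of_mem hs1]
          simp
        · have : s ∉ Nx z ∩ Icc (-(R + m)) (R + m) := fun h => hs2 h.1
          rw [indicator_of_notMem this, indicator_of_notMem hs2, mul_zero]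
      · have : s ∉ Nx z ∩ Icc (-(R + m)) (R + m) := fun h => hs1 h.2
        rw [indicator_of_notMem this, gI, indicator_of_notMem hs1, zero_mul]
    rw [f2]
    refine f1.trans (covering ν (hNm z) hSm (fun s hs => hs.1.1) hε0 hε1 ?_)
    rintro s ⟨⟨_, hsB⟩, hsD⟩
    obtain ⟨hsX, hsq⟩ := hsB
    obtain ⟨q, hq0, hqm, hq⟩ := mem_iUnion.1 hsq
    refine ⟨q, hq0, hqm, ?_⟩
    have g1 : lam hu μ (u s z) = (cinv hu μ (u s z) * (Z hu μ (u s z, s))⁻¹) •
        tau hu μ (u s z, s) := by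
      rw [lam_of_mem hu μ hsX, lam0_eq hu μ hsD]
    have g2 : tau hu μ (u s z, s) = ν.map (fun t => t - s) := by
      rw [tau_apply]
      simp only [hu.neg_self]
      rfl
    have h0 : Measurable fun t : ℝ => t - s := measurable_id.sub_const s
    have g3 : (fun t : ℝ => t - s) ⁻¹' (Icc (-(q : ℝ)) q) = Icc (s - q) (s + q) := by
      ext t
      simp only [mem_preimage, mem_Icc]
      constructor <;> rintro ⟨h1, h2⟩ <;> constructor <;> linarith
    have g4 : (fun t : ℝ => t - s) ⁻¹' (Nx (u s z)) = Nx z := by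
      ext t
      simp only [mem_preimage, hNx, mem_ofPred_eq]
      rw [← hu.add, sub_add_cancel]
    rw [g1, g2] at hq
    simp only [Measure.smul_apply, smul_eq_mul] at hq
    rw [Measure.map_apply h0 measurableSet_Icc,
      Measure.map_apply h0 (measurableSet_Icc.inter (hNm _)), preimage_inter, g3, g4] at hq
    rw [mul_left_comm] at hq
    by_contra hcon
    exact absurd hq (not_lt.2 (mul_le_mul_right (not_le.1 hcon).le _))
  have hBU : μ (⋃ m, B m) ≤ 2 / ε * μ Kᶜ := by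
    have hmono : Monotone B := by
      intro m m' hmm' x hx
      refine ⟨hx.1, ?_⟩
      obtain ⟨q, hq⟩ := mem_iUnion.1 hx.2
      refine mem_iUnion.2 ⟨q, hq.1, hq.2.1.trans ?_, hq.2.2⟩
      exact_mod_cast hmm'
    rw [hmono.measure_iUnion]
    exact iSup_le hBle
  refine le_trans (measure_mono (t := (X0 hu μ)ᶜ ∪ ⋃ m, B m) ?_) ?_
  · rintro x ⟨r, hr0, hr⟩
    by_cases hx : x ∈ X0 hu μ
    · right
      have hfin : ∀ t, lam hu μ x (Icc (-t) t) ≠ ∞ := fun t => (lam_lf hu μ x t).ne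
      have hlim : Tendsto (fun k : ℕ => lam hu μ x (Icc (-(r + 1 / ((k : ℝ) + 1)))
          (r + 1 / ((k : ℝ) + 1)))) atTop (𝓝 (lam hu μ x (Icc (-r) r))) := by
        have h1 : Icc (-r) r = ⋂ k : ℕ, Icc (-(r + 1 / ((k : ℝ) + 1))) (r + 1 / ((k : ℝ) + 1)) := by
          ext t
          simp only [mem_iInter, mem_Icc]
          constructor
          · rintro ⟨h1, h2⟩ k
            have : (0 : ℝ) < 1 / ((k : ℝ) + 1) := by (clear * -; positivity)
            constructor <;> linarith only [h1, this, h2]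
          · intro h
            have h2 := tendsto_one_div_add_atTop_nhds_zero_nat (𝕜 := ℝ)
            constructor
            · have h3 : Tendsto (fun k : ℕ => -(r + 1 / ((k : ℝ) + 1))) atTop (𝓝 (-(r + 0))) :=
                (h2.const_add r).neg
              have := le_of_tendsto' h3 fun k => (h k).1
              simpa using this
            · have h3 : Tendsto (fun k : ℕ => (r + 1 / ((k : ℝ) + 1))) atTop (𝓝 (r + 0)) :=
                h2.const_add r
              have := ge_of_tendsto' h3 fun k => (h k).2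
              simpa using this
        rw [h1]
        refine tendsto_measure_iInter_atTop (fun k => measurableSet_Icc.nullMeasurableSet) ?_
          ⟨0, hfin _⟩
        intro k l hkl
        have h3 : 1 / ((l : ℝ) + 1) ≤ 1 / ((k : ℝ) + 1) := by
          have : (k : ℝ) ≤ l := by exact_mod_cast hkl
          (clear * - this; gcongr)
        exact Icc_subset_Icc (by linarith only [h3]) (by linarith)
      have hlim2 := ENNReal.Tendsto.const_mul (a := ε) hlim (Or.inr hε1)
      obtain ⟨k, hk⟩ := (hlim2.eventually (gt_mem_nhds hr)).exists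
      obtain ⟨q, hq1, hq2⟩ := exists_rat_btwn (show r < r + 1 / ((k : ℝ) + 1) by
        have : (0 : ℝ) < 1 / ((k : ℝ) + 1) := by (clear * -; positivity)
        linarith only [this])
      obtain ⟨m, hm⟩ := exists_nat_ge (q : ℝ)
      refine mem_iUnion.2 ⟨m, hx, mem_iUnion.2 ⟨q, hr0.trans hq1, hm, ?_⟩⟩
      calc ε * lam hu μ x (Icc (-(q : ℝ)) q)
          ≤ ε * lam hu μ x (Icc (-(r + 1 / ((k : ℝ) + 1))) (r + 1 / ((k : ℝ) + 1))) :=
            mul_le_mul_right (measure_mono (Icc_subset_Icc (by linarith) (by linarith))) _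
        _ < lam hu μ x (Icc (-r) r ∩ Nx x) := hk
        _ ≤ lam hu μ x (Icc (-(q : ℝ)) q ∩ Nx x) :=
            measure_mono (inter_subset_inter_left _ (Icc_subset_Icc (by linarith) (by linarith)))
    · left; exact hx
  · refine (measure_union_le _ _).trans ?_
    have : μ (X0 hu μ)ᶜ = 0 := X0_ae hu μ
    rw [this, zero_add]
    exact hBU

end Maxi

end Vale.Agent.P007.Leaf
end

section

/-! Linear algebra: a set of rational matrices acting irreducibly on `ℚ^n`, `n` prime, with a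
nonscalar rational matrix in the commutant, is commutative. -/

set_option autoImplicit false

open Matrix Polynomial Module

namespace Vale.Agent.P007.R.Blk

section cyc

variable {V : Type*} [AddCommGroup V] [Module ℚ V] [FiniteDimensional ℚ V]

theorem commute_aeval {S T : Module.End ℚ V} (h : Commute S T) (f : ℚ[X]) :
    Commute S (aeval T f) := by
  rw [aeval_eq_sum_range]
  exact Commute.sum_right _ _ _ fun i _ => (h.pow_right i).smul_right _

/-- if kernels of all polynomials in `T` are trivial or everything then the minimal polynomial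
is irreducible. -/
theorem irreducible_minpoly [Nontrivial V] (T : Module.End ℚ V)
    (h : ∀ f : ℚ[X], aeval T f ≠ 0 → LinearMap.ker (aeval T f) = ⊥) :
    Irreducible (minpoly ℚ T) := by
  have hint : IsIntegral ℚ T := Algebra.IsIntegral.isIntegral T
  refine (irreducible_of_monic (minpoly.monic hint) <| minpoly.ne_one ℚ T).2 fun f g hf hg he => ?_
  rw [← hf.isUnit_iff, ← hg.isUnit_iff]
  by_contra! hcon
  have h1 : aeval T f ≠ 0 :=
    minpoly.aeval_ne_zero_of_dvdNotUnit_minpoly hint hf ⟨hf.ne_zero, g, hcon.2, he.symm⟩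
  have h2 : aeval T g ≠ 0 :=
    minpoly.aeval_ne_zero_of_dvdNotUnit_minpoly hint hg ⟨hg.ne_zero, f, hcon.1, by
      rw [mul_comm, he]⟩
  have heval := congr_arg (aeval T) he
  rw [minpoly.aeval, aeval_mul] at heval
  obtain ⟨v, hv⟩ := exists_ne (0 : V)
  have h3 : aeval T f (aeval T g v) = 0 := by
    have := congrArg (fun L : Module.End ℚ V => L v) heval
    exact this
  have h4 : aeval T g v = 0 := by
    have : aeval T g v ∈ LinearMap.ker (aeval T f) := h3
    rw [h f h1, Submodule.mem_bot] at this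
    exact this
  have h5 : v ∈ LinearMap.ker (aeval T g) := h4
  rw [h g h2, Submodule.mem_bot] at h5
  exact hv h5

/-- the action of `AdjoinRoot (minpoly T)` -/
noncomputable def actT (T : Module.End ℚ V) : AdjoinRoot (minpoly ℚ T) →+* Module.End ℚ V :=
  Ideal.Quotient.lift (Ideal.span {minpoly ℚ T}) (aeval T : ℚ[X] →ₐ[ℚ] Module.End ℚ V).toRingHom
    (by
      intro a ha
      obtain ⟨b, rfl⟩ := Ideal.mem_span_singleton.1 ha
      change aeval T (minpoly ℚ T * b) = 0
      rw [aeval_mul, minpoly.aeval, zero_mul])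

theorem actT_mk (T : Module.End ℚ V) (f : ℚ[X]) : actT T (AdjoinRoot.mk _ f) = aeval T f := rfl

theorem comm_of_prime (hn : (finrank ℚ V).Prime) (T : Module.End ℚ V)
    (h : ∀ f : ℚ[X], aeval T f ≠ 0 → LinearMap.ker (aeval T f) = ⊥)
    (hT : ∀ q : ℚ, T ≠ algebraMap ℚ (Module.End ℚ V) q) (S S' : Module.End ℚ V)
    (hS : Commute S T) (hS' : Commute S' T) : Commute S S' := by
  have hnt : Nontrivial V := Module.nontrivial_of_finrank_pos hn.pos
  have hirr := irreducible_minpoly T h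
  have hint : IsIntegral ℚ T := Algebra.IsIntegral.isIntegral T
  have : Fact (Irreducible (minpoly ℚ T)) := ⟨hirr⟩
  let mod : Module (AdjoinRoot (minpoly ℚ T)) V := Module.compHom V (actT T)
  have hsm : ∀ (k : AdjoinRoot (minpoly ℚ T)) (v : V), k • v = actT T k v := fun _ _ => rfl
  have tower : IsScalarTower ℚ (AdjoinRoot (minpoly ℚ T)) V := by
    refine ⟨fun q k v => ?_⟩
    obtain ⟨f, rfl⟩ := AdjoinRoot.mk_surjective k
    have e1 : q • AdjoinRoot.mk (minpoly ℚ T) f = AdjoinRoot.mk (minpoly ℚ T) (q • f) := rfl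
    rw [e1, hsm, hsm, actT_mk, actT_mk, map_smul]
    rfl
  have hfin := Module.finrank_mul_finrank ℚ (AdjoinRoot (minpoly ℚ T)) V
  have hd : finrank ℚ (AdjoinRoot (minpoly ℚ T)) = (minpoly ℚ T).natDegree := by
    rw [(AdjoinRoot.powerBasis hirr.ne_zero).finrank, AdjoinRoot.powerBasis_dim]
  have hd1 : finrank ℚ (AdjoinRoot (minpoly ℚ T)) ≠ 1 := by
    rw [hd]
    intro h1
    have h2 := minpoly.natDegree_eq_one_iff.1 h1
    obtain ⟨q, hq⟩ := h2
    exact hT q hq.symm
  have h1 : finrank (AdjoinRoot (minpoly ℚ T)) V = 1 := by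
    have h2 : finrank ℚ (AdjoinRoot (minpoly ℚ T)) ∣ finrank ℚ V := ⟨_, hfin.symm⟩
    rcases (Nat.dvd_prime hn).1 h2 with h3 | h3
    · exact absurd h3 hd1
    · rw [h3] at hfin
      exact Nat.eq_of_mul_eq_mul_left hn.pos (by rw [hfin, mul_one])
  obtain ⟨v, hv, hspan⟩ := finrank_eq_one_iff'.1 h1
  have hcomm : ∀ (R : Module.End ℚ V), Commute R T → ∀ (k : AdjoinRoot (minpoly ℚ T)) (w : V),
      R (k • w) = k • R w := by
    intro R hR k w
    obtain ⟨f, rfl⟩ := AdjoinRoot.mk_surjective k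
    rw [hsm, hsm, actT_mk]
    exact congrArg (fun L : Module.End ℚ V => L w) (commute_aeval hR f).eq
  obtain ⟨a, ha⟩ := hspan (S v)
  obtain ⟨b, hb⟩ := hspan (S' v)
  refine LinearMap.ext fun w => ?_
  obtain ⟨k, rfl⟩ := hspan w
  change S (S' (k • v)) = S' (S (k • v))
  rw [hcomm S' hS', hcomm S hS, ← hb, hcomm S hS, ← ha, hcomm S hS, hcomm S' hS', ← ha,
    hcomm S' hS', ← hb]
  simp only [smul_smul]
  congr 1
  ring

end cyc

end Vale.Agent.P007.R.Blk
end

section

set_option autoImplicit false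

open Filter Topology

namespace Vale.Agent.P007.Z

/-!
Euler product over a free commutative monoid (multisets of primes).
-/

section Abstract

variable {P : Type*} [DecidableEq P] (f : P → ℂ)

/-- the completely multiplicative weight of a multiset of primes -/
noncomputable def gw (m : Multiset P) : ℂ := (m.map f).prod

omit [DecidableEq P] in
@[simp] theorem gw_zero : gw f 0 = 1 := by simp [gw]

omit [DecidableEq P] in
@[simp] theorem gw_cons (v : P) (m : Multiset P) : gw f (v ::ₘ m) = f v * gw f m := by simp [gw]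

/-- sum over the multisets avoiding `S` -/
noncomputable def TS (S : Finset P) : ℂ := ∑' m : Multiset P, if (∀ w ∈ S, w ∉ m) then gw f m else 0

theorem TS_empty : TS f ∅ = ∑' m : Multiset P, gw f m := by simp only [TS, Finset.notMem_empty,
                                                              IsEmpty.forall_iff, implies_true,
                                                              ↓reduceIte]

variable {f}

omit [DecidableEq P] in
theorem summable_ite (hsum : Summable fun m : Multiset P => ‖gw f m‖)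
    (p : Multiset P → Prop) [DecidablePred p] :
    Summable fun m : Multiset P => if p m then gw f m else 0 := by
  refine Summable.of_norm_bounded hsum fun m => ?_
  split_ifs
  · exact le_rfl
  · simp

theorem TS_insert (hsum : Summable fun m : Multiset P => ‖gw f m‖) {S : Finset P} {v : P}
    (hv : v ∉ S) : TS f (insert v S) = (1 - f v) * TS f S := by
  have h1 : TS f S = TS f (insert v S) +
      ∑' m : Multiset P, if ((∀ w ∈ S, w ∉ m) ∧ v ∈ m) then gw f m else 0 := by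
    unfold TS
    rw [← (summable_ite hsum _).tsum_add (summable_ite hsum _)]
    refine tsum_congr fun m => ?_
    by_cases h : ∀ w ∈ S, w ∉ m
    · by_cases h2 : v ∈ m
      · have h3 : ¬ ∀ w ∈ insert v S, w ∉ m := fun h4 => h4 v (Finset.mem_insert_self v S) h2
        rw [if_pos h, if_neg h3, if_pos ⟨h, h2⟩, zero_add]
      · have h3 : ∀ w ∈ insert v S, w ∉ m := by
          intro w hw
          rcases Finset.mem_insert.mp hw with rfl | hw
          · exact h2
          · exact h w hw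
        rw [if_pos h, if_pos h3, if_neg (fun h4 => h2 h4.2), add_zero]
    · have h3 : ¬ ∀ w ∈ insert v S, w ∉ m :=
        fun h4 => h fun w hw => h4 w (Finset.mem_insert_of_mem hw)
      rw [if_neg h, if_neg h3, if_neg (fun h4 => h h4.1), zero_add]
  have h2 : (∑' m : Multiset P, if ((∀ w ∈ S, w ∉ m) ∧ v ∈ m) then gw f m else 0) =
      f v * TS f S := by
    have hinj : Function.Injective (fun m : Multiset P => v ::ₘ m) :=
      fun a b h => (Multiset.cons_inj_right v).mp h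
    rw [← hinj.tsum_eq]
    · unfold TS
      rw [← tsum_mul_left]
      refine tsum_congr fun m => ?_
      have h3 : ((∀ w ∈ S, w ∉ v ::ₘ m) ∧ v ∈ v ::ₘ m) ↔ ∀ w ∈ S, w ∉ m := by
        constructor
        · rintro ⟨h, _⟩ w hw hm
          exact h w hw (Multiset.mem_cons_of_mem hm)
        · intro h
          refine ⟨fun w hw hm => ?_, Multiset.mem_cons_self v m⟩
          rcases Multiset.mem_cons.mp hm with rfl | hm
          · exact hv hw
          · exact h w hw hm
      by_cases h4 : ∀ w ∈ S, w ∉ m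
      · rw [if_pos (h3.mpr h4), if_pos h4, gw_cons]
      · rw [if_neg (fun h5 => h4 (h3.mp h5)), if_neg h4, mul_zero]
    · intro m hm
      rw [Function.mem_support] at hm
      have h4 : v ∈ m := by
        by_contra h5
        exact hm (if_neg fun h6 => h5 h6.2)
      obtain ⟨t, rfl⟩ := Multiset.exists_cons_of_mem h4
      exact ⟨t, rfl⟩
  rw [h2] at h1
  rw [sub_mul, one_mul]
  exact eq_sub_of_add_eq h1.symm

theorem TS_eq (hsum : Summable fun m : Multiset P => ‖gw f m‖) (S : Finset P) :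
    TS f S = (∏ v ∈ S, (1 - f v)) * ∑' m : Multiset P, gw f m := by
  induction S using Finset.induction_on with
  | empty => simp only [TS_empty, Finset.prod_empty, one_mul]
  | insert v S hv ih => rw [TS_insert hsum hv, ih, Finset.prod_insert hv, mul_assoc]

theorem tendsto_TS (hsum : Summable fun m : Multiset P => ‖gw f m‖) :
    Tendsto (fun S : Finset P => TS f S) atTop (𝓝 1) := by
  have h : (1 : ℂ) = ∑' m : Multiset P, if m = 0 then 1 else 0 := by
    rw [tsum_ite_eq]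
  rw [h]
  refine tendsto_tsum_of_dominated_convergence hsum (fun m => ?_) (Eventually.of_forall fun S m => ?_)
  · by_cases hm : m = 0
    · subst hm
      simp
    · obtain ⟨v, hv⟩ := Multiset.exists_mem_of_ne_zero hm
      refine tendsto_const_nhds.congr' ?_
      filter_upwards [eventually_ge_atTop {v}] with S hS
      rw [if_neg hm, if_neg]
      intro h2
      exact h2 v (hS (Finset.mem_singleton_self v)) hv
  · split_ifs
    · exact le_rfl
    · simp

theorem tsum_gw_ne_zero (hsum : Summable fun m : Multiset P => ‖gw f m‖) :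
    ∑' m : Multiset P, gw f m ≠ 0 := by
  intro h
  have h1 := tendsto_TS hsum
  simp only [TS_eq hsum, h, mul_zero] at h1
  exact zero_ne_one (tendsto_nhds_unique tendsto_const_nhds h1)

/-- **Euler product** -/
theorem tendsto_prod (hsum : Summable fun m : Multiset P => ‖gw f m‖) :
    Tendsto (fun S : Finset P => ∏ v ∈ S, (1 - f v)) atTop (𝓝 (∑' m : Multiset P, gw f m)⁻¹) := by
  have h1 := (tendsto_TS hsum).mul_const (∑' m : Multiset P, gw f m)⁻¹
  rw [one_mul] at h1
  refine h1.congr fun S => ?_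
  rw [TS_eq hsum, mul_assoc, mul_inv_cancel₀ (tsum_gw_ne_zero hsum), mul_one]

theorem one_sub_ne_zero (hsum : Summable fun m : Multiset P => ‖gw f m‖) (v : P) : 1 - f v ≠ 0 := by
  intro h
  have h1 : f v = 1 := (sub_eq_zero.mp h).symm
  have h2 : Function.Injective (fun k : ℕ => Multiset.replicate k v) :=
    fun a b h => Multiset.replicate_left_injective v h
  have h3 := hsum.comp_injective h2
  have h4 : (fun k : ℕ => ‖gw f (Multiset.replicate k v)‖) = fun _ => 1 := by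
    funext k
    simp [gw, h1]
  have h5 : Summable (fun _ : ℕ => (1 : ℝ)) := by
    rw [← h4]; exact h3
  exact one_ne_zero (tendsto_nhds_unique tendsto_const_nhds h5.tendsto_atTop_zero)

theorem hasSum_log (hsum : Summable fun m : Multiset P => ‖gw f m‖) :
    HasSum (fun v => Real.log ‖1 - f v‖) (-Real.log ‖∑' m : Multiset P, gw f m‖) := by
  have h1 := (tendsto_prod hsum).norm
  have h2 : ‖(∑' m : Multiset P, gw f m)⁻¹‖ ≠ 0 :=
    norm_ne_zero_iff.mpr (inv_ne_zero (tsum_gw_ne_zero hsum))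
  have h3 := h1.log h2
  rw [norm_inv, Real.log_inv] at h3
  refine Tendsto.congr (fun S => ?_) h3
  rw [norm_prod, Real.log_prod]
  intro v _
  exact norm_ne_zero_iff.mpr (one_sub_ne_zero hsum v)

theorem abs_log_one_sub_add_re_le {z : ℂ} (hz : ‖z‖ ≤ 1 / 2) :
    |Real.log ‖1 - z‖ + z.re| ≤ ‖z‖ ^ 2 := by
  have h1 := Complex.norm_log_one_add_sub_self_le (z := -z) (by rw [norm_neg]; linarith)
  rw [norm_neg, sub_neg_eq_add] at h1
  have h2 : (Complex.log (1 + -z) + z).re = Real.log ‖1 - z‖ + z.re := by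
    rw [Complex.add_re, Complex.log_re, sub_eq_add_neg]
  rw [← h2]
  refine (Complex.abs_re_le_norm _).trans (h1.trans ?_)
  have h3 : (1 - ‖z‖)⁻¹ ≤ 2 := by
    rw [inv_le_comm₀ (by linarith only [hz]) two_pos]
    linarith only [hz]
  calc ‖z‖ ^ 2 * (1 - ‖z‖)⁻¹ / 2 ≤ ‖z‖ ^ 2 * 2 / 2 := by gcongr
    _ = ‖z‖ ^ 2 := by ring

/-- The logarithm of the Euler product against the sum over primes. -/
theorem abs_log_add_le (hsum : Summable fun m : Multiset P => ‖gw f m‖)
    (hf : ∀ v, ‖f v‖ ≤ 1 / 2) {B : ℝ} (hB : HasSum (fun v => ‖f v‖ ^ 2) B) {A : ℝ}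
    (hA : HasSum (fun v => (f v).re) A) :
    |Real.log ‖∑' m : Multiset P, gw f m‖ - A| ≤ B := by
  have h1 := ((hasSum_log hsum).add hA).neg
  have h2 : -(-Real.log ‖∑' m : Multiset P, gw f m‖ + A) =
      Real.log ‖∑' m : Multiset P, gw f m‖ - A := by ring
  rw [h2] at h1
  have h3 : ∀ v, ‖-(Real.log ‖1 - f v‖ + (f v).re)‖ ≤ ‖f v‖ ^ 2 := by
    intro v
    rw [norm_neg, Real.norm_eq_abs]
    exact abs_log_one_sub_add_re_le (hf v)
  have := h1.norm_le_of_bounded hB h3
  rwa [Real.norm_eq_abs] at this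

end Abstract

end Vale.Agent.P007.Z
end

section

set_option autoImplicit false

open Filter Topology NumberField IsDedekindDomain

namespace Vale.Agent.P007.Z

variable (E : Type*) [Field E] [NumberField E]

/-- the number of integral ideals of norm `n` -/
noncomputable def aN (n : ℕ) : ℕ := Nat.card {I : Ideal (𝓞 E) // Ideal.absNorm I = n}

/-- multisets of primes are nonzero ideals -/
noncomputable def idealEquiv :
    Multiset (HeightOneSpectrum (𝓞 E)) ≃ {I : Ideal (𝓞 E) // I ≠ ⊥} :=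
  Equiv.ofBijective (fun m => ⟨(m.map HeightOneSpectrum.asIdeal).prod, by
    intro h
    rw [← Ideal.zero_eq_bot] at h
    rw [Multiset.prod_eq_zero_iff, Multiset.mem_map] at h
    obtain ⟨v, _, hv⟩ := h
    exact v.ne_bot hv⟩) (by
    classical
    constructor
    · intro m m' h
      have h1 : (m.map HeightOneSpectrum.asIdeal).prod = (m'.map HeightOneSpectrum.asIdeal).prod :=
        congrArg Subtype.val h
      have h2 : ∀ m : Multiset (HeightOneSpectrum (𝓞 E)),
          UniqueFactorizationMonoid.normalizedFactors ((m.map HeightOneSpectrum.asIdeal).prod)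
            = m.map HeightOneSpectrum.asIdeal := by
        intro m
        refine UniqueFactorizationMonoid.normalizedFactors_prod_of_prime ?_
        intro p hp
        obtain ⟨v, _, rfl⟩ := Multiset.mem_map.1 hp
        exact v.prime
      have h3 := congrArg UniqueFactorizationMonoid.normalizedFactors h1
      rw [h2, h2] at h3
      exact Multiset.map_injective (fun v w h => HeightOneSpectrum.ext h) h3
    · rintro ⟨I, hI⟩
      have hI0 : I ≠ 0 := hI
      have hp : ∀ P ∈ UniqueFactorizationMonoid.normalizedFactors I, P.IsPrime ∧ P ≠ ⊥ := by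
        intro P hP
        have := UniqueFactorizationMonoid.prime_of_normalized_factor P hP
        exact ⟨Ideal.isPrime_of_prime this, this.ne_zero⟩
      refine ⟨(UniqueFactorizationMonoid.normalizedFactors I).pmap
        (fun P (hP : P.IsPrime ∧ P ≠ ⊥) => (⟨P, hP.1, hP.2⟩ : HeightOneSpectrum (𝓞 E))) hp, ?_⟩
      refine Subtype.ext ?_
      simp only [Multiset.map_pmap]
      rw [Multiset.pmap_eq_map, Multiset.map_id']
      exact Ideal.prod_normalizedFactors_eq_self hI0)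

variable {E}

/-- norm of a prime -/
noncomputable def Nv (v : HeightOneSpectrum (𝓞 E)) : ℕ := Ideal.absNorm v.asIdeal

/-- norm of a multiset of primes -/
noncomputable def Nm (m : Multiset (HeightOneSpectrum (𝓞 E))) : ℕ := (m.map Nv).prod

theorem absNorm_idealEquiv (m : Multiset (HeightOneSpectrum (𝓞 E))) :
    Ideal.absNorm (idealEquiv E m).1 = Nm m := by
  have h : (idealEquiv E m).1 = (m.map HeightOneSpectrum.asIdeal).prod := rfl
  rw [h]
  clear h
  induction m using Multiset.induction_on with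
  | empty => simp only [Multiset.map_zero, Multiset.prod_zero, Ideal.one_eq_top,
               Ideal.absNorm_top, Nm]
  | cons v m ih =>
    rw [Multiset.map_cons, Multiset.prod_cons, map_mul, ih]
    simp [Nm, Nv]

theorem Nv_pos (v : HeightOneSpectrum (𝓞 E)) : 0 < Nv v :=
  Nat.pos_of_ne_zero (fun h => v.ne_bot (Ideal.absNorm_eq_zero_iff.1 h))

theorem two_le_Nv (v : HeightOneSpectrum (𝓞 E)) : 2 ≤ Nv v := by
  have h0 := Nv_pos v
  have h1 : Nv v ≠ 1 := by
    intro h
    exact v.isPrime.ne_top (Ideal.absNorm_eq_one_iff.1 h)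
  omega

theorem Nm_pos (m : Multiset (HeightOneSpectrum (𝓞 E))) : 0 < Nm m := by
  induction m using Multiset.induction_on with
  | empty => simp [Nm]
  | cons v m ih =>
    have : Nm (v ::ₘ m) = Nv v * Nm m := by simp [Nm]
    rw [this]
    exact Nat.mul_pos (Nv_pos v) ih

/-- the fibres of the norm on multisets -/
noncomputable def fibreEquiv {n : ℕ} (hn : n ≠ 0) :
    {m : Multiset (HeightOneSpectrum (𝓞 E)) // Nm m = n} ≃
      {I : Ideal (𝓞 E) // Ideal.absNorm I = n} where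
  toFun m := ⟨(idealEquiv E m.1).1, by rw [absNorm_idealEquiv]; exact m.2⟩
  invFun I := ⟨(idealEquiv E).symm ⟨I.1, by
      intro h
      have h2 := I.2
      rw [h, Ideal.absNorm_bot] at h2
      exact hn h2.symm⟩, by rw [← absNorm_idealEquiv, Equiv.apply_symm_apply]; exact I.2⟩
  left_inv m := by simp
  right_inv I := by simp

theorem card_fibre {n : ℕ} (hn : n ≠ 0) :
    Nat.card {m : Multiset (HeightOneSpectrum (𝓞 E)) // Nm m = n} = aN E n :=
  Nat.card_congr (fibreEquiv hn)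

instance finite_fibre (n : ℕ) : Finite {m : Multiset (HeightOneSpectrum (𝓞 E)) // Nm m = n} := by
  by_cases hn : n = 0
  · subst hn
    have : IsEmpty {m : Multiset (HeightOneSpectrum (𝓞 E)) // Nm m = 0} :=
      ⟨fun m => (Nm_pos m.1).ne' m.2⟩
    infer_instance
  · have : Finite {I : Ideal (𝓞 E) // Ideal.absNorm I = n} :=
      (Ideal.finite_setOfPred_absNorm_eq n).to_subtype
    exact Finite.of_equiv _ (fibreEquiv hn).symm

theorem tsum_fibre {V : Type*} [NormedAddCommGroup V] [NormedSpace ℝ V] [CompleteSpace V]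
    (n : ℕ) (c : V) :
    (∑' _ : {m : Multiset (HeightOneSpectrum (𝓞 E)) // Nm m = n}, c) =
      if n = 0 then 0 else (aN E n : ℝ) • c := by
  have := Fintype.ofFinite {m : Multiset (HeightOneSpectrum (𝓞 E)) // Nm m = n}
  rw [tsum_fintype, Finset.sum_const, Finset.card_univ, ← Nat.card_eq_fintype_card]
  split_ifs with hn
  · subst hn
    have : IsEmpty {m : Multiset (HeightOneSpectrum (𝓞 E)) // Nm m = 0} :=
      ⟨fun m => (Nm_pos m.1).ne' m.2⟩
    simp
  · rw [card_fibre hn, Nat.cast_smul_eq_nsmul]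

theorem summable_multiset {F : ℕ → ℝ} (hF : ∀ n, 0 ≤ F n)
    (h : Summable fun n : ℕ => if n = 0 then 0 else (aN E n : ℝ) * F n) :
    Summable fun m : Multiset (HeightOneSpectrum (𝓞 E)) => F (Nm m) := by
  rw [← (Equiv.sigmaFiberEquiv (Nm (E := E))).summable_iff]
  have h1 : ((fun m : Multiset (HeightOneSpectrum (𝓞 E)) => F (Nm m)) ∘
      (Equiv.sigmaFiberEquiv (Nm (E := E)))) = fun x => F x.1 := by
    funext x
    have : Nm ((Equiv.sigmaFiberEquiv (Nm (E := E))) x) = x.1 := x.2.2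
    simp only [Function.comp_apply, this]
  rw [h1, summable_sigma_of_nonneg (fun x => hF _)]
  refine ⟨fun n => Summable.of_finite, ?_⟩
  refine h.congr fun n => ?_
  rw [tsum_fibre n (F n)]
  rfl

theorem tsum_multiset {F : ℕ → ℂ}
    (h : Summable fun n : ℕ => if n = 0 then 0 else (aN E n : ℝ) * ‖F n‖) :
    ∑' m : Multiset (HeightOneSpectrum (𝓞 E)), F (Nm m) =
      ∑' n : ℕ, if n = 0 then 0 else (aN E n : ℂ) * F n := by
  have h0 : Summable fun m : Multiset (HeightOneSpectrum (𝓞 E)) => F (Nm m) :=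
    Summable.of_norm (summable_multiset (F := fun n => ‖F n‖) (fun n => norm_nonneg _) h)
  have h1 : ((fun m : Multiset (HeightOneSpectrum (𝓞 E)) => F (Nm m)) ∘
      (Equiv.sigmaFiberEquiv (Nm (E := E)))) = fun x => F x.1 := by
    funext x
    have : Nm ((Equiv.sigmaFiberEquiv (Nm (E := E))) x) = x.1 := x.2.2
    simp only [Function.comp_apply, this]
  have h2 := (Equiv.sigmaFiberEquiv (Nm (E := E))).summable_iff.mpr h0
  rw [h1] at h2
  have h3 := (Equiv.sigmaFiberEquiv (Nm (E := E))).tsum_eq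
    (fun m : Multiset (HeightOneSpectrum (𝓞 E)) => F (Nm m))
  have h4 : (∑' x : (Σ n, {m : Multiset (HeightOneSpectrum (𝓞 E)) // Nm m = n}), F x.1) =
      ∑' m : Multiset (HeightOneSpectrum (𝓞 E)), F (Nm m) := by
    rw [← h3]
    exact tsum_congr fun x => (congrFun h1 x).symm
  rw [← h4, h2.tsum_sigma]
  refine tsum_congr fun n => ?_
  refine (tsum_fibre n (F n)).trans ?_
  split_ifs
  · rfl
  · rw [Complex.real_smul]; norm_cast

variable (E) in
theorem tendsto_sum_aN : Tendsto (fun n : ℕ => (∑ k ∈ Finset.Icc 1 n, (aN E k : ℝ)) / n) atTop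
    (𝓝 (NumberField.dedekindZeta_residue E)) := by
  unfold aN
  refine ((Ideal.tendsto_norm_le_div_atTop₀ E).comp tendsto_natCast_atTop_atTop).congr fun n ↦ ?_
  simp only [Function.comp_apply, Nat.cast_le, ← Nat.cast_sum]
  congr
  rw [← add_left_inj 1, ← Ideal.card_norm_le_eq_card_norm_le_add_one,
    show Finset.Icc 1 n = Finset.Ioc 0 n from Finset.Icc_succ_left_eq_Ioc _ _,
    show 1 = Nat.card {I : Ideal (𝓞 E) // Ideal.absNorm I = 0} by
      simp only [Ideal.absNorm_eq_zero_iff, Nat.card_eq_fintype_card, Fintype.card_unique],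
    Finset.sum_Ioc_add_eq_sum_Icc (n.zero_le),
    ← Finset.card_preimage_eq_sum_card_image_eq (fun k _ ↦ Ideal.finite_setOfPred_absNorm_eq k)]
  simp only [Finset.coe_Icc, Set.coe_eq_subtype, Set.mem_preimage, Set.mem_Icc, zero_le, true_and]

variable (E) in
theorem lseriesSummable_a {s : ℂ} (hs : 1 < s.re) :
    LSeriesSummable (fun n => (aN E n : ℂ)) s := by
  have h1 := tendsto_sum_aN E
  refine LSeriesSummable_of_sum_norm_bigO (r := 1) ?_ zero_le_one hs
  have h2 : (fun n : ℕ => (∑ k ∈ Finset.Icc 1 n, (aN E k : ℝ)) / n) =O[atTop]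
      (fun _ => (1 : ℝ)) := h1.isBigO_one ℝ
  have h3 := h2.mul (Asymptotics.isBigO_refl (fun n : ℕ => (n : ℝ)) atTop)
  refine (h3.congr' ?_ ?_)
  · filter_upwards [eventually_ne_atTop 0] with n hn
    rw [div_mul_cancel₀ _ (Nat.cast_ne_zero.mpr hn)]
    simp
  · exact Eventually.of_forall fun n => by simp

/-- the residue characteristic -/
noncomputable def rc (v : HeightOneSpectrum (𝓞 E)) : ℕ := (Nv v).minFac

theorem rc_prime (v : HeightOneSpectrum (𝓞 E)) : (rc v).Prime := by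
  refine Nat.minFac_prime ?_
  have := two_le_Nv v
  omega

theorem rc_mem (v : HeightOneSpectrum (𝓞 E)) : ((rc v : ℕ) : 𝓞 E) ∈ v.asIdeal := by
  have hmax : v.asIdeal.IsMaximal := v.isMaximal
  let _ : Field (𝓞 E ⧸ v.asIdeal) := Ideal.Quotient.field _
  have hfin : Finite (𝓞 E ⧸ v.asIdeal) := Ideal.finiteQuotientOfFreeOfNeBot _ v.ne_bot
  let _ : Fintype (𝓞 E ⧸ v.asIdeal) := Fintype.ofFinite _
  have h1 : Ideal.absNorm v.asIdeal = Fintype.card (𝓞 E ⧸ v.asIdeal) := by
    rw [Ideal.absNorm_apply, Submodule.cardQuot_apply, Nat.card_eq_fintype_card]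
  have h2 : IsPrimePow (Ideal.absNorm v.asIdeal) := by
    rw [h1]; exact FiniteField.isPrimePow_card _
  obtain ⟨p, k, hp, hk, hpk⟩ := h2
  have hp' : p.Prime := hp.nat_prime
  have h3 : rc v = p := by
    rw [rc, Nv, ← hpk]
    exact hp'.pow_minFac hk.ne'
  rw [h3]
  have h4 : ((Ideal.absNorm v.asIdeal : ℕ) : 𝓞 E) ∈ v.asIdeal := Ideal.absNorm_mem _
  rw [← hpk, Nat.cast_pow] at h4
  exact v.isPrime.mem_of_pow_mem _ h4

theorem card_rc_le (T : Finset (HeightOneSpectrum (𝓞 E))) (p : ℕ) (hT : ∀ v ∈ T, rc v = p) :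
    T.card ≤ Module.finrank ℚ E := by
  classical
  rcases T.eq_empty_or_nonempty with rfl | ⟨v₀, hv₀⟩
  · simp
  have hp : p.Prime := hT v₀ hv₀ ▸ rc_prime v₀
  have hpZ : Prime (p : ℤ) := Nat.prime_iff_prime_int.1 hp
  have hne : (Ideal.span {(p : ℤ)}) ≠ ⊥ := by
    rw [Ne, Ideal.span_singleton_eq_bot]
    exact hpZ.ne_zero
  have hprime : (Ideal.span {(p : ℤ)}).IsPrime := (Ideal.span_singleton_prime hpZ.ne_zero).2 hpZ
  have hmax : (Ideal.span {(p : ℤ)}).IsMaximal := hprime.isMaximal hne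
  refine le_trans ?_ (Ideal.card_primesOverFinset_le_finrank (𝓞 E) ℚ E hne)
  rw [← Finset.card_image_of_injOn (f := HeightOneSpectrum.asIdeal)
    (fun v _ w _ h => HeightOneSpectrum.ext h)]
  refine Finset.card_le_card ?_
  intro I hI
  obtain ⟨v, hv, rfl⟩ := Finset.mem_image.1 hI
  rw [IsDedekindDomain.mem_primesOverFinset_iff hne]
  refine ⟨v.isPrime, ⟨?_⟩⟩
  refine hmax.eq_of_le ?_ ?_
  · exact Ideal.IsPrime.ne_top (Ideal.comap_isPrime _ _)
  · rw [Ideal.span_singleton_le_iff_mem]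
    change algebraMap ℤ (𝓞 E) (p : ℤ) ∈ v.asIdeal
    have := rc_mem v
    rw [hT v hv] at this
    simpa only [algebraMap_int_eq, map_natCast] using this

end Vale.Agent.P007.Z
end

section

set_option autoImplicit false

open Filter Topology NumberField IsDedekindDomain

namespace Vale.Agent.P007.Z

variable {E : Type*} [Field E] [NumberField E]

/-- the weight of a prime in the Euler product of `L(s, χ ∘ N)` -/
noncomputable def fw (χ : ℕ →*₀ ℂ) (s : ℂ) (v : HeightOneSpectrum (𝓞 E)) : ℂ :=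
  χ (Nv v) * (Nv v : ℂ) ^ (-s)

/-- `L_E(s, χ) = ∑ χ(N I) N(I)^{-s}` -/
noncomputable def Lf (E : Type*) [Field E] [NumberField E] (χ : ℕ →*₀ ℂ) (s : ℂ) : ℂ :=
  LSeries (fun n => χ n * aN E n) s

theorem gw_fw (χ : ℕ →*₀ ℂ) (s : ℂ) (m : Multiset (HeightOneSpectrum (𝓞 E))) :
    gw (fw χ s) m = χ (Nm m) * (Nm m : ℂ) ^ (-s) := by
  induction m using Multiset.induction_on with
  | empty => simp only [gw_zero, Nm, Multiset.map_zero, Multiset.prod_zero, map_one, Nat.cast_one,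
               Complex.one_cpow, mul_one]
  | cons v m ih =>
    have h : Nm (v ::ₘ m) = Nv v * Nm m := by simp [Nm]
    rw [gw_cons, ih, h, map_mul, fw, Nat.cast_mul, Complex.natCast_mul_natCast_cpow]
    ring

theorem norm_natCast_cpow_neg {n : ℕ} (hn : 0 < n) (s : ℂ) :
    ‖(n : ℂ) ^ (-s)‖ = (n : ℝ) ^ (-s.re) := by
  rw [Complex.norm_natCast_cpow_of_pos hn, Complex.neg_re]

variable (E) in
theorem summable_aN {σ : ℝ} (hσ : 1 < σ) :
    Summable fun n : ℕ => if n = 0 then 0 else (aN E n : ℝ) * (n : ℝ) ^ (-σ) := by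
  have h := (lseriesSummable_a E (s := (σ : ℂ)) (by simpa using hσ)).norm
  refine h.congr fun n => ?_
  rw [LSeries.norm_term_eq]
  split_ifs with hn
  · rfl
  · simp only [RCLike.norm_natCast, Complex.ofReal_re, div_eq_mul_inv, Nat.cast_nonneg,
      Real.rpow_neg]

theorem summable_gw {χ : ℕ →*₀ ℂ} (hχ : ∀ n, ‖χ n‖ ≤ 1) {s : ℂ} (hs : 1 < s.re) :
    Summable fun m : Multiset (HeightOneSpectrum (𝓞 E)) => ‖gw (fw χ s) m‖ := by
  refine Summable.of_nonneg_of_le (fun m => norm_nonneg _) (fun m => ?_)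
    (summable_multiset (E := E) (F := fun n => (n : ℝ) ^ (-s.re)) (fun n => by positivity)
      (summable_aN E hs))
  rw [gw_fw, norm_mul, norm_natCast_cpow_neg (Nm_pos m)]
  have := hχ (Nm m)
  have h2 : (0 : ℝ) ≤ (Nm m : ℝ) ^ (-s.re) := by positivity
  nlinarith

theorem Lf_eq {χ : ℕ →*₀ ℂ} (hχ : ∀ n, ‖χ n‖ ≤ 1) {s : ℂ} (hs : 1 < s.re) :
    Lf E χ s = ∑' m : Multiset (HeightOneSpectrum (𝓞 E)), gw (fw χ s) m := by
  have h1 : (∑' m : Multiset (HeightOneSpectrum (𝓞 E)), gw (fw χ s) m) =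
      ∑' m : Multiset (HeightOneSpectrum (𝓞 E)), (fun n : ℕ => χ n * (n : ℂ) ^ (-s)) (Nm m) :=
    tsum_congr fun m => gw_fw χ s m
  rw [h1, tsum_multiset (E := E) (F := fun n : ℕ => χ n * (n : ℂ) ^ (-s)), Lf, LSeries]
  · refine tsum_congr fun n => ?_
    rw [LSeries.term_def]
    split_ifs with hn
    · rfl
    · rw [Complex.cpow_neg]
      field_simp
  · refine Summable.of_nonneg_of_le (fun n => ?_) (fun n => ?_) (summable_aN E hs)
    · split_ifs <;> positivity
    · split_ifs with hn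
      · exact le_rfl
      · gcongr
        rw [norm_mul, norm_natCast_cpow_neg (Nat.pos_of_ne_zero hn)]
        have := hχ n
        have h2 : (0 : ℝ) ≤ (n : ℝ) ^ (-s.re) := by positivity
        nlinarith only [this, h2]

theorem Lf_ne_zero {χ : ℕ →*₀ ℂ} (hχ : ∀ n, ‖χ n‖ ≤ 1) {s : ℂ} (hs : 1 < s.re) :
    Lf E χ s ≠ 0 := by
  classical
  rw [Lf_eq hχ hs]
  exact tsum_gw_ne_zero (summable_gw hχ hs)

theorem norm_fw_le {χ : ℕ →*₀ ℂ} (hχ : ∀ n, ‖χ n‖ ≤ 1) (s : ℂ)
    (v : HeightOneSpectrum (𝓞 E)) : ‖fw χ s v‖ ≤ (Nv v : ℝ) ^ (-s.re) := by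
  rw [fw, norm_mul, norm_natCast_cpow_neg (Nv_pos v)]
  have := hχ (Nv v)
  have h2 : (0 : ℝ) ≤ (Nv v : ℝ) ^ (-s.re) := by positivity
  nlinarith

theorem Nv_rpow_le {σ : ℝ} (hσ : 1 ≤ σ) (v : HeightOneSpectrum (𝓞 E)) :
    (Nv v : ℝ) ^ (-σ) ≤ (Nv v : ℝ)⁻¹ := by
  rw [← Real.rpow_neg_one]
  exact Real.rpow_le_rpow_of_exponent_le (by exact_mod_cast Nv_pos v) (by linarith)

theorem sum_rc_le (T : Finset (HeightOneSpectrum (𝓞 E))) :
    ∑ v ∈ T, ((rc v : ℝ) ^ 2)⁻¹ ≤ 2 * Module.finrank ℚ E := by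
  classical
  have h1 : ∑ v ∈ T, ((rc v : ℝ) ^ 2)⁻¹ =
      ∑ p ∈ T.image rc, ∑ v ∈ T with rc v = p, ((rc v : ℝ) ^ 2)⁻¹ :=
    (Finset.sum_fiberwise_of_maps_to (fun v hv => Finset.mem_image_of_mem _ hv) _).symm
  rw [h1]
  have h2 : ∀ p ∈ T.image rc, ∑ v ∈ T with rc v = p, ((rc v : ℝ) ^ 2)⁻¹ ≤
      Module.finrank ℚ E * ((p : ℝ) ^ 2)⁻¹ := by
    intro p _
    have h3 : ∑ v ∈ T with rc v = p, ((rc v : ℝ) ^ 2)⁻¹ =
        ∑ v ∈ T with rc v = p, ((p : ℝ) ^ 2)⁻¹ := by
      refine Finset.sum_congr rfl fun v hv => ?_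
      rw [(Finset.mem_filter.mp hv).2]
    rw [h3, Finset.sum_const, nsmul_eq_mul]
    have h4 := card_rc_le (T.filter fun v => rc v = p) p (fun v hv => (Finset.mem_filter.mp hv).2)
    gcongr
  refine (Finset.sum_le_sum h2).trans ?_
  rw [← Finset.mul_sum, mul_comm (2 : ℝ)]
  gcongr
  have h5 : Summable fun n : ℕ => ((n : ℝ) ^ 2)⁻¹ := Real.summable_nat_pow_inv.2 (by norm_num)
  refine (h5.sum_le_tsum _ (fun _ _ => by positivity)).trans ?_
  have h6 : ∑' n : ℕ, ((n : ℝ) ^ 2)⁻¹ = Real.pi ^ 2 / 6 := by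
    rw [← hasSum_zeta_two.tsum_eq]
    simp
  rw [h6]
  have h7 := Real.pi_lt_d2
  have h8 := Real.pi_pos
  nlinarith only [h7, h8]

theorem summable_rc : Summable fun v : HeightOneSpectrum (𝓞 E) => ((rc v : ℝ) ^ 2)⁻¹ :=
  summable_of_sum_le (fun v => by positivity) sum_rc_le

theorem tsum_rc_le : ∑' v : HeightOneSpectrum (𝓞 E), ((rc v : ℝ) ^ 2)⁻¹ ≤
    2 * Module.finrank ℚ E :=
  summable_rc.tsum_le_of_sum_le sum_rc_le

theorem rc_le_Nv (v : HeightOneSpectrum (𝓞 E)) : rc v ≤ Nv v := Nat.minFac_le (Nv_pos v)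

theorem Nv_inv_sq_le (v : HeightOneSpectrum (𝓞 E)) : ((Nv v : ℝ) ^ 2)⁻¹ ≤ ((rc v : ℝ) ^ 2)⁻¹ := by
  have h1 := (rc_prime v).pos
  have h2 := rc_le_Nv v
  gcongr

theorem Nv_inv_le_of_not_prime {v : HeightOneSpectrum (𝓞 E)} (hv : ¬ (Nv v).Prime) :
    (Nv v : ℝ)⁻¹ ≤ ((rc v : ℝ) ^ 2)⁻¹ := by
  have h1 := (rc_prime v).pos
  refine inv_anti₀ (by positivity) ?_
  have := Nat.minFac_sq_le_self (Nv_pos v) hv
  exact_mod_cast this

/-- primes of prime norm -/
noncomputable def primeNormEquiv (p : Nat.Primes) :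
    {v : HeightOneSpectrum (𝓞 E) // Nv v = p} ≃ {I : Ideal (𝓞 E) // Ideal.absNorm I = p} where
  toFun v := ⟨v.1.asIdeal, v.2⟩
  invFun I := ⟨⟨I.1, Ideal.isPrime_of_irreducible_absNorm (by rw [I.2]; exact p.2), by
    intro h
    have h2 := I.2
    rw [h, Ideal.absNorm_bot] at h2
    exact p.2.ne_zero h2.symm⟩, I.2⟩
  left_inv v := by simp
  right_inv I := by simp

theorem card_primeNorm (p : Nat.Primes) :
    Nat.card {v : HeightOneSpectrum (𝓞 E) // Nv v = p} = aN E p :=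
  Nat.card_congr (primeNormEquiv p)

instance (p : Nat.Primes) : Finite {v : HeightOneSpectrum (𝓞 E) // Nv v = p} := by
  have : Finite {I : Ideal (𝓞 E) // Ideal.absNorm I = p} :=
    (Ideal.finite_setOfPred_absNorm_eq (p : ℕ)).to_subtype
  exact Finite.of_equiv _ (primeNormEquiv p).symm

theorem aN_prime_le (p : Nat.Primes) : aN E p ≤ Module.finrank ℚ E := by
  classical
  rw [← card_primeNorm p]
  have := Fintype.ofFinite {v : HeightOneSpectrum (𝓞 E) // Nv v = p}
  rw [Nat.card_eq_fintype_card, ← Finset.card_univ,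
    ← Finset.card_map (Function.Embedding.subtype _)]
  refine card_rc_le _ p ?_
  intro v hv
  obtain ⟨w, _, rfl⟩ := Finset.mem_map.mp hv
  change (Nv w.1).minFac = p
  rw [w.2]
  exact p.2.minFac_eq

/-- the prime sum `∑_p Re χ(p) a_E(p) p^{-σ}` -/
noncomputable def PS (E : Type*) [Field E] [NumberField E] (χ : ℕ →*₀ ℂ) (σ : ℝ) : ℝ :=
  ∑' p : Nat.Primes, (χ p).re * (aN E p : ℝ) * (p : ℝ) ^ (-σ)

/-- the set of primes of prime norm, as a sigma type over `p` -/
noncomputable def sigmaPrimeNorm : (Σ p : Nat.Primes, {v : HeightOneSpectrum (𝓞 E) // Nv v = p}) ≃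
    {v : HeightOneSpectrum (𝓞 E) // (Nv v).Prime} where
  toFun x := ⟨x.2.1, by rw [x.2.2]; exact x.1.2⟩
  invFun v := ⟨⟨Nv v.1, v.2⟩, ⟨v.1, rfl⟩⟩
  left_inv x := by
    obtain ⟨⟨p, hp⟩, ⟨v, hv⟩⟩ := x
    simp only at hv
    subst hv
    rfl
  right_inv v := rfl

theorem summable_re_fw {χ : ℕ →*₀ ℂ} (hχ : ∀ n, ‖χ n‖ ≤ 1) {s : ℂ} (hs : 1 < s.re) :
    Summable fun v : HeightOneSpectrum (𝓞 E) => ‖fw χ s v‖ := by
  have h1 := summable_gw (E := E) hχ hs
  have h2 : Function.Injective (fun v : HeightOneSpectrum (𝓞 E) => ({v} : Multiset _)) :=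
    fun a b h => Multiset.singleton_inj.mp h
  refine (h1.comp_injective h2).congr fun v => ?_
  simp [gw]

theorem re_fw_ofReal {χ : ℕ →*₀ ℂ} (σ : ℝ) (v : HeightOneSpectrum (𝓞 E)) :
    (fw χ σ v).re = (χ (Nv v)).re * (Nv v : ℝ) ^ (-σ) := by
  rw [fw, ← Complex.ofReal_neg, ← Complex.ofReal_natCast, ← Complex.ofReal_cpow (by positivity),
    Complex.re_mul_ofReal]

theorem tsum_primeNorm {χ : ℕ →*₀ ℂ} (hχ : ∀ n, ‖χ n‖ ≤ 1) {σ : ℝ} (hσ : 1 < σ) :
    ∑' v : {v : HeightOneSpectrum (𝓞 E) // (Nv v).Prime}, (fw χ σ v.1).re = PS E χ σ := by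
  have h1 : Summable fun v : HeightOneSpectrum (𝓞 E) => (fw χ σ v).re :=
    Summable.of_norm_bounded (summable_re_fw hχ (s := σ) (by simpa using hσ))
      (fun v => by rw [Real.norm_eq_abs]; exact Complex.abs_re_le_norm _)
  have h2 : Summable fun v : {v : HeightOneSpectrum (𝓞 E) // (Nv v).Prime} => (fw χ σ v.1).re :=
    h1.subtype _
  have h3 := sigmaPrimeNorm (E := E).summable_iff.mpr h2
  rw [← sigmaPrimeNorm.tsum_eq]
  have h4 : (∑' x : (Σ p : Nat.Primes, {v : HeightOneSpectrum (𝓞 E) // Nv v = p}),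
      (fw χ σ (sigmaPrimeNorm x).1).re) = ∑' (p : Nat.Primes)
      (v : {v : HeightOneSpectrum (𝓞 E) // Nv v = p}), (fw χ σ (sigmaPrimeNorm ⟨p, v⟩).1).re :=
    Summable.tsum_sigma h3
  rw [h4, PS]
  refine tsum_congr fun p => ?_
  have h5 : ∀ v : {v : HeightOneSpectrum (𝓞 E) // Nv v = p},
      (fw χ σ (sigmaPrimeNorm ⟨p, v⟩).1).re = (χ p).re * (p : ℝ) ^ (-σ) := by
    intro v
    have : (sigmaPrimeNorm ⟨p, v⟩).1 = v.1 := rfl
    rw [this, re_fw_ofReal, v.2]
  rw [tsum_congr h5]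
  have := Fintype.ofFinite {v : HeightOneSpectrum (𝓞 E) // Nv v = p}
  rw [tsum_fintype, Finset.sum_const, Finset.card_univ, ← Nat.card_eq_fintype_card,
    card_primeNorm, nsmul_eq_mul]
  ring

/-- **`log |L_E(σ, χ)| = ∑_p Re χ(p) a_E(p) p^{-σ} + O(1)`** -/
theorem abs_log_Lf_sub_PS_le {χ : ℕ →*₀ ℂ} (hχ : ∀ n, ‖χ n‖ ≤ 1) {σ : ℝ} (hσ : 1 < σ) :
    |Real.log ‖Lf E χ σ‖ - PS E χ σ| ≤ 4 * Module.finrank ℚ E := by
  classical
  have hσ' : 1 < (σ : ℂ).re := by simpa using hσ
  have h1 : Summable fun v : HeightOneSpectrum (𝓞 E) => (fw χ σ v).re :=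
    Summable.of_norm_bounded (summable_re_fw hχ hσ')
      (fun v => by rw [Real.norm_eq_abs]; exact Complex.abs_re_le_norm _)
  have hle : ∀ v : HeightOneSpectrum (𝓞 E), ‖fw χ σ v‖ ≤ (Nv v : ℝ)⁻¹ := fun v =>
    (norm_fw_le hχ _ v).trans (Nv_rpow_le (by rw [Complex.ofReal_re]; exact hσ.le) v)
  have hsq : ∀ v : HeightOneSpectrum (𝓞 E), ‖fw χ σ v‖ ^ 2 ≤ ((rc v : ℝ) ^ 2)⁻¹ := by
    intro v
    refine le_trans ?_ (Nv_inv_sq_le v)
    rw [← inv_pow]
    have := hle v
    gcongr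
  have h2 : Summable fun v : HeightOneSpectrum (𝓞 E) => ‖fw χ σ v‖ ^ 2 :=
    Summable.of_nonneg_of_le (fun v => by positivity) hsq summable_rc
  have h3 := abs_log_add_le (summable_gw (E := E) hχ hσ') (fun v => by
    refine (hle v).trans ?_
    rw [one_div]
    refine inv_anti₀ (by norm_num) ?_
    exact_mod_cast two_le_Nv v) h2.hasSum h1.hasSum
  rw [← Lf_eq hχ hσ'] at h3
  have h4 : ∑' v : HeightOneSpectrum (𝓞 E), ‖fw χ σ v‖ ^ 2 ≤ 2 * Module.finrank ℚ E :=
    (h2.tsum_le_tsum hsq summable_rc).trans tsum_rc_le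
  -- split
  have h5 : ∑' v : HeightOneSpectrum (𝓞 E), (fw χ σ v).re = PS E χ σ +
      ∑' v : {v : HeightOneSpectrum (𝓞 E) // ¬ (Nv v).Prime}, (fw χ σ v.1).re := by
    rw [← tsum_primeNorm hχ hσ]
    exact (h1.tsum_subtype_add_tsum_subtype_compl {v | (Nv v).Prime}).symm
  have h6 : |∑' v : {v : HeightOneSpectrum (𝓞 E) // ¬ (Nv v).Prime}, (fw χ σ v.1).re| ≤
      2 * Module.finrank ℚ E := by
    have h7 : Summable fun v : {v : HeightOneSpectrum (𝓞 E) // ¬ (Nv v).Prime} =>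
        ((rc v.1 : ℝ) ^ 2)⁻¹ := summable_rc.subtype _
    have h8 : ∀ v : {v : HeightOneSpectrum (𝓞 E) // ¬ (Nv v).Prime},
        ‖(fw χ σ v.1).re‖ ≤ ((rc v.1 : ℝ) ^ 2)⁻¹ := by
      intro v
      rw [Real.norm_eq_abs]
      exact (Complex.abs_re_le_norm _).trans ((hle v.1).trans (Nv_inv_le_of_not_prime v.2))
    have h9 := tsum_of_norm_bounded h7.hasSum h8
    rw [Real.norm_eq_abs] at h9
    refine h9.trans (le_trans ?_ tsum_rc_le)
    exact summable_rc.tsum_subtype_le (fun v : HeightOneSpectrum (𝓞 E) => ((rc v : ℝ) ^ 2)⁻¹)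
      {v | ¬ (Nv v).Prime} (fun v => by positivity)
  rw [h5] at h3
  rw [abs_le] at h3 h6 ⊢
  constructor <;> linarith [h3.1, h3.2, h6.1, h6.2]

end Vale.Agent.P007.Z
end

section

set_option autoImplicit false

open Filter Topology NumberField

namespace Vale.Agent.P007.Z

/-- the prime zeta function -/
noncomputable def Pz (σ : ℝ) : ℝ := ∑' p : Nat.Primes, (p : ℝ) ^ (-σ)

theorem summable_Pz {σ : ℝ} (hσ : 1 < σ) : Summable fun p : Nat.Primes => (p : ℝ) ^ (-σ) :=
  Nat.Primes.summable_rpow.mpr (by linarith)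

theorem log_zeta_bound : ∃ C : ℝ, ∀ σ : ℝ, 1 < σ → σ ≤ 2 →
    |Real.log ‖riemannZeta σ‖ + Real.log (σ - 1)| ≤ C := by
  set G : ℂ → ℂ := Function.update (fun s => (s - 1) * riemannZeta s) 1 1 with hG
  have hcont : ContinuousOn (fun σ : ℝ => Real.log ‖G σ‖) (Set.Icc 1 2) := by
    intro σ hσ
    have h1 : ContinuousAt G (σ : ℂ) := by
      by_cases h : σ = 1
      · subst h
        rw [Complex.ofReal_one, hG, continuousAt_update_same]
        exact riemannZeta_residue_one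
      · have h' : (σ : ℂ) ≠ 1 := by exact_mod_cast h
        rw [hG, continuousAt_update_of_ne h']
        exact (continuousAt_id.sub continuousAt_const).mul
          (differentiableAt_riemannZeta h').continuousAt
    have h2 : G σ ≠ 0 := by
      by_cases h : σ = 1
      · subst h; simp [hG]
      · have h' : (σ : ℂ) ≠ 1 := by exact_mod_cast h
        rw [hG, Function.update_of_ne h']
        refine mul_ne_zero (sub_ne_zero.mpr h') ?_
        exact riemannZeta_ne_zero_of_one_le_re (by simpa using hσ.1)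
    have h3 : ContinuousAt (fun σ : ℝ => G σ) σ :=
      ContinuousAt.comp (f := fun σ : ℝ => (σ : ℂ)) h1 Complex.continuous_ofReal.continuousAt
    exact (h3.norm.log (norm_ne_zero_iff.mpr h2)).continuousWithinAt
  obtain ⟨C, hC⟩ := isCompact_Icc.exists_bound_of_continuousOn hcont
  refine ⟨C, fun σ h1 h2 => ?_⟩
  have h3 := hC σ ⟨h1.le, h2⟩
  have h' : (σ : ℂ) ≠ 1 := by exact_mod_cast h1.ne'
  rw [Real.norm_eq_abs, hG, Function.update_of_ne h', norm_mul, Real.log_mul] at h3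
  · have h4 : ‖(σ : ℂ) - 1‖ = σ - 1 := by
      rw [← Complex.ofReal_one, ← Complex.ofReal_sub, Complex.norm_real, Real.norm_eq_abs,
        abs_of_pos (by linarith)]
    rw [h4] at h3
    rwa [add_comm]
  · exact norm_ne_zero_iff.mpr (sub_ne_zero.mpr h')
  · exact norm_ne_zero_iff.mpr (riemannZeta_ne_zero_of_one_le_re (by simpa using h1.le))

theorem log_zeta_sub_Pz {σ : ℝ} (hσ : 1 < σ) : |Real.log ‖riemannZeta σ‖ - Pz σ| ≤ 2 := by
  have h1 := riemannZeta_eulerProduct_exp_log (s := (σ : ℂ)) (by simpa using hσ)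
  rw [← h1, Complex.norm_exp, Real.log_exp]
  have hp : ∀ p : Nat.Primes, ‖((p : ℂ)) ^ (-(σ : ℂ))‖ = (p : ℝ) ^ (-σ) := by
    intro p
    rw [Complex.norm_natCast_cpow_of_pos p.2.pos, Complex.neg_re, Complex.ofReal_re]
  have hle : ∀ p : Nat.Primes, (p : ℝ) ^ (-σ) ≤ (p : ℝ)⁻¹ := by
    intro p
    rw [← Real.rpow_neg_one]
    exact Real.rpow_le_rpow_of_exponent_le (by exact_mod_cast p.2.pos) (by linarith)
  have hhalf : ∀ p : Nat.Primes, ‖((p : ℂ)) ^ (-(σ : ℂ))‖ ≤ 1 / 2 := by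
    intro p
    rw [hp, one_div]
    refine (hle p).trans (inv_anti₀ (by norm_num) ?_)
    exact_mod_cast p.2.two_le
  have hsc : Summable fun p : Nat.Primes => ((p : ℂ)) ^ (-(σ : ℂ)) := by
    refine Summable.of_norm ?_
    simp_rw [hp]
    exact summable_Pz hσ
  have hs1 : Summable fun p : Nat.Primes => -Complex.log (1 - (p : ℂ) ^ (-(σ : ℂ))) :=
    hsc.clog_one_sub.neg
  rw [Complex.re_tsum hs1]
  have hs2 : Summable fun p : Nat.Primes => (-Complex.log (1 - (p : ℂ) ^ (-(σ : ℂ)))).re :=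
    (Complex.hasSum_re hs1.hasSum).summable
  rw [Pz, ← hs2.tsum_sub (summable_Pz hσ)]
  have hsq : Summable fun p : Nat.Primes => (((p : ℕ) : ℝ) ^ 2)⁻¹ := by
    have h5 : Summable fun n : ℕ => ((n : ℝ) ^ 2)⁻¹ := Real.summable_nat_pow_inv.2 (by norm_num)
    exact h5.subtype _
  have hb : ∀ p : Nat.Primes,
      ‖(-Complex.log (1 - (p : ℂ) ^ (-(σ : ℂ)))).re - (p : ℝ) ^ (-σ)‖ ≤ (((p : ℕ) : ℝ) ^ 2)⁻¹ := by
    intro p
    have h3 := abs_log_one_sub_add_re_le (hhalf p)
    rw [Complex.neg_re, Complex.log_re, Real.norm_eq_abs, ← abs_neg]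
    have h4 : ((p : ℂ) ^ (-(σ : ℂ))).re = (p : ℝ) ^ (-σ) := by
      rw [← Complex.ofReal_neg, ← Complex.ofReal_natCast, ← Complex.ofReal_cpow (by positivity),
        Complex.ofReal_re]
    rw [h4] at h3
    have h5 : -(-Real.log ‖1 - (p : ℂ) ^ (-(σ : ℂ))‖ - (p : ℝ) ^ (-σ)) =
        Real.log ‖1 - (p : ℂ) ^ (-(σ : ℂ))‖ + (p : ℝ) ^ (-σ) := by ring
    rw [h5]
    refine h3.trans ?_
    rw [hp, ← inv_pow]
    have := hle p
    (clear * - this; gcongr)
  have h6 := tsum_of_norm_bounded hsq.hasSum hb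
  rw [Real.norm_eq_abs] at h6
  refine h6.trans ?_
  have h5 : Summable fun n : ℕ => ((n : ℝ) ^ 2)⁻¹ := Real.summable_nat_pow_inv.2 (by norm_num)
  have h7 : ∑' p : Nat.Primes, (((p : ℕ) : ℝ) ^ 2)⁻¹ ≤ ∑' n : ℕ, ((n : ℝ) ^ 2)⁻¹ :=
    h5.tsum_subtype_le (fun n : ℕ => ((n : ℝ) ^ 2)⁻¹) {p | p.Prime} (fun n => by (clear * -; positivity))
  refine h7.trans ?_
  have h6 : ∑' n : ℕ, ((n : ℝ) ^ 2)⁻¹ = Real.pi ^ 2 / 6 := by
    rw [← hasSum_zeta_two.tsum_eq]
    simp
  rw [h6]
  have h7 := Real.pi_lt_d2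
  have h8 := Real.pi_pos
  nlinarith only [h7, h8]

theorem Pz_bound : ∃ C : ℝ, 0 ≤ C ∧ ∀ σ : ℝ, 1 < σ → σ ≤ 2 → |Pz σ + Real.log (σ - 1)| ≤ C := by
  obtain ⟨C, hC⟩ := log_zeta_bound
  refine ⟨|C| + 2, by positivity, fun σ h1 h2 => ?_⟩
  have h3 := hC σ h1 h2
  have h4 := log_zeta_sub_Pz h1
  have h5 := le_abs_self C
  rw [abs_le] at h3 h4 ⊢
  constructor <;> linarith [h3.1, h3.2, h4.1, h4.2]

section

variable {E : Type*} [Field E] [NumberField E]

theorem summable_PS {χ : ℕ →*₀ ℂ} (hχ : ∀ n, ‖χ n‖ ≤ 1) {σ : ℝ} (hσ : 1 < σ) :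
    Summable fun p : Nat.Primes => (χ p).re * (aN E p : ℝ) * (p : ℝ) ^ (-σ) := by
  refine Summable.of_norm_bounded ((summable_Pz hσ).mul_left (Module.finrank ℚ E : ℝ)) fun p => ?_
  rw [norm_mul, norm_mul, Real.norm_eq_abs, Real.norm_eq_abs, Real.norm_eq_abs,
    abs_of_nonneg (by positivity : (0 : ℝ) ≤ (p : ℝ) ^ (-σ)), Nat.abs_cast]
  have h1 : |(χ p).re| ≤ 1 := (Complex.abs_re_le_norm _).trans (hχ p)
  have h2 : (aN E p : ℝ) ≤ Module.finrank ℚ E := by exact_mod_cast aN_prime_le p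
  have h3 : |(χ p).re| * (aN E p : ℝ) ≤ 1 * Module.finrank ℚ E := by gcongr
  rw [one_mul] at h3
  gcongr

/-- the difference of prime sums -/
theorem abs_PS_sub_le {χ : ℕ →*₀ ℂ} (hχ : ∀ n, ‖χ n‖ ≤ 1) {σ σ' : ℝ} (hσ : 1 < σ) (h : σ ≤ σ') :
    |PS E χ σ - PS E χ σ'| ≤ Module.finrank ℚ E * (Pz σ - Pz σ') := by
  have hσ' : 1 < σ' := by linarith
  rw [PS, PS, ← (summable_PS hχ hσ).tsum_sub (summable_PS hχ hσ'), Pz, Pz,
    ← (summable_Pz hσ).tsum_sub (summable_Pz hσ'), ← tsum_mul_left, ← Real.norm_eq_abs]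
  refine tsum_of_norm_bounded
    (((summable_Pz hσ).sub (summable_Pz hσ')).mul_left (Module.finrank ℚ E : ℝ)).hasSum fun p => ?_
  have h0 : (p : ℝ) ^ (-σ') ≤ (p : ℝ) ^ (-σ) :=
    Real.rpow_le_rpow_of_exponent_le (by exact_mod_cast p.2.pos) (by linarith)
  rw [← mul_sub, norm_mul, norm_mul, Real.norm_eq_abs, Real.norm_eq_abs, Real.norm_eq_abs,
    abs_of_nonneg (by linarith : (0 : ℝ) ≤ (p : ℝ) ^ (-σ) - (p : ℝ) ^ (-σ')), Nat.abs_cast]
  have h1 : |(χ p).re| ≤ 1 := (Complex.abs_re_le_norm _).trans (hχ p)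
  have h2 : (aN E p : ℝ) ≤ Module.finrank ℚ E := by exact_mod_cast aN_prime_le p
  have h3 : |(χ p).re| * (aN E p : ℝ) ≤ 1 * Module.finrank ℚ E := by gcongr
  rw [one_mul] at h3
  have h4 : (0 : ℝ) ≤ (p : ℝ) ^ (-σ) - (p : ℝ) ^ (-σ') := by linarith
  gcongr

theorem abs_PS_le {χ : ℕ →*₀ ℂ} (hχ : ∀ n, ‖χ n‖ ≤ 1) {σ : ℝ} (hσ : 1 < σ) :
    |PS E χ σ| ≤ Module.finrank ℚ E * Pz σ := by
  rw [PS, Pz, ← tsum_mul_left, ← Real.norm_eq_abs]
  refine tsum_of_norm_bounded ((summable_Pz hσ).mul_left (Module.finrank ℚ E : ℝ)).hasSum fun p => ?_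
  rw [norm_mul, norm_mul, Real.norm_eq_abs, Real.norm_eq_abs, Real.norm_eq_abs,
    abs_of_nonneg (by positivity : (0 : ℝ) ≤ (p : ℝ) ^ (-σ)), Nat.abs_cast]
  have h1 : |(χ p).re| ≤ 1 := (Complex.abs_re_le_norm _).trans (hχ p)
  have h2 : (aN E p : ℝ) ≤ Module.finrank ℚ E := by exact_mod_cast aN_prime_le p
  have h3 : |(χ p).re| * (aN E p : ℝ) ≤ 1 * Module.finrank ℚ E := by gcongr
  rw [one_mul] at h3
  gcongr

end

end Vale.Agent.P007.Z
end

section

/-!
Definitions for the no exceptional zero in odd degree part (I.5 of notes 3255).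
-/

set_option autoImplicit false

open NumberField

namespace Vale.Agent.P007.Z

/-- the number of ideals of norm `m` -/
noncomputable def aE (E : Type) [Field E] [NumberField E] (m : ℕ) : ℕ :=
  Nat.card {I : Ideal (𝓞 E) // Ideal.absNorm I = m}

/-- the weight `p^{-(1+η/ℓ)} - p^{-(1+1/ℓ)}`, `η = e^{-t} ∈ (0,1]` -/
noncomputable def wt (ℓ η : ℝ) (p : ℕ) : ℝ := (p : ℝ) ^ (-(1 + η / ℓ)) - (p : ℝ) ^ (-(1 + 1 / ℓ))

/-- `Δ_{E,χ}(η) = ∑_p Re χ(p) a_E(p) w_η(p)` -/
noncomputable def Del (E : Type) [Field E] [NumberField E] {q : ℕ} (χ : DirichletCharacter ℂ q)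
    (ℓ η : ℝ) : ℝ :=
  ∑' p : Nat.Primes, (χ ((p : ℕ) : ZMod q)).re * (aE E p : ℝ) * wt ℓ η p

open Classical in
/-- the weight of the set of primes which have a degree one factor in `E` and satisfy `S` -/
noncomputable def Sc (E : Type) [Field E] [NumberField E] (S : ℕ → Prop) (ℓ η : ℝ) : ℝ :=
  ∑' p : Nat.Primes, if 0 < aE E p ∧ S p then wt ℓ η p else 0

/-- the model function `-δ log η + ∑ log max(η, x)`, `x = e^{-t_i}` -/
noncomputable def model (δ : ℕ) (d : List ℝ) (η : ℝ) : ℝ :=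
  -((δ : ℝ) * Real.log η) + (d.map fun x => Real.log (max η x)).sum

/-- (Z): zero quantisation near `1`, with uniform constants. -/
def ZForm (N : ℕ) (C₀ C ℓ₀ : ℝ) : Prop :=
  ∀ (E : Type) [Field E] [NumberField E] [IsTotallyReal E], Module.finrank ℚ E ≤ N →
    ∀ (q : ℕ) [NeZero q] (χ : DirichletCharacter ℂ q), Odd (orderOf χ) →
    ∀ ℓ : ℝ, ℓ₀ ≤ ℓ → Real.log |(discr E : ℝ)| ≤ C₀ * ℓ → Real.log q ≤ C₀ * ℓ →
    ∃ (δ : ℕ) (d : List ℝ), δ ≤ 1 ∧ (d.length : ℝ) ≤ C ∧ (∀ x ∈ d, 0 ≤ x ∧ x ≤ 1) ∧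
      (χ = 1 → δ = 1 ∧ ∀ x ∈ d, 0 < x) ∧
      ∀ η : ℝ, 0 < η → η ≤ 1 → |Del E χ ℓ η - model δ d η| ≤ C

end Vale.Agent.P007.Z
end
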