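import Vale.Agent.P007.Bdl.B12
import Vale.Agent.P007.Bdl.B10
import Vale.Agent.P007.Bdl.B2
import Vale.Agent.P007.Bdl.B11

section

set_option autoImplicit false

open MeasureTheory Matrix Filter Topology ProbabilityTheory
open scoped ENNReal

namespace Vale.Agent.P007.R

open Vale.Agent.P007 Vale.Agent.P007.Koopman Vale.Agent.P007.Mautner

variable {n : ℕ} {μ : Measure (X n)} {i j : Fin n}

/-- The kernel `t ↦ ν u_ij(t)`. -/
noncomputable def ugK (i j : Fin n) (ν : Measure (X n)) : Kernel ℝ (X n) :=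
  ((Kernel.id ×ₖ Kernel.const ℝ ν) : Kernel ℝ (ℝ × X n)).map fun p => tr (ug i j p.1) p.2

theorem measurable_tr_ug' (i j : Fin n) : Measurable fun p : ℝ × X n => tr (ug i j p.1) p.2 :=
  (continuous_tr_uncurry.comp
    (continuous_snd.prodMk ((continuous_ug i j).comp continuous_fst))).measurable

instance (i j : Fin n) (ν : Measure (X n)) [IsFiniteMeasure ν] : IsFiniteKernel (ugK i j ν) := by
  unfold ugK; infer_instance

theorem ugK_apply (i j : Fin n) (ν : Measure (X n)) [IsFiniteMeasure ν] (t : ℝ) :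
    ugK i j ν t = ν.map (tr (ug i j t)) := by
  unfold ugK
  rw [Kernel.map_apply _ (measurable_tr_ug' i j), Kernel.prod_apply, Kernel.id_apply,
    Kernel.const_apply, Measure.dirac_prod,
    Measure.map_map (measurable_tr_ug' i j) measurable_prodMk_left]
  rfl

/-- If `ν u_ij(t) = ν` for almost every `t` then for all `t`. -/
theorem uinv_of_ae {ν : Measure (X n)} (h : ∀ᵐ t : ℝ, ν.map (tr (ug i j t)) = ν) : UInv ν i j := by
  intro s
  have h2 : ∀ᵐ t : ℝ, ν.map (tr (ug i j (s - t))) = ν :=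
    (Measure.measurePreserving_sub_left volume s).quasiMeasurePreserving.ae
      (p := fun t => ν.map (tr (ug i j t)) = ν) h
  obtain ⟨t, ht1, ht2⟩ := (h.and h2).exists
  have h3 : (ν.map (tr (ug i j t))).map (tr (ug i j (s - t))) = ν.map (tr (ug i j s)) := by
    rw [Measure.map_map (measurable_tr _) (measurable_tr _)]
    congr 1
    funext x
    rw [Function.comp_apply, tr_ug_ug]
    congr 2
    ring
  rw [← h3, ht1, ht2]

/-- The half of Lebesgue measure. -/
noncomputable def hleb : Measure ℝ := (2⁻¹ : ℝ≥0∞) • volume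

theorem hleb_icc (t : ℝ) : hleb (Set.Icc (t - 1) (t + 1)) = 1 := by
  rw [hleb, Measure.smul_apply, Real.volume_Icc, smul_eq_mul]
  have : t + 1 - (t - 1) = 2 := by ring
  rw [this, ENNReal.ofReal_ofNat, ENNReal.inv_mul_cancel (by norm_num) (by norm_num)]

theorem hleb_map {r : ℝ} (hr : 0 < r) :
    hleb.map (fun t => r * t) = ENNReal.ofReal r⁻¹ • hleb := by
  rw [hleb, Measure.map_smul, Real.map_volume_mul_left hr.ne', abs_of_pos (inv_pos.mpr hr),
    smul_comm]

theorem hleb_sub (s : ℝ) : hleb.map (fun t => t - s) = hleb := by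
  rw [hleb, Measure.map_smul]
  congr 1
  exact (measurePreserving_sub_right volume s).map_eq

/-- A multiple of `hleb` giving mass one to `[-1,1]` is `hleb`. -/
theorem eq_hleb {m : Measure ℝ} (hm : m (Set.Icc (-1) 1) = 1) {K : ℝ≥0∞} (h : m = K • hleb) :
    m = hleb := by
  have h1 := hleb_icc 0
  rw [zero_sub, zero_add] at h1
  have h2 : m (Set.Icc (-1) 1) = K * hleb (Set.Icc (-1) 1) := by rw [h]; rfl
  rw [hm, h1, mul_one] at h2
  rw [h, ← h2, one_smul]

theorem eq_hleb_iff {m m' : Measure ℝ} (hm : m (Set.Icc (-1) 1) = 1)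
    (hm' : m' (Set.Icc (-1) 1) = 1) {r : ℝ} (hr : 0 < r) {c : ℝ≥0∞} (hc0 : c ≠ 0) (hc1 : c ≠ ∞)
    (h : m.map (fun t => r * t) = c • m') : m = hleb ↔ m' = hleb := by
  constructor
  · intro h1
    apply eq_hleb hm' (K := c⁻¹ * ENNReal.ofReal r⁻¹)
    rw [h1, hleb_map hr] at h
    rw [← smul_smul, h, smul_smul, ENNReal.inv_mul_cancel hc0 hc1, one_smul]
  · intro h1
    apply eq_hleb hm (K := c * ENNReal.ofReal (r⁻¹)⁻¹)
    rw [h1] at h
    have h2 : (m.map (fun t => r * t)).map (fun t => r⁻¹ * t) = m := by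
      rw [Measure.map_map (by fun_prop) (by fun_prop)]
      have : ((fun t : ℝ => r⁻¹ * t) ∘ fun t => r * t) = id := by
        funext t
        simp [hr.ne']
      rw [this, Measure.map_id]
    rw [← h2, h, Measure.map_smul, hleb_map (inv_pos.mpr hr), smul_smul]

theorem eq_hleb_iff_shift {m m' : Measure ℝ} (hm : m (Set.Icc (-1) 1) = 1)
    (hm' : m' (Set.Icc (-1) 1) = 1) (s : ℝ) {c : ℝ≥0∞} (hc0 : c ≠ 0) (hc1 : c ≠ ∞)
    (h : m.map (fun t => t - s) = c • m') : m = hleb ↔ m' = hleb := by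
  constructor
  · intro h1
    apply eq_hleb hm' (K := c⁻¹)
    rw [h1, hleb_sub] at h
    rw [h, smul_smul, ENNReal.inv_mul_cancel hc0 hc1, one_smul]
  · intro h1
    apply eq_hleb hm (K := c)
    rw [h1] at h
    have h2 : (m.map (fun t => t - s)).map (fun t => t - -s) = m := by
      rw [Measure.map_map (by fun_prop) (by fun_prop)]
      have : ((fun t : ℝ => t - -s) ∘ fun t => t - s) = id := by
        funext t
        simp
      rw [this, Measure.map_id]
    rw [← h2, h, Measure.map_smul, hleb_sub]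

/-- (S): invariance from Lebesgue leafwise measures. -/
theorem Leafwise.uinv_restrict [IsProbabilityMeasure μ] (L : Leafwise μ i j) {Ω : Set (X n)}
    (hΩ : MeasurableSet Ω) (hΩeq : ∀ x, x ∈ Ω ↔ x ∈ L.X0 ∧ L.lam x = hleb) :
    UInv (μ.restrict Ω) i j := by
  have hsf := L.sfin
  apply uinv_of_ae
  set W : Measure ℝ := gaussianReal 0 1 with hW
  have hWd : W = volume.withDensity (gaussianPDF 0 1) := by
    rw [hW, gaussianReal_of_var_ne_zero _ one_ne_zero]
  have key : W ⊗ₘ ugK i j (μ.restrict Ω) = W ⊗ₘ Kernel.const ℝ (μ.restrict Ω) := by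
    ext S hS
    rw [Measure.compProd_apply hS, Measure.compProd_apply hS]
    have hpdf : Measurable (gaussianPDF 0 1) := measurable_gaussianPDF 0 1
    have hind : Measurable fun p : ℝ × X n => (S.indicator 1 p : ℝ≥0∞) :=
      measurable_one.indicator hS
    set Φ : X n × ℝ → ℝ≥0∞ := fun p => Ω.indicator 1 p.1 *
      (gaussianPDF 0 1 (-p.2) * S.indicator 1 (-p.2, p.1)) with hΦ
    have hΦm : Measurable Φ := by
      refine Measurable.mul ((measurable_one.indicator hΩ).comp measurable_fst) ?_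
      refine Measurable.mul (hpdf.comp measurable_snd.neg) ?_
      exact hind.comp (measurable_snd.neg.prodMk measurable_fst)
    have hT := L.transport Φ hΦm
    have hvol : ∀ f : ℝ → ℝ≥0∞, ∫⁻ t, f (-t) ∂hleb = ∫⁻ t, f t ∂hleb := by
      intro f
      rw [hleb, lintegral_smul_measure, lintegral_smul_measure]
      congr 1
      exact lintegral_neg_eq_self f
    -- left side
    have hL : ∫⁻ x, ∫⁻ s, Φ (x, s) ∂(L.lam x) ∂μ =
        ∫⁻ x in Ω, ∫⁻ t, gaussianPDF 0 1 t * S.indicator 1 (t, x) ∂hleb ∂μ := by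
      rw [← lintegral_indicator hΩ]
      apply lintegral_congr
      intro x
      by_cases hx : x ∈ Ω
      · rw [Set.indicator_of_mem hx, ((hΩeq x).mp hx).2]
        simp only [hΦ, Set.indicator_of_mem hx, Pi.one_apply, one_mul]
        exact hvol fun t => gaussianPDF 0 1 t * S.indicator 1 (t, x)
      · rw [Set.indicator_of_notMem hx]
        simp only [hΦ, Set.indicator_of_notMem hx, zero_mul, lintegral_zero]
    have hR : ∫⁻ y, ∫⁻ t, Φ (tr (ug i j t) y, -t) /
        L.lam y (Set.Icc (t - 1) (t + 1)) ∂(L.lam y) ∂μ =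
        ∫⁻ y in Ω, ∫⁻ t, gaussianPDF 0 1 t * S.indicator 1 (t, tr (ug i j t) y) ∂hleb ∂μ := by
      rw [← lintegral_indicator hΩ]
      apply lintegral_congr_ae
      filter_upwards [L.ae_leaf L.meas L.conull, ae_mem_X0 L] with y hy hy0
      have hmem : ∀ᵐ t ∂(L.lam y), (tr (ug i j t) y ∈ Ω ↔ y ∈ Ω) := by
        filter_upwards [hy] with t ht
        obtain ⟨c, hc0, hc1, hc⟩ := L.shift y hy0 t ht
        rw [hΩeq, hΩeq]
        simp only [ht, hy0, true_and]
        exact (eq_hleb_iff_shift (L.norm y hy0) (L.norm _ ht) t hc0 hc1 hc).symm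
      by_cases hyΩ : y ∈ Ω
      · rw [Set.indicator_of_mem hyΩ]
        have h1 : ∫⁻ t, Φ (tr (ug i j t) y, -t) / L.lam y (Set.Icc (t - 1) (t + 1)) ∂(L.lam y) =
            ∫⁻ t, gaussianPDF 0 1 t * S.indicator 1 (t, tr (ug i j t) y) ∂(L.lam y) := by
          apply lintegral_congr_ae
          filter_upwards [hmem] with t ht
          have h2 : tr (ug i j t) y ∈ Ω := ht.mpr hyΩ
          have h3 : L.lam y (Set.Icc (t - 1) (t + 1)) = 1 := by
            rw [((hΩeq y).mp hyΩ).2, hleb_icc]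
          rw [h3, div_one]
          simp only [hΦ, Set.indicator_of_mem h2, Pi.one_apply, one_mul, neg_neg]
        rw [h1, ((hΩeq y).mp hyΩ).2]
      · rw [Set.indicator_of_notMem hyΩ, ← lintegral_zero (μ := L.lam y)]
        apply lintegral_congr_ae
        filter_upwards [hmem] with t ht
        have h2 : tr (ug i j t) y ∉ Ω := fun h => hyΩ (ht.mp h)
        simp only [hΦ, Set.indicator_of_notMem h2, zero_mul, ENNReal.zero_div]
    rw [hL, hR] at hT
    have hswap : ∀ f : ℝ × X n → ℝ≥0∞, Measurable f →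
        ∫⁻ y in Ω, ∫⁻ t, gaussianPDF 0 1 t * f (t, y) ∂hleb ∂μ =
          2⁻¹ * ∫⁻ t, ∫⁻ y in Ω, f (t, y) ∂μ ∂W := by
      intro f hf
      have hm : Measurable fun p : X n × ℝ => gaussianPDF 0 1 p.2 * f (p.2, p.1) :=
        (hpdf.comp measurable_snd).mul (hf.comp measurable_swap)
      have h1 : ∀ y : X n, ∫⁻ t, gaussianPDF 0 1 t * f (t, y) ∂hleb =
          2⁻¹ * ∫⁻ t, gaussianPDF 0 1 t * f (t, y) := by
        intro y
        rw [hleb, lintegral_smul_measure, smul_eq_mul]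
      simp only [h1]
      rw [lintegral_const_mul _ hm.lintegral_prod_right']
      congr 1
      rw [lintegral_lintegral_swap hm.aemeasurable, hWd,
        lintegral_withDensity_eq_lintegral_mul _ hpdf hf.lintegral_prod_right']
      apply lintegral_congr
      intro t
      have h5 : Measurable fun y : X n => f (t, y) := hf.comp measurable_prodMk_left
      change ∫⁻ y in Ω, gaussianPDF 0 1 t * f (t, y) ∂μ =
        gaussianPDF 0 1 t * ∫⁻ y in Ω, f (t, y) ∂μ
      exact lintegral_const_mul _ h5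
    have e1 := hswap (fun p => S.indicator 1 (p.1, p.2)) hind
    have e2 := hswap (fun p => S.indicator 1 (p.1, tr (ug i j p.1) p.2))
      (hind.comp (measurable_fst.prodMk (measurable_tr_ug' i j)))
    simp only at e1 e2
    rw [e1, e2] at hT
    have h2 : (2⁻¹ : ℝ≥0∞) ≠ 0 := by simp
    have h3 : (2⁻¹ : ℝ≥0∞) ≠ ∞ := by simp
    have hT' := (ENNReal.mul_right_inj h2 h3).mp hT
    have f1 : ∀ t : ℝ, ∫⁻ y in Ω, S.indicator 1 (t, y) ∂μ =
        Kernel.const ℝ (μ.restrict Ω) t (Prod.mk t ⁻¹' S) := by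
      intro t
      rw [Kernel.const_apply, ← lintegral_indicator_one (measurable_prodMk_left hS)]
      rfl
    have f2 : ∀ t : ℝ, ∫⁻ y in Ω, S.indicator 1 (t, tr (ug i j t) y) ∂μ =
        ugK i j (μ.restrict Ω) t (Prod.mk t ⁻¹' S) := by
      intro t
      rw [ugK_apply, Measure.map_apply (measurable_tr _) (measurable_prodMk_left hS),
        ← lintegral_indicator_one (measurable_tr _ (measurable_prodMk_left hS))]
      rfl
    simp only [f1, f2] at hT'
    exact hT'.symm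
  have h1 := Kernel.ae_eq_of_compProd_eq key
  have h2 : (volume : Measure ℝ) ≪ W := gaussianReal_absolutelyContinuous' 0 one_ne_zero
  filter_upwards [h2.ae_le h1] with t ht
  rw [ugK_apply, Kernel.const_apply] at ht
  exact ht

/-- (S)+(Sym) -/
theorem Leafwise.uinv_of_sym {μ : Measure (X n)} [IsProbabilityMeasure μ] (hA : AInv μ)
    (hP : Pure μ) {i j : Fin n} (hij : i ≠ j) (L : Leafwise μ i j)
    (h : ¬ ∀ᵐ x ∂μ, ∀ σ : ℝ, (∃ c : ℝ≥0∞, c ≠ 0 ∧ c ≠ ∞ ∧
      (L.lam x).map (fun t => t - σ) = c • L.lam x) → σ = 0) :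
    UInv μ i j := by
  set Ω : Set (X n) := L.X0 ∩ {x | L.enc x = fun q => hleb (Set.Ioo (q.1 : ℝ) q.2)} with hΩdef
  have hΩm : MeasurableSet Ω := L.meas.inter (measurableSet_eq_fun L.measurable_enc
    measurable_const)
  have hΩeq : ∀ x, x ∈ Ω ↔ x ∈ L.X0 ∧ L.lam x = hleb := by
    intro x
    simp only [hΩdef, Set.mem_inter_iff, Set.mem_ofPred_eq]
    refine and_congr_right fun hx => ⟨fun h1 => ?_, fun h1 => ?_⟩
    · have := L.locFin hx
      exact Real.measure_ext_Ioo_rat fun a b => congrFun h1 (a, b)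
    · unfold Leafwise.enc
      rw [h1]
  have hΩ : AEInv μ Ω := by
    refine ⟨hΩm, fun β => ?_⟩
    have hmp : MeasurePreserving (tr (da β)) μ μ := ⟨measurable_tr _, hA _⟩
    have h1 : ∀ᵐ x ∂μ, tr (da β) x ∈ L.X0 :=
      hmp.quasiMeasurePreserving.ae (p := fun x => x ∈ L.X0) L.conull
    rw [eventuallyEq_set]
    filter_upwards [h1, L.scale β, ae_mem_X0 L] with x hx1 hx2 hx3
    obtain ⟨c, hc0, hc1, hc⟩ := hx2
    rw [Set.mem_preimage, hΩeq, hΩeq]
    simp only [hx1, hx3, true_and]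
    exact (eq_hleb_iff (L.norm x hx3) (L.norm _ hx1) (Real.exp_pos _) hc0 hc1 hc).symm
  have hΩ0 : μ Ω ≠ 0 := by
    intro h0
    apply h
    have h1 : ∀ᵐ x ∂μ, x ∉ Ω := measure_eq_zero_iff_ae_notMem.mp h0
    filter_upwards [h1, L.ae_sym hA hij, ae_mem_X0 L] with x hx1 hx2 hx3 σ hσ
    by_contra hne
    exact hx1 ((hΩeq x).mpr ⟨hx3, hx2 σ hne hσ⟩)
  exact (hP Ω hΩ hΩ0 i j hij).2 (L.uinv_restrict hΩm hΩeq)

end Vale.Agent.P007.R
end

section

/-!
Existence of leafwise measures (III.1).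
-/

set_option autoImplicit false

open MeasureTheory Matrix Filter Topology ProbabilityTheory
open scoped ENNReal

namespace Vale.Agent.P007.R

open Vale.Agent.P007 Vale.Agent.P007.Koopman Vale.Agent.P007.Mautner

variable {n : ℕ}

lemma isFlow_ug (i j : Fin n) : Leaf.IsFlow (fun (s : ℝ) (x : X n) => tr (ug i j s) x) where
  meas := (continuous_tr_uncurry.comp
    ((continuous_fst (X := X n) (Y := ℝ)).prodMk
      ((continuous_ug i j).comp continuous_snd))).measurable
  zero x := by rw [ug_zero, tr_one]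
  add s t x := by rw [tr_tr, ← ug_add, add_comm]

/-- Existence of leafwise measures. -/
theorem exists_leafwise (μ : Measure (X n)) [IsProbabilityMeasure μ] (hA : AInv μ) {i j : Fin n}
    (_hij : i ≠ j) : Nonempty (Leafwise μ i j) := by
  have hu := isFlow_ug (n := n) i j
  refine ⟨⟨Leaf.lam hu μ, inferInstance, Leaf.X0 hu μ, Leaf.meas_X0 hu μ, Leaf.X0_ae hu μ,
    fun x _ r => Leaf.lam_lf hu μ x r, fun x _ => Leaf.lam_norm hu μ x,
    fun x _ ε hε => Leaf.lam_supp hu μ x ε hε, fun x hx s hs => Leaf.lam_shift hu μ hx hs,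
    fun β => ?_, fun Φ hΦ => Leaf.transport hu μ hΦ,
    fun K hK ε hε0 hε1 => Leaf.maxi hu μ hK hε0 hε1⟩⟩
  refine Leaf.lam_scale hu μ (T := tr (da β)) (S := tr (da (-β)))
    (continuous_tr _).measurable (continuous_tr _).measurable ?_ (hA β) (Real.exp_pos _) ?_
  · intro x
    rw [tr_tr, ← da_add, add_neg_cancel, da_zero, tr_one]
  · intro s x
    simp only [tr_tr]
    rw [ug_mul_da]

end Vale.Agent.P007.R
end

section

/-!
III.4 (high entropy): if the roots `(i,j)` and `(j,k)` are nontrivial, then `μ` is invariant under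
the root group `u_ik`.
-/

set_option autoImplicit false

open MeasureTheory Matrix Filter Topology ProbabilityTheory
open scoped ENNReal

namespace Vale.Agent.P007.R

open Vale.Agent.P007 Vale.Agent.P007.Koopman Vale.Agent.P007.Mautner

variable {n : ℕ}

theorem ug_comm_high {i j k : Fin n} (hij : i ≠ j) (hjk : j ≠ k) (hik : i ≠ k) (s r : ℝ) :
    ug i j s * ug j k r = ug j k r * ug i j s * ug i k (s * r) := by
  apply Subtype.ext
  rw [ug_of_ne hij, ug_of_ne hjk, ug_of_ne hik]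
  change transvection i j s * transvection j k r =
    transvection j k r * transvection i j s * transvection i k (s * r)
  simp only [transvection, add_mul, mul_add, one_mul, mul_one]
  simp only [single_mul_single_same, single_mul_single_of_ne _ _ _ _ hik.symm,
    single_mul_single_of_ne _ _ _ _ hij.symm, zero_mul, add_zero]
  ext a b
  simp only [Matrix.add_apply, single_apply]
  ring

/-- `u_ij(s)` is contracted by `da β` if `β j < β i` -/
theorem tendsto_conj_ug' (i j : Fin n) (β : Fin n → ℝ) (hβ : β j < β i) (s : ℝ) :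
    Tendsto (fun k : ℕ => ((da β) ^ k)⁻¹ * ug i j s * (da β) ^ k) atTop (𝓝 (1 : G n)) := by
  have h1 : ∀ k : ℕ, ((da β) ^ k)⁻¹ * ug i j s * (da β) ^ k =
      ug i j (Real.exp ((k : ℝ) * (β j - β i)) * s) := by
    intro k
    rw [← da_nsmul, mul_assoc, ug_mul_da, inv_mul_cancel_left]
    congr 3
    simp only [Pi.smul_apply, smul_eq_mul]
    ring
  simp only [h1]
  have h2 : Tendsto (fun k : ℕ => Real.exp ((k : ℝ) * (β j - β i)) * s) atTop (𝓝 (0 * s)) := by
    refine Tendsto.mul_const s (Real.tendsto_exp_atBot.comp ?_)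
    exact tendsto_natCast_atTop_atTop.atTop_mul_const_of_neg (by linarith)
  rw [zero_mul] at h2
  have h3 := ((continuous_ug i j).tendsto 0).comp h2
  rwa [ug_zero] at h3

/-- a conull set contains a measurable conull set -/
theorem exists_measurable_conull {μ : Measure (X n)} {p : X n → Prop} (h : ∀ᵐ x ∂μ, p x) :
    ∃ E : Set (X n), MeasurableSet E ∧ μ Eᶜ = 0 ∧ ∀ x ∈ E, p x := by
  refine ⟨(toMeasurable μ {x | ¬ p x})ᶜ, (measurableSet_toMeasurable _ _).compl, ?_, ?_⟩
  · rw [compl_compl, measure_toMeasurable]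
    exact h
  · intro x hx
    by_contra h1
    exact hx (subset_toMeasurable μ _ h1)

theorem high (μ : Measure (X n)) [IsProbabilityMeasure μ] (hA : AInv μ) (hP : Pure μ)
    {i j k : Fin n} (hij : i ≠ j) (hjk : j ≠ k) (hik : i ≠ k) (h1 : ¬ Triv μ i j)
    (h2 : ¬ Triv μ j k) : UInv μ i k := by
  obtain ⟨L1⟩ := exists_leafwise μ hA hij
  obtain ⟨L2⟩ := exists_leafwise μ hA hjk
  obtain ⟨L3⟩ := exists_leafwise μ hA hik
  -- the four Hopf sets
  obtain ⟨XA, hA0, hAm, hAn, -, hAc⟩ := Leafwise.const hA L3 (Pi.single j (-1 : ℝ))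
    (by simp [hij, hjk.symm])
  obtain ⟨XB, -, hBm, hBn, -, hBc⟩ := Leafwise.const hA L3 (Pi.single j (1 : ℝ))
    (by simp [hij, hjk.symm])
  obtain ⟨XC, hC0, hCm, hCn, -, hCc⟩ := Leafwise.const hA L2 (Pi.single i (1 : ℝ))
    (by simp [hij.symm, hik.symm])
  obtain ⟨XD, hD0, hDm, hDn, -, hDc⟩ := Leafwise.const hA L1 (Pi.single k (-1 : ℝ))
    (by simp [hik, hjk])
  set E0 : Set (X n) := XA ∩ XB ∩ (XC ∩ XD) with hE0
  have hE0m : MeasurableSet E0 := (hAm.inter hBm).inter (hCm.inter hDm)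
  have hE0n : μ E0ᶜ = 0 := by
    rw [hE0, Set.compl_inter, Set.compl_inter, Set.compl_inter, measure_union_null_iff,
      measure_union_null_iff, measure_union_null_iff]
    exact ⟨⟨hAn, hBn⟩, hCn, hDn⟩
  -- typical points
  have step : ∀ E : Set (X n), MeasurableSet E → μ Eᶜ = 0 → ∃ E' : Set (X n), MeasurableSet E' ∧
      μ E'ᶜ = 0 ∧ ∀ x ∈ E', x ∈ E ∧ (∀ᵐ s ∂(L1.lam x), tr (ug i j s) x ∈ E) ∧
        (∀ᵐ s ∂(L2.lam x), tr (ug j k s) x ∈ E) := by
    intro E hE hEn
    refine exists_measurable_conull ?_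
    have h3 : ∀ᵐ x ∂μ, x ∈ E := by rw [ae_iff]; exact hEn
    exact h3.and ((Leafwise.ae_leaf L1 hE hEn).and (Leafwise.ae_leaf L2 hE hEn))
  obtain ⟨E1, hE1m, hE1n, hE1⟩ := step E0 hE0m hE0n
  obtain ⟨E2, hE2m, hE2n, hE2⟩ := step E1 hE1m hE1n
  have hsym : ∀ᵐ x ∂μ, ∃ σ : ℝ, σ ≠ 0 ∧ ∃ c : ℝ≥0∞, c ≠ 0 ∧ c ≠ ∞ ∧
      (L3.lam x).map (fun t => t - σ) = c • L3.lam x := by
    have h3 : ∀ᵐ x ∂μ, x ∈ E2 := by rw [ae_iff]; exact hE2n
    filter_upwards [h3, Leafwise.noAtoms hA hP hij L1 h1,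
      Leafwise.noAtoms hA hP hjk L2 h2] with x hx hna1 hna2
    obtain ⟨hxE1, hs1, hr1⟩ := hE2 x hx
    obtain ⟨hxE0, hs0, hr0⟩ := hE1 x hxE1
    have hsf1 : SFinite (L1.lam x) := by
      have := L1.sfin; infer_instance
    have hsf2 : SFinite (L2.lam x) := by
      have := L2.sfin; infer_instance
    have hc1 : ∀ s : ℝ, Tendsto (fun m : ℕ => ((da (Pi.single j (-1 : ℝ) : Fin n → ℝ)) ^ m)⁻¹ *
        ug i j s * (da (Pi.single j (-1 : ℝ) : Fin n → ℝ)) ^ m) atTop (𝓝 (1 : G n)) :=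
      fun s => tendsto_conj_ug' i j _ (by simp only [Pi.single_eq_same, ne_eq, hij,
                                            not_false_eq_true, Pi.single_eq_of_ne,
                                            Left.neg_neg_iff, zero_lt_one]) s
    have hc2 : ∀ s : ℝ, Tendsto (fun m : ℕ => ((da (Pi.single j (1 : ℝ) : Fin n → ℝ)) ^ m)⁻¹ *
        ug j k s * (da (Pi.single j (1 : ℝ) : Fin n → ℝ)) ^ m) atTop (𝓝 (1 : G n)) :=
      fun s => tendsto_conj_ug' j k _ (by simp [hjk.symm]) s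
    have hc3 : ∀ s : ℝ, Tendsto (fun m : ℕ => ((da (Pi.single i (1 : ℝ) : Fin n → ℝ)) ^ m)⁻¹ *
        ug i j s * (da (Pi.single i (1 : ℝ) : Fin n → ℝ)) ^ m) atTop (𝓝 (1 : G n)) :=
      fun s => tendsto_conj_ug' i j _ (by simp [hij.symm]) s
    have hc4 : ∀ s : ℝ, Tendsto (fun m : ℕ => ((da (Pi.single k (-1 : ℝ) : Fin n → ℝ)) ^ m)⁻¹ *
        ug j k s * (da (Pi.single k (-1 : ℝ) : Fin n → ℝ)) ^ m) atTop (𝓝 (1 : G n)) :=
      fun s => tendsto_conj_ug' j k _ (by simp [hjk]) s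
    -- `x3`
    have h13 : ∀ᵐ s ∂(L1.lam x), ∀ᵐ r ∂(L2.lam x),
        tr (ug j k r) (tr (ug i j s) x) ∈ E0 := by
      filter_upwards [hs1] with s hs
      obtain ⟨hx1, -, hr⟩ := hE1 _ hs
      rwa [← hCc x hxE0.2.1 (ug i j s) hx1.2.1 (hc3 s)] at hr
    have h24 : ∀ᵐ r ∂(L2.lam x), ∀ᵐ s ∂(L1.lam x),
        tr (ug i j s) (tr (ug j k r) x) ∈ E0 := by
      filter_upwards [hr1] with r hr
      obtain ⟨hx2, hs, -⟩ := hE1 _ hr
      rwa [← hDc x hxE0.2.2 (ug j k r) hx2.2.2 (hc4 r)] at hs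
    have hmeas : MeasurableSet {q : ℝ × ℝ | tr (ug i j q.1) (tr (ug j k q.2) x) ∈ E0} := by
      have hcont : Continuous fun q : ℝ × ℝ => tr (ug i j q.1) (tr (ug j k q.2) x) := by
        have h5 : Continuous fun q : ℝ × ℝ => tr (ug j k q.2) x :=
          continuous_tr_uncurry.comp (continuous_const.prodMk ((continuous_ug j k).comp
            continuous_snd))
        exact continuous_tr_uncurry.comp (h5.prodMk ((continuous_ug i j).comp continuous_fst))
      exact hcont.measurable hE0m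
    have h24' : ∀ᵐ s ∂(L1.lam x), ∀ᵐ r ∂(L2.lam x),
        tr (ug i j s) (tr (ug j k r) x) ∈ E0 := by
      rw [Measure.ae_ae_comm hmeas]
      exact h24
    have hne1 : L1.lam x ≠ 0 := by
      intro h0
      have := L1.norm x (hD0 hxE0.2.2)
      rw [h0] at this
      simp only [Measure.coe_zero, Pi.zero_apply, zero_ne_one] at this
    have hne2 : L2.lam x ≠ 0 := by
      intro h0
      have := L2.norm x (hC0 hxE0.2.1)
      rw [h0] at this
      simp only [Measure.coe_zero, Pi.zero_apply, zero_ne_one] at this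
    have hs00 : ∀ᵐ s ∂(L1.lam x), s ≠ 0 := by
      rw [ae_iff]
      simpa only [ne_eq, Decidable.not_not, Set.ofPred_eq_eq_singleton] using hna1 0
    have hr00 : ∀ᵐ r ∂(L2.lam x), r ≠ 0 := by
      rw [ae_iff]
      simpa only [ne_eq, Decidable.not_not, Set.ofPred_eq_eq_singleton] using hna2 0
    have hNB1 : (ae (L1.lam x)).NeBot := ae_neBot.2 hne1
    have hNB2 : (ae (L2.lam x)).NeBot := ae_neBot.2 hne2
    obtain ⟨s, hs3, hs4, hs5, hs6⟩ := (h13.and (h24'.and (hs00.and hs0))).exists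
    obtain ⟨r, hr3, hr4, hr5, hr6⟩ := (hs3.and (hs4.and (hr00.and hr0))).exists
    refine ⟨s * r, mul_ne_zero hs5 hr5, ?_⟩
    set x1 := tr (ug i j s) x with hx1
    set x2 := tr (ug j k r) x with hx2
    set x3 := tr (ug j k r) x1 with hx3
    set x4 := tr (ug i j s) x2 with hx4
    have e1 : L3.lam x = L3.lam x1 := hAc x hxE0.1.1 (ug i j s) hs6.1.1 (hc1 s)
    have e3 : L3.lam x1 = L3.lam x3 := hBc x1 hs6.1.2 (ug j k r) hr3.1.2 (hc2 r)
    have e2 : L3.lam x = L3.lam x2 := hBc x hxE0.1.2 (ug j k r) hr6.1.2 (hc2 r)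
    have e4 : L3.lam x2 = L3.lam x4 := hAc x2 hr6.1.1 (ug i j s) hr4.1.1 (hc1 s)
    have e34 : x3 = tr (ug i k (s * r)) x4 := by
      rw [hx3, hx4, hx1, hx2, tr_tr, tr_tr, tr_tr, ug_comm_high hij hjk hik, mul_assoc]
    obtain ⟨c, hc0, hct, hc⟩ := L3.shift x4 (hA0 hr4.1.1) (s * r) (by
      rw [← e34]; exact hA0 hr3.1.1)
    refine ⟨c, hc0, hct, ?_⟩
    rw [← e34, ← e3, ← e1, ← e4, ← e2] at hc
    exact hc
  refine Leafwise.uinv_of_sym hA hP hik L3 fun hall => ?_
  obtain ⟨x, hx1, σ, hσ, hx2⟩ := (hall.and hsym).exists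
  exact hσ (hx1 σ hx2)

end Vale.Agent.P007.R
end

section

/-!
Low entropy, arithmetic part: near returns of the torus element `b' = da β'`
(`β' = n` on `{i,j}`, `0` elsewhere) are never displaced by an element centralising `u_ij`,
when `n` is odd.
-/

set_option autoImplicit false

open MeasureTheory Matrix Filter Topology ProbabilityTheory
open scoped ENNReal

namespace Vale.Agent.P007.R.LowAux

open Vale.Agent.P007 Vale.Agent.P007.Koopman Vale.Agent.P007.Mautner Vale.Agent.P007.R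

variable {n : ℕ}

/-- the exponent `n` on `{i,j}` and `0` elsewhere -/
noncomputable def bp (i j : Fin n) : Fin n → ℝ := fun k => if k = i ∨ k = j then (n : ℝ) else 0

theorem mean_bp {i j : Fin n} (hij : i ≠ j) : mean (bp i j) = 2 := by
  have hn : 0 < n := i.pos
  have h1 : ∑ k, bp i j k = 2 * n := by
    have h2 : ∀ k, bp i j k = (if k = i then (n : ℝ) else 0) + (if k = j then (n : ℝ) else 0) := by
      intro k
      unfold bp
      by_cases h1 : k = i
      · subst h1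
        simp [hij]
      · by_cases h2 : k = j
        · subst h2
          simp [h1]
        · simp [h1, h2]
    simp only [h2, Finset.sum_add_distrib, Finset.sum_ite_eq', Finset.mem_univ, if_true]
    ring
  rw [mean, h1]
  (clear * - hn; field_simp)

/-- an eigenvalue of a matrix close to `1` has small logarithm -/
theorem log_norm_le {z : ℂ} {δ : ℝ} (h : ‖z - 1‖ ≤ δ) (hδ : δ ≤ 1 / 2) :
    |Real.log ‖z‖| ≤ 2 * δ := by
  have h0 : 0 ≤ δ := (norm_nonneg _).trans h
  have h1 : |‖z‖ - 1| ≤ δ := by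
    have := abs_norm_sub_norm_le z 1
    rw [norm_one] at this
    exact this.trans h
  rw [abs_le] at h1
  have hz : 1 / 2 ≤ ‖z‖ := by linarith only [hδ, h1]
  rw [abs_le]
  constructor
  · have h2 := Real.one_sub_inv_le_log_of_pos (show 0 < ‖z‖ by linarith only [hδ, h1])
    have h3 : ‖z‖⁻¹ ≤ 1 + 2 * δ := by
      rw [inv_le_comm₀ (by linarith only [hδ, h1]) (by linarith only [h0]), ← one_div, div_le_iff₀ (by linarith only [h0])]
      nlinarith only [hδ, h0, h1]
    linarith only [h2, h3]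
  · have h2 := Real.log_le_sub_one_of_pos (show 0 < ‖z‖ by linarith only [hδ, h1])
    linarith only [h0, h1, h2]

/-- eigenvalue estimate for the block -/
theorem eig_block {i j : Fin n} (M : Matrix (Fin n) (Fin n) ℝ) (c ε : ℝ) (lam : ℂ)
    (hc : 0 < c)
    (hi : ∀ k, k ≠ i → M k i = 0) (hii : (M i i : ℂ) = lam)
    (hj : ∀ l, l ≠ j → M j l = 0) (hjj : (M j j : ℂ) = lam)
    (hM : ∀ k l, k ≠ i → k ≠ j → l ≠ i → l ≠ j →
      |c⁻¹ * M k l - (1 : Matrix (Fin n) (Fin n) ℝ) k l| ≤ ε)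
    {z : ℂ} (hz : z ≠ lam) {v : Fin n → ℂ} (hv : v ≠ 0)
    (hev : (M.map (algebraMap ℝ ℂ)) *ᵥ v = z • v) :
    ‖z / c - 1‖ ≤ n * ε := by
  classical
  have hvj : v j = 0 := by
    have h1 := congrFun hev j
    simp only [mulVec, dotProduct, map_apply, Pi.smul_apply, smul_eq_mul] at h1
    rw [Finset.sum_eq_single j] at h1
    · have h2 : (algebraMap ℝ ℂ) (M j j) = lam := hjj
      rw [h2] at h1
      have h3 : (z - lam) * v j = 0 := by rw [sub_mul, ← h1, sub_self]
      rcases mul_eq_zero.mp h3 with h | h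
      · exact absurd (sub_eq_zero.mp h) hz
      · exact h
    · intro l _ hl
      rw [hj l hl]
      simp
    · intro h
      exact absurd (Finset.mem_univ j) h
  -- some other coordinate is nonzero
  have hne : ∃ k, k ≠ i ∧ k ≠ j ∧ v k ≠ 0 := by
    by_contra hcon
    push Not at hcon
    have h0 : ∀ k, k ≠ i → v k = 0 := by
      intro k hk
      by_cases h : k = j
      · rw [h, hvj]
      · exact hcon k hk h
    have hvi : v i ≠ 0 := by
      intro h
      apply hv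
      funext k
      by_cases hk : k = i
      · rw [hk, h]; rfl
      · exact h0 k hk
    have h1 := congrFun hev i
    simp only [mulVec, dotProduct, map_apply, Pi.smul_apply, smul_eq_mul] at h1
    rw [Finset.sum_eq_single i] at h1
    · have h2 : (algebraMap ℝ ℂ) (M i i) = lam := hii
      rw [h2] at h1
      exact hz (mul_right_cancel₀ hvi h1).symm
    · intro l _ hl
      rw [h0 l hl, mul_zero]
    · intro h
      exact absurd (Finset.mem_univ i) h
  -- coordinate with the largest absolute value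
  let S : Finset (Fin n) := Finset.univ.filter fun k => k ≠ i ∧ k ≠ j
  have hS : S.Nonempty := by
    obtain ⟨k, h1, h2, -⟩ := hne
    exact ⟨k, by simp only [ne_eq, Finset.mem_filter, Finset.mem_univ, h1, not_false_eq_true, h2,
                   and_self, S]⟩
  obtain ⟨k, hkS, hk⟩ := S.exists_max_image (fun k => ‖v k‖) hS
  simp only [S, Finset.mem_filter, Finset.mem_univ, true_and] at hkS hk
  have hvk : 0 < ‖v k‖ := by
    obtain ⟨l, h1, h2, h3⟩ := hne
    exact (norm_pos_iff.mpr h3).trans_le (hk l ⟨h1, h2⟩)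
  have h1 := congrFun hev k
  simp only [mulVec, dotProduct, map_apply, Pi.smul_apply, smul_eq_mul] at h1
  have hc' : (c : ℂ) ≠ 0 := by exact_mod_cast hc.ne'
  have h2 : (z / c - 1) * v k = ∑ l ∈ S, ((c⁻¹ * M k l -
      (1 : Matrix (Fin n) (Fin n) ℝ) k l : ℝ) : ℂ) * v l := by
    have h3 : ∑ l ∈ S, ((c⁻¹ * M k l - (1 : Matrix (Fin n) (Fin n) ℝ) k l : ℝ) : ℂ) * v l =
        ∑ l, ((c⁻¹ * M k l - (1 : Matrix (Fin n) (Fin n) ℝ) k l : ℝ) : ℂ) * v l := by
      refine Finset.sum_subset (Finset.subset_univ _) ?_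
      intro l _ hl
      simp only [S, Finset.mem_filter, Finset.mem_univ, true_and, not_and_or, not_not] at hl
      rcases hl with rfl | rfl
      · rw [hi k hkS.1, Matrix.one_apply_ne hkS.1]
        simp
      · rw [hvj, mul_zero]
    rw [h3]
    push_cast
    simp only [sub_mul, Finset.sum_sub_distrib]
    congr 1
    · have h4 : z / c * v k = (c : ℂ)⁻¹ * (z * v k) := by (clear * - hc'; field_simp)
      rw [h4, ← h1, Finset.mul_sum]
      refine Finset.sum_congr rfl fun l _ => ?_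
      rw [mul_assoc]
      rfl
    · rw [Finset.sum_eq_single k]
      · simp
      · intro l _ hl
        rw [Matrix.one_apply_ne hl.symm]
        simp
      · intro h
        exact absurd (Finset.mem_univ k) h
  have h5 : ‖z / c - 1‖ * ‖v k‖ ≤ n * ε * ‖v k‖ := by
    rw [← norm_mul, h2]
    refine (norm_sum_le _ _).trans ?_
    have h6 : ∀ l ∈ S, ‖((c⁻¹ * M k l - (1 : Matrix (Fin n) (Fin n) ℝ) k l : ℝ) : ℂ) * v l‖ ≤
        ε * ‖v k‖ := by
      intro l hl
      rw [norm_mul, Complex.norm_real, Real.norm_eq_abs]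
      simp only [S, Finset.mem_filter, Finset.mem_univ, true_and] at hl
      exact mul_le_mul (hM k l hkS.1 hkS.2 hl.1 hl.2) (hk l hl) (norm_nonneg _)
        ((abs_nonneg _).trans (hM k l hkS.1 hkS.2 hl.1 hl.2))
    refine (Finset.sum_le_sum h6).trans ?_
    rw [Finset.sum_const, nsmul_eq_mul, ← mul_assoc]
    have hε : 0 ≤ ε := (abs_nonneg _).trans (hM k k hkS.1 hkS.2 hkS.1 hkS.2)
    have hcard : (S.card : ℝ) ≤ n := by
      exact_mod_cast (Finset.card_le_univ S).trans (by simp only [Fintype.card_fin, Std.le_refl])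
    (clear * - hvk hε hcard; gcongr)
  exact le_of_mul_le_mul_right h5 hvk

theorem arith_poly (hn : Odd n) (P : Polynomial ℤ) (hP : P.Monic) (hdeg : P.natDegree = n)
    (hP0 : IsUnit (P.coeff 0)) (lam : ℂ)
    (hlam : (P.map (Int.castRingHom ℂ)).IsRoot lam) (m : ℕ) (hm : 1 ≤ m) (η : ℝ) (hη : n * η < 1)
    (h1 : |Real.log ‖lam‖ + m * (n - 2)| ≤ η)
    (h2 : ∀ z : ℂ, z ≠ lam → (P.map (Int.castRingHom ℂ)).IsRoot z →
      |Real.log ‖z‖ - 2 * m| ≤ η) : False := by
  classical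
  have hη0 : 0 ≤ η := (abs_nonneg _).trans h1
  have haev : Polynomial.aeval lam P = 0 := by
    rw [Polynomial.aeval_def, ← Polynomial.eval_map]
    exact hlam
  have hint : IsIntegral ℤ lam := ⟨P, hP, haev⟩
  set q : Polynomial ℤ := minpoly ℤ lam with hq
  have hqm : q.Monic := minpoly.monic hint
  have hqP : q ∣ P := minpoly.isIntegrallyClosed_dvd hint haev
  set qC : Polynomial ℂ := q.map (Int.castRingHom ℂ) with hqC
  have hqCm : qC.Monic := hqm.map _
  have hsplit : qC.Splits := IsAlgClosed.splits qC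
  have hsep : qC.Separable := by
    have h3 : (minpoly ℚ lam).Separable := (minpoly.irreducible (hint.tower_top)).separable
    rw [minpoly.isIntegrallyClosed_eq_field_fractions' ℚ hint] at h3
    have h4 := h3.map (f := algebraMap ℚ ℂ)
    rw [Polynomial.map_map] at h4
    have h5 : (algebraMap ℚ ℂ).comp (algebraMap ℤ ℚ) = Int.castRingHom ℂ := RingHom.ext_int _ _
    rw [h5] at h4
    exact h4
  have hnd : qC.roots.Nodup := Polynomial.nodup_roots hsep
  -- constant coefficient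
  have hq0 : ‖qC.coeff 0‖ = 1 := by
    have h3 : IsUnit (q.coeff 0) := by
      obtain ⟨r, hr⟩ := hqP
      have h4 : P.coeff 0 = q.coeff 0 * r.coeff 0 := by rw [hr, Polynomial.mul_coeff_zero]
      rw [h4] at hP0
      exact isUnit_of_mul_isUnit_left hP0
    rw [hqC, Polynomial.coeff_map]
    rcases Int.isUnit_iff.mp h3 with h | h <;> rw [h] <;> simp only [Int.reduceNeg, eq_intCast,
                                                            Int.cast_neg, Int.cast_one, norm_neg,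
                                                            norm_one]
  have hprod : ‖qC.roots.prod‖ = 1 := by
    rw [hsplit.coeff_zero_eq_prod_roots_of_monic hqCm, norm_mul, norm_pow, norm_neg, norm_one,
      one_pow, one_mul] at hq0
    exact hq0
  set R : Finset ℂ := qC.roots.toFinset with hR
  have hRval : R.val = qC.roots := by rw [hR, Multiset.toFinset_val, hnd.dedup]
  have hprod2 : ∏ z ∈ R, ‖z‖ = 1 := by
    rw [← norm_prod, Finset.prod, Multiset.map_id', hRval]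
    exact hprod
  have hne : ∀ z ∈ R, ‖z‖ ≠ 0 := by
    intro z hz h0
    rw [Finset.prod_eq_zero hz h0] at hprod2
    exact zero_ne_one hprod2
  have hsum : ∑ z ∈ R, Real.log ‖z‖ = 0 := by
    rw [← Real.log_prod hne, hprod2, Real.log_one]
  have hlamR : lam ∈ R := by
    rw [hR, Multiset.mem_toFinset, Polynomial.mem_roots hqCm.ne_zero, Polynomial.IsRoot, hqC,
      Polynomial.eval_map]
    exact minpoly.aeval ℤ lam
  have hroot : ∀ z ∈ R, (P.map (Int.castRingHom ℂ)).IsRoot z := by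
    intro z hz
    rw [hR, Multiset.mem_toFinset, Polynomial.mem_roots hqCm.ne_zero] at hz
    exact hz.dvd (Polynomial.map_dvd _ hqP)
  have hcard : R.card ≤ n := by
    calc R.card ≤ Multiset.card qC.roots := Multiset.toFinset_card_le _
      _ ≤ qC.natDegree := Polynomial.card_roots' _
      _ ≤ q.natDegree := Polynomial.natDegree_map_le
      _ ≤ P.natDegree := Polynomial.natDegree_le_of_dvd hqP hP.ne_zero
      _ = n := hdeg
  have hcard1 : 1 ≤ R.card := Finset.card_pos.mpr ⟨lam, hlamR⟩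
  -- split off `lam`
  rw [← Finset.add_sum_erase _ _ hlamR] at hsum
  have h3 : |∑ z ∈ R.erase lam, Real.log ‖z‖ - (R.card - 1) * (2 * m)| ≤ (R.card - 1) * η := by
    have h4 : ∑ z ∈ R.erase lam, Real.log ‖z‖ - (R.card - 1) * (2 * m) =
        ∑ z ∈ R.erase lam, (Real.log ‖z‖ - 2 * m) := by
      rw [Finset.sum_sub_distrib, Finset.sum_const, Finset.card_erase_of_mem hlamR, nsmul_eq_mul,
        Nat.cast_sub hcard1, Nat.cast_one]
    rw [h4]
    refine (Finset.abs_sum_le_sum_abs _ _).trans ?_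
    have h5 : ∀ z ∈ R.erase lam, |Real.log ‖z‖ - 2 * m| ≤ η := by
      intro z hz
      rw [Finset.mem_erase] at hz
      exact h2 z hz.1 (hroot z hz.2)
    refine (Finset.sum_le_sum h5).trans ?_
    rw [Finset.sum_const, Finset.card_erase_of_mem hlamR, nsmul_eq_mul, Nat.cast_sub hcard1,
      Nat.cast_one]
  -- contradiction
  have h4 : |(m : ℝ) * (n - 2 * R.card)| < 1 := by
    have h5 : (m : ℝ) * (n - 2 * R.card) = (Real.log ‖lam‖ + m * (n - 2)) +
        (∑ z ∈ R.erase lam, Real.log ‖z‖ - (R.card - 1) * (2 * m)) := by linarith only [hsum]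
    rw [h5]
    refine (abs_add_le _ _).trans_lt ?_
    have h6 : (R.card : ℝ) * η ≤ n * η := by
      have : (R.card : ℝ) ≤ n := by exact_mod_cast hcard
      (clear * - hη0 this; gcongr)
    linarith only [hη, h1, h3, h6]
  have h5 : (m : ℝ) * (n - 2 * R.card) = (((m : ℤ) * ((n : ℤ) - 2 * (R.card : ℤ)) : ℤ) : ℝ) := by
    push_cast
    ring
  rw [h5, ← Int.cast_abs] at h4
  have h6 : |(m : ℤ) * ((n : ℤ) - 2 * (R.card : ℤ))| < 1 := by exact_mod_cast h4
  rw [Int.abs_lt_one_iff, mul_eq_zero] at h6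
  obtain ⟨k, hk⟩ := hn
  rcases h6 with h | h
  · omega
  · omega

theorem ent_mul_da_inv_pow (h : G n) (i j : Fin n) (hij : i ≠ j) (m : ℕ) (k l : Fin n) :
    ((h * (da (bp i j) ^ m)⁻¹ : G n) : Matrix (Fin n) (Fin n) ℝ) k l =
      h.1 k l * Real.exp (-(m * (bp i j l - 2))) := by
  rw [← da_nsmul, ← da_neg, coe_mul_G, coe_da, mul_diagonal]
  congr 2
  rw [mean_neg, mean_smul, mean_bp hij]
  simp only [Pi.neg_apply, Pi.smul_apply, smul_eq_mul]
  ring

/-- membership in the centraliser of the root group `u_ij` -/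
def Cent (i j : Fin n) (h : G n) : Prop :=
  h.1 i i = h.1 j j ∧ (∀ k, k ≠ i → h.1 k i = 0) ∧ ∀ l, l ≠ j → h.1 j l = 0

theorem arith (hn : Odd n) {i j : Fin n} (hij : i ≠ j) :
    ∃ δ > 0, ∀ h : G n, (∀ k l, |h.1 k l - (1 : Matrix (Fin n) (Fin n) ℝ) k l| ≤ δ) →
      ∀ m : ℕ, 1 ≤ m → ∀ x : X n, tr (da (bp i j) ^ m) x = tr h x → ¬ Cent i j h := by
  have hn0 : 0 < n := i.pos
  have hn0' : (1 : ℝ) ≤ n := by exact_mod_cast hn0
  refine ⟨1 / (4 * n ^ 2), by positivity, fun h hh m hm x hx hC => ?_⟩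
  obtain ⟨hC1, hC2, hC3⟩ := hC
  obtain ⟨g, rfl⟩ := pt_surjective x
  rw [tr_pt, tr_pt, pt_eq_pt] at hx
  obtain ⟨γ, hγ⟩ := hx
  set M : G n := h * (da (bp i j) ^ m)⁻¹ with hM
  have hconj : g * M * g⁻¹ = Matrix.SpecialLinearGroup.map (Int.castRingHom ℝ) γ := by
    rw [hγ, hM]
    group
  -- characteristic polynomials
  have hchar : (M : Matrix (Fin n) (Fin n) ℝ).charpoly =
      (γ : Matrix (Fin n) (Fin n) ℤ).charpoly.map (Int.castRingHom ℝ) := by
    rw [← Matrix.charpoly_map]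
    have h3 : ((γ : Matrix (Fin n) (Fin n) ℤ).map (Int.castRingHom ℝ)) =
        (g : Matrix (Fin n) (Fin n) ℝ) * (M : Matrix (Fin n) (Fin n) ℝ) * (g⁻¹ : G n) := by
      rw [← coe_mul_G, ← coe_mul_G, hconj]
      rfl
    rw [h3, Matrix.charpoly_mul_comm, ← mul_assoc, ← coe_mul_G, inv_mul_cancel]
    simp only [Matrix.SpecialLinearGroup.coe_one, one_mul]
  set P : Polynomial ℤ := (γ : Matrix (Fin n) (Fin n) ℤ).charpoly with hP
  have hcharC : ((M : Matrix (Fin n) (Fin n) ℝ).map (algebraMap ℝ ℂ)).charpoly =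
      P.map (Int.castRingHom ℂ) := by
    rw [Matrix.charpoly_map, hchar, Polynomial.map_map]
    congr 1
  have hroot : ∀ z : ℂ, (P.map (Int.castRingHom ℂ)).IsRoot z → ∃ v : Fin n → ℂ, v ≠ 0 ∧
      ((M : Matrix (Fin n) (Fin n) ℝ).map (algebraMap ℝ ℂ)) *ᵥ v = z • v := by
    intro z hz
    rw [← hcharC, Polynomial.IsRoot, Matrix.eval_charpoly, ← Matrix.exists_mulVec_eq_zero_iff] at hz
    obtain ⟨v, hv, hv2⟩ := hz
    refine ⟨v, hv, ?_⟩
    rw [Matrix.sub_mulVec, sub_eq_zero] at hv2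
    rw [← hv2]
    ext k
    simp [Matrix.scalar_apply, Matrix.mulVec_diagonal]
  have hM' : ∀ k l, (M : Matrix (Fin n) (Fin n) ℝ) k l =
      h.1 k l * Real.exp (-(m * (bp i j l - 2))) := ent_mul_da_inv_pow h i j hij m
  set lam : ℝ := h.1 i i * Real.exp (-(m * (n - 2))) with hlam
  have hbi : bp i j i = n := by simp [bp]
  have hbj : bp i j j = n := by simp [bp]
  have hbl : ∀ l, l ≠ i → l ≠ j → bp i j l = 0 := by
    intro l h1 h2
    simp [bp, h1, h2]
  have hε : ∀ k l, |h.1 k l - (1 : Matrix (Fin n) (Fin n) ℝ) k l| ≤ 1 / (4 * n ^ 2) := hh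
  have hMi : ∀ k, k ≠ i → (M : Matrix (Fin n) (Fin n) ℝ) k i = 0 := by
    intro k hk
    rw [hM', hC2 k hk, zero_mul]
  have hMj : ∀ l, l ≠ j → (M : Matrix (Fin n) (Fin n) ℝ) j l = 0 := by
    intro l hl
    rw [hM', hC3 l hl, zero_mul]
  have hMii : (M : Matrix (Fin n) (Fin n) ℝ) i i = lam := by rw [hM', hbi]
  have hMjj : (M : Matrix (Fin n) (Fin n) ℝ) j j = lam := by rw [hM', hbj, ← hC1]
  -- `lam` is a root
  have hlamroot : (P.map (Int.castRingHom ℂ)).IsRoot (lam : ℂ) := by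
    rw [← hcharC, Polynomial.IsRoot, Matrix.eval_charpoly, ← Matrix.exists_mulVec_eq_zero_iff]
    refine ⟨Pi.single i 1, ?_, ?_⟩
    · intro h0
      have := congrFun h0 i
      simp at this
    · rw [Matrix.sub_mulVec, sub_eq_zero]
      ext k
      rw [Matrix.mulVec_single_one, Matrix.mulVec_single_one]
      by_cases hk : k = i
      · subst hk
        simp [hMii]
      · simp [hMi k hk, hk]
  have hsmall : ∀ w : ℂ, ‖w - 1‖ ≤ 1 / (4 * n) → |Real.log ‖w‖| ≤ 1 / (2 * n) := by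
    intro w hw
    have h3 := log_norm_le hw (by
      rw [div_le_div_iff₀ (by positivity) (by positivity)]
      linarith only [hn0'])
    refine h3.trans (le_of_eq ?_)
    field_simp
    norm_num
  refine arith_poly hn P (Matrix.charpoly_monic _) ?_ ?_ lam hlamroot m hm (1 / (2 * n)) ?_ ?_ ?_
  · rw [hP, Matrix.charpoly_natDegree_eq_dim, Fintype.card_fin]
  · have h3 := Matrix.det_eq_sign_charpoly_coeff (γ : Matrix (Fin n) (Fin n) ℤ)
    rw [γ.2, ← hP] at h3
    exact IsUnit.of_mul_eq_one _ (by rw [mul_comm]; exact h3.symm)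
  · field_simp
    norm_num
  · -- log of `lam`
    have h3 : 1 / 2 ≤ h.1 i i := by
      have h4 := hε i i
      rw [Matrix.one_apply_eq, abs_le] at h4
      have h5 : (1 : ℝ) / (4 * n ^ 2) ≤ 1 / 4 := by
        rw [div_le_div_iff₀ (by positivity) (by positivity)]
        nlinarith only [hn0']
      linarith only [h4, h5]
    have h4 : Real.log ‖(lam : ℂ)‖ + m * (n - 2) = Real.log ‖((h.1 i i : ℝ) : ℂ)‖ := by
      rw [Complex.norm_real, Complex.norm_real, Real.norm_eq_abs, Real.norm_eq_abs, hlam,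
        abs_mul, Real.log_mul (by positivity) (by positivity), Real.abs_exp, Real.log_exp]
      ring
    rw [h4]
    apply hsmall
    have h5 : ((h.1 i i : ℝ) : ℂ) - 1 = ((h.1 i i - 1 : ℝ) : ℂ) := by push_cast; rfl
    rw [h5, Complex.norm_real, Real.norm_eq_abs]
    have h6 := hε i i
    rw [Matrix.one_apply_eq] at h6
    refine h6.trans ?_
    rw [div_le_div_iff₀ (by positivity) (by positivity)]
    nlinarith only [hn0']
  · intro z hz hzr
    obtain ⟨v, hv, hev⟩ := hroot z hzr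
    have h3 := eig_block (M : Matrix (Fin n) (Fin n) ℝ) (Real.exp (2 * m)) (1 / (4 * n ^ 2)) lam
      (Real.exp_pos _) hMi (by rw [hMii]) hMj (by rw [hMjj]) (by
        intro k l _ _ hl1 hl2
        rw [hM', hbl l hl1 hl2]
        have h4 : (Real.exp (2 * m))⁻¹ * (h.1 k l * Real.exp (-(m * (0 - 2)))) = h.1 k l := by
          rw [mul_comm, mul_assoc, ← Real.exp_neg, ← Real.exp_add]
          have : -(m * (0 - 2) : ℝ) + -(2 * m) = 0 := by ring
          rw [this, Real.exp_zero, mul_one]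
        rw [h4]
        exact hε k l) hz hv hev
    have h4 : (n : ℝ) * (1 / (4 * n ^ 2)) = 1 / (4 * n) := by
      field_simp
    rw [h4] at h3
    have h5 := hsmall _ h3
    have h6 : Real.log ‖z / (Real.exp (2 * m) : ℝ)‖ = Real.log ‖z‖ - 2 * m := by
      have hz0 : z ≠ 0 := by
        intro h0
        rw [h0] at h3
        simp only [zero_div, zero_sub, norm_neg, norm_one] at h3
        have : (1 : ℝ) / (4 * n) ≤ 1 / 4 := by
          rw [div_le_div_iff₀ (by positivity) (by positivity)]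
          linarith only [hn0']
        linarith only [h3, this]
      rw [norm_div, Real.log_div (by simpa using hz0) (by simp), Complex.norm_real,
        Real.norm_eq_abs, Real.abs_exp, Real.log_exp]
    rw [h6] at h5
    exact h5

end Vale.Agent.P007.R.LowAux
end

section

/-!
Low entropy: measures without atoms do not charge small value sets of quadratic polynomials.
-/

set_option autoImplicit false

open MeasureTheory Matrix Filter Topology ProbabilityTheory
open scoped ENNReal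

namespace Vale.Agent.P007.R.LowAux

theorem quad_three {δ : ℝ} (h0 : 0 < δ) (h1 : δ ≤ 1) {a b c s t r : ℝ}
    (habc : 1 ≤ |a| ∨ 1 ≤ |b| ∨ 1 ≤ |c|) (hs : |s| ≤ 1) (ht : |t| ≤ 1)
    (hfs : |a + b * s + c * s ^ 2| < δ ^ 2 / 20) (hft : |a + b * t + c * t ^ 2| < δ ^ 2 / 20)
    (hfr : |a + b * r + c * r ^ 2| < δ ^ 2 / 20) (hst : δ ≤ |s - t|) (hsr : δ ≤ |s - r|)
    (htr : δ ≤ |t - r|) : False := by
  have k1 : |b + c * (s + t)| ≤ δ / 10 := by
    have e : (s - t) * (b + c * (s + t)) =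
        (a + b * s + c * s ^ 2) - (a + b * t + c * t ^ 2) := by ring
    have e2 := congrArg abs e
    rw [abs_mul] at e2
    have e3 := abs_sub (a + b * s + c * s ^ 2) (a + b * t + c * t ^ 2)
    have e4 : δ * |b + c * (s + t)| ≤ δ * (δ / 10) := by
      calc δ * |b + c * (s + t)| ≤ |s - t| * |b + c * (s + t)| :=
            mul_le_mul_of_nonneg_right hst (abs_nonneg _)
        _ ≤ δ * (δ / 10) := by rw [e2]; nlinarith only [hfs, hft, e3]
    exact le_of_mul_le_mul_left e4 h0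
  have k2 : |b + c * (s + r)| ≤ δ / 10 := by
    have e : (s - r) * (b + c * (s + r)) =
        (a + b * s + c * s ^ 2) - (a + b * r + c * r ^ 2) := by ring
    have e2 := congrArg abs e
    rw [abs_mul] at e2
    have e3 := abs_sub (a + b * s + c * s ^ 2) (a + b * r + c * r ^ 2)
    have e4 : δ * |b + c * (s + r)| ≤ δ * (δ / 10) := by
      calc δ * |b + c * (s + r)| ≤ |s - r| * |b + c * (s + r)| :=
            mul_le_mul_of_nonneg_right hsr (abs_nonneg _)
        _ ≤ δ * (δ / 10) := by rw [e2]; nlinarith only [hfs, hfr, e3]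
    exact le_of_mul_le_mul_left e4 h0
  have k3 : |c| ≤ 1 / 5 := by
    have e : (t - r) * c = (b + c * (s + t)) - (b + c * (s + r)) := by ring
    have e2 := congrArg abs e
    rw [abs_mul] at e2
    have e3 := abs_sub (b + c * (s + t)) (b + c * (s + r))
    have e4 : δ * |c| ≤ δ * (1 / 5) := by
      calc δ * |c| ≤ |t - r| * |c| := mul_le_mul_of_nonneg_right htr (abs_nonneg _)
        _ ≤ δ * (1 / 5) := by rw [e2]; linarith only [k1, k2, e3]
    exact le_of_mul_le_mul_left e4 h0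
  have k4 : |b| ≤ 1 / 2 := by
    have e3 := abs_sub (b + c * (s + t)) (c * (s + t))
    rw [add_sub_cancel_right, abs_mul] at e3
    have e4 : |s + t| ≤ 2 := (abs_add_le s t).trans (by linarith only [hs, ht])
    have e5 : |c| * |s + t| ≤ 1 / 5 * 2 := mul_le_mul k3 e4 (abs_nonneg _) (by norm_num)
    linarith only [h1, k1, e3, e5]
  have k5 : |a| < 1 := by
    have e3 := abs_sub (a + b * s + c * s ^ 2) (b * s + c * s ^ 2)
    have e : a + b * s + c * s ^ 2 - (b * s + c * s ^ 2) = a := by ring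
    rw [e] at e3
    have e6 := abs_add_le (b * s) (c * s ^ 2)
    have e7 : |b * s| ≤ 1 / 2 := by
      rw [abs_mul]
      calc |b| * |s| ≤ 1 / 2 * 1 := mul_le_mul k4 hs (abs_nonneg _) (by norm_num)
        _ = 1 / 2 := by norm_num
    have e8 : |c * s ^ 2| ≤ 1 / 5 := by
      rw [abs_mul, abs_pow]
      calc |c| * |s| ^ 2 ≤ 1 / 5 * 1 :=
            mul_le_mul k3 (pow_le_one₀ (abs_nonneg _) hs) (by positivity) (by norm_num)
        _ = 1 / 5 := by norm_num
    have e9 : δ ^ 2 / 20 ≤ 1 / 20 := by nlinarith only [h0, h1]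
    linarith only [hfs, e3, e6, e7, e8, e9]
  rcases habc with h | h | h
  · linarith only [k5, h]
  · linarith only [k4, h]
  · linarith only [k3, h]

theorem quad_cover {δ : ℝ} (h0 : 0 < δ) (h1 : δ ≤ 1) {a b c : ℝ}
    (habc : 1 ≤ |a| ∨ 1 ≤ |b| ∨ 1 ≤ |c|) :
    ∃ t₁ t₂ : ℝ, {s : ℝ | s ∈ Set.Icc (-1 : ℝ) 1 ∧ |a + b * s + c * s ^ 2| < δ ^ 2 / 20} ⊆
      Set.Icc (t₁ - δ) (t₁ + δ) ∪ Set.Icc (t₂ - δ) (t₂ + δ) := by
  set S := {s : ℝ | s ∈ Set.Icc (-1 : ℝ) 1 ∧ |a + b * s + c * s ^ 2| < δ ^ 2 / 20} with hS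
  rcases S.eq_empty_or_nonempty with hE | ⟨s, hs⟩
  · exact ⟨0, 0, by rw [hE]; exact Set.empty_subset _⟩
  by_cases h : ∃ t ∈ S, δ ≤ |s - t|
  · obtain ⟨t, ht, hst⟩ := h
    refine ⟨s, t, fun r hr => ?_⟩
    by_contra hcon
    rw [Set.mem_union, not_or] at hcon
    have e1 : δ ≤ |s - r| := by
      by_contra h2
      rw [not_le, abs_lt] at h2
      exact hcon.1 ⟨by linarith, by linarith⟩
    have e2 : δ ≤ |t - r| := by
      by_contra h2
      rw [not_le, abs_lt] at h2
      exact hcon.2 ⟨by linarith, by linarith⟩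
    exact quad_three h0 h1 habc (abs_le.mpr hs.1) (abs_le.mpr ht.1) hs.2 ht.2 hr.2 hst e1 e2
  · push Not at h
    refine ⟨s, s, fun t ht => ?_⟩
    have h2 := h t ht
    rw [abs_lt] at h2
    exact Or.inl ⟨by linarith, by linarith⟩

theorem nonconc (ν : Measure ℝ) (hfin : ν (Set.Icc (-1) 1) ≠ ∞) (hna : ∀ s, ν {s} = 0)
    {η : ℝ≥0∞} (hη : η ≠ 0) :
    ∃ δ > 0, ∀ q : ℝ, ν (Set.Icc (q - δ) (q + δ) ∩ Set.Icc (-1) 1) ≤ η := by
  set ρ := ν.restrict (Set.Icc (-1) 1) with hρ
  have : IsFiniteMeasure ρ := ⟨by rw [hρ, Measure.restrict_apply_univ]; exact hfin.lt_top⟩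
  have h0 : ∀ t : ℝ, ρ {t} = 0 := fun t =>
    le_antisymm ((Measure.restrict_apply_le _ _).trans (hna t).le) bot_le
  have h1 : ∀ t : ℝ, ∃ ε > 0, ρ (Metric.closedBall t ε) < η := by
    intro t
    have h2 : Tendsto (fun r => ρ (Metric.cthickening r {t})) (𝓝 0) (𝓝 (ρ {t})) :=
      tendsto_measure_cthickening_of_isClosed ⟨1, one_pos, measure_ne_top _ _⟩ isClosed_singleton
    rw [h0 t] at h2
    have h3 : ∀ᶠ r in 𝓝[>] (0 : ℝ), ρ (Metric.cthickening r {t}) < η :=
      (h2.mono_left nhdsWithin_le_nhds).eventually_lt_const (pos_iff_ne_zero.mpr hη)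
    obtain ⟨r, hr, hr0⟩ := (h3.and self_mem_nhdsWithin).exists
    refine ⟨r, hr0, ?_⟩
    rwa [Metric.cthickening_singleton t (le_of_lt hr0)] at hr
  choose ε hε hε2 using h1
  obtain ⟨δ, hδ, hδ2⟩ := lebesgue_number_lemma_of_metric (s := Set.Icc (-3 : ℝ) 3)
    (c := fun t : ℝ => Metric.ball t (ε t)) isCompact_Icc (fun t => Metric.isOpen_ball)
    (fun t _ => Set.mem_iUnion.mpr ⟨t, Metric.mem_ball_self (hε t)⟩)
  refine ⟨min (δ / 2) 1, by positivity, fun q => ?_⟩
  by_cases hq : q ∈ Set.Icc (-3 : ℝ) 3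
  · obtain ⟨t, ht⟩ := hδ2 q hq
    have h2 : Set.Icc (q - min (δ / 2) 1) (q + min (δ / 2) 1) ⊆ Metric.closedBall t (ε t) := by
      refine Set.Subset.trans ?_ (ht.trans Metric.ball_subset_closedBall)
      intro s hs
      rw [Metric.mem_ball, Real.dist_eq, abs_lt]
      have h3 := min_le_left (δ / 2) 1
      constructor <;> linarith only [hs.1, hs.2, hδ, hs, h3]
    calc ν (Set.Icc (q - min (δ / 2) 1) (q + min (δ / 2) 1) ∩ Set.Icc (-1) 1)
        = ρ (Set.Icc (q - min (δ / 2) 1) (q + min (δ / 2) 1)) := by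
          rw [hρ, Measure.restrict_apply measurableSet_Icc]
      _ ≤ ρ (Metric.closedBall t (ε t)) := measure_mono h2
      _ ≤ η := (hε2 t).le
  · have h2 : Set.Icc (q - min (δ / 2) 1) (q + min (δ / 2) 1) ∩ Set.Icc (-1 : ℝ) 1 = ∅ := by
      rw [Set.eq_empty_iff_forall_notMem]
      rintro s ⟨hs1, hs2⟩
      have h3 := min_le_right (δ / 2) 1
      apply hq
      constructor <;> linarith only [hs1.1, hs1.2, hs2.1, hs2.2, hs1, hs2, h3]
    rw [h2, measure_empty]
    exact bot_le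

end Vale.Agent.P007.R.LowAux
end

section

/-!
Low entropy: the window lemma (choice of the times `T`, `v`) and the displacement estimates.
-/

set_option autoImplicit false

open MeasureTheory Matrix Filter Topology ProbabilityTheory
open scoped ENNReal

namespace Vale.Agent.P007.R.LowAux

open Vale.Agent.P007 Vale.Agent.P007.Koopman Vale.Agent.P007.Mautner Vale.Agent.P007.R

variable {n : ℕ}

/-- the growth function of the window -/
noncomputable def gr (A₁ A₂ : ℝ) (T : ℕ) : ℝ := Real.exp T * A₁ + Real.exp (2 * T) * A₂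

theorem gr_pos {A₁ A₂ : ℝ} (h1 : 0 ≤ A₁) (h2 : 0 ≤ A₂) (h : 0 < A₁ ∨ 0 < A₂) (T : ℕ) :
    0 < gr A₁ A₂ T := by
  unfold gr
  have e1 := Real.exp_pos (T : ℝ)
  have e2 := Real.exp_pos (2 * T : ℝ)
  rcases h with h | h
  · have := mul_pos e1 h
    have := mul_nonneg e2.le h2
    linarith
  · have := mul_pos e2 h
    have := mul_nonneg e1.le h1
    linarith

theorem gr_succ_ge {A₁ A₂ : ℝ} (h2 : 0 ≤ A₂) (T : ℕ) :
    Real.exp 1 * gr A₁ A₂ T ≤ gr A₁ A₂ (T + 1) := by
  unfold gr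
  push_cast
  have e1 : Real.exp ((T : ℝ) + 1) = Real.exp 1 * Real.exp T := by
    rw [← Real.exp_add, add_comm]
  have e2 : Real.exp (2 * ((T : ℝ) + 1)) = Real.exp 2 * Real.exp (2 * T) := by
    rw [← Real.exp_add]
    congr 1
    ring
  rw [e1, e2]
  have e3 : Real.exp 1 ≤ Real.exp 2 := Real.exp_le_exp.mpr (by norm_num)
  have e4 : 0 ≤ Real.exp (2 * (T : ℝ)) * A₂ := mul_nonneg (Real.exp_pos _).le h2
  nlinarith only [e3, e4]

theorem gr_succ_le {A₁ A₂ : ℝ} (h1 : 0 ≤ A₁) (T : ℕ) :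
    gr A₁ A₂ (T + 1) ≤ Real.exp 2 * gr A₁ A₂ T := by
  unfold gr
  push_cast
  have e1 : Real.exp ((T : ℝ) + 1) = Real.exp 1 * Real.exp T := by
    rw [← Real.exp_add, add_comm]
  have e2 : Real.exp (2 * ((T : ℝ) + 1)) = Real.exp 2 * Real.exp (2 * T) := by
    rw [← Real.exp_add]
    congr 1
    ring
  rw [e1, e2]
  have e3 : Real.exp 1 ≤ Real.exp 2 := Real.exp_le_exp.mpr (by norm_num)
  have e4 : 0 ≤ Real.exp (T : ℝ) * A₁ := mul_nonneg (Real.exp_pos _).le h1
  nlinarith only [e3, e4]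

theorem log_gr_ge {A₁ A₂ : ℝ} (h1 : 0 ≤ A₁) (h2 : 0 ≤ A₂) (h : 0 < A₁ ∨ 0 < A₂) (T t : ℕ) :
    Real.log (gr A₁ A₂ T) + t ≤ Real.log (gr A₁ A₂ (T + t)) := by
  induction t with
  | zero => simp
  | succ t ih =>
    have e1 := gr_succ_ge (A₁ := A₁) h2 (T + t)
    have e2 := Real.log_le_log (mul_pos (Real.exp_pos 1) (gr_pos h1 h2 h _)) e1
    rw [Real.log_mul (Real.exp_pos 1).ne' (gr_pos h1 h2 h _).ne', Real.log_exp] at e2
    rw [← add_assoc]
    push_cast
    linarith

theorem log_gr_le {A₁ A₂ : ℝ} (h1 : 0 ≤ A₁) (h2 : 0 ≤ A₂) (h : 0 < A₁ ∨ 0 < A₂) (T t : ℕ) :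
    Real.log (gr A₁ A₂ (T + t)) ≤ Real.log (gr A₁ A₂ T) + 2 * t := by
  induction t with
  | zero => simp
  | succ t ih =>
    have e1 := gr_succ_le (A₂ := A₂) h1 (T + t)
    have e2 := Real.log_le_log (gr_pos h1 h2 h _) e1
    rw [Real.log_mul (Real.exp_pos 2).ne' (gr_pos h1 h2 h _).ne', Real.log_exp] at e2
    rw [← add_assoc]
    push_cast
    linarith

open Classical in
/-- The window lemma. -/
theorem window (ρ : ℝ) : ∃ d > 0, ∀ A₀ A₁ A₂ : ℝ, 0 ≤ A₁ → 0 ≤ A₂ → A₀ ≤ d → A₁ ≤ d →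
    A₂ ≤ d → (0 < A₁ ∨ 0 < A₂) → ∀ B B' : Set ℤ,
    (∀ N : ℕ, 0 < N → (((Finset.Ioo (-N : ℤ) N).filter (· ∈ B)).card : ℝ) ≤ N / 24) →
    (∀ N : ℕ, 0 < N → (((Finset.Ioo (-N : ℤ) N).filter (· ∈ B')).card : ℝ) ≤ N / 24) →
    ∃ T : ℕ, ∃ v : ℤ, (T : ℤ) ∉ B ∧ v ∉ B ∧ v ∉ B' ∧ ρ ≤ T - v ∧
      A₀ ≤ Real.exp (v + 1) ∧ Real.exp v ≤ gr A₁ A₂ T ∧ gr A₁ A₂ T ≤ Real.exp (v + 1) := by
  refine ⟨Real.exp (-(2 * |ρ| + 10)), Real.exp_pos _, ?_⟩
  intro A₀ A₁ A₂ h1 h2 hA0 hA1 hA2 h B B' hB hB'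
  have hpos := gr_pos h1 h2 h
  have hex : ∃ T : ℕ, A₀ ≤ gr A₁ A₂ T := by
    obtain ⟨t, ht⟩ := exists_nat_ge (Real.log (max A₀ 1) - Real.log (gr A₁ A₂ 0))
    refine ⟨0 + t, ?_⟩
    have e1 := log_gr_ge h1 h2 h 0 t
    have e2 : Real.log (max A₀ 1) ≤ Real.log (gr A₁ A₂ (0 + t)) := by linarith only [ht, e1]
    rw [Real.log_le_log_iff (by positivity) (hpos _)] at e2
    exact (le_max_left _ _).trans e2
  set T₀ := Nat.find hex with hT₀
  have hT0 : A₀ ≤ gr A₁ A₂ T₀ := Nat.find_spec hex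
  have hsm : gr A₁ A₂ T₀ ≤ Real.exp (-(2 * |ρ| + 8)) := by
    have e8 : Real.exp (-(2 * |ρ| + 8)) = Real.exp 2 * Real.exp (-(2 * |ρ| + 10)) := by
      rw [← Real.exp_add]
      congr 1
      ring
    rw [e8]
    rcases Nat.eq_zero_or_pos T₀ with h0 | h0
    · rw [h0]
      have e3 : (2 : ℝ) ≤ Real.exp 2 := by
        have := Real.add_one_le_exp (2 : ℝ)
        linarith only [this]
      have e4 : gr A₁ A₂ 0 = A₁ + A₂ := by simp [gr]
      rw [e4]
      have e5 := Real.exp_pos (-(2 * |ρ| + 10))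
      nlinarith only [h1, hA1, hA2, e3]
    · obtain ⟨S, hS⟩ := Nat.exists_eq_succ_of_ne_zero h0.ne'
      have e1 : ¬ A₀ ≤ gr A₁ A₂ S := Nat.find_min hex (by omega)
      rw [not_le] at e1
      have e2 := gr_succ_le (A₂ := A₂) h1 S
      rw [hS]
      refine e2.trans ?_
      have e5 := Real.exp_pos 2
      nlinarith only [hA0, e1, e5]
  set g : ℝ := -Real.log (gr A₁ A₂ T₀) with hg
  have hg8 : 2 * |ρ| + 8 ≤ g := by
    have e1 := Real.log_le_log (hpos T₀) hsm
    rw [Real.log_exp] at e1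
    linarith
  set R : ℝ := max T₀ g with hR
  have hRg : g ≤ R := le_max_right _ _
  have hRT : (T₀ : ℝ) ≤ R := le_max_left _ _
  have hR8 : 2 * |ρ| + 8 ≤ R := hg8.trans hRg
  have hρ0 := abs_nonneg ρ
  have hR0 : 0 ≤ R := by linarith only [hg8, hRg, hρ0]
  set M : ℕ := ⌊R / 2⌋₊ with hM
  have hM1 : (M : ℝ) ≤ R / 2 := Nat.floor_le (by (clear * -; positivity))
  have hM2 : R / 2 < M + 1 := Nat.lt_floor_add_one _
  set N : ℕ := ⌊3 * R / 2⌋₊ + 2 with hN
  have hN1 : (N : ℝ) ≤ 3 * R / 2 + 2 := by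
    rw [hN]
    push_cast
    linarith only [Nat.floor_le (show (0 : ℝ) ≤ 3 * R / 2 by positivity)]
  have hN2 : 3 * R / 2 + 1 < N := by
    rw [hN]
    push_cast
    linarith only [Nat.lt_floor_add_one (3 * R / 2)]
  have hN0 : 0 < N := by omega
  have hsum : R ≤ T₀ + g := by
    rw [hR]
    refine max_le ?_ ?_
    · linarith only [hg8, hρ0]
    · have : (0 : ℝ) ≤ T₀ := Nat.cast_nonneg _
      linarith only []
  let v : ℕ → ℤ := fun T => ⌊Real.log (gr A₁ A₂ T)⌋
  have hv1 : ∀ T, (v T : ℝ) ≤ Real.log (gr A₁ A₂ T) := fun T => Int.floor_le _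
  have hv2 : ∀ T, Real.log (gr A₁ A₂ T) < v T + 1 := fun T => Int.lt_floor_add_one _
  have hvmono : StrictMono v := by
    refine strictMono_nat_of_lt_succ fun T => ?_
    have e1 := log_gr_ge h1 h2 h T 1
    have e2 : (v T : ℝ) < v (T + 1) := by
      have e3 : ((v T + 1 : ℤ) : ℝ) ≤ Real.log (gr A₁ A₂ (T + 1)) := by
        push_cast
        have := hv1 T
        push_cast at e1
        linarith only [this, e1]
      have e4 : v T + 1 ≤ v (T + 1) := Int.le_floor.mpr e3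
      exact_mod_cast (by omega : v T < v (T + 1))
    exact_mod_cast e2
  -- find a good `t`
  have hgood : ∃ t ∈ Finset.range (M + 1), ((T₀ + t : ℕ) : ℤ) ∉ B ∧ v (T₀ + t) ∉ B ∧
      v (T₀ + t) ∉ B' := by
    by_contra hcon
    push Not at hcon
    have hsub : Finset.range (M + 1) ⊆
        ((Finset.range (M + 1)).filter fun t => ((T₀ + t : ℕ) : ℤ) ∈ B) ∪
        (((Finset.range (M + 1)).filter fun t => v (T₀ + t) ∈ B) ∪
        ((Finset.range (M + 1)).filter fun t => v (T₀ + t) ∈ B')) := by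
      intro t ht
      simp only [Finset.mem_union, Finset.mem_filter]
      by_cases k1 : ((T₀ + t : ℕ) : ℤ) ∈ B
      · exact Or.inl ⟨ht, k1⟩
      · by_cases k2 : v (T₀ + t) ∈ B
        · exact Or.inr (Or.inl ⟨ht, k2⟩)
        · exact Or.inr (Or.inr ⟨ht, hcon t ht k1 k2⟩)
    have hvr : ∀ t ∈ Finset.range (M + 1), v (T₀ + t) ∈ Finset.Ioo (-N : ℤ) N := by
      intro t ht
      rw [Finset.mem_range] at ht
      have htM : (t : ℝ) ≤ M := by exact_mod_cast Nat.lt_succ_iff.mp ht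
      have e1 := log_gr_le h1 h2 h T₀ t
      have e2 := log_gr_ge h1 h2 h T₀ t
      have e3 := hv1 (T₀ + t)
      have e4 := hv2 (T₀ + t)
      have ht0 : (0 : ℝ) ≤ t := Nat.cast_nonneg _
      rw [Finset.mem_Ioo]
      constructor
      · have : (-(N : ℝ)) < v (T₀ + t) := by linarith only [hg8, hRg, hρ0, hN2, e2, e4]
        exact_mod_cast this
      · have : (v (T₀ + t) : ℝ) < N := by linarith only [hg8, hRg, hρ0, hM1, hN2, htM, e1, e3]
        exact_mod_cast this
    have c1 : (((Finset.range (M + 1)).filter fun t => ((T₀ + t : ℕ) : ℤ) ∈ B).card : ℝ) ≤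
        N / 24 := by
      refine le_trans ?_ (hB N hN0)
      have : ((Finset.range (M + 1)).filter fun t => ((T₀ + t : ℕ) : ℤ) ∈ B).card ≤
          ((Finset.Ioo (-N : ℤ) N).filter (· ∈ B)).card := by
        refine Finset.card_le_card_of_injOn (fun t => ((T₀ + t : ℕ) : ℤ)) ?_ ?_
        · intro t ht
          rw [Finset.mem_coe, Finset.mem_filter, Finset.mem_range] at ht
          have htM : (t : ℝ) ≤ M := by exact_mod_cast Nat.lt_succ_iff.mp ht.1
          have e1 : ((T₀ + t : ℕ) : ℝ) < N := by push_cast; linarith only [hRT, hM1, hN2, htM]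
          have e2 : T₀ + t < N := by exact_mod_cast e1
          have e3 : (-(N : ℤ) < ((T₀ + t : ℕ) : ℤ) ∧ ((T₀ + t : ℕ) : ℤ) < N) := by
            constructor <;> omega
          rw [Finset.mem_coe, Finset.mem_filter, Finset.mem_Ioo]
          exact ⟨e3, ht.2⟩
        · intro t _ t' _ htt
          simp only at htt
          have : T₀ + t = T₀ + t' := by exact_mod_cast htt
          omega
      exact_mod_cast this
    have c2 : ∀ C : Set ℤ, (∀ N : ℕ, 0 < N →
        (((Finset.Ioo (-N : ℤ) N).filter (· ∈ C)).card : ℝ) ≤ N / 24) →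
        (((Finset.range (M + 1)).filter fun t => v (T₀ + t) ∈ C).card : ℝ) ≤ N / 24 := by
      intro C hC
      refine le_trans ?_ (hC N hN0)
      have : ((Finset.range (M + 1)).filter fun t => v (T₀ + t) ∈ C).card ≤
          ((Finset.Ioo (-N : ℤ) N).filter (· ∈ C)).card := by
        refine Finset.card_le_card_of_injOn (fun t => v (T₀ + t)) ?_ ?_
        · intro t ht
          rw [Finset.mem_coe, Finset.mem_filter] at ht
          rw [Finset.mem_coe, Finset.mem_filter]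
          exact ⟨hvr t ht.1, ht.2⟩
        · intro t _ t' _ htt
          have := hvmono.injective htt
          omega
      exact_mod_cast this
    have c3 : ((M + 1 : ℕ) : ℝ) ≤ N / 24 + (N / 24 + N / 24) := by
      have e1 := Finset.card_le_card hsub
      rw [Finset.card_range] at e1
      have e2 := e1.trans ((Finset.card_union_le _ _).trans
        (add_le_add_right (Finset.card_union_le _ _) _))
      have e3 : ((M + 1 : ℕ) : ℝ) ≤ (((Finset.range (M + 1)).filter fun t =>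
          ((T₀ + t : ℕ) : ℤ) ∈ B).card : ℝ) + ((((Finset.range (M + 1)).filter fun t =>
          v (T₀ + t) ∈ B).card : ℝ) + (((Finset.range (M + 1)).filter fun t =>
          v (T₀ + t) ∈ B').card : ℝ)) := by
        rw [← Nat.cast_add (Finset.card _) (Finset.card _), ← Nat.cast_add, Nat.cast_le]
        exact e2
      have e4 := c2 B hB
      have e5 := c2 B' hB'
      linarith only [c1, e3, e4, e5]
    push_cast at c3
    linarith only [hg8, hRg, hρ0, hM2, hN1, c3]
  obtain ⟨t, ht, g1, g2, g3⟩ := hgood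
  rw [Finset.mem_range] at ht
  have htM : (t : ℝ) ≤ M := by exact_mod_cast Nat.lt_succ_iff.mp ht
  have ht0 : (0 : ℝ) ≤ t := Nat.cast_nonneg _
  have e1 := log_gr_le h1 h2 h T₀ t
  have e2 := log_gr_ge h1 h2 h T₀ t
  have e3 := hv1 (T₀ + t)
  have e4 := hv2 (T₀ + t)
  have e5 : gr A₁ A₂ (T₀ + t) ≤ Real.exp (v (T₀ + t) + 1) := by
    rw [← Real.log_le_iff_le_exp (hpos _)]
    exact e4.le
  have e6 : gr A₁ A₂ T₀ ≤ gr A₁ A₂ (T₀ + t) := by
    rw [← Real.log_le_log_iff (hpos _) (hpos _)]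
    linarith only [e2]
  refine ⟨T₀ + t, v (T₀ + t), g1, g2, g3, ?_, ?_, ?_, e5⟩
  · push_cast
    have := le_abs_self ρ
    linarith only [hg8, hM1, hsum, htM, e1, e3, this]
  · linarith only [hT0, e5, e6]
  · rw [← Real.le_log_iff_exp_le (hpos _)]
    exact e3

/-! ### displacement -/

/-- `A₀` -/
noncomputable def cA0 (i j : Fin n) (h : G n) : ℝ :=
  |h.1 i j| + ∑ l with l ≠ i ∧ l ≠ j, (h.1 i l ^ 2 + h.1 l j ^ 2)

/-- `A₁` -/
noncomputable def cA1 (i j : Fin n) (h : G n) : ℝ := |h.1 i i - h.1 j j|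

/-- `A₂` -/
noncomputable def cA2 (i j : Fin n) (h : G n) : ℝ :=
  |h.1 j i| + ∑ l with l ≠ i ∧ l ≠ j, (h.1 j l ^ 2 + h.1 l i ^ 2)

theorem cA1_nonneg (i j : Fin n) (h : G n) : 0 ≤ cA1 i j h := abs_nonneg _

theorem cA2_nonneg (i j : Fin n) (h : G n) : 0 ≤ cA2 i j h :=
  add_nonneg (abs_nonneg _) (Finset.sum_nonneg fun _ _ => by positivity)

/-- the exponent of the scaling element -/
noncomputable def b1 (i j : Fin n) : Fin n → ℝ :=
  fun k => if k = i then 1 / 2 else if k = j then -(1 / 2) else 0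

theorem b1_i (i j : Fin n) : b1 i j i = 1 / 2 := by simp [b1]

theorem b1_j {i j : Fin n} (hij : i ≠ j) : b1 i j j = -(1 / 2) := by simp [b1, hij.symm]

theorem b1_of_ne {i j k : Fin n} (h1 : k ≠ i) (h2 : k ≠ j) : b1 i j k = 0 := by
  simp [b1, h1, h2]

/-- the positions in `V` -/
def Vpos (i j k l : Fin n) : Prop := (k = i ∨ l = j) ∧ k ≠ j ∧ l ≠ i

/-- displacement `u(-s) h u(s)` -/
theorem conj_ug_apply {i j : Fin n} (hij : i ≠ j) (h : G n) (s : ℝ) (k l : Fin n) :
    ((ug i j (-s) * h * ug i j s : G n) : Matrix (Fin n) (Fin n) ℝ) k l =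
      (h.1 k l + if l = j then s * h.1 k i else 0) -
        if k = i then s * (h.1 j l + if l = j then s * h.1 j i else 0) else 0 := by
  rw [coe_mul_G, coe_mul_G, ug_of_ne hij, ug_of_ne hij, coe_tv, coe_tv]
  by_cases hl : l = j
  · subst hl
    rw [mul_transvection_apply_same]
    by_cases hk : k = i
    · subst hk
      rw [transvection_mul_apply_same, transvection_mul_apply_same]
      simp only [if_true]
      ring
    · rw [transvection_mul_apply_of_ne _ _ _ _ hk, transvection_mul_apply_of_ne _ _ _ _ hk]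
      simp [hk]
  · rw [mul_transvection_apply_of_ne _ _ _ _ hl]
    by_cases hk : k = i
    · subst hk
      rw [transvection_mul_apply_same]
      simp only [if_true, if_neg hl]
      ring
    · rw [transvection_mul_apply_of_ne _ _ _ _ hk]
      simp [hk, hl]

/-- the displacement at time `v` -/
noncomputable def disp (i j : Fin n) (h : G n) (v : ℤ) (s : ℝ) : G n :=
  (da ((v : ℝ) • b1 i j))⁻¹ * (ug i j (-s) * h * ug i j s) * da ((v : ℝ) • b1 i j)

theorem disp_apply {i j : Fin n} (hij : i ≠ j) (h : G n) (v : ℤ) (s : ℝ) (k l : Fin n) :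
    (disp i j h v s).1 k l = Real.exp (v * b1 i j l - v * b1 i j k) *
      ((h.1 k l + if l = j then s * h.1 k i else 0) -
        if k = i then s * (h.1 j l + if l = j then s * h.1 j i else 0) else 0) := by
  rw [← conj_ug_apply hij]
  exact conj_da_apply _ _ k l

theorem disp_ij {i j : Fin n} (hij : i ≠ j) (h : G n) (v : ℤ) (s : ℝ) :
    (disp i j h v s).1 i j =
      Real.exp (-v) * (h.1 i j + s * (h.1 i i - h.1 j j) - s ^ 2 * h.1 j i) := by
  rw [disp_apply hij, b1_i, b1_j hij, if_pos rfl, if_pos rfl, if_pos rfl]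
  congr 1
  · congr 1; ring
  · ring

theorem disp_il {i j l : Fin n} (hij : i ≠ j) (hi : l ≠ i) (hj : l ≠ j) (h : G n) (v : ℤ) (s : ℝ) :
    (disp i j h v s).1 i l = Real.exp (-(v / 2)) * (h.1 i l - s * h.1 j l) := by
  rw [disp_apply hij, b1_i, b1_of_ne hi hj, if_neg hj, if_pos rfl, if_neg hj]
  congr 1
  · congr 1; ring
  · ring

theorem disp_kj {i j k : Fin n} (hij : i ≠ j) (hi : k ≠ i) (hj : k ≠ j) (h : G n) (v : ℤ) (s : ℝ) :
    (disp i j h v s).1 k j = Real.exp (-(v / 2)) * (h.1 k j + s * h.1 k i) := by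
  rw [disp_apply hij, b1_j hij, b1_of_ne hi hj, if_pos rfl, if_neg hi]
  congr 1
  · congr 1; ring
  · ring

theorem disp_ii {i j : Fin n} (hij : i ≠ j) (h : G n) (v : ℤ) (s : ℝ) :
    (disp i j h v s).1 i i = h.1 i i - s * h.1 j i := by
  rw [disp_apply hij, sub_self, Real.exp_zero, if_neg hij, if_pos rfl, if_neg hij]
  ring

theorem disp_jj {i j : Fin n} (hij : i ≠ j) (h : G n) (v : ℤ) (s : ℝ) :
    (disp i j h v s).1 j j = h.1 j j + s * h.1 j i := by
  rw [disp_apply hij, sub_self, Real.exp_zero, if_pos rfl, if_neg hij.symm]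
  ring

theorem disp_ji {i j : Fin n} (hij : i ≠ j) (h : G n) (v : ℤ) (s : ℝ) :
    (disp i j h v s).1 j i = Real.exp v * h.1 j i := by
  rw [disp_apply hij, b1_i, b1_j hij, if_neg hij, if_neg hij.symm]
  congr 1
  · congr 1; ring
  · ring

theorem disp_ki {i j k : Fin n} (hij : i ≠ j) (hi : k ≠ i) (hj : k ≠ j) (h : G n) (v : ℤ) (s : ℝ) :
    (disp i j h v s).1 k i = Real.exp (v / 2) * h.1 k i := by
  rw [disp_apply hij, b1_i, b1_of_ne hi hj, if_neg hij, if_neg hi]
  congr 1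
  · congr 1; ring
  · ring

theorem disp_jl {i j l : Fin n} (hij : i ≠ j) (hi : l ≠ i) (hj : l ≠ j) (h : G n) (v : ℤ) (s : ℝ) :
    (disp i j h v s).1 j l = Real.exp (v / 2) * h.1 j l := by
  rw [disp_apply hij, b1_j hij, b1_of_ne hi hj, if_neg hj, if_neg hij.symm]
  congr 1
  · congr 1; ring
  · ring

theorem disp_kl {i j k l : Fin n} (hij : i ≠ j) (hki : k ≠ i) (hkj : k ≠ j) (hli : l ≠ i)
    (hlj : l ≠ j) (h : G n) (v : ℤ) (s : ℝ) :
    (disp i j h v s).1 k l = h.1 k l := by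
  rw [disp_apply hij, b1_of_ne hki hkj, b1_of_ne hli hlj, if_neg hlj, if_neg hki]
  simp

/-- all the hypotheses on the pair of times `T`, `v` -/
structure Tim (i j : Fin n) (h : G n) (d ρ : ℝ) (T : ℕ) (v : ℤ) : Prop where
  small : ∀ k l, |h.1 k l - (1 : Matrix (Fin n) (Fin n) ℝ) k l| ≤ d
  gap : ρ ≤ T - v
  h0 : cA0 i j h ≤ Real.exp (v + 1)
  h1 : Real.exp v ≤ gr (cA1 i j h) (cA2 i j h) T
  h2 : gr (cA1 i j h) (cA2 i j h) T ≤ Real.exp (v + 1)

namespace Tim

variable {i j : Fin n} {h : G n} {d ρ : ℝ} {T : ℕ} {v : ℤ}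

theorem a0_ij (t : Tim i j h d ρ T v) : |h.1 i j| ≤ Real.exp (v + 1) := by
  refine le_trans ?_ t.h0
  exact le_add_of_nonneg_right (Finset.sum_nonneg fun _ _ => by positivity)

theorem a0_il (t : Tim i j h d ρ T v) {l : Fin n} (hi : l ≠ i) (hj : l ≠ j) :
    h.1 i l ^ 2 ≤ Real.exp (v + 1) := by
  refine le_trans ?_ t.h0
  refine le_trans ?_ (le_add_of_nonneg_left (abs_nonneg _))
  refine le_trans ?_ (Finset.single_le_sum (f := fun l => h.1 i l ^ 2 + h.1 l j ^ 2)
    (fun _ _ => by (clear * -; positivity)) (by simp only [ne_eq, Finset.mem_filter, Finset.mem_univ, hi,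
                                     not_false_eq_true, hj, and_self] : l ∈ Finset.univ.filter fun l => l ≠ i ∧ l ≠ j))
  linarith only [sq_nonneg (h.1 l j)]

theorem a0_lj (t : Tim i j h d ρ T v) {l : Fin n} (hi : l ≠ i) (hj : l ≠ j) :
    h.1 l j ^ 2 ≤ Real.exp (v + 1) := by
  refine le_trans ?_ t.h0
  refine le_trans ?_ (le_add_of_nonneg_left (abs_nonneg _))
  refine le_trans ?_ (Finset.single_le_sum (f := fun l => h.1 i l ^ 2 + h.1 l j ^ 2)
    (fun _ _ => by (clear * -; positivity)) (by simp only [ne_eq, Finset.mem_filter, Finset.mem_univ, hi,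
                                     not_false_eq_true, hj, and_self] : l ∈ Finset.univ.filter fun l => l ≠ i ∧ l ≠ j))
  linarith only [sq_nonneg (h.1 i l)]

theorem a1 (t : Tim i j h d ρ T v) : Real.exp T * |h.1 i i - h.1 j j| ≤ Real.exp (v + 1) := by
  refine le_trans ?_ t.h2
  exact le_add_of_nonneg_right (mul_nonneg (Real.exp_pos _).le (cA2_nonneg _ _ _))

theorem a2_aux (t : Tim i j h d ρ T v) : Real.exp (2 * T) * cA2 i j h ≤ Real.exp (v + 1) := by
  refine le_trans ?_ t.h2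
  exact le_add_of_nonneg_left (mul_nonneg (Real.exp_pos _).le (cA1_nonneg _ _ _))

theorem a2_ji (t : Tim i j h d ρ T v) : Real.exp (2 * T) * |h.1 j i| ≤ Real.exp (v + 1) := by
  refine le_trans ?_ t.a2_aux
  exact mul_le_mul_of_nonneg_left
    (le_add_of_nonneg_right (Finset.sum_nonneg fun _ _ => by positivity)) (Real.exp_pos _).le

theorem a2_jl (t : Tim i j h d ρ T v) {l : Fin n} (hi : l ≠ i) (hj : l ≠ j) :
    Real.exp (2 * T) * h.1 j l ^ 2 ≤ Real.exp (v + 1) := by
  refine le_trans ?_ t.a2_aux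
  refine mul_le_mul_of_nonneg_left ?_ (Real.exp_pos _).le
  refine le_trans ?_ (le_add_of_nonneg_left (abs_nonneg _))
  refine le_trans ?_ (Finset.single_le_sum (f := fun l => h.1 j l ^ 2 + h.1 l i ^ 2)
    (fun _ _ => by (clear * -; positivity)) (by simp only [ne_eq, Finset.mem_filter, Finset.mem_univ, hi,
                                     not_false_eq_true, hj, and_self] : l ∈ Finset.univ.filter fun l => l ≠ i ∧ l ≠ j))
  linarith only [sq_nonneg (h.1 l i)]

theorem a2_li (t : Tim i j h d ρ T v) {l : Fin n} (hi : l ≠ i) (hj : l ≠ j) :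
    Real.exp (2 * T) * h.1 l i ^ 2 ≤ Real.exp (v + 1) := by
  refine le_trans ?_ t.a2_aux
  refine mul_le_mul_of_nonneg_left ?_ (Real.exp_pos _).le
  refine le_trans ?_ (le_add_of_nonneg_left (abs_nonneg _))
  refine le_trans ?_ (Finset.single_le_sum (f := fun l => h.1 j l ^ 2 + h.1 l i ^ 2)
    (fun _ _ => by (clear * -; positivity)) (by simp only [ne_eq, Finset.mem_filter, Finset.mem_univ, hi,
                                     not_false_eq_true, hj, and_self] : l ∈ Finset.univ.filter fun l => l ≠ i ∧ l ≠ j))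
  linarith only [sq_nonneg (h.1 j l)]

/-- a square bound -/
theorem sq_aux {x a b : ℝ} (h : Real.exp a * x ^ 2 ≤ Real.exp b) : |x| ≤ Real.exp ((b - a) / 2) := by
  refine abs_le_of_sq_le_sq ?_ (Real.exp_pos _).le
  rw [← Real.exp_nat_mul]
  have e1 : x ^ 2 = Real.exp (-a) * (Real.exp a * x ^ 2) := by
    rw [← mul_assoc, ← Real.exp_add, neg_add_cancel, Real.exp_zero, one_mul]
  rw [e1]
  calc Real.exp (-a) * (Real.exp a * x ^ 2) ≤ Real.exp (-a) * Real.exp b := by gcongr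
    _ = Real.exp ((2 : ℕ) * ((b - a) / 2)) := by
      rw [← Real.exp_add]
      congr 1
      push_cast
      ring

theorem lin_aux {x a b : ℝ} (h : Real.exp a * |x| ≤ Real.exp b) : |x| ≤ Real.exp (b - a) := by
  have e1 : |x| = Real.exp (-a) * (Real.exp a * |x|) := by
    rw [← mul_assoc, ← Real.exp_add, neg_add_cancel, Real.exp_zero, one_mul]
  rw [e1]
  calc Real.exp (-a) * (Real.exp a * |x|) ≤ Real.exp (-a) * Real.exp b := by gcongr
    _ = Real.exp (b - a) := by
      rw [← Real.exp_add]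
      congr 1
      ring

theorem nonV (hij : i ≠ j) (t : Tim i j h d ρ T v) (hd : 0 ≤ d) (hρ : 1 ≤ ρ) {s : ℝ}
    (hs : |s| ≤ Real.exp T) {k l : Fin n} (hkl : ¬ Vpos i j k l) :
    |(disp i j h v s).1 k l - (1 : Matrix (Fin n) (Fin n) ℝ) k l| ≤ d + Real.exp (1 - ρ) := by
  have hgap := t.gap
  have hji := lin_aux t.a2_ji
  have hsji : |s * h.1 j i| ≤ Real.exp (1 - ρ) := by
    rw [abs_mul]
    calc |s| * |h.1 j i| ≤ Real.exp T * Real.exp ((v + 1) - 2 * T) :=
          mul_le_mul hs hji (abs_nonneg _) (Real.exp_pos _).le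
      _ = Real.exp (v + 1 - T) := by rw [← Real.exp_add]; congr 1; ring
      _ ≤ Real.exp (1 - ρ) := Real.exp_le_exp.mpr (by linarith)
  have hepos := Real.exp_pos (1 - ρ)
  by_cases hki : k = i
  · subst hki
    by_cases hli : l = k
    · subst hli
      rw [disp_ii hij]
      have e1 := t.small l l
      have e2 : h.1 l l - s * h.1 j l - (1 : Matrix (Fin n) (Fin n) ℝ) l l =
        (h.1 l l - (1 : Matrix (Fin n) (Fin n) ℝ) l l) - s * h.1 j l := by ring
      rw [e2]
      exact (abs_sub _ _).trans (add_le_add e1 hsji)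
    · exact absurd ⟨Or.inl rfl, hij, hli⟩ hkl
  · by_cases hkj : k = j
    · subst hkj
      by_cases hli : l = i
      · subst hli
        rw [disp_ji hij, Matrix.one_apply_ne hki, sub_zero, abs_mul, Real.abs_exp]
        have : Real.exp v * |h.1 k l| ≤ Real.exp (1 - ρ) :=
          calc Real.exp v * |h.1 k l| ≤ Real.exp v * Real.exp ((v + 1) - 2 * T) := by (clear * - hji; gcongr)
            _ = Real.exp (2 * v + 1 - 2 * T) := by rw [← Real.exp_add]; congr 1; ring
            _ ≤ Real.exp (1 - ρ) := Real.exp_le_exp.mpr (by linarith only [hρ, hgap])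
        linarith
      · by_cases hlk : l = k
        · subst hlk
          rw [disp_jj hij]
          have e1 := t.small l l
          have e2 : h.1 l l + s * h.1 l i - (1 : Matrix (Fin n) (Fin n) ℝ) l l =
            (h.1 l l - (1 : Matrix (Fin n) (Fin n) ℝ) l l) + s * h.1 l i := by ring
          rw [e2]
          exact (abs_add_le _ _).trans (add_le_add e1 hsji)
        · rw [disp_jl hij hli hlk, Matrix.one_apply_ne (Ne.symm hlk), sub_zero, abs_mul,
            Real.abs_exp]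
          have e1 := sq_aux (t.a2_jl hli hlk)
          have : Real.exp (v / 2) * |h.1 k l| ≤ Real.exp (1 - ρ) :=
            calc Real.exp (v / 2) * |h.1 k l| ≤
                Real.exp (v / 2) * Real.exp (((v + 1) - 2 * T) / 2) := by (clear * - e1; gcongr)
              _ = Real.exp (v + 1 / 2 - T) := by rw [← Real.exp_add]; congr 1; ring
              _ ≤ Real.exp (1 - ρ) := Real.exp_le_exp.mpr (by linarith only [hgap])
          linarith only [hd, this]
    · by_cases hli : l = i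
      · subst hli
        rw [disp_ki hij hki hkj, Matrix.one_apply_ne hki, sub_zero, abs_mul, Real.abs_exp]
        have e1 := sq_aux (t.a2_li hki hkj)
        have : Real.exp (v / 2) * |h.1 k l| ≤ Real.exp (1 - ρ) :=
          calc Real.exp (v / 2) * |h.1 k l| ≤
              Real.exp (v / 2) * Real.exp (((v + 1) - 2 * T) / 2) := by (clear * - e1; gcongr)
            _ = Real.exp (v + 1 / 2 - T) := by rw [← Real.exp_add]; congr 1; ring
            _ ≤ Real.exp (1 - ρ) := Real.exp_le_exp.mpr (by linarith only [hgap])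
        linarith only [hd, this]
      · by_cases hlj : l = j
        · exact absurd ⟨Or.inr hlj, hkj, hli⟩ hkl
        · rw [disp_kl hij hki hkj hli hlj]
          exact (t.small k l).trans (by linarith only [hepos])

theorem Vbd (hij : i ≠ j) (t : Tim i j h d ρ T v) {s : ℝ}
    (hs : |s| ≤ Real.exp T) {k l : Fin n} (hkl : Vpos i j k l) :
    |(disp i j h v s).1 k l| ≤ 10 := by
  have he1 : Real.exp 1 ≤ 2.7182818286 := Real.exp_one_lt_d9.le
  have hs2 : s ^ 2 ≤ Real.exp (2 * T) := by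
    rw [← sq_abs]
    calc |s| ^ 2 ≤ Real.exp T ^ 2 := by (clear * - hs; gcongr)
      _ = Real.exp (2 * T) := by rw [← Real.exp_nat_mul]; norm_num
  have hev : Real.exp (-(v : ℝ)) * Real.exp (v + 1) = Real.exp 1 := by
    rw [← Real.exp_add]; congr 1; ring
  obtain ⟨h1, h2, h3⟩ := hkl
  by_cases hk : k = i
  · subst hk
    by_cases hl : l = j
    · subst hl
      rw [disp_ij hij, abs_mul, Real.abs_exp]
      have e1 : |h.1 k l + s * (h.1 k k - h.1 l l) - s ^ 2 * h.1 l k| ≤ 3 * Real.exp (v + 1) := by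
        refine (abs_sub _ _).trans ?_
        have e2 := abs_add_le (h.1 k l) (s * (h.1 k k - h.1 l l))
        have e3 := t.a0_ij
        have e4 : |s * (h.1 k k - h.1 l l)| ≤ Real.exp (v + 1) := by
          rw [abs_mul]
          exact (mul_le_mul_of_nonneg_right hs (abs_nonneg _)).trans t.a1
        have e5 : |s ^ 2 * h.1 l k| ≤ Real.exp (v + 1) := by
          rw [abs_mul, abs_of_nonneg (sq_nonneg s)]
          exact (mul_le_mul_of_nonneg_right hs2 (abs_nonneg _)).trans t.a2_ji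
        linarith only [e2, e3, e4, e5]
      calc Real.exp (-(v : ℝ)) * |h.1 k l + s * (h.1 k k - h.1 l l) - s ^ 2 * h.1 l k|
          ≤ Real.exp (-(v : ℝ)) * (3 * Real.exp (v + 1)) := by (clear * - e1; gcongr)
        _ = 3 * Real.exp 1 := by rw [← hev]; ring
        _ ≤ 10 := by linarith only [he1]
    · rw [disp_il hij h3 hl, abs_mul, Real.abs_exp]
      refine abs_le_of_sq_le_sq' ?_ (by norm_num) |>.2
      have e1 : (h.1 k l - s * h.1 j l) ^ 2 ≤ 4 * Real.exp (v + 1) := by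
        have e2 := t.a0_il h3 hl
        have e3 : s ^ 2 * h.1 j l ^ 2 ≤ Real.exp (v + 1) :=
          (mul_le_mul_of_nonneg_right hs2 (sq_nonneg _)).trans (t.a2_jl h3 hl)
        nlinarith only [sq_nonneg (h.1 k l + s * h.1 j l), e2, e3]
      rw [mul_pow, sq_abs, ← Real.exp_nat_mul]
      have e4 : (2 : ℕ) * (-((v : ℝ) / 2)) = -v := by push_cast; ring
      rw [e4]
      calc Real.exp (-(v : ℝ)) * (h.1 k l - s * h.1 j l) ^ 2
          ≤ Real.exp (-(v : ℝ)) * (4 * Real.exp (v + 1)) := by (clear * - e1; gcongr)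
        _ = 4 * Real.exp 1 := by rw [← hev]; ring
        _ ≤ 10 ^ 2 := by linarith only [he1]
  · have hl : l = j := h1.resolve_left hk
    subst hl
    rw [disp_kj hij hk h2, abs_mul, Real.abs_exp]
    refine abs_le_of_sq_le_sq' ?_ (by norm_num) |>.2
    have e1 : (h.1 k l + s * h.1 k i) ^ 2 ≤ 4 * Real.exp (v + 1) := by
      have e2 := t.a0_lj hk h2
      have e3 : s ^ 2 * h.1 k i ^ 2 ≤ Real.exp (v + 1) :=
        (mul_le_mul_of_nonneg_right hs2 (sq_nonneg _)).trans (t.a2_li hk h2)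
      nlinarith only [sq_nonneg (h.1 k l - s * h.1 k i), e2, e3]
    rw [mul_pow, sq_abs, ← Real.exp_nat_mul]
    have e4 : (2 : ℕ) * (-((v : ℝ) / 2)) = -v := by push_cast; ring
    rw [e4]
    calc Real.exp (-(v : ℝ)) * (h.1 k l + s * h.1 k i) ^ 2
        ≤ Real.exp (-(v : ℝ)) * (4 * Real.exp (v + 1)) := by (clear * - e1; gcongr)
      _ = 4 * Real.exp 1 := by rw [← hev]; ring
      _ ≤ 10 ^ 2 := by linarith only [he1]

/-- some entry in a `V`-position is a quadratic polynomial with a large coefficient -/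
theorem large (hij : i ≠ j) (t : Tim i j h d ρ T v) :
    ∃ k l : Fin n, Vpos i j k l ∧ ∃ a b c : ℝ,
      ((1 : ℝ) / (2 * n + 2) ≤ |a| ∨ (1 : ℝ) / (2 * n + 2) ≤ |b| ∨ (1 : ℝ) / (2 * n + 2) ≤ |c|) ∧
      ∀ s : ℝ, (disp i j h v (Real.exp T * s)).1 k l = a + b * s + c * s ^ 2 := by
  set κ : ℝ := 1 / (2 * n + 2) with hκ
  have hκ0 : 0 < κ := by positivity
  have hκ1 : κ ≤ 1 := by
    rw [hκ, div_le_one (by positivity)]
    have : (0 : ℝ) ≤ n := Nat.cast_nonneg _
    linarith only []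
  have hsq : ∀ x : ℝ, κ ≤ x ^ 2 → κ ≤ |x| := by
    intro x hx
    by_contra hcon
    rw [not_le] at hcon
    have : |x| ^ 2 < κ := by
      have h0 := abs_nonneg x
      nlinarith only [hκ0, hκ1, hcon, h0]
    rw [sq_abs] at this
    linarith only [hx, this]
  have key : ∀ x y : ℝ, κ * Real.exp v ≤ y * x → κ ≤ Real.exp (-(v : ℝ)) * y * x := by
    intro x y hxy
    have e1 : Real.exp (-(v : ℝ)) * (κ * Real.exp v) = κ := by
      have : Real.exp (-(v : ℝ)) * Real.exp v = 1 := by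
        rw [← Real.exp_add, neg_add_cancel, Real.exp_zero]
      linear_combination κ * this
    calc κ = Real.exp (-(v : ℝ)) * (κ * Real.exp v) := e1.symm
      _ ≤ Real.exp (-(v : ℝ)) * (y * x) := by gcongr
      _ = Real.exp (-(v : ℝ)) * y * x := by ring
  -- first case
  by_cases c1 : κ * Real.exp v ≤ Real.exp T * |h.1 i i - h.1 j j|
  · refine ⟨i, j, ⟨Or.inl rfl, hij, hij.symm⟩, Real.exp (-v) * h.1 i j,
      Real.exp (-v) * Real.exp T * (h.1 i i - h.1 j j),
      -(Real.exp (-v) * Real.exp T ^ 2 * h.1 j i), Or.inr (Or.inl ?_), fun s => ?_⟩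
    · rw [abs_mul, abs_mul, Real.abs_exp, Real.abs_exp]
      exact key _ _ c1
    · rw [disp_ij hij]
      ring
  by_cases c2 : κ * Real.exp v ≤ Real.exp (2 * T) * |h.1 j i|
  · refine ⟨i, j, ⟨Or.inl rfl, hij, hij.symm⟩, Real.exp (-v) * h.1 i j,
      Real.exp (-v) * Real.exp T * (h.1 i i - h.1 j j),
      -(Real.exp (-v) * Real.exp T ^ 2 * h.1 j i), Or.inr (Or.inr ?_), fun s => ?_⟩
    · rw [abs_neg, abs_mul, abs_mul, Real.abs_exp, abs_pow, Real.abs_exp, ← Real.exp_nat_mul]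
      have := key _ _ c2
      exact_mod_cast this
    · rw [disp_ij hij]
      ring
  by_cases c3 : ∃ l, l ≠ i ∧ l ≠ j ∧ κ * Real.exp v ≤ Real.exp (2 * T) * h.1 j l ^ 2
  · obtain ⟨l, hi, hj, hl⟩ := c3
    refine ⟨i, l, ⟨Or.inl rfl, hij, hi⟩, Real.exp (-(v / 2)) * h.1 i l,
      -(Real.exp (-(v / 2)) * Real.exp T * h.1 j l), 0, Or.inr (Or.inl ?_), fun s => ?_⟩
    · rw [abs_neg]
      apply hsq
      have e1 : (Real.exp (-((v : ℝ) / 2)) * Real.exp T * h.1 j l) ^ 2 =
          Real.exp (-v) * Real.exp (2 * T) * h.1 j l ^ 2 := by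
        rw [mul_pow, mul_pow, ← Real.exp_nat_mul, ← Real.exp_nat_mul]
        congr 3
        push_cast
        ring
      rw [e1]
      exact key _ _ hl
    · rw [disp_il hij hi hj]
      ring
  by_cases c4 : ∃ l, l ≠ i ∧ l ≠ j ∧ κ * Real.exp v ≤ Real.exp (2 * T) * h.1 l i ^ 2
  · obtain ⟨l, hi, hj, hl⟩ := c4
    refine ⟨l, j, ⟨Or.inr rfl, hj, hij.symm⟩, Real.exp (-(v / 2)) * h.1 l j,
      Real.exp (-(v / 2)) * Real.exp T * h.1 l i, 0, Or.inr (Or.inl ?_), fun s => ?_⟩
    · apply hsq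
      have e1 : (Real.exp (-((v : ℝ) / 2)) * Real.exp T * h.1 l i) ^ 2 =
          Real.exp (-v) * Real.exp (2 * T) * h.1 l i ^ 2 := by
        rw [mul_pow, mul_pow, ← Real.exp_nat_mul, ← Real.exp_nat_mul]
        congr 3
        push_cast
        ring
      rw [e1]
      exact key _ _ hl
    · rw [disp_kj hij hi hj]
      ring
  -- contradiction
  exfalso
  push Not at c1 c2 c3 c4
  have e1 : Real.exp (2 * T) * cA2 i j h ≤ κ * Real.exp v + n * (2 * (κ * Real.exp v)) := by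
    rw [cA2, mul_add, Finset.mul_sum]
    refine add_le_add c2.le ?_
    have e2 : ∀ l ∈ Finset.univ.filter fun l => l ≠ i ∧ l ≠ j,
        Real.exp (2 * T) * (h.1 j l ^ 2 + h.1 l i ^ 2) ≤ 2 * (κ * Real.exp v) := by
      intro l hl
      rw [Finset.mem_filter] at hl
      have := c3 l hl.2.1 hl.2.2
      have := c4 l hl.2.1 hl.2.2
      linarith
    refine (Finset.sum_le_sum e2).trans ?_
    rw [Finset.sum_const, nsmul_eq_mul]
    have e3 : ((Finset.univ.filter fun l => l ≠ i ∧ l ≠ j).card : ℝ) ≤ n := by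
      exact_mod_cast (Finset.card_le_univ _).trans (by simp only [Fintype.card_fin, Std.le_refl])
    have e4 : 0 ≤ 2 * (κ * Real.exp v) := by (clear * -; positivity)
    (clear * - e3; gcongr)
  have e2 := t.h1
  rw [gr, cA1] at e2
  have e3 : κ * (2 * n + 2) = 1 := by rw [hκ]; (clear * -; field_simp)
  have e4 : κ * Real.exp v + (κ * Real.exp v + n * (2 * (κ * Real.exp v))) = Real.exp v := by
    linear_combination Real.exp v * e3
  linarith only [c1, e1, e2, e4]

end Tim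

end Vale.Agent.P007.R.LowAux
end

section

/-!
Low entropy: from a pair of points `x`, `tr h x` with the same leafwise measure and good times
`T`, `v` one gets a pair of points of the compact set `K` with the same leafwise measure and a
displacement close to the group `V`, but not close to `1`.
-/

set_option autoImplicit false

open MeasureTheory Matrix Filter Topology ProbabilityTheory
open scoped ENNReal

namespace Vale.Agent.P007.R.LowAux

open Vale.Agent.P007 Vale.Agent.P007.Koopman Vale.Agent.P007.Mautner Vale.Agent.P007.R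

variable {n : ℕ}

/-- the scaling element -/
noncomputable def av (i j : Fin n) (v : ℤ) : G n := da ((v : ℝ) • b1 i j)

theorem av_zpow (i j : Fin n) (v : ℤ) : av i j v = av i j 1 ^ v := by
  rw [av, av, Int.cast_one, one_smul, ← da_zsmul]

theorem ug_mul_av {i j : Fin n} (hij : i ≠ j) (s : ℝ) (v : ℤ) :
    ug i j s * av i j v = av i j v * ug i j (Real.exp (-v) * s) := by
  rw [av, ug_mul_da]
  congr 4
  simp only [Pi.smul_apply, smul_eq_mul, b1_i, b1_j hij]
  ring

theorem tr_ug_av {i j : Fin n} (hij : i ≠ j) (s : ℝ) (v : ℤ) (x : X n) :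
    tr (ug i j (Real.exp (-v) * s)) (tr (av i j v) x) = tr (av i j v) (tr (ug i j s) x) := by
  rw [tr_tr, tr_tr, ug_mul_av hij]

theorem tr_disp {i j : Fin n} (h : G n) (v : ℤ) (s : ℝ) (x : X n) :
    tr (disp i j h v s) (tr (av i j v) (tr (ug i j s) x)) =
      tr (av i j v) (tr (ug i j s) (tr h x)) := by
  simp only [tr_tr]
  congr 1
  rw [disp, av, ug_neg]
  group

theorem measurableSet_ug {i j : Fin n} (w : X n) {K : Set (X n)} (hK : MeasurableSet K) :
    MeasurableSet {s : ℝ | tr (ug i j s) w ∈ K} :=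
  (continuous_tr_uncurry.comp (continuous_const.prodMk (continuous_ug i j))).measurable hK

/-- the set where the leafwise measure `lam` scales correctly at all times `v` -/
def GoodScale {μ : Measure (X n)} {i j : Fin n} (L : Leafwise μ i j) (x : X n) : Prop :=
  ∀ v : ℤ, ∃ c : ℝ≥0∞, c ≠ 0 ∧ c ≠ ∞ ∧
    (L.lam x).map (fun t => Real.exp (-v) * t) = c • L.lam (tr (av i j v) x)

theorem apply_scale {μ : Measure (X n)} {i j : Fin n} (L : Leafwise μ i j) {x : X n} {v : ℤ}
    {c : ℝ≥0∞} (hc : (L.lam x).map (fun t => Real.exp (-v) * t) = c • L.lam (tr (av i j v) x))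
    {S : Set ℝ} (hS : MeasurableSet S) :
    L.lam x {s | Real.exp (-v) * s ∈ S} = c * L.lam (tr (av i j v) x) S := by
  have h1 := congrArg (fun m : Measure ℝ => m S) hc
  simp only [Measure.smul_apply, smul_eq_mul] at h1
  rw [Measure.map_apply (by fun_prop) hS] at h1
  exact h1

theorem mem_Icc_scale {r : ℝ} (v : ℤ) (s : ℝ) :
    Real.exp (-v) * s ∈ Set.Icc (-(Real.exp (-v) * r)) (Real.exp (-v) * r) ↔ s ∈ Set.Icc (-r) r := by
  have h := Real.exp_pos (-(v : ℝ))
  rw [Set.mem_Icc, Set.mem_Icc, ← mul_neg, mul_le_mul_iff_right₀ h, mul_le_mul_iff_right₀ h]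

/-- the maximal function bound at time `v`, seen from time `0` -/
theorem bad_le {μ : Measure (X n)} {i j : Fin n} (hij : i ≠ j) (L : Leafwise μ i j) {x : X n}
    (hx : GoodScale L x) (v : ℤ) {K : Set (X n)} (hK : MeasurableSet K) {ε : ℝ≥0∞}
    (hG : ∀ r : ℝ, 0 < r → L.lam (tr (av i j v) x) (Set.Icc (-r) r ∩
      {s | tr (ug i j s) (tr (av i j v) x) ∉ K}) ≤ ε * L.lam (tr (av i j v) x) (Set.Icc (-r) r))
    {r : ℝ} (hr : 0 < r) :
    L.lam x (Set.Icc (-r) r ∩ {s | tr (av i j v) (tr (ug i j s) x) ∉ K}) ≤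
      ε * L.lam x (Set.Icc (-r) r) := by
  obtain ⟨c, hc0, hc1, hc⟩ := hx v
  have hr' : 0 < Real.exp (-v) * r := mul_pos (Real.exp_pos _) hr
  have h1 := hG _ hr'
  have h2 := apply_scale L hc (S := Set.Icc (-(Real.exp (-v) * r)) (Real.exp (-v) * r) ∩
      {s | tr (ug i j s) (tr (av i j v) x) ∉ K})
    (measurableSet_Icc.inter (measurableSet_ug (tr (av i j v) x) hK).compl)
  have h3 := apply_scale L hc (S := Set.Icc (-(Real.exp (-v) * r)) (Real.exp (-v) * r))
    measurableSet_Icc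
  have h4 : {s | Real.exp (-v) * s ∈ Set.Icc (-(Real.exp (-v) * r)) (Real.exp (-v) * r) ∩
      {s | tr (ug i j s) (tr (av i j v) x) ∉ K}} =
      Set.Icc (-r) r ∩ {s | tr (av i j v) (tr (ug i j s) x) ∉ K} := by
    ext s
    rw [Set.mem_ofPred_eq, Set.mem_inter_iff, mem_Icc_scale, Set.mem_inter_iff, Set.mem_ofPred_eq,
      Set.mem_ofPred_eq, tr_ug_av hij]
  have h5 : {s | Real.exp (-v) * s ∈ Set.Icc (-(Real.exp (-v) * r)) (Real.exp (-v) * r)} =
      Set.Icc (-r) r := by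
    ext s
    rw [Set.mem_ofPred_eq, mem_Icc_scale]
  rw [h4] at h2
  rw [h5] at h3
  rw [h2, h3, mul_left_comm]
  (clear * - h1; gcongr)

/-- small mass of all short intervals in `[-1,1]` -/
def Spread (ν : Measure ℝ) (δ : ℝ) : Prop :=
  ∀ q : ℚ, ν (Set.Icc (q - 2 * δ : ℝ) (q + 2 * δ) ∩ Set.Icc (-1) 1) ≤ 1 / 8

theorem Spread.icc {ν : Measure ℝ} {δ : ℝ} (h : Spread ν δ) (hδ : 0 < δ) (t : ℝ) :
    ν (Set.Icc (t - δ) (t + δ) ∩ Set.Icc (-1) 1) ≤ 1 / 8 := by
  obtain ⟨q, hq1, hq2⟩ := exists_rat_btwn (show t - δ < t by linarith)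
  refine (measure_mono ?_).trans (h q)
  refine Set.inter_subset_inter_left _ fun s hs => ?_
  constructor <;> linarith [hs.1, hs.2]

theorem Spread.quad {ν : Measure ℝ} {δ : ℝ} (h : Spread ν δ) (hδ : 0 < δ) (hδ1 : δ ≤ 1) {κ : ℝ}
    (hκ : 0 < κ) {a b c : ℝ} (habc : κ ≤ |a| ∨ κ ≤ |b| ∨ κ ≤ |c|) :
    ν {s | s ∈ Set.Icc (-1 : ℝ) 1 ∧ |a + b * s + c * s ^ 2| < κ * (δ ^ 2 / 20)} ≤ 1 / 4 := by
  have h1 : 1 ≤ |a / κ| ∨ 1 ≤ |b / κ| ∨ 1 ≤ |c / κ| := by
    simp only [abs_div, abs_of_pos hκ, le_div_iff₀ hκ, one_mul]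
    exact habc
  obtain ⟨t₁, t₂, ht⟩ := quad_cover hδ hδ1 h1
  have h2 : {s | s ∈ Set.Icc (-1 : ℝ) 1 ∧ |a + b * s + c * s ^ 2| < κ * (δ ^ 2 / 20)} ⊆
      (Set.Icc (t₁ - δ) (t₁ + δ) ∩ Set.Icc (-1) 1) ∪
        (Set.Icc (t₂ - δ) (t₂ + δ) ∩ Set.Icc (-1) 1) := by
    rintro s ⟨hs1, hs2⟩
    have h3 : s ∈ {s : ℝ | s ∈ Set.Icc (-1 : ℝ) 1 ∧
        |a / κ + b / κ * s + c / κ * s ^ 2| < δ ^ 2 / 20} := by
      refine ⟨hs1, ?_⟩
      have h4 : a / κ + b / κ * s + c / κ * s ^ 2 = (a + b * s + c * s ^ 2) / κ := by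
        field_simp
      rw [h4, abs_div, abs_of_pos hκ, div_lt_iff₀ hκ, mul_comm (δ ^ 2 / 20) κ]
      exact hs2
    rcases ht h3 with h4 | h4
    · exact Or.inl ⟨h4, hs1⟩
    · exact Or.inr ⟨h4, hs1⟩
  refine (measure_mono h2).trans ((measure_union_le _ _).trans ?_)
  refine (add_le_add (h.icc hδ t₁) (h.icc hδ t₂)).trans ?_
  have : (1 / 8 : ℝ≥0∞) + 1 / 8 = 1 / 4 := by
    rw [ENNReal.div_add_div_same]
    rw [ENNReal.div_eq_div_iff] <;> norm_num
  exact this.le

/-- the small value set at time `T`, seen from time `0` -/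
theorem quad_le {μ : Measure (X n)} {i j : Fin n} (L : Leafwise μ i j) {x : X n}
    (hx : GoodScale L x) (T : ℕ) (hXT : tr (av i j T) x ∈ L.X0) {δ : ℝ}
    (hS : Spread (L.lam (tr (av i j T) x)) δ) (hδ : 0 < δ) (hδ1 : δ ≤ 1) {κ : ℝ} (hκ : 0 < κ)
    {a b c : ℝ} (habc : κ ≤ |a| ∨ κ ≤ |b| ∨ κ ≤ |c|) :
    L.lam x {s | s ∈ Set.Icc (-Real.exp T) (Real.exp T) ∧
      |a + b * (Real.exp (-T) * s) + c * (Real.exp (-T) * s) ^ 2| < κ * (δ ^ 2 / 20)} ≤
      1 / 4 * L.lam x (Set.Icc (-Real.exp T) (Real.exp T)) := by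
  obtain ⟨e, he0, he1, he⟩ := hx (T : ℤ)
  have hcast : ((T : ℤ) : ℝ) = (T : ℝ) := Int.cast_natCast T
  have hee : Real.exp (-((T : ℤ) : ℝ)) * Real.exp T = 1 := by
    rw [hcast, ← Real.exp_add, neg_add_cancel, Real.exp_zero]
  have hIcc : ∀ s : ℝ, Real.exp (-((T : ℤ) : ℝ)) * s ∈ Set.Icc (-1 : ℝ) 1 ↔
      s ∈ Set.Icc (-Real.exp T) (Real.exp T) := by
    intro s
    have := mem_Icc_scale (r := Real.exp T) (T : ℤ) s
    rwa [hee] at this
  have h3 := apply_scale L he (S := Set.Icc (-1) 1) measurableSet_Icc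
  have h5 : {s | Real.exp (-((T : ℤ) : ℝ)) * s ∈ Set.Icc (-1 : ℝ) 1} =
      Set.Icc (-Real.exp T) (Real.exp T) := by
    ext s
    exact hIcc s
  rw [h5, L.norm _ hXT, mul_one] at h3
  have hmeas : MeasurableSet {s | s ∈ Set.Icc (-1 : ℝ) 1 ∧
      |a + b * s + c * s ^ 2| < κ * (δ ^ 2 / 20)} :=
    measurableSet_Icc.inter (measurableSet_lt
      (show Measurable fun s : ℝ => |a + b * s + c * s ^ 2| by fun_prop) measurable_const)
  have h2 := apply_scale L he hmeas
  have h4 : {s | Real.exp (-((T : ℤ) : ℝ)) * s ∈ {s | s ∈ Set.Icc (-1 : ℝ) 1 ∧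
      |a + b * s + c * s ^ 2| < κ * (δ ^ 2 / 20)}} =
      {s | s ∈ Set.Icc (-Real.exp T) (Real.exp T) ∧
      |a + b * (Real.exp (-T) * s) + c * (Real.exp (-T) * s) ^ 2| < κ * (δ ^ 2 / 20)} := by
    ext s
    simp only [Set.mem_ofPred_eq]
    rw [hIcc, hcast]
  rw [h4] at h2
  rw [h2, h3, mul_comm]
  gcongr
  exact hS.quad hδ hδ1 hκ habc

/-- equality of the leafwise measures at the displaced points -/
theorem lam_eq {μ : Measure (X n)} {i j : Fin n} (L : Leafwise μ i j) {x y : X n} {s : ℝ} {v : ℤ}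
    (hx : x ∈ L.X0) (hy : y ∈ L.X0) (hxy : L.lam x = L.lam y)
    (hxs : tr (ug i j s) x ∈ L.X0) (hys : tr (ug i j s) y ∈ L.X0)
    (hxs' : GoodScale L (tr (ug i j s) x)) (hys' : GoodScale L (tr (ug i j s) y))
    (hxv : tr (av i j v) (tr (ug i j s) x) ∈ L.X0) (hyv : tr (av i j v) (tr (ug i j s) y) ∈ L.X0) :
    L.lam (tr (av i j v) (tr (ug i j s) x)) = L.lam (tr (av i j v) (tr (ug i j s) y)) := by
  have key : ∀ {ν₁ ν₂ : Measure ℝ} {c₁ c₂ : ℝ≥0∞}, ν₁ (Set.Icc (-1) 1) = 1 →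
      ν₂ (Set.Icc (-1) 1) = 1 → c₁ ≠ 0 → c₁ ≠ ∞ → c₁ • ν₁ = c₂ • ν₂ → ν₁ = ν₂ := by
    intro ν₁ ν₂ c₁ c₂ h1 h2 h0 hT h
    have h3 : c₁ = c₂ := by
      have := congrArg (fun m : Measure ℝ => m (Set.Icc (-1) 1)) h
      simpa only [Measure.smul_apply, h1, smul_eq_mul, mul_one, h2] using this
    rw [← h3] at h
    have h4 := congrArg (fun m : Measure ℝ => c₁⁻¹ • m) h
    simpa only [smul_smul, ENNReal.inv_mul_cancel h0 hT, one_smul] using h4
  obtain ⟨c₁, h10, h11, h1⟩ := L.shift x hx s hxs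
  obtain ⟨c₂, h20, h21, h2⟩ := L.shift y hy s hys
  rw [hxy, h2] at h1
  have e1 : L.lam (tr (ug i j s) x) = L.lam (tr (ug i j s) y) :=
    key (L.norm _ hxs) (L.norm _ hys) h10 h11 h1.symm
  obtain ⟨c₃, h30, h31, h3⟩ := hxs' v
  obtain ⟨c₄, h40, h41, h4⟩ := hys' v
  rw [e1, h4] at h3
  exact key (L.norm _ hxv) (L.norm _ hyv) h30 h31 h3.symm

/-- The main step. -/
theorem pair {μ : Measure (X n)} {i j : Fin n} (hij : i ≠ j) (L : Leafwise μ i j)
    {Y K : Set (X n)} (hYX : Y ⊆ L.X0) (hYs : ∀ x ∈ Y, GoodScale L x) (hKY : K ⊆ Y)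
    (hK : MeasurableSet K)
    {x : X n} {h : G n} {d ρ : ℝ} {T : ℕ} {v : ℤ} (t : Tim i j h d ρ T v) (hd : 0 ≤ d)
    (hρ : 1 ≤ ρ) (hx : x ∈ Y) (hy : tr h x ∈ Y) (hxy : L.lam x = L.lam (tr h x))
    (hxl : ∀ᵐ s ∂(L.lam x), tr (ug i j s) x ∈ Y)
    (hyl : ∀ᵐ s ∂(L.lam (tr h x)), tr (ug i j s) (tr h x) ∈ Y)
    (hxT : tr (av i j T) x ∈ L.X0) {δ : ℝ} (hS : Spread (L.lam (tr (av i j T) x)) δ) (hδ : 0 < δ)
    (hδ1 : δ ≤ 1)
    (hGx : ∀ r : ℝ, 0 < r → L.lam (tr (av i j v) x) (Set.Icc (-r) r ∩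
      {s | tr (ug i j s) (tr (av i j v) x) ∉ K}) ≤
        1 / 4 * L.lam (tr (av i j v) x) (Set.Icc (-r) r))
    (hGy : ∀ r : ℝ, 0 < r → L.lam (tr (av i j v) (tr h x)) (Set.Icc (-r) r ∩
      {s | tr (ug i j s) (tr (av i j v) (tr h x)) ∉ K}) ≤
        1 / 4 * L.lam (tr (av i j v) (tr h x)) (Set.Icc (-r) r)) :
    ∃ x' ∈ K, ∃ c : G n, tr c x' ∈ K ∧ L.lam x' = L.lam (tr c x') ∧
      (∀ k l, ¬ Vpos i j k l → |c.1 k l - (1 : Matrix (Fin n) (Fin n) ℝ) k l| ≤
        d + Real.exp (1 - ρ)) ∧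
      (∀ k l, Vpos i j k l → |c.1 k l| ≤ 10) ∧
      ∃ k l, Vpos i j k l ∧ 1 / (2 * (n : ℝ) + 2) * (δ ^ 2 / 20) ≤ |c.1 k l| := by
  obtain ⟨k, l, hkl, a, b, c, habc, hdisp⟩ := t.large hij
  have hκ : (0 : ℝ) < 1 / (2 * n + 2) := by (clear * -; positivity)
  set κ : ℝ := 1 / (2 * n + 2) with hκdef
  set r : ℝ := Real.exp T with hr
  have hr0 : 0 < r := Real.exp_pos _
  set ν : Measure ℝ := L.lam x with hν
  have b1 := bad_le hij L (hYs x hx) v hK hGx hr0
  have b2 := bad_le hij L (hYs _ hy) v hK hGy hr0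
  rw [← hxy] at b2
  have b3 := quad_le L (hYs x hx) T hxT hS hδ hδ1 hκ habc
  have hpos : 0 < ν (Set.Icc (-r) r) := L.supp x (hYX hx) r hr0
  have hfin : ν (Set.Icc (-r) r) < ∞ := L.lf x (hYX hx) r
  set B1 : Set ℝ := Set.Icc (-r) r ∩ {s | tr (av i j v) (tr (ug i j s) x) ∉ K} with hB1
  set B2 : Set ℝ := Set.Icc (-r) r ∩ {s | tr (av i j v) (tr (ug i j s) (tr h x)) ∉ K} with hB2
  set B3 : Set ℝ := {s | s ∈ Set.Icc (-r) r ∧
      |a + b * (Real.exp (-T) * s) + c * (Real.exp (-T) * s) ^ 2| < κ * (δ ^ 2 / 20)} with hB3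
  have b4 : ν {s | ¬ tr (ug i j s) x ∈ Y} = 0 := hxl
  have b5 : ν {s | ¬ tr (ug i j s) (tr h x) ∈ Y} = 0 := by
    rw [hxy]
    exact hyl
  obtain ⟨s, hs, hs1, hs2, hs3, hs4, hs5⟩ : ∃ s ∈ Set.Icc (-r) r, s ∉ B1 ∧ s ∉ B2 ∧ s ∉ B3 ∧
      tr (ug i j s) x ∈ Y ∧ tr (ug i j s) (tr h x) ∈ Y := by
    by_contra hcon
    push Not at hcon
    have hsub : Set.Icc (-r) r ⊆ B1 ∪ (B2 ∪ (B3 ∪ ({s | ¬ tr (ug i j s) x ∈ Y} ∪
        {s | ¬ tr (ug i j s) (tr h x) ∈ Y}))) := by
      intro s hs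
      by_cases k1 : s ∈ B1
      · exact Or.inl k1
      by_cases k2 : s ∈ B2
      · exact Or.inr (Or.inl k2)
      by_cases k3 : s ∈ B3
      · exact Or.inr (Or.inr (Or.inl k3))
      by_cases k4 : tr (ug i j s) x ∈ Y
      · exact Or.inr (Or.inr (Or.inr (Or.inr (hcon s hs k1 k2 k3 k4))))
      · exact Or.inr (Or.inr (Or.inr (Or.inl k4)))
    have h1 : ν (Set.Icc (-r) r) ≤ 1 / 4 * ν (Set.Icc (-r) r) + (1 / 4 * ν (Set.Icc (-r) r) +
        (1 / 4 * ν (Set.Icc (-r) r) + (0 + 0))) := by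
      refine (measure_mono hsub).trans ?_
      refine (measure_union_le _ _).trans (add_le_add b1 ?_)
      refine (measure_union_le _ _).trans (add_le_add b2 ?_)
      refine (measure_union_le _ _).trans (add_le_add b3 ?_)
      exact (measure_union_le _ _).trans (add_le_add b4.le b5.le)
    have h2 : ν (Set.Icc (-r) r) ≠ ∞ := hfin.ne
    have h3 : ν (Set.Icc (-r) r) ≠ 0 := hpos.ne'
    generalize ν (Set.Icc (-r) r) = z at h1 h2 h3
    lift z to NNReal using h2
    have h4 : (z : ℝ≥0∞) ≤ ((3 / 4 * z : NNReal) : ℝ≥0∞) := by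
      refine h1.trans (le_of_eq ?_)
      have e1 : (1 / 4 : ℝ≥0∞) = ((1 / 4 : NNReal) : ℝ≥0∞) := by
        rw [ENNReal.coe_div (by norm_num)]
        norm_num
      rw [e1]
      norm_cast
      ring
    have h5 : z ≤ 3 / 4 * z := by exact_mod_cast h4
    have h6 : (z : ℝ) ≤ 3 / 4 * z := by exact_mod_cast h5
    have h7 : (z : ℝ) ≠ 0 := by exact_mod_cast h3
    have h8 : (0 : ℝ) ≤ z := z.2
    apply h7
    linarith only [h5]
  have hxK : tr (av i j v) (tr (ug i j s) x) ∈ K := by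
    by_contra hcon
    exact hs1 ⟨hs, hcon⟩
  have hyK : tr (av i j v) (tr (ug i j s) (tr h x)) ∈ K := by
    by_contra hcon
    exact hs2 ⟨hs, hcon⟩
  refine ⟨tr (av i j v) (tr (ug i j s) x), hxK, disp i j h v s, ?_, ?_, ?_, ?_, k, l, hkl, ?_⟩
  · rw [tr_disp]
    exact hyK
  · rw [tr_disp]
    exact lam_eq L (hYX hx) (hYX hy) hxy (hYX hs4) (hYX hs5) (hYs _ hs4) (hYs _ hs5)
      (hYX (hKY hxK)) (hYX (hKY hyK))
  · intro k l hkl
    exact t.nonV hij hd hρ (abs_le.mpr hs) hkl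
  · intro k l hkl
    exact t.Vbd hij (abs_le.mpr hs) hkl
  · by_contra hcon
    rw [not_le] at hcon
    apply hs3
    refine ⟨hs, ?_⟩
    have h1 := hdisp (Real.exp (-T) * s)
    rw [← mul_assoc, ← Real.exp_add, add_neg_cancel, Real.exp_zero, one_mul] at h1
    rw [← h1]
    exact hcon

end Vale.Agent.P007.R.LowAux
end
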