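import Vale.Agent.P007.Bdl.B13
import Vale.Agent.P007.Bdl.B12
import Vale.Agent.P007.Bdl.B10
import Vale.Agent.P007.Bdl.B11

section

/-!
Low entropy: the limit argument, the visit densities and the core of the proof.
-/

set_option autoImplicit false

open MeasureTheory Matrix Filter Topology ProbabilityTheory
open scoped ENNReal

namespace Vale.Agent.P007.R.LowAux

open Vale.Agent.P007 Vale.Agent.P007.Koopman Vale.Agent.P007.Mautner Vale.Agent.P007.R

variable {n : ℕ}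

/-! ### the limit argument -/

/-- the leafwise measure as a point of a second countable Hausdorff space -/
noncomputable def Fl {μ : Measure (X n)} {i j : Fin n} (L : Leafwise μ i j) (x : X n) :
    ℚ × ℚ → ℝ≥0∞ := fun p => L.lam x (Set.Ioo (p.1 : ℝ) p.2)

theorem measurable_Fl {μ : Measure (X n)} {i j : Fin n} (L : Leafwise μ i j) :
    Measurable (Fl L) :=
  measurable_pi_iff.mpr fun _ => Kernel.measurable_coe L.lam measurableSet_Ioo

theorem lam_eq_of_Fl {μ : Measure (X n)} {i j : Fin n} (L : Leafwise μ i j) {x y : X n}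
    (hx : x ∈ L.X0) (h : Fl L x = Fl L y) : L.lam x = L.lam y := by
  have : IsLocallyFiniteMeasure (L.lam x) := by
    refine ⟨fun t => ⟨Set.Icc (-(|t| + 1)) (|t| + 1), ?_, L.lf x hx _⟩⟩
    refine Icc_mem_nhds ?_ ?_
    · linarith [neg_abs_le t]
    · linarith only [le_abs_self t]
  exact Real.measure_ext_Ioo_rat fun a b => congrFun h (a, b)

theorem isCompact_bdd (n : ℕ) (C : ℝ) : IsCompact {c : G n | ∀ k l, |c.1 k l| ≤ C} := by
  have h1 : IsCompact (Set.univ.pi fun _ : Fin n => Set.univ.pi fun _ : Fin n =>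
      Set.Icc (-C) C) := isCompact_univ_pi fun _ => isCompact_univ_pi fun _ => isCompact_Icc
  have h2 := (Matrix.SpecialLinearGroup.isClosedEmbedding_val (n := Fin n)
    (R := ℝ)).isCompact_preimage h1
  have h3 : {c : G n | ∀ k l, |c.1 k l| ≤ C} = (Subtype.val : G n → _) ⁻¹'
      (Set.univ.pi fun _ : Fin n => Set.univ.pi fun _ : Fin n => Set.Icc (-C) C) := by
    ext c
    constructor
    · intro h k _ l _
      exact abs_le.mp (h k l)
    · intro h k l
      exact abs_le.mpr (h k (Set.mem_univ _) l (Set.mem_univ _))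
  rw [h3]
  exact h2

theorem continuous_ent (k l : Fin n) : Continuous fun c : G n => c.1 k l :=
  (continuous_apply_apply k l).comp
    Matrix.SpecialLinearGroup.isClosedEmbedding_val.continuous

/-- the algebraic part of the limit argument -/
theorem limit_alg {μ : Measure (X n)} {i j : Fin n} (hij : i ≠ j) (L : Leafwise μ i j)
    {x₀ : X n} (hx₀ : x₀ ∈ L.X0) {c : G n} (hy₀ : tr c x₀ ∈ L.X0)
    (hsym : ∀ σ : ℝ, (∃ c : ℝ≥0∞, c ≠ 0 ∧ c ≠ ∞ ∧
      (L.lam x₀).map (fun t => t - σ) = c • L.lam x₀) → σ = 0)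
    (hV : (∀ k, c.1 k k = 1) → (∀ k l, k ≠ l → ¬ Vpos i j k l → c.1 k l = 0) →
      ∀ l, l ≠ i → l ≠ j → c.1 i l = 0 ∧ c.1 l j = 0)
    (hlam0 : L.lam x₀ = L.lam (tr c x₀))
    (hnV0 : ∀ k l, ¬ Vpos i j k l → c.1 k l = (1 : Matrix (Fin n) (Fin n) ℝ) k l) {c₀ : ℝ}
    (hc₀ : 0 < c₀) (hlarge0 : ∃ k l, Vpos i j k l ∧ c₀ ≤ |c.1 k l|) : False := by
  have hdiag : ∀ k, c.1 k k = 1 := by
    intro k
    rw [hnV0 k k, Matrix.one_apply_eq]
    rintro ⟨h1 | h1, h2, h3⟩
    · exact h3 h1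
    · exact h2 h1
  have hoff : ∀ k l, k ≠ l → ¬ Vpos i j k l → c.1 k l = 0 := by
    intro k l hkl hv
    rw [hnV0 k l hv, Matrix.one_apply_ne hkl]
  have hz := hV hdiag hoff
  have hcu : c = ug i j (c.1 i j) := by
    apply Subtype.ext
    ext k l
    change c.1 k l = ((ug i j (c.1 i j) : G n) : Matrix (Fin n) (Fin n) ℝ) k l
    rw [ug_apply hij]
    by_cases hkl : k = l
    · subst hkl
      have h1 : ¬ (k = i ∧ k = j) := fun h => hij (h.1.symm.trans h.2)
      rw [if_pos rfl, if_neg h1, add_zero, hdiag]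
    · rw [if_neg hkl, zero_add]
      by_cases h1 : k = i ∧ l = j
      · rw [if_pos h1, h1.1, h1.2]
      · rw [if_neg h1]
        by_cases h2 : Vpos i j k l
        · obtain ⟨h3 | h3, h4, h5⟩ := h2
          · subst h3
            have h6 : l ≠ j := fun h => h1 ⟨rfl, h⟩
            exact (hz l h5 h6).1
          · subst h3
            have h6 : k ≠ i := fun h => h1 ⟨h, rfl⟩
            exact (hz k h6 h4).2
        · exact hoff k l hkl h2
  have hne : c.1 i j ≠ 0 := by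
    intro h0
    obtain ⟨k, l, ⟨h3, h4, h5⟩, hge⟩ := hlarge0
    have h6 : c.1 k l = 0 := by
      by_cases h7 : k = i
      · subst h7
        by_cases h8 : l = j
        · rw [h8]; exact h0
        · exact (hz l h5 h8).1
      · have h8 : l = j := h3.resolve_left h7
        rw [h8]
        exact (hz k h7 h4).2
    rw [h6, abs_zero] at hge
    linarith
  apply hne
  have hmem1 : tr (ug i j (c.1 i j)) x₀ ∈ L.X0 := by
    rw [← hcu]
    exact hy₀
  obtain ⟨e, he0, he1, he⟩ := L.shift x₀ hx₀ _ hmem1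
  rw [← hcu, ← hlam0] at he
  exact hsym _ ⟨e, he0, he1, he⟩

/-- limits of the entries -/
theorem limit_ent {i j : Fin n} {c : ℕ → G n} {c' : G n} (hlc : Tendsto c atTop (𝓝 c'))
    {e : ℕ → ℝ} (he : Tendsto e atTop (𝓝 0)) {c₀ : ℝ}
    (hnV : ∀ q k l, ¬ Vpos i j k l → |(c q).1 k l - (1 : Matrix (Fin n) (Fin n) ℝ) k l| ≤ e q)
    (hlarge : ∀ q, ∃ k l, Vpos i j k l ∧ c₀ ≤ |(c q).1 k l|) :
    (∀ k l, ¬ Vpos i j k l → c'.1 k l = (1 : Matrix (Fin n) (Fin n) ℝ) k l) ∧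
      ∃ k l, Vpos i j k l ∧ c₀ ≤ |c'.1 k l| := by
  have hent : ∀ k l, Tendsto (fun q => (c q).1 k l) atTop (𝓝 (c'.1 k l)) := fun k l =>
    ((continuous_ent k l).tendsto _).comp hlc
  constructor
  · intro k l hkl
    have e1 : Tendsto (fun q => |(c q).1 k l - (1 : Matrix (Fin n) (Fin n) ℝ) k l|) atTop
        (𝓝 |c'.1 k l - (1 : Matrix (Fin n) (Fin n) ℝ) k l|) :=
      ((hent k l).sub_const _).abs
    have e3 := le_of_tendsto_of_tendsto' e1 he fun q => hnV q k l hkl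
    have e4 : |c'.1 k l - (1 : Matrix (Fin n) (Fin n) ℝ) k l| = 0 :=
      le_antisymm e3 (abs_nonneg _)
    rw [abs_eq_zero, sub_eq_zero] at e4
    exact e4
  · by_contra hcon
    push Not at hcon
    have e1 : ∀ k l, Vpos i j k l → ∀ᶠ q in atTop, |(c q).1 k l| < c₀ := fun k l hkl =>
      (hent k l).abs.eventually_lt_const (hcon k l hkl)
    have e2 : ∀ᶠ q in atTop, ∀ k l, Vpos i j k l → |(c q).1 k l| < c₀ := by
      rw [eventually_all]
      intro k
      rw [eventually_all]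
      intro l
      by_cases hkl : Vpos i j k l
      · filter_upwards [e1 k l hkl] with q hq _
        exact hq
      · exact Eventually.of_forall fun q h => absurd h hkl
    obtain ⟨q, hq⟩ := e2.exists
    obtain ⟨k, l, hkl, hge⟩ := hlarge q
    exact absurd (hq k l hkl) (not_lt.mpr hge)

theorem bdd_of {i j : Fin n} {c : G n} {ε : ℝ} (hε : ε ≤ 1)
    (hnV : ∀ k l, ¬ Vpos i j k l → |c.1 k l - (1 : Matrix (Fin n) (Fin n) ℝ) k l| ≤ ε)
    (hVb : ∀ k l, Vpos i j k l → |c.1 k l| ≤ 10) : ∀ k l, |c.1 k l| ≤ 12 := by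
  intro k l
  have hone : |(1 : Matrix (Fin n) (Fin n) ℝ) k l| ≤ 1 := by
    by_cases h : k = l
    · subst h; simp
    · simp only [Matrix.one_apply_ne h, abs_zero, zero_le_one]
  by_cases h : Vpos i j k l
  · exact (hVb k l h).trans (by norm_num)
  · have h1 := hnV k l h
    have h3 := abs_add_le (c.1 k l - (1 : Matrix (Fin n) (Fin n) ℝ) k l)
      ((1 : Matrix (Fin n) (Fin n) ℝ) k l)
    rw [sub_add_cancel] at h3
    linarith only [hε, hone, h1, h3]

theorem limit_Fl {μ : Measure (X n)} {i j : Fin n} (L : Leafwise μ i j)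
    {K : Set (X n)} (hF : ContinuousOn (Fl L) K) {x y : ℕ → X n} {x₀ y₀ : X n}
    (hx : ∀ q, x q ∈ K) (hy : ∀ q, y q ∈ K) (hx₀ : x₀ ∈ K) (hy₀ : y₀ ∈ K)
    (hlx : Tendsto x atTop (𝓝 x₀)) (hly : Tendsto y atTop (𝓝 y₀))
    (hlam : ∀ q, L.lam (x q) = L.lam (y q)) : Fl L x₀ = Fl L y₀ := by
  have e1 : Tendsto (fun q => Fl L (x q)) atTop (𝓝 (Fl L x₀)) :=
    (hF x₀ hx₀).tendsto.comp (tendsto_nhdsWithin_iff.mpr ⟨hlx, Eventually.of_forall hx⟩)
  have e2 : Tendsto (fun q => Fl L (y q)) atTop (𝓝 (Fl L y₀)) :=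
    (hF y₀ hy₀).tendsto.comp (tendsto_nhdsWithin_iff.mpr ⟨hly, Eventually.of_forall hy⟩)
  have e3 : ∀ q, Fl L (x q) = Fl L (y q) := by
    intro q
    funext p
    simp only [Fl]
    rw [hlam q]
  simp only [e3] at e1
  exact tendsto_nhds_unique e1 e2

theorem tendsto_tr {x : ℕ → X n} {c : ℕ → G n} {x₀ : X n} {c₀ : G n}
    (hx : Tendsto x atTop (𝓝 x₀)) (hc : Tendsto c atTop (𝓝 c₀)) :
    Tendsto (fun q => tr (c q) (x q)) atTop (𝓝 (tr c₀ x₀)) := by
  have h1 : Tendsto (fun q => (x q, c q)) atTop (𝓝 (x₀, c₀)) := hx.prodMk_nhds hc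
  have h2 : Tendsto (fun p : X n × G n => tr p.2 p.1) (𝓝 (x₀, c₀)) (𝓝 (tr c₀ x₀)) :=
    continuous_tr_uncurry.tendsto (x₀, c₀)
  have h3 := h2.comp h1
  simpa only [Function.comp_def] using h3

theorem limit_contra {μ : Measure (X n)} {i j : Fin n} (hij : i ≠ j) (L : Leafwise μ i j)
    {K : Set (X n)} (hK : IsCompact K) (hKX : K ⊆ L.X0) (hF : ContinuousOn (Fl L) K)
    (hsym : ∀ x ∈ K, ∀ σ : ℝ, (∃ c : ℝ≥0∞, c ≠ 0 ∧ c ≠ ∞ ∧
      (L.lam x).map (fun t => t - σ) = c • L.lam x) → σ = 0)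
    (hV : ∀ x ∈ K, ∀ c : G n, tr c x ∈ K → (∀ k, c.1 k k = 1) →
      (∀ k l, k ≠ l → ¬ Vpos i j k l → c.1 k l = 0) →
      ∀ l, l ≠ i → l ≠ j → c.1 i l = 0 ∧ c.1 l j = 0)
    {c₀ : ℝ} (hc₀ : 0 < c₀)
    (hseq : ∀ ε : ℝ, 0 < ε → ∃ x' ∈ K, ∃ c : G n, tr c x' ∈ K ∧ L.lam x' = L.lam (tr c x') ∧
      (∀ k l, ¬ Vpos i j k l → |c.1 k l - (1 : Matrix (Fin n) (Fin n) ℝ) k l| ≤ ε) ∧
      (∀ k l, Vpos i j k l → |c.1 k l| ≤ 10) ∧ ∃ k l, Vpos i j k l ∧ c₀ ≤ |c.1 k l|) : False := by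
  have hpos : ∀ q : ℕ, (0 : ℝ) < 1 / (q + 1) := fun q => by positivity
  choose x hxK c hcK hlam hnV hVb hlarge using fun q : ℕ => hseq (1 / (q + 1)) (hpos q)
  have hC : ∀ q, c q ∈ {c : G n | ∀ k l, |c.1 k l| ≤ 12} := by
    intro q
    have h2 : (1 : ℝ) / (q + 1) ≤ 1 := by
      rw [div_le_one (by (clear * -; positivity))]
      have : (0 : ℝ) ≤ q := Nat.cast_nonneg q
      linarith
    exact bdd_of h2 (hnV q) (hVb q)
  obtain ⟨p, hmem, φ, hφ, hlim⟩ := (hK.prod (isCompact_bdd n 12)).tendsto_subseq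
    (x := fun q => (x q, c q)) fun q => ⟨hxK q, hC q⟩
  have hx₀K : p.1 ∈ K := hmem.1
  have hlx : Tendsto (fun q => x (φ q)) atTop (𝓝 p.1) :=
    (continuous_fst.tendsto p).comp hlim
  have hlc : Tendsto (fun q => c (φ q)) atTop (𝓝 p.2) :=
    (continuous_snd.tendsto p).comp hlim
  have hly : Tendsto (fun q => tr (c (φ q)) (x (φ q))) atTop (𝓝 (tr p.2 p.1)) :=
    tendsto_tr hlx hlc
  have hy₀K : tr p.2 p.1 ∈ K :=
    hK.isClosed.mem_of_tendsto hly (Eventually.of_forall fun q => hcK (φ q))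
  have hFe : Fl L p.1 = Fl L (tr p.2 p.1) :=
    limit_Fl L hF (fun q => hxK (φ q)) (fun q => hcK (φ q)) hx₀K hy₀K hlx hly
      fun q => hlam (φ q)
  have hlam0 : L.lam p.1 = L.lam (tr p.2 p.1) := lam_eq_of_Fl L (hKX hx₀K) hFe
  have he : Tendsto (fun q : ℕ => (1 : ℝ) / (φ q + 1)) atTop (𝓝 0) :=
    tendsto_one_div_add_atTop_nhds_zero_nat.comp hφ.tendsto_atTop
  obtain ⟨h1, h2⟩ := limit_ent hlc he (fun q => hnV (φ q)) (fun q => hlarge (φ q))
  exact limit_alg hij L (hKX hx₀K) (hKX hy₀K) (hsym _ hx₀K) (hV _ hx₀K p.2 hy₀K) hlam0 h1 hc₀ h2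

/-! ### densities of visits -/

theorem mp_av {μ : Measure (X n)} (hA : AInv μ) (i j : Fin n) (v : ℤ) :
    MeasurePreserving (tr (av i j v)) μ μ := mp_of_map (hA _)

theorem iter_av (i j : Fin n) (k : ℕ) (x : X n) :
    (tr (av i j 1))^[k] x = tr (av i j k) x := by
  rw [iterate_tr, av_zpow i j k, zpow_natCast]

theorem iter_av_neg (i j : Fin n) (k : ℕ) (x : X n) :
    (tr (av i j (-1)))^[k] x = tr (av i j (-k)) x := by
  rw [iterate_tr, av_zpow i j (-k), av_zpow i j (-1), ← zpow_natCast, ← _root_.zpow_mul]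
  congr 2
  ring

open Classical in
theorem density {μ : Measure (X n)} [IsProbabilityMeasure μ] (hA : AInv μ) (i j : Fin n)
    {W : Set (X n)} (hW : MeasurableSet W) (hμW : μ Wᶜ ≤ 1 / 8 * (1 / 48)) :
    ∃ Gs : Set (X n), MeasurableSet Gs ∧ μ Gsᶜ ≤ 1 / 4 ∧ ∀ x ∈ Gs, ∀ N : ℕ, 0 < N →
      (((Finset.Ioo (-N : ℤ) N).filter (· ∈ {k : ℤ | tr (av i j k) x ∉ W})).card : ℝ) ≤
        N / 24 := by
  set S1 : Set (X n) := {x | ∃ N : ℕ, 0 < N ∧ (1 / 48 : ℝ≥0∞) * N <
    ({k ∈ Set.Ico 0 N | (tr (av i j 1))^[k] x ∈ Wᶜ} : Set ℕ).ncard} with hS1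
  set S2 : Set (X n) := {x | ∃ N : ℕ, 0 < N ∧ (1 / 48 : ℝ≥0∞) * N <
    ({k ∈ Set.Ico 0 N | (tr (av i j (-1)))^[k] x ∈ Wᶜ} : Set ℕ).ncard} with hS2
  have m1 : μ S1 ≤ μ Wᶜ / (1 / 48) := maximal_visits (mp_av hA i j 1) hW.compl _ (by simp)
  have m2 : μ S2 ≤ μ Wᶜ / (1 / 48) := maximal_visits (mp_av hA i j (-1)) hW.compl _ (by simp)
  have m3 : μ Wᶜ / (1 / 48) ≤ 1 / 8 := ENNReal.div_le_of_le_mul hμW
  refine ⟨(toMeasurable μ (S1 ∪ S2))ᶜ, (measurableSet_toMeasurable _ _).compl, ?_, ?_⟩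
  · rw [compl_compl, measure_toMeasurable]
    refine (measure_union_le _ _).trans ((add_le_add (m1.trans m3) (m2.trans m3)).trans ?_)
    have : (1 / 8 : ℝ≥0∞) + 1 / 8 = 1 / 4 := by
      rw [ENNReal.div_add_div_same]
      rw [ENNReal.div_eq_div_iff] <;> norm_num
    exact this.le
  · intro x hx N hN
    have hx' : x ∉ S1 ∪ S2 := fun h => hx (subset_toMeasurable _ _ h)
    rw [Set.mem_union, not_or] at hx'
    have real_of : ∀ c : ℕ, ¬ ((1 / 48 : ℝ≥0∞) * N < c) → (c : ℝ) ≤ N / 48 := by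
      intro c hc
      rw [not_lt] at hc
      have e1 := ENNReal.toReal_mono (by finiteness) hc
      simpa only [div_eq_inv_mul, ge_iff_le, ENNReal.toReal_natCast, one_div, ENNReal.toReal_mul,
        ENNReal.toReal_inv, ENNReal.toReal_ofNat] using e1
    have n1 := real_of _ fun h => hx'.1 ⟨N, hN, h⟩
    have n2 := real_of _ fun h => hx'.2 ⟨N, hN, h⟩
    have f1 : ({k ∈ Set.Ico 0 N | (tr (av i j 1))^[k] x ∈ Wᶜ} : Set ℕ) =
        (((Finset.range N).filter fun k => tr (av i j k) x ∉ W : Finset ℕ) : Set ℕ) := by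
      ext k
      simp only [Set.mem_Ico, zero_le, true_and, iter_av, Set.mem_compl_iff, Set.mem_ofPred_eq,
        Finset.coe_filter, Finset.mem_range]
    have f2 : ({k ∈ Set.Ico 0 N | (tr (av i j (-1)))^[k] x ∈ Wᶜ} : Set ℕ) =
        (((Finset.range N).filter fun k => tr (av i j (-k)) x ∉ W : Finset ℕ) : Set ℕ) := by
      ext k
      simp only [Set.mem_Ico, zero_le, true_and, Int.reduceNeg, iter_av_neg, Set.mem_compl_iff,
        Set.mem_ofPred_eq, Finset.coe_filter, Finset.mem_range]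
    rw [f1, Set.ncard_coe_finset] at n1
    rw [f2, Set.ncard_coe_finset] at n2
    have hsub : (Finset.Ioo (-N : ℤ) N).filter (· ∈ {k : ℤ | tr (av i j k) x ∉ W}) ⊆
        (((Finset.range N).filter fun k : ℕ => tr (av i j (k : ℤ)) x ∉ W).image (fun k : ℕ => (k : ℤ))) ∪
        (((Finset.range N).filter fun k : ℕ => tr (av i j (-(k : ℤ))) x ∉ W).image
          (fun k : ℕ => -(k : ℤ))) := by
      intro k hk
      rw [Finset.mem_filter, Finset.mem_Ioo] at hk
      rw [Finset.mem_union, Finset.mem_image, Finset.mem_image]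
      obtain ⟨⟨hk1, hk2⟩, hk3⟩ := hk
      rcases le_total 0 k with h0 | h0
      · obtain ⟨m, rfl⟩ := Int.eq_ofNat_of_zero_le h0
        refine Or.inl ⟨m, ?_, rfl⟩
        rw [Finset.mem_filter, Finset.mem_range]
        exact ⟨by exact_mod_cast hk2, hk3⟩
      · obtain ⟨m, hm⟩ := Int.eq_ofNat_of_zero_le (show 0 ≤ -k by omega)
        have hkm : k = -(m : ℤ) := by omega
        subst hkm
        refine Or.inr ⟨m, ?_, rfl⟩
        rw [Finset.mem_filter, Finset.mem_range]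
        exact ⟨by omega, hk3⟩
    have hcard := (Finset.card_le_card hsub).trans ((Finset.card_union_le _ _).trans
      (add_le_add Finset.card_image_le Finset.card_image_le))
    have hcard' : (((Finset.Ioo (-N : ℤ) N).filter
        (· ∈ {k : ℤ | tr (av i j k) x ∉ W})).card : ℝ) ≤
        (((Finset.range N).filter fun k : ℕ => tr (av i j (k : ℤ)) x ∉ W).card : ℝ) +
        (((Finset.range N).filter fun k : ℕ => tr (av i j (-(k : ℤ))) x ∉ W).card : ℝ) := by
      exact_mod_cast hcard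
    linarith only [n1, n2, hcard']

end Vale.Agent.P007.R.LowAux
end

section

/-!
Low entropy: the core of the proof (choice of the sets, Poincaré recurrence, conclusion).
-/

set_option autoImplicit false

open MeasureTheory Matrix Filter Topology ProbabilityTheory
open scoped ENNReal

namespace Vale.Agent.P007.R.LowAux

open Vale.Agent.P007 Vale.Agent.P007.Koopman Vale.Agent.P007.Mautner Vale.Agent.P007.R

variable {n : ℕ}

theorem ae_set {μ : Measure (X n)} {P : X n → Prop} (h : ∀ᵐ x ∂μ, P x) :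
    ∃ Y : Set (X n), MeasurableSet Y ∧ μ Yᶜ = 0 ∧ ∀ x ∈ Y, P x := by
  refine ⟨(toMeasurable μ {x | ¬ P x})ᶜ, (measurableSet_toMeasurable _ _).compl, ?_, ?_⟩
  · rw [compl_compl, measure_toMeasurable]
    exact h
  · intro x hx
    by_contra hcon
    exact hx (subset_toMeasurable _ _ hcon)

theorem ae_mem {μ : Measure (X n)} {Y : Set (X n)} (h : μ Yᶜ = 0) : ∀ᵐ x ∂μ, x ∈ Y :=
  mem_ae_iff.mpr h

theorem ae_goodScale {μ : Measure (X n)} {i j : Fin n} (hij : i ≠ j) (L : Leafwise μ i j) :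
    ∀ᵐ x ∂μ, GoodScale L x := by
  have h1 : ∀ v : ℤ, ∀ᵐ x ∂μ, ∃ c : ℝ≥0∞, c ≠ 0 ∧ c ≠ ∞ ∧
      (L.lam x).map (fun t => Real.exp (-v) * t) = c • L.lam (tr (av i j v) x) := by
    intro v
    have h2 := L.scale ((v : ℝ) • b1 i j)
    have h3 : ((v : ℝ) • b1 i j) j - ((v : ℝ) • b1 i j) i = -v := by
      simp only [Pi.smul_apply, smul_eq_mul, b1_i, b1_j hij]
      ring
    rw [h3] at h2
    exact h2
  exact ae_all_iff.mpr h1

theorem Spread.mono {ν : Measure ℝ} {δ δ' : ℝ} (h : Spread ν δ) (hδ : δ' ≤ δ) : Spread ν δ' := by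
  intro q
  refine (measure_mono ?_).trans (h q)
  refine Set.inter_subset_inter_left _ fun s hs => ?_
  constructor <;> linarith [hs.1, hs.2]

theorem exists_spread {ν : Measure ℝ} (hfin : ν (Set.Icc (-1) 1) ≠ ∞) (hna : ∀ s, ν {s} = 0) :
    ∃ m : ℕ, Spread ν (1 / (m + 1)) := by
  obtain ⟨δ, hδ, h⟩ := nonconc ν hfin hna (η := 1 / 8) (by simp)
  obtain ⟨m, hm⟩ := exists_nat_one_div_lt (show 0 < δ / 2 by positivity)
  refine ⟨m, fun q => ?_⟩
  refine (measure_mono ?_).trans (h q)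
  refine Set.inter_subset_inter_left _ fun s hs => ?_
  constructor <;> linarith only [hs.1, hs.2, hm, hs]

theorem measurableSet_spread {μ : Measure (X n)} {i j : Fin n} (L : Leafwise μ i j) (δ : ℝ) :
    MeasurableSet {w : X n | Spread (L.lam w) δ} := by
  have h1 : {w : X n | Spread (L.lam w) δ} = ⋂ q : ℚ,
      {w | L.lam w (Set.Icc (q - 2 * δ : ℝ) (q + 2 * δ) ∩ Set.Icc (-1) 1) ≤ 1 / 8} := by
    ext w
    simp only [Spread, Set.mem_ofPred_eq, Set.mem_iInter]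
  rw [h1]
  exact MeasurableSet.iInter fun q => measurableSet_le
    (Kernel.measurable_coe L.lam (measurableSet_Icc.inter measurableSet_Icc)) measurable_const

theorem exists_spread_set {μ : Measure (X n)} [IsProbabilityMeasure μ] {i j : Fin n}
    (L : Leafwise μ i j) (hna : ∀ᵐ x ∂μ, ∀ s : ℝ, L.lam x {s} = 0) {ε : ℝ≥0∞} (hε : ε ≠ 0) :
    ∃ δ : ℝ, 0 < δ ∧ δ ≤ 1 ∧ μ {w : X n | Spread (L.lam w) δ}ᶜ < ε := by
  have hanti : Antitone fun m : ℕ => {w : X n | Spread (L.lam w) (1 / (m + 1))}ᶜ := by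
    intro m m' hmm w hw h
    apply hw
    refine Spread.mono h ?_
    have : (m : ℝ) ≤ m' := by exact_mod_cast hmm
    (clear * - this; gcongr)
  have h1 := tendsto_measure_iInter_atTop (μ := μ)
    (fun m : ℕ => (measurableSet_spread L (1 / (m + 1))).compl.nullMeasurableSet) hanti
    ⟨0, measure_ne_top _ _⟩
  have h2 : μ (⋂ m : ℕ, {w : X n | Spread (L.lam w) (1 / (m + 1))}ᶜ) = 0 := by
    have h3 : ∀ᵐ x ∂μ, x ∉ ⋂ m : ℕ, {w : X n | Spread (L.lam w) (1 / (m + 1))}ᶜ := by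
      filter_upwards [hna, ae_mem L.conull] with x hx hx0 hmem
      obtain ⟨m, hm⟩ := exists_spread (L.lf x hx0 1).ne hx
      rw [Set.mem_iInter] at hmem
      exact hmem m hm
    exact measure_eq_zero_iff_ae_notMem.mpr h3
  rw [h2] at h1
  obtain ⟨m, hm⟩ := (h1.eventually_lt_const (pos_iff_ne_zero.mpr hε)).exists
  refine ⟨1 / (m + 1), by positivity, ?_, hm⟩
  rw [div_le_one (by positivity)]
  have : (0 : ℝ) ≤ m := Nat.cast_nonneg m
  linarith

/-- smallness of the data of `h` near `1` -/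
theorem eventually_small (i j : Fin n) (hij : i ≠ j) {d : ℝ} (hd : 0 < d) :
    ∀ᶠ h : G n in 𝓝 1, (∀ k l, |h.1 k l - (1 : Matrix (Fin n) (Fin n) ℝ) k l| ≤ d) ∧
      cA0 i j h ≤ d ∧ cA1 i j h ≤ d ∧ cA2 i j h ≤ d := by
  have h1 : ∀ k l : Fin n, ((1 : G n).1 k l) = (1 : Matrix (Fin n) (Fin n) ℝ) k l := fun k l => rfl
  have hji : (1 : G n).1 j i = 0 := by rw [h1, Matrix.one_apply_ne hij.symm]
  have hij' : (1 : G n).1 i j = 0 := by rw [h1, Matrix.one_apply_ne hij]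
  refine Filter.Eventually.and ?_ (Filter.Eventually.and ?_ (Filter.Eventually.and ?_ ?_))
  · rw [eventually_all]
    intro k
    rw [eventually_all]
    intro l
    have hc : Continuous fun h : G n => |h.1 k l - (1 : Matrix (Fin n) (Fin n) ℝ) k l| :=
      ((continuous_ent k l).sub continuous_const).abs
    have h2 := hc.tendsto 1
    rw [h1, sub_self, abs_zero] at h2
    filter_upwards [h2.eventually_lt_const hd] with h hh
    exact hh.le
  · have hc : Continuous fun h : G n => cA0 i j h := by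
      unfold cA0
      exact (continuous_ent i j).abs.add (continuous_finsetSum _ fun l _ =>
        ((continuous_ent i l).pow 2).add ((continuous_ent l j).pow 2))
    have h2 := hc.tendsto 1
    have h3 : cA0 i j (1 : G n) = 0 := by
      rw [cA0, hij', abs_zero, zero_add]
      refine Finset.sum_eq_zero fun l hl => ?_
      rw [Finset.mem_filter] at hl
      rw [h1, h1, Matrix.one_apply_ne hl.2.1.symm, Matrix.one_apply_ne hl.2.2]
      norm_num
    rw [h3] at h2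
    filter_upwards [h2.eventually_lt_const hd] with h hh
    exact hh.le
  · have hc : Continuous fun h : G n => cA1 i j h := by
      unfold cA1
      exact ((continuous_ent i i).sub (continuous_ent j j)).abs
    have h2 := hc.tendsto 1
    have h3 : cA1 i j (1 : G n) = 0 := by
      rw [cA1, h1, h1, Matrix.one_apply_eq, Matrix.one_apply_eq, sub_self, abs_zero]
    rw [h3] at h2
    filter_upwards [h2.eventually_lt_const hd] with h hh
    exact hh.le
  · have hc : Continuous fun h : G n => cA2 i j h := by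
      unfold cA2
      exact (continuous_ent j i).abs.add (continuous_finsetSum _ fun l _ =>
        ((continuous_ent j l).pow 2).add ((continuous_ent l i).pow 2))
    have h2 := hc.tendsto 1
    have h3 : cA2 i j (1 : G n) = 0 := by
      rw [cA2, hji, abs_zero, zero_add]
      refine Finset.sum_eq_zero fun l hl => ?_
      rw [Finset.mem_filter] at hl
      rw [h1, h1, Matrix.one_apply_ne hl.2.2.symm, Matrix.one_apply_ne hl.2.1]
      norm_num
    rw [h3] at h2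
    filter_upwards [h2.eventually_lt_const hd] with h hh
    exact hh.le

/-- not in the centraliser: one of the growth coefficients is positive -/
theorem pos_of_not_cent {i j : Fin n} {h : G n} (hC : ¬ Cent i j h) :
    0 < cA1 i j h ∨ 0 < cA2 i j h := by
  by_contra hcon
  rw [not_or, not_lt, not_lt] at hcon
  apply hC
  have e1 : h.1 i i - h.1 j j = 0 := by
    have := le_antisymm hcon.1 (cA1_nonneg i j h)
    rwa [cA1, abs_eq_zero] at this
  have e2 : |h.1 j i| + ∑ l with l ≠ i ∧ l ≠ j, (h.1 j l ^ 2 + h.1 l i ^ 2) = 0 :=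
    le_antisymm hcon.2 (cA2_nonneg i j h)
  have e3 : 0 ≤ ∑ l with l ≠ i ∧ l ≠ j, (h.1 j l ^ 2 + h.1 l i ^ 2) :=
    Finset.sum_nonneg fun _ _ => by (clear * -; positivity)
  have e4 : |h.1 j i| = 0 := by linarith only [abs_nonneg (h.1 j i), e2, e3]
  have e5 : ∑ l with l ≠ i ∧ l ≠ j, (h.1 j l ^ 2 + h.1 l i ^ 2) = 0 := by linarith
  rw [Finset.sum_eq_zero_iff_of_nonneg (fun _ _ => by (clear * -; positivity))] at e5
  rw [abs_eq_zero] at e4
  have e6 : ∀ l, l ≠ i → l ≠ j → h.1 j l = 0 ∧ h.1 l i = 0 := by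
    intro l hi hj
    have := e5 l (by simp only [ne_eq, Finset.mem_filter, Finset.mem_univ, hi, not_false_eq_true,
                       hj, and_self])
    constructor
    · nlinarith only [sq_nonneg (h.1 l i), this]
    · nlinarith only [sq_nonneg (h.1 j l), this]
  refine ⟨sub_eq_zero.mp e1, fun k hk => ?_, fun l hl => ?_⟩
  · by_cases hkj : k = j
    · rw [hkj]; exact e4
    · exact (e6 k hk hkj).2
  · by_cases hli : l = i
    · rw [hli]; exact e4
    · exact (e6 l hli hl).1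

/-- the points whose scaled leafwise measures see mostly `K` -/
def MaxG {μ : Measure (X n)} {i j : Fin n} (L : Leafwise μ i j) (K : Set (X n)) (w : X n) : Prop :=
  ∀ r : ℝ, 0 < r → L.lam w (Set.Icc (-r) r ∩ {s | tr (ug i j s) w ∉ K}) ≤
    1 / 4 * L.lam w (Set.Icc (-r) r)

/-- existence of the compact set `K` and of the good set `W` -/
theorem exists_KW {μ : Measure (X n)} [IsProbabilityMeasure μ] {i j : Fin n} (L : Leafwise μ i j)
    (hna : ∀ᵐ x ∂μ, ∀ s : ℝ, L.lam x {s} = 0) {Y : Set (X n)} (hY : MeasurableSet Y)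
    (hY0 : μ Yᶜ = 0) :
    ∃ K ⊆ Y, IsCompact K ∧ ContinuousOn (Fl L) K ∧ ∃ δ : ℝ, 0 < δ ∧ δ ≤ 1 ∧ ∃ W : Set (X n),
      MeasurableSet W ∧ μ Wᶜ ≤ 1 / 8 * (1 / 48) ∧
      ∀ w ∈ W, w ∈ L.X0 ∧ Spread (L.lam w) δ ∧ MaxG L K w := by
  set η : ℝ≥0∞ := 1 / 8 * (1 / 48) with hη
  have hη0 : η ≠ 0 := by simp only [hη, one_div, ne_eq, mul_eq_zero, ENNReal.inv_eq_zero,
                           ENNReal.ofNat_ne_top, or_self, not_false_eq_true]
  have hη2 : η / 2 ≠ 0 := by simp [hη0]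
  obtain ⟨K, hKY, hKc, hKμ, hKF⟩ := lusin μ (Fl L) (measurable_Fl L) hY
    (ε := η / 2 / 8) (by simp [hη0])
  obtain ⟨δ, hδ0, hδ1, hδ⟩ := exists_spread_set L hna hη2
  have hKcompl : μ Kᶜ ≤ η / 2 / 8 := by
    have h1 : Kᶜ ⊆ Yᶜ ∪ (Y \ K) := by
      intro x hx
      by_cases hxY : x ∈ Y
      · exact Or.inr ⟨hxY, hx⟩
      · exact Or.inl hxY
    refine (measure_mono h1).trans ((measure_union_le _ _).trans ?_)
    rw [hY0, zero_add]
    exact hKμ.le
  have hmax := L.maxi K hKc.isClosed.measurableSet (1 / 4) (by simp) (by simp)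
  set S : Set (X n) := {x | ∃ r : ℝ, 0 < r ∧ 1 / 4 * L.lam x (Set.Icc (-r) r) <
      L.lam x (Set.Icc (-r) r ∩ {s | tr (ug i j s) x ∉ K})} with hS
  have hSμ : μ S ≤ η / 2 := by
    refine hmax.trans ?_
    have h1 : (2 : ℝ≥0∞) / (1 / 4) = 8 := by
      rw [one_div, div_eq_mul_inv, inv_inv]
      norm_num
    rw [h1]
    refine (mul_le_mul_right hKcompl 8).trans ?_
    rw [ENNReal.mul_div_cancel (by norm_num) (by norm_num)]
  refine ⟨K, hKY, hKc, hKF, δ, hδ0, hδ1,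
    L.X0 ∩ ({w | Spread (L.lam w) δ} ∩ (toMeasurable μ S)ᶜ), ?_, ?_, ?_⟩
  · exact L.meas.inter ((measurableSet_spread L δ).inter (measurableSet_toMeasurable _ _).compl)
  · rw [Set.compl_inter, Set.compl_inter, compl_compl]
    refine (measure_union_le _ _).trans ?_
    rw [L.conull, zero_add]
    refine (measure_union_le _ _).trans ?_
    rw [measure_toMeasurable]
    calc μ {w | Spread (L.lam w) δ}ᶜ + μ S ≤ η / 2 + η / 2 := add_le_add hδ.le hSμ
      _ = η := ENNReal.add_halves η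
  · rintro w ⟨hw1, hw2, hw3⟩
    refine ⟨hw1, hw2, fun r hr => ?_⟩
    by_contra hcon
    rw [not_le] at hcon
    exact hw3 (subset_toMeasurable _ _ ⟨r, hr, hcon⟩)

theorem low_core (hn : Odd n) (μ : Measure (X n)) [IsProbabilityMeasure μ] (hA : AInv μ)
    {i j : Fin n} (hij : i ≠ j) (L : Leafwise μ i j)
    (hleaf : ∀ E : Set (X n), MeasurableSet E → μ Eᶜ = 0 →
      ∀ᵐ x ∂μ, ∀ᵐ s ∂(L.lam x), tr (ug i j s) x ∈ E)
    (hconst : ∃ X' : Set (X n), MeasurableSet X' ∧ μ X'ᶜ = 0 ∧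
      ∀ x ∈ X', ∀ k : ℤ, L.lam (tr (da (bp i j) ^ k) x) = L.lam x)
    (hna : ∀ᵐ x ∂μ, ∀ s : ℝ, L.lam x {s} = 0)
    (hsym : ∀ᵐ x ∂μ, ∀ σ : ℝ, (∃ c : ℝ≥0∞, c ≠ 0 ∧ c ≠ ∞ ∧
      (L.lam x).map (fun t => t - σ) = c • L.lam x) → σ = 0)
    (hV : ∃ X' : Set (X n), MeasurableSet X' ∧ μ X'ᶜ = 0 ∧ ∀ x ∈ X', ∀ c : G n, tr c x ∈ X' →
      (∀ k, c.1 k k = 1) → (∀ k l, k ≠ l → ¬ Vpos i j k l → c.1 k l = 0) →
      ∀ l, l ≠ i → l ≠ j → c.1 i l = 0 ∧ c.1 l j = 0) : False := by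
  classical
  obtain ⟨XV, -, hXV0, hXV⟩ := hV
  obtain ⟨Xc, hXc, hXc0, hXc'⟩ := hconst
  -- the good set `Y`
  obtain ⟨Y, hY, hY0, hYP⟩ := ae_set ((ae_mem L.conull).and ((ae_mem hXV0).and
    (hsym.and (ae_goodScale hij L))))
  obtain ⟨Yl, hYl, hYl0, hYlP⟩ := ae_set (hleaf Y hY hY0)
  obtain ⟨K, hKY, hKc, hKF, δ, hδ0, hδ1, W, hW, hWμ, hWP⟩ := exists_KW L hna hY hY0
  obtain ⟨Gd, hGd, hGdμ, hGdP⟩ := density hA i j hW hWμ
  -- the set `Gs`
  set Gs : Set (X n) := (Y ∩ Yl) ∩ (Xc ∩ Gd) with hGs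
  have hGsm : MeasurableSet Gs := (hY.inter hYl).inter (hXc.inter hGd)
  have hGsμ : μ Gs ≠ 0 := by
    intro h0
    have h1 : μ Gsᶜ ≤ 1 / 4 := by
      rw [hGs, Set.compl_inter, Set.compl_inter, Set.compl_inter]
      calc μ ((Yᶜ ∪ Ylᶜ) ∪ (Xcᶜ ∪ Gdᶜ)) ≤ μ (Yᶜ ∪ Ylᶜ) + μ (Xcᶜ ∪ Gdᶜ) := measure_union_le _ _
        _ ≤ (μ Yᶜ + μ Ylᶜ) + (μ Xcᶜ + μ Gdᶜ) :=
            add_le_add (measure_union_le _ _) (measure_union_le _ _)
        _ ≤ 1 / 4 := by
            rw [hY0, hYl0, hXc0, zero_add, zero_add, zero_add]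
            exact hGdμ
    have h2 := measure_add_measure_compl (μ := μ) hGsm
    rw [h0, zero_add, measure_univ] at h2
    rw [h2] at h1
    have h3 := ENNReal.toReal_mono (by simp) h1
    norm_num at h3
  -- Poincaré recurrence for the element `da (bp i j)`
  have hP := poincare μ (da (bp i j)) (hA _) hGsm
  obtain ⟨x, hxG, hxP⟩ : ∃ x ∈ Gs, ∀ U ∈ 𝓝 (1 : G n), ∃ᶠ m : ℕ in atTop, ∃ h ∈ U,
      tr (da (bp i j) ^ m) x = tr h x ∧ tr (da (bp i j) ^ m) x ∈ Gs := by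
    by_contra hcon
    push Not at hcon
    apply hGsμ
    refine measure_mono_null ?_ hP
    intro x hx hx2
    obtain ⟨U, hU, hU2⟩ := hcon x hx
    have h1 := hx2 hx U hU
    exact h1 (hU2.mono fun m hm => by
      push Not
      exact hm)
  obtain ⟨δa, hδa, harith⟩ := arith hn hij
  refine limit_contra hij L hKc (fun x hx => (hYP x (hKY hx)).1) hKF
    (fun x hx => (hYP x (hKY hx)).2.2.1)
    (fun x hx c hc => hXV x (hYP x (hKY hx)).2.1 c (hYP _ (hKY hc)).2.1)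
    (c₀ := 1 / (2 * (n : ℝ) + 2) * (δ ^ 2 / 20)) (by (clear * - hδ0; positivity)) ?_
  intro ε hε
  -- choose `ρ`
  obtain ⟨ρ, hρ1, hρε⟩ : ∃ ρ : ℝ, 1 ≤ ρ ∧ Real.exp (1 - ρ) ≤ ε / 2 := by
    refine ⟨max 1 (1 - Real.log (ε / 2)), le_max_left _ _, ?_⟩
    have h1 := le_max_right 1 (1 - Real.log (ε / 2))
    calc Real.exp (1 - max 1 (1 - Real.log (ε / 2))) ≤ Real.exp (Real.log (ε / 2)) :=
          Real.exp_le_exp.mpr (by linarith only [h1])
      _ = ε / 2 := Real.exp_log (by positivity)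
  obtain ⟨d, hd, hwin⟩ := window ρ
  have hd' : 0 < min d (min δa (ε / 2)) := by (clear * - hδa hε hd; positivity)
  have hU : {h : G n | (∀ k l, |h.1 k l - (1 : Matrix (Fin n) (Fin n) ℝ) k l| ≤
      min d (min δa (ε / 2))) ∧ cA0 i j h ≤ min d (min δa (ε / 2)) ∧
      cA1 i j h ≤ min d (min δa (ε / 2)) ∧ cA2 i j h ≤ min d (min δa (ε / 2))} ∈ 𝓝 (1 : G n) :=
    eventually_small i j hij hd'
  obtain ⟨m, ⟨h, ⟨hh1, hh2, hh3, hh4⟩, hmx, hmG⟩, hm1⟩ :=
    ((hxP _ hU).and_eventually (eventually_ge_atTop 1)).exists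
  have hle1 : min d (min δa (ε / 2)) ≤ d := min_le_left _ _
  have hle2 : min d (min δa (ε / 2)) ≤ δa := (min_le_right _ _).trans (min_le_left _ _)
  have hle3 : min d (min δa (ε / 2)) ≤ ε / 2 := (min_le_right _ _).trans (min_le_right _ _)
  have hnC : ¬ Cent i j h := harith h (fun k l => (hh1 k l).trans hle2) m hm1 x hmx
  have hlam : L.lam x = L.lam (tr h x) := by
    rw [← hmx, ← zpow_natCast]
    exact (hXc' x hxG.2.1 m).symm
  rw [hmx] at hmG
  -- bad times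
  obtain ⟨T, v, hT, hv, hv', hgap, hA0, hg1, hg2⟩ := hwin (cA0 i j h) (cA1 i j h) (cA2 i j h)
    (cA1_nonneg i j h) (cA2_nonneg i j h) (hh2.trans hle1) (hh3.trans hle1) (hh4.trans hle1)
    (pos_of_not_cent hnC) {k : ℤ | tr (av i j k) x ∉ W} {k : ℤ | tr (av i j k) (tr h x) ∉ W}
    (fun N hN => by convert hGdP x hxG.2.2 N hN) (fun N hN => by convert hGdP _ hmG.2.2 N hN)
  simp only [Set.mem_ofPred_eq, not_not] at hT hv hv'
  have htim : Tim i j h (ε / 2) ρ T v :=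
    ⟨fun k l => (hh1 k l).trans hle3, hgap, hA0, hg1, hg2⟩
  obtain ⟨x', hx'K, c, hcK, hcl, hc1, hc2, hc3⟩ := pair hij L (fun x hx => (hYP x hx).1)
    (fun x hx => (hYP x hx).2.2.2) hKY hKc.isClosed.measurableSet htim (by (clear * - hε; positivity)) hρ1
    hxG.1.1 hmG.1.1 hlam (hYlP x hxG.1.2) (hYlP _ hmG.1.2) (hWP _ hT).1 (hWP _ hT).2.1 hδ0 hδ1
    (hWP _ hv).2.2 (hWP _ hv').2.2
  refine ⟨x', hx'K, c, hcK, hcl, fun k l hkl => (hc1 k l hkl).trans ?_, hc2, hc3⟩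
  linarith only [hρε]

end Vale.Agent.P007.R.LowAux
end

section

/-!
III.7 (low entropy): if the roots `(i,l)`, `(l,j)`, `l ≠ i,j`, are trivial, the root `(i,j)` is not,
`μ` is pure and `n` is odd, then `μ` is invariant under `u_ij`.
-/

set_option autoImplicit false

open MeasureTheory Matrix Filter Topology ProbabilityTheory
open scoped ENNReal

namespace Vale.Agent.P007.R

open Vale.Agent.P007 Vale.Agent.P007.Koopman Vale.Agent.P007.Mautner

variable {n : ℕ}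

theorem low (hn : Odd n) (μ : Measure (X n)) [IsProbabilityMeasure μ] (hA : AInv μ) (hP : Pure μ)
    {i j : Fin n} (hij : i ≠ j) (h1 : ¬ Triv μ i j)
    (h2 : ∀ l, l ≠ i → l ≠ j → Triv μ i l ∧ Triv μ l j) : UInv μ i j := by
  by_contra hU
  obtain ⟨L⟩ := exists_leafwise μ hA hij
  have hsym : ∀ᵐ x ∂μ, ∀ σ : ℝ, (∃ c : ℝ≥0∞, c ≠ 0 ∧ c ≠ ∞ ∧
      (L.lam x).map (fun t => t - σ) = c • L.lam x) → σ = 0 := by
    by_contra hcon
    exact hU (L.uinv_of_sym hA hP hij hcon)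
  obtain ⟨Xc, -, hXc, hXc0, hXc', -⟩ := L.const hA (LowAux.bp i j) (by simp [LowAux.bp])
  obtain ⟨XV, hXV, hXV0, hXV'⟩ := lemmaV μ hA ({i, j} : Set (Fin n)) hij (by simp) (by simp)
    (fun l hl => h2 l (fun h => hl (by simp [h])) (fun h => hl (by simp [h])))
  refine LowAux.low_core hn μ hA hij L (fun E hE hE0 => L.ae_leaf hE hE0)
    ⟨Xc, hXc, hXc0, fun x hx k => (hXc' x hx k).2⟩ (L.noAtoms hA hP hij h1) hsym
    ⟨XV, hXV, hXV0, fun x hx c hc hd hoff l hli hlj => ?_⟩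
  refine hXV' x hx c hc hd (fun k l hkl e1 e2 e3 => hoff k l hkl ?_) l (by simp [hli, hlj])
  rintro ⟨h3 | h3, h4, h5⟩
  · subst h3
    by_cases h6 : l = j
    · exact e1 ⟨rfl, h6⟩
    · exact e2 ⟨rfl, by simp [h5, h6]⟩
  · subst h3
    by_cases h6 : k = i
    · exact e1 ⟨h6, rfl⟩
    · exact e3 ⟨by simp [h6, h4], rfl⟩

end Vale.Agent.P007.R
end

section

/-! The embedding of `SL_B(ℝ)` into `SL_n(ℝ)` (identity on the complement of `B`), block diagonal
matrices, and invariance of measures under the embedded group. -/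

set_option autoImplicit false

open MeasureTheory Matrix Filter Topology ProbabilityTheory
open scoped ENNReal

namespace Vale.Agent.P007.R.Blk

open Vale.Agent.P007 Vale.Agent.P007.Koopman Vale.Agent.P007.Mautner Vale.Agent.P007.R

variable {n : ℕ}

/-! ### topology of `SL_B(ℝ)` -/

/-- `SL_B(ℝ)` -/
abbrev HB (B : Finset (Fin n)) : Type := Matrix.SpecialLinearGroup B ℝ

section top

variable (B : Finset (Fin n))

instance : LocallyCompactSpace (Matrix B B ℝ) :=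
  inferInstanceAs (LocallyCompactSpace (B → B → ℝ))

instance : SecondCountableTopology (Matrix B B ℝ) :=
  inferInstanceAs (SecondCountableTopology (B → B → ℝ))

instance : LocallyCompactSpace (HB B) :=
  Matrix.SpecialLinearGroup.isClosedEmbedding_val.locallyCompactSpace

instance : SecondCountableTopology (HB B) :=
  Matrix.SpecialLinearGroup.isClosedEmbedding_val.isEmbedding.secondCountableTopology

instance : T2Space (HB B) :=
  Matrix.SpecialLinearGroup.isClosedEmbedding_val.isEmbedding.t2Space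

instance : MeasurableSpace (HB B) := borel (HB B)

instance : BorelSpace (HB B) := ⟨rfl⟩

/-- Haar measure on `SL_B(ℝ)` -/
noncomputable def hH : Measure (HB B) := Measure.haar

instance : (hH B).IsHaarMeasure := inferInstanceAs (Measure.haar (G := HB B)).IsHaarMeasure

end top

/-! ### the embedding -/

section emb

variable {B : Finset (Fin n)}

/-- the block matrix `diag(M, 1)` -/
def bm (M : Matrix B B ℝ) : Matrix (Fin n) (Fin n) ℝ :=
  (fromBlocks M 0 0 1).submatrix (Equiv.sumCompl (· ∈ B)).symm (Equiv.sumCompl (· ∈ B)).symm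

theorem bm_apply_mem (M : Matrix B B ℝ) (i j : B) : bm M i j = M i j := by
  unfold bm
  simp

theorem bm_apply_mem' (M : Matrix B B ℝ) {i j : Fin n} (hi : i ∈ B) (hj : j ∈ B) :
    bm M i j = M ⟨i, hi⟩ ⟨j, hj⟩ := bm_apply_mem M ⟨i, hi⟩ ⟨j, hj⟩

theorem bm_apply_mem_not (M : Matrix B B ℝ) {i j : Fin n} (hi : i ∈ B) (hj : j ∉ B) :
    bm M i j = 0 := by
  unfold bm
  rw [submatrix_apply, Equiv.sumCompl_symm_apply_of_pos hi, Equiv.sumCompl_symm_apply_of_neg hj]
  rfl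

theorem bm_apply_not_mem (M : Matrix B B ℝ) {i j : Fin n} (hi : i ∉ B) (hj : j ∈ B) :
    bm M i j = 0 := by
  unfold bm
  rw [submatrix_apply, Equiv.sumCompl_symm_apply_of_neg hi, Equiv.sumCompl_symm_apply_of_pos hj]
  rfl

theorem bm_apply_not_not (M : Matrix B B ℝ) {i j : Fin n} (hi : i ∉ B) (hj : j ∉ B) :
    bm M i j = if i = j then 1 else 0 := by
  unfold bm
  rw [submatrix_apply, Equiv.sumCompl_symm_apply_of_neg hi, Equiv.sumCompl_symm_apply_of_neg hj]
  rw [fromBlocks_apply₂₂, one_apply]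
  simp only [Subtype.mk.injEq]

theorem bm_mul (M N : Matrix B B ℝ) : bm (M * N) = bm M * bm N := by
  unfold bm
  rw [submatrix_mul_equiv, fromBlocks_multiply]
  simp only [Matrix.mul_zero, add_zero, Matrix.mul_one, Matrix.zero_mul, mul_one, zero_add]

theorem bm_one : bm (1 : Matrix B B ℝ) = 1 := by
  unfold bm
  rw [fromBlocks_one, submatrix_one_equiv]

theorem det_bm (M : Matrix B B ℝ) : (bm M).det = M.det := by
  unfold bm
  rw [det_submatrix_equiv_self, det_fromBlocks_zero₂₁, det_one, mul_one]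

/-- the embedding `SL_B(ℝ) → SL_n(ℝ)` -/
def io : HB B →* G n where
  toFun M := ⟨bm M.1, by rw [det_bm]; exact M.2⟩
  map_one' := Subtype.ext bm_one
  map_mul' M N := Subtype.ext (bm_mul M.1 N.1)

theorem coe_io (M : HB B) : ((io M : G n) : Matrix (Fin n) (Fin n) ℝ) = bm M.1 := rfl

theorem continuous_io : Continuous (io : HB B → G n) := by
  refine (Matrix.SpecialLinearGroup.isClosedEmbedding_val.isEmbedding.isInducing.continuous_iff).mpr ?_
  change Continuous fun M : HB B => bm M.1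
  unfold bm
  fun_prop

/-- `h` is block diagonal for `B`, `Bᶜ`. -/
def BD (B : Finset (Fin n)) (h : Matrix (Fin n) (Fin n) ℝ) : Prop :=
  ∀ i ∈ B, ∀ l ∉ B, h i l = 0 ∧ h l i = 0

theorem BD_bm (M : Matrix B B ℝ) : BD B (bm M) := fun _ hi _ hl =>
  ⟨bm_apply_mem_not M hi hl, bm_apply_not_mem M hl hi⟩

theorem BD.mul {h k : Matrix (Fin n) (Fin n) ℝ} (hh : BD B h) (hk : BD B k) : BD B (h * k) := by
  intro i hi l hl
  rw [mul_apply, mul_apply]
  refine ⟨Finset.sum_eq_zero fun j _ => ?_, Finset.sum_eq_zero fun j _ => ?_⟩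
  · by_cases hj : j ∈ B
    · rw [(hk j hj l hl).1, mul_zero]
    · rw [(hh i hi j hj).1, zero_mul]
  · by_cases hj : j ∈ B
    · rw [(hh j hj l hl).2, zero_mul]
    · rw [(hk i hi j hj).2, mul_zero]

theorem BD_io (M : HB B) : BD B (io M : G n).1 := BD_bm M.1

end emb

/-! ### invariance -/

/-- the invariance group of a measure -/
def invG (μ : Measure (X n)) : Subgroup (G n) where
  carrier := {g | μ.map (tr g) = μ}
  one_mem' := by
    have : (tr (1 : G n)) = id := funext fun x => Vale.Agent.P007.tr_one x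
    change μ.map (tr 1) = μ
    rw [this, Measure.map_id]
  mul_mem' := by
    intro g h hg hh
    change μ.map (tr (g * h)) = μ
    have h1 : tr (g * h) = tr h ∘ tr g := funext fun x => (tr_tr g h x).symm
    rw [h1, ← Measure.map_map (continuous_tr h).measurable (continuous_tr g).measurable]
    change μ.map (tr g) = μ at hg
    rw [hg]
    exact hh
  inv_mem' := by
    intro g hg
    change μ.map (tr g) = μ at hg
    change μ.map (tr g⁻¹) = μ
    conv_lhs => rw [← hg]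
    rw [Measure.map_map (continuous_tr _).measurable (continuous_tr g).measurable]
    have h1 : tr g⁻¹ ∘ tr g = id := funext fun x => by
      rw [Function.comp_apply, tr_tr, mul_inv_cancel, Vale.Agent.P007.tr_one]
      rfl
    rw [h1, Measure.map_id]

theorem mem_invG {μ : Measure (X n)} {g : G n} : g ∈ invG μ ↔ μ.map (tr g) = μ := Iff.rfl

theorem mp_of_mem {μ : Measure (X n)} {g : G n} (h : g ∈ invG μ) :
    MeasurePreserving (tr g) μ μ := ⟨(continuous_tr g).measurable, h⟩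

section inv

variable {B : Finset (Fin n)}

theorem io_transvection {i j : B} (hij : i ≠ j) (c : ℝ) :
    (io (Matrix.SpecialLinearGroup.transvection hij c) : G n) =
      tv (show (i : Fin n) ≠ j from fun h => hij (Subtype.ext h)) c := by
  apply Subtype.ext
  rw [coe_io, coe_tv]
  ext k l
  rw [transvection, Matrix.add_apply, Matrix.single_apply, Matrix.one_apply]
  by_cases hk : k ∈ B
  · by_cases hl : l ∈ B
    · rw [bm_apply_mem' _ hk hl]
      change (Matrix.transvection i j c) ⟨k, hk⟩ ⟨l, hl⟩ = _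
      rw [transvection, Matrix.add_apply, Matrix.single_apply, Matrix.one_apply]
      simp only [Subtype.ext_iff]
    · rw [bm_apply_mem_not _ hk hl]
      have h1 : k ≠ l := fun h => hl (h ▸ hk)
      have h2 : ¬ ((i : Fin n) = k ∧ (j : Fin n) = l) := fun h => hl (h.2 ▸ j.2)
      rw [if_neg h1, if_neg h2, add_zero]
  · by_cases hl : l ∈ B
    · rw [bm_apply_not_mem _ hk hl]
      have h1 : k ≠ l := fun h => hk (h ▸ hl)
      have h2 : ¬ ((i : Fin n) = k ∧ (j : Fin n) = l) := fun h => hk (h.1 ▸ i.2)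
      rw [if_neg h1, if_neg h2, add_zero]
    · rw [bm_apply_not_not _ hk hl]
      have h2 : ¬ ((i : Fin n) = k ∧ (j : Fin n) = l) := fun h => hl (h.2 ▸ j.2)
      rw [if_neg h2, add_zero]


theorem io_diag2n {i j : B} (hij : i ≠ j) {c : ℝ} (hc : c ≠ 0) :
    (io (Matrix.SpecialLinearGroup.diag2n hij c hc) : G n) =
      Matrix.SpecialLinearGroup.diag2n
        (show (i : Fin n) ≠ j from fun h => hij (Subtype.ext h)) c hc := by
  apply Subtype.ext
  have e1 : (Matrix.SpecialLinearGroup.diag2n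
        (show (i : Fin n) ≠ j from fun h => hij (Subtype.ext h)) c hc).1 =
      diagonal fun k => if k = (i : Fin n) then c else if k = j then c⁻¹ else 1 := rfl
  have e2 : (Matrix.SpecialLinearGroup.diag2n hij c hc).1 =
      diagonal fun k => if k = i then c else if k = j then c⁻¹ else 1 := rfl
  rw [coe_io, e1, e2]
  ext k l
  rw [diagonal_apply]
  by_cases hk : k ∈ B
  · by_cases hl : l ∈ B
    · rw [bm_apply_mem' _ hk hl, diagonal_apply]
      simp only [Subtype.ext_iff]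
    · rw [bm_apply_mem_not _ hk hl]
      have h1 : k ≠ l := fun h => hl (h ▸ hk)
      rw [if_neg h1]
  · by_cases hl : l ∈ B
    · rw [bm_apply_not_mem _ hk hl]
      have h1 : k ≠ l := fun h => hk (h ▸ hl)
      rw [if_neg h1]
    · rw [bm_apply_not_not _ hk hl]
      have h1 : k ≠ i := fun h => hk (h ▸ i.2)
      have h2 : k ≠ j := fun h => hk (h ▸ j.2)
      rw [if_neg h1, if_neg h2]

/-- invariance under the root groups of `B` gives invariance under `SL_B(ℝ)`. -/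
theorem io_mem_invG (μ : Measure (X n)) (hB : 2 ≤ B.card)
    (h1 : ∀ i ∈ B, ∀ j ∈ B, i ≠ j → UInv μ i j) (M : HB B) : (io M : G n) ∈ invG μ := by
  have hnt : Nontrivial B := by
    rw [← Fintype.one_lt_card_iff_nontrivial, Fintype.card_coe]
    omega
  have htv : ∀ (i j : Fin n) (hij : i ≠ j), i ∈ B → j ∈ B → ∀ c : ℝ, tv hij c ∈ invG μ := by
    intro i j hij hi hj c
    rw [mem_invG, ← ug_of_ne hij]
    exact h1 i hi j hj hij c
  refine SpecialLinearGroup.diagonal_transvection_induction'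
    (fun M : HB B => (io M : G n) ∈ invG μ) M ?_ ?_ ?_
  · intro i j hij c hc
    rw [io_diag2n, diag2n_eq _ c 1 hc one_ne_zero]
    exact mul_mem (mul_mem (mul_mem (htv _ _ _ j.2 i.2 _) (htv _ _ _ i.2 j.2 _))
      (htv _ _ _ j.2 i.2 _)) (htv _ _ _ i.2 j.2 _)
  · intro i j hij c
    rw [io_transvection]
    exact htv _ _ _ i.2 j.2 _
  · intro M N hM hN
    rw [map_mul]
    exact mul_mem hM hN

theorem ug_mem_invG {μ : Measure (X n)} {i j : Fin n} (h : UInv μ i j) (s : ℝ) :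
    ug i j s ∈ invG μ := h s

theorem da_mem_invG {μ : Measure (X n)} (h : AInv μ) (β : Fin n → ℝ) :
    da β ∈ invG μ := h β

end inv

end Vale.Agent.P007.R.Blk
end

section

/-! Conjugation by `SL_B(ℝ)`: entries. -/

set_option autoImplicit false

open MeasureTheory Matrix Filter Topology ProbabilityTheory
open scoped ENNReal

namespace Vale.Agent.P007.R.Blk

open Vale.Agent.P007 Vale.Agent.P007.Koopman Vale.Agent.P007.Mautner Vale.Agent.P007.R

variable {n : ℕ} {B : Finset (Fin n)}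

theorem sum_split (f : Fin n → ℝ) : ∑ i, f i = ∑ i : B, f i + ∑ i : {i // i ∉ B}, f i := by
  rw [← Finset.sum_add_sum_compl B f, ← Finset.sum_coe_sort B f]
  congr 1
  exact Finset.sum_subtype Bᶜ (fun x => Finset.mem_compl) f

theorem bm_mul_apply (M : Matrix B B ℝ) (p : Matrix (Fin n) (Fin n) ℝ) (i : B) (l : Fin n) :
    (bm M * p) i l = ∑ j : B, M i j * p j l := by
  rw [mul_apply, sum_split (B := B)]
  have h1 : ∑ j : {j // j ∉ B}, bm M i j * p j l = 0 :=
    Finset.sum_eq_zero fun j _ => by rw [bm_apply_mem_not M i.2 j.2, zero_mul]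
  rw [h1, add_zero]
  refine Finset.sum_congr rfl fun j _ => ?_
  rw [bm_apply_mem]

theorem bm_mul_apply_not (M : Matrix B B ℝ) (p : Matrix (Fin n) (Fin n) ℝ) {k : Fin n}
    (hk : k ∉ B) (l : Fin n) : (bm M * p) k l = p k l := by
  rw [mul_apply, Finset.sum_eq_single k]
  · rw [bm_apply_not_not M hk hk, if_pos rfl, one_mul]
  · intro j _ hj
    by_cases hjB : j ∈ B
    · rw [bm_apply_not_mem M hk hjB, zero_mul]
    · rw [bm_apply_not_not M hk hjB, if_neg (Ne.symm hj), zero_mul]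
  · intro h
    exact absurd (Finset.mem_univ _) h

theorem mul_bm_apply (M : Matrix B B ℝ) (p : Matrix (Fin n) (Fin n) ℝ) (l : Fin n) (i : B) :
    (p * bm M) l i = ∑ j : B, p l j * M j i := by
  rw [mul_apply, sum_split (B := B)]
  have h1 : ∑ j : {j // j ∉ B}, p l j * bm M j i = 0 :=
    Finset.sum_eq_zero fun j _ => by rw [bm_apply_not_mem M j.2 i.2, mul_zero]
  rw [h1, add_zero]
  refine Finset.sum_congr rfl fun j _ => ?_
  rw [bm_apply_mem]

theorem mul_bm_apply_not (M : Matrix B B ℝ) (p : Matrix (Fin n) (Fin n) ℝ) {k : Fin n}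
    (hk : k ∉ B) (l : Fin n) : (p * bm M) l k = p l k := by
  rw [mul_apply, Finset.sum_eq_single k]
  · rw [bm_apply_not_not M hk hk, if_pos rfl, mul_one]
  · intro j _ hj
    by_cases hjB : j ∈ B
    · rw [bm_apply_mem_not M hjB hk, mul_zero]
    · rw [bm_apply_not_not M hjB hk, if_neg hj, mul_zero]
  · intro h
    exact absurd (Finset.mem_univ _) h

/-- conjugation by an element of `SL_B(ℝ)` -/
def cj (g : HB B) (p : G n) : G n := io g⁻¹ * p * io g

theorem cj_mul (g k : HB B) (p : G n) : cj (g * k) p = cj k (cj g p) := by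
  unfold cj
  rw [_root_.mul_inv_rev, map_mul, map_mul]
  simp only [mul_assoc]

theorem coe_cj (g : HB B) (p : G n) : (cj g p).1 = bm (g⁻¹).1 * p.1 * bm g.1 := rfl

theorem cj_apply_mem_not (g : HB B) (p : G n) (i : B) {l : Fin n} (hl : l ∉ B) :
    (cj g p).1 i l = ∑ j : B, (g⁻¹).1 i j * p.1 j l := by
  rw [coe_cj, mul_bm_apply_not _ _ hl, bm_mul_apply]

theorem cj_apply_not_mem (g : HB B) (p : G n) (i : B) {l : Fin n} (hl : l ∉ B) :
    (cj g p).1 l i = ∑ j : B, p.1 l j * g.1 j i := by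
  rw [coe_cj, mul_bm_apply]
  refine Finset.sum_congr rfl fun j _ => ?_
  rw [bm_mul_apply_not _ _ hl]

theorem cj_apply_not_not (g : HB B) (p : G n) {k l : Fin n} (hk : k ∉ B) (hl : l ∉ B) :
    (cj g p).1 k l = p.1 k l := by
  rw [coe_cj, mul_bm_apply_not _ _ hl, bm_mul_apply_not _ _ hk]

/-- the `B × B` block is the scalar `θ` -/
def SB (B : Finset (Fin n)) (θ : ℝ) (p : G n) : Prop :=
  ∀ i j : B, p.1 i j = if i = j then θ else 0

theorem SB.cj {θ : ℝ} {p : G n} (hp : SB B θ p) (g : HB B) : SB B θ (cj g p) := by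
  intro i j
  rw [coe_cj, mul_bm_apply]
  have h1 : ∀ a : B, (bm (g⁻¹).1 * p.1) i a = (g⁻¹).1 i a * θ := by
    intro a
    rw [bm_mul_apply]
    simp only [hp _ _, mul_ite, mul_zero]
    rw [Finset.sum_ite_eq' Finset.univ a]
    simp only [Finset.univ_eq_attach, Finset.mem_attach, ↓reduceIte,
      Matrix.SpecialLinearGroup.coe_inv]
  simp only [h1]
  have h2 : (g⁻¹).1 * g.1 = (1 : Matrix B B ℝ) := by
    have := congrArg Subtype.val (inv_mul_cancel g)
    exact this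
  have h3 := congrFun (congrFun h2 i) j
  rw [mul_apply, one_apply] at h3
  calc ∑ a, (g⁻¹).1 i a * θ * g.1 a j = θ * ∑ a, (g⁻¹).1 i a * g.1 a j := by
        rw [Finset.mul_sum]
        exact Finset.sum_congr rfl fun a _ => by ring
    _ = _ := by
        rw [h3]
        split_ifs <;> simp

end Vale.Agent.P007.R.Blk
end

section

/-! Conjugation by transvections; choice of a good conjugate; drift. -/

set_option autoImplicit false

open MeasureTheory Matrix Filter Topology ProbabilityTheory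
open scoped ENNReal

namespace Vale.Agent.P007.R.Blk

open Vale.Agent.P007 Vale.Agent.P007.Koopman Vale.Agent.P007.Mautner Vale.Agent.P007.R

variable {n : ℕ} {B : Finset (Fin n)}

/-- transvection in `SL_B(ℝ)` -/
def tB {i j : B} (hij : i ≠ j) (c : ℝ) : HB B := Matrix.SpecialLinearGroup.transvection hij c

theorem coe_tB {i j : B} (hij : i ≠ j) (c : ℝ) : (tB hij c).1 = transvection i j c := rfl

theorem tB_mul {i j : B} (hij : i ≠ j) (s t : ℝ) : tB hij s * tB hij t = tB hij (s + t) := by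
  apply Subtype.ext
  change transvection i j s * transvection i j t = transvection i j (s + t)
  exact transvection_mul_transvection_same i j hij s t

theorem tB_zero {i j : B} (hij : i ≠ j) : tB hij 0 = 1 := by
  apply Subtype.ext
  change transvection i j 0 = 1
  exact transvection_zero i j

theorem tB_inv {i j : B} (hij : i ≠ j) (c : ℝ) : (tB hij c)⁻¹ = tB hij (-c) := by
  rw [inv_eq_iff_mul_eq_one, tB_mul, add_neg_cancel, tB_zero]

theorem io_tB {i j : B} (hij : i ≠ j) (c : ℝ) :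
    (io (tB hij c) : G n) = ug i j c := by
  rw [ug_of_ne (show (i : Fin n) ≠ j from fun h => hij (Subtype.ext h))]
  exact io_transvection hij c

theorem sum_tB_row {i j : B} (c : ℝ) (v : B → ℝ) (a : B) :
    ∑ k, (transvection i j c) a k * v k = v a + if a = i then c * v j else 0 := by
  simp only [transvection, Matrix.add_apply, Matrix.one_apply, Matrix.single_apply, add_mul,
    Finset.sum_add_distrib, ite_mul, one_mul, zero_mul]
  rw [Finset.sum_ite_eq Finset.univ a, if_pos (Finset.mem_univ a)]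
  congr 1
  by_cases h : a = i
  · subst h
    simp only [Finset.univ_eq_attach, true_and, Finset.sum_ite_eq, Finset.mem_attach, ↓reduceIte]
  · simp only [Finset.univ_eq_attach, Ne.symm h, false_and, ↓reduceIte, Finset.sum_const_zero, h]

theorem sum_tB_col {i j : B} (c : ℝ) (v : B → ℝ) (a : B) :
    ∑ k, v k * (transvection i j c) k a = v a + if a = j then c * v i else 0 := by
  simp only [transvection, Matrix.add_apply, Matrix.one_apply, Matrix.single_apply, mul_add,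
    Finset.sum_add_distrib, mul_ite, mul_one, mul_zero]
  rw [Finset.sum_ite_eq' Finset.univ a, if_pos (Finset.mem_univ a)]
  congr 1
  by_cases h : a = j
  · subst h
    simp only [Finset.univ_eq_attach, and_true, mul_comm, Finset.sum_ite_eq, Finset.mem_attach,
      ↓reduceIte]
  · simp only [Finset.univ_eq_attach, Ne.symm h, and_false, ↓reduceIte, Finset.sum_const_zero, h]

theorem cj_tB_row {i j : B} (hij : i ≠ j) (c : ℝ) (p : G n) (a : B) {l : Fin n} (hl : l ∉ B) :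
    (cj (tB hij c) p).1 a l = p.1 a l - if a = i then c * p.1 j l else 0 := by
  rw [cj_apply_mem_not _ _ _ hl, tB_inv, coe_tB, sum_tB_row (-c) (fun k : B => p.1 k l) a]
  split_ifs <;> ring

theorem cj_tB_col {i j : B} (hij : i ≠ j) (c : ℝ) (p : G n) (a : B) {l : Fin n} (hl : l ∉ B) :
    (cj (tB hij c) p).1 l a = p.1 l a + if a = j then c * p.1 l i else 0 := by
  rw [cj_apply_not_mem _ _ _ hl, coe_tB, sum_tB_col c (fun k : B => p.1 l k) a]

/-- all off-diagonal-block entries are at most `ω` -/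
def OffLe (B : Finset (Fin n)) (ω : ℝ) (p : G n) : Prop :=
  ∀ (a : B) (l : Fin n), l ∉ B → |p.1 a l| ≤ ω ∧ |p.1 l a| ≤ ω

/-- a matrix which is not block diagonal has a maximal off-diagonal-block entry -/
theorem exists_max_off (p : G n) (hp : ¬ BD B p.1) :
    ∃ (a : B) (l : Fin n) (ω : ℝ), l ∉ B ∧ 0 < ω ∧ OffLe B ω p ∧
      (ω = |p.1 a l| ∨ ω = |p.1 l a|) := by
  unfold BD at hp
  push Not at hp
  obtain ⟨i₀, hi₀, l₀, hl₀, h0⟩ := hp
  let S : Finset (B × Fin n) := Finset.univ.filter fun q => q.2 ∉ B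
  have hS : S.Nonempty := ⟨(⟨i₀, hi₀⟩, l₀), by simp only [Finset.mem_filter, Finset.mem_univ, hl₀,
                                                 not_false_eq_true, and_self, S]⟩
  obtain ⟨⟨a, l⟩, hal, hmax⟩ := S.exists_max_image
    (fun q => max |p.1 q.1 q.2| |p.1 q.2 q.1|) hS
  have hl : l ∉ B := by
    have := (Finset.mem_filter.1 hal).2
    exact this
  refine ⟨a, l, max |p.1 a l| |p.1 l a|, hl, ?_, ?_, ?_⟩
  · have h1 := hmax (⟨i₀, hi₀⟩, l₀) (by simp only [Finset.mem_filter, Finset.mem_univ, hl₀,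
                                          not_false_eq_true, and_self, S])
    refine lt_of_lt_of_le ?_ h1
    change 0 < max |p.1 i₀ l₀| |p.1 l₀ i₀|
    by_cases h2 : p.1 i₀ l₀ = 0
    · exact lt_max_of_lt_right (abs_pos.2 (h0 h2))
    · exact lt_max_of_lt_left (abs_pos.2 h2)
  · intro b k hk
    have h1 := hmax (b, k) (by simp only [Finset.mem_filter, Finset.mem_univ, hk,
                                 not_false_eq_true, and_self, S])
    exact ⟨(le_max_left _ _).trans h1, (le_max_right _ _).trans h1⟩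
  · rcases max_choice |p.1 a l| |p.1 l a| with h | h
    · exact Or.inl h
    · exact Or.inr h

/-- the finite family of conjugators -/
def fam (i₁ i₂ : B) : Option (B ⊕ B) → HB B
  | none => 1
  | some (Sum.inl j) => if h : i₂ ≠ j then tB h (-1) else 1
  | some (Sum.inr j) => if h : j ≠ i₁ then tB h 1 else 1

theorem cj_one (p : G n) : cj (1 : HB B) p = p := by
  unfold cj
  rw [inv_one, map_one, one_mul, mul_one]

theorem exists_fam (i₁ i₂ : B) (p : G n) (hp : ¬ BD B p.1) :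
    ∃ (f : Option (B ⊕ B)) (l : Fin n) (ω : ℝ), l ∉ B ∧ 0 < ω ∧ OffLe B ω p ∧
      OffLe B (2 * ω) (cj (fam i₁ i₂ f) p) ∧
      (∀ δ, OffLe B δ p → ω ≤ δ) ∧
      (ω / 2 ≤ |(cj (fam i₁ i₂ f) p).1 i₂ l| ∨ ω / 2 ≤ |(cj (fam i₁ i₂ f) p).1 l i₁|) := by
  obtain ⟨a, l, ω, hl, hω, hoff, hor⟩ := exists_max_off p hp
  have hle : ∀ δ, OffLe B δ p → ω ≤ δ := by
    intro δ hδ
    rcases hor with h | h
    · rw [h]; exact (hδ a l hl).1
    · rw [h]; exact (hδ a l hl).2
  have hoff2 : OffLe B (2 * ω) p := fun b k hk =>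
    ⟨(hoff b k hk).1.trans (by linarith), (hoff b k hk).2.trans (by linarith)⟩
  rcases hor with h | h
  · -- row case
    by_cases h1 : ω / 2 ≤ |p.1 i₂ l|
    · refine ⟨none, l, ω, hl, hω, hoff, ?_, hle, Or.inl ?_⟩
      · change OffLe B (2 * ω) (cj 1 p)
        rw [cj_one]; exact hoff2
      · change ω / 2 ≤ |(cj 1 p).1 i₂ l|
        rw [cj_one]; exact h1
    · push Not at h1
      have hne : i₂ ≠ a := by
        rintro rfl
        rw [← h] at h1
        linarith only [hω, h1]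
      refine ⟨some (Sum.inl a), l, ω, hl, hω, hoff, ?_, hle, Or.inl ?_⟩
      · simp only [fam, dif_pos hne]
        intro b k hk
        rw [cj_tB_row hne _ _ _ hk, cj_tB_col hne _ _ _ hk]
        constructor
        · split_ifs
          · calc |p.1 b k - -1 * p.1 a k| ≤ |p.1 b k| + |p.1 a k| := by
                  rw [neg_one_mul, sub_neg_eq_add]; exact abs_add_le _ _
              _ ≤ _ := by linarith only [(hoff b k hk).1, (hoff a k hk).1, hoff, hk]
          · rw [sub_zero]; exact (hoff2 b k hk).1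
        · split_ifs
          · calc |p.1 k b + -1 * p.1 k i₂| ≤ |p.1 k b| + |p.1 k i₂| := by
                  rw [neg_one_mul, ← sub_eq_add_neg]; exact abs_sub _ _
              _ ≤ _ := by linarith only [(hoff b k hk).2, (hoff i₂ k hk).2, hoff, hk]
          · rw [add_zero]; exact (hoff2 b k hk).2
      · simp only [fam, dif_pos hne]
        rw [cj_tB_row hne _ _ _ hl, if_pos rfl, neg_one_mul, sub_neg_eq_add]
        have h2 : |p.1 a l| ≤ |p.1 i₂ l + p.1 a l| + |p.1 i₂ l| := by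
          have := abs_sub (p.1 i₂ l + p.1 a l) (p.1 i₂ l)
          rwa [add_sub_cancel_left] at this
        linarith
  · -- column case
    by_cases h1 : ω / 2 ≤ |p.1 l i₁|
    · refine ⟨none, l, ω, hl, hω, hoff, ?_, hle, Or.inr ?_⟩
      · change OffLe B (2 * ω) (cj 1 p)
        rw [cj_one]; exact hoff2
      · change ω / 2 ≤ |(cj 1 p).1 l i₁|
        rw [cj_one]; exact h1
    · push Not at h1
      have hne : a ≠ i₁ := by
        rintro rfl
        rw [← h] at h1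
        linarith only [hω, h1]
      refine ⟨some (Sum.inr a), l, ω, hl, hω, hoff, ?_, hle, Or.inr ?_⟩
      · simp only [fam, dif_pos hne]
        intro b k hk
        rw [cj_tB_row hne _ _ _ hk, cj_tB_col hne _ _ _ hk]
        constructor
        · split_ifs
          · calc |p.1 b k - 1 * p.1 i₁ k| ≤ |p.1 b k| + |p.1 i₁ k| := by
                  rw [one_mul]; exact abs_sub _ _
              _ ≤ _ := by linarith only [(hoff b k hk).1, (hoff i₁ k hk).1, hoff, hk]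
          · rw [sub_zero]; exact (hoff2 b k hk).1
        · split_ifs
          · calc |p.1 k b + 1 * p.1 k a| ≤ |p.1 k b| + |p.1 k a| := by
                  rw [one_mul]; exact abs_add_le _ _
              _ ≤ _ := by linarith only [(hoff b k hk).2, (hoff a k hk).2, hoff, hk]
          · rw [add_zero]; exact (hoff2 b k hk).2
      · simp only [fam, dif_pos hne]
        rw [cj_tB_col hne _ _ _ hl, if_pos rfl, one_mul]
        have h2 : |p.1 l a| ≤ |p.1 l i₁ + p.1 l a| + |p.1 l i₁| := by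
          have := abs_sub (p.1 l i₁ + p.1 l a) (p.1 l i₁)
          rwa [add_sub_cancel_left] at this
        linarith


/-- approximate form of the limit displacement -/
def App (i₁ i₂ : B) (ε : ℝ) (c : G n) : Prop :=
  (∀ a b : B, |c.1 a b - if a = b then 1 else 0| ≤ ε) ∧
  (∀ k l, k ∉ B → l ∉ B → |c.1 k l - if k = l then 1 else 0| ≤ ε) ∧
  (∀ (a : B) l, l ∉ B → a ≠ i₁ → |c.1 a l| ≤ ε) ∧
  (∀ (a : B) l, l ∉ B → a ≠ i₂ → |c.1 l a| ≤ ε) ∧
  (∀ l, l ∉ B → |c.1 i₁ l| ≤ 7 ∧ |c.1 l i₂| ≤ 7) ∧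
  ∃ l, l ∉ B ∧ (1 / 8 ≤ |c.1 i₁ l| ∨ 1 / 8 ≤ |c.1 l i₂|)

theorem step_app {i₁ i₂ : B} (h12 : i₁ ≠ i₂) {θ ε δ : ℝ} (p : G n) (hSB : SB B θ p)
    (hp : p ∈ Bd δ) (hδ1 : δ ≤ 1 / 16) (hδ2 : 2 * δ ≤ ε) (hnot : ¬ BD B p.1) :
    ∃ (f : Option (B ⊕ B)) (N : ℕ), 2 ≤ N ∧ ∀ s : ℕ, N ≤ 2 * s → s < N →
      App i₁ i₂ ε (cj (fam i₁ i₂ f * tB h12 s) p) := by
  obtain ⟨f, l₀, ω, hl₀, hω, -, hoff, hle, hor⟩ := exists_fam i₁ i₂ p hnot
  have hωδ : ω ≤ δ := by
    apply hle
    intro a l hl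
    have hne : (a : Fin n) ≠ l := fun h => hl (h ▸ a.2)
    have h1 := hp a l
    have h2 := hp l a
    rw [one_apply_ne hne, sub_zero] at h1
    rw [one_apply_ne hne.symm, sub_zero] at h2
    exact ⟨h1, h2⟩
  have hω16 : ω ≤ 1 / 16 := hωδ.trans hδ1
  have h1ω : 1 ≤ 1 / 16 * (1 / ω) := by
    rw [mul_one_div, le_div_iff₀ hω]; linarith only [hδ1, hωδ]
  set N : ℕ := ⌈1 / ω⌉₊ with hN
  have hN1 : 1 / ω ≤ N := Nat.le_ceil _
  have hN2 : (N : ℝ) < 1 / ω + 1 := Nat.ceil_lt_add_one (by positivity)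
  have hNω : 1 ≤ N * ω := by
    have := mul_le_mul_of_nonneg_right hN1 hω.le
    rwa [one_div_mul_cancel hω.ne'] at this
  have hNω2 : N * ω ≤ 1 + ω := by
    have := mul_le_mul_of_nonneg_right hN2.le hω.le
    rwa [add_mul, one_div_mul_cancel hω.ne', one_mul] at this
  have hN16 : 2 ≤ N := by
    have : (2 : ℝ) ≤ N := by linarith only [hδ1, hω, hωδ, h1ω, hN1]
    exact_mod_cast this
  refine ⟨f, N, hN16, fun s hs1 hs2 => ?_⟩
  have hs1' : (N : ℝ) ≤ 2 * s := by exact_mod_cast hs1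
  have hs2' : (s : ℝ) ≤ N := by exact_mod_cast hs2.le
  have hs0 : (0 : ℝ) ≤ s := Nat.cast_nonneg s
  rw [cj_mul]
  set p' := cj (fam i₁ i₂ f) p with hp'
  have hSB' : SB B θ (cj (tB h12 s) p') := (hSB.cj _).cj _
  have hsω : (s : ℝ) * (2 * ω) ≤ 2 + 2 * ω := by
    have := mul_le_mul_of_nonneg_right hs2' hω.le
    linarith only [hNω2, this]
  have hsω2 : (1 : ℝ) / 4 ≤ s * (ω / 2) := by
    have := mul_le_mul_of_nonneg_right hs1' hω.le
    linarith only [hNω, this]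
  refine ⟨?_, ?_, ?_, ?_, ?_, l₀, hl₀, ?_⟩
  · intro a b
    rw [hSB' a b]
    have h1 := hp i₁ i₁
    rw [hSB i₁ i₁, if_pos rfl, one_apply_eq] at h1
    split_ifs
    · linarith only [hδ2, hω, hωδ, h1]
    · rw [sub_zero, abs_zero]; linarith only [hδ2, hω, hωδ]
  · intro k l hk hl
    rw [cj_apply_not_not _ _ hk hl, hp', cj_apply_not_not _ _ hk hl]
    have h1 := hp k l
    rw [one_apply] at h1
    linarith only [hδ2, hω, hωδ, h1]
  · intro a l hl ha
    rw [cj_tB_row h12 _ _ _ hl, if_neg ha, sub_zero]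
    have := (hoff a l hl).1
    linarith only [hδ2, hωδ, this]
  · intro a l hl ha
    rw [cj_tB_col h12 _ _ _ hl, if_neg ha, add_zero]
    have := (hoff a l hl).2
    linarith only [hδ2, hωδ, this]
  · intro l hl
    rw [cj_tB_row h12 _ _ _ hl, if_pos rfl, cj_tB_col h12 _ _ _ hl, if_pos rfl]
    constructor
    · calc |p'.1 i₁ l - s * p'.1 i₂ l| ≤ |p'.1 i₁ l| + s * |p'.1 i₂ l| := by
            refine (abs_sub _ _).trans ?_
            rw [abs_mul, Nat.abs_cast]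
        _ ≤ 2 * ω + s * (2 * ω) :=
            add_le_add (hoff i₁ l hl).1 (mul_le_mul_of_nonneg_left (hoff i₂ l hl).1 hs0)
        _ ≤ 7 := by linarith only [hδ1, hω, hωδ, hsω]
    · calc |p'.1 l i₂ + s * p'.1 l i₁| ≤ |p'.1 l i₂| + s * |p'.1 l i₁| := by
            refine (abs_add_le _ _).trans ?_
            rw [abs_mul, Nat.abs_cast]
        _ ≤ 2 * ω + s * (2 * ω) :=
            add_le_add (hoff i₂ l hl).2 (mul_le_mul_of_nonneg_left (hoff i₁ l hl).2 hs0)
        _ ≤ 7 := by linarith only [hδ1, hω, hωδ, hsω]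
  · rw [cj_tB_row h12 _ _ _ hl₀, if_pos rfl, cj_tB_col h12 _ _ _ hl₀, if_pos rfl]
    rcases hor with h | h
    · left
      have h1 : |(s : ℝ) * p'.1 i₂ l₀| ≤ |p'.1 i₁ l₀ - s * p'.1 i₂ l₀| + |p'.1 i₁ l₀| := by
        have h2 := abs_sub (p'.1 i₁ l₀) (p'.1 i₁ l₀ - s * p'.1 i₂ l₀)
        rw [sub_sub_cancel] at h2
        linarith only [h2]
      rw [abs_mul, Nat.abs_cast] at h1
      have h3 : (s : ℝ) * (ω / 2) ≤ s * |p'.1 i₂ l₀| := mul_le_mul_of_nonneg_left h hs0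
      have h4 := (hoff i₁ l₀ hl₀).1
      linarith only [hδ1, hωδ, hsω2, h1, h3, h4]
    · right
      have h1 : |(s : ℝ) * p'.1 l₀ i₁| ≤ |p'.1 l₀ i₂ + s * p'.1 l₀ i₁| + |p'.1 l₀ i₂| := by
        have h2 := abs_sub (p'.1 l₀ i₂ + s * p'.1 l₀ i₁) (p'.1 l₀ i₂)
        rwa [add_sub_cancel_left] at h2
      rw [abs_mul, Nat.abs_cast] at h1
      have h3 : (s : ℝ) * (ω / 2) ≤ s * |p'.1 l₀ i₁| := mul_le_mul_of_nonneg_left h hs0
      have h4 := (hoff i₂ l₀ hl₀).2
      linarith only [hδ1, hωδ, hsω2, h1, h3, h4]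

end Vale.Agent.P007.R.Blk
end

section

/-! Compactness: no approximate limit displacements on compact typical sets. -/

set_option autoImplicit false

open MeasureTheory Matrix Filter Topology ProbabilityTheory
open scoped ENNReal

namespace Vale.Agent.P007.R.Blk

open Vale.Agent.P007 Vale.Agent.P007.Koopman Vale.Agent.P007.Mautner Vale.Agent.P007.R

variable {n : ℕ} {B : Finset (Fin n)}

theorem continuous_entry (k l : Fin n) : Continuous fun c : G n => c.1 k l :=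
  continuous_subtype_val.matrix_elem k l

theorem isCompact_entries (R : ℝ) : IsCompact {c : G n | ∀ i j, |c.1 i j| ≤ R} := by
  have h1 : IsCompact {M : Matrix (Fin n) (Fin n) ℝ | ∀ i j, |M i j| ≤ R} := by
    have h2 : {M : Matrix (Fin n) (Fin n) ℝ | ∀ i j, |M i j| ≤ R} =
        Set.pi Set.univ fun _ => Set.pi Set.univ fun _ => Set.Icc (-R) R := by
      ext M
      simp only [abs_le]
      exact ⟨fun h i _ j _ => h i j, fun h i j => h i trivial j trivial⟩
    rw [h2]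
    exact isCompact_univ_pi fun _ => isCompact_univ_pi fun _ => isCompact_Icc
  exact Matrix.SpecialLinearGroup.isClosedEmbedding_val.isCompact_preimage h1

theorem isClosed_forall' {Y : Type*} [TopologicalSpace Y] {ι : Sort*} {p : ι → Y → Prop}
    (h : ∀ i, IsClosed {x | p i x}) : IsClosed {x | ∀ i, p i x} := by
  have h1 : {x | ∀ i, p i x} = ⋂ i, {x | p i x} := by
    ext x
    simp only [Set.mem_iInter]
    rfl
  rw [h1]
  exact isClosed_iInter h

theorem isClosed_exists' {Y : Type*} [TopologicalSpace Y] {ι : Type*} [Finite ι] {p : ι → Y → Prop}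
    (h : ∀ i, IsClosed {x | p i x}) : IsClosed {x | ∃ i, p i x} := by
  have h1 : {x | ∃ i, p i x} = ⋃ i, {x | p i x} := by
    ext x
    simp only [Set.mem_iUnion]
    rfl
  rw [h1]
  exact isClosed_iUnion_of_finite h

theorem isClosed_App (i₁ i₂ : B) (ε : ℝ) : IsClosed {c : G n | App i₁ i₂ ε c} := by
  have hle : ∀ (k l : Fin n) (a b : ℝ), IsClosed {c : G n | |c.1 k l - a| ≤ b} := fun k l a b =>
    isClosed_le ((continuous_entry k l).sub continuous_const).abs continuous_const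
  have hle' : ∀ (k l : Fin n) (b : ℝ), IsClosed {c : G n | |c.1 k l| ≤ b} := fun k l b =>
    isClosed_le (continuous_entry k l).abs continuous_const
  have hge : ∀ (k l : Fin n) (b : ℝ), IsClosed {c : G n | b ≤ |c.1 k l|} := fun k l b =>
    isClosed_le continuous_const (continuous_entry k l).abs
  unfold App
  refine IsClosed.and ?_ (IsClosed.and ?_ (IsClosed.and ?_ (IsClosed.and ?_ (IsClosed.and ?_ ?_))))
  · exact isClosed_forall' fun a => isClosed_forall' fun b => hle _ _ _ _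
  · exact isClosed_forall' fun k => isClosed_forall' fun l => isClosed_forall' fun _ =>
      isClosed_forall' fun _ => hle _ _ _ _
  · exact isClosed_forall' fun k => isClosed_forall' fun l => isClosed_forall' fun _ =>
      isClosed_forall' fun _ => hle' _ _ _
  · exact isClosed_forall' fun k => isClosed_forall' fun l => isClosed_forall' fun _ =>
      isClosed_forall' fun _ => hle' _ _ _
  · exact isClosed_forall' fun l => isClosed_forall' fun _ => IsClosed.and (hle' _ _ _) (hle' _ _ _)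
  · refine isClosed_exists' fun l => ?_
    by_cases hl : l ∉ B
    · have h1 : {c : G n | l ∉ B ∧ (1 / 8 ≤ |c.1 i₁ l| ∨ 1 / 8 ≤ |c.1 l i₂|)} =
          {c : G n | 1 / 8 ≤ |c.1 i₁ l|} ∪ {c : G n | 1 / 8 ≤ |c.1 l i₂|} := by
        ext c
        exact ⟨fun h => h.2, fun h => ⟨hl, h⟩⟩
      rw [h1]
      exact (hge _ _ _).union (hge _ _ _)
    · have h1 : {c : G n | l ∉ B ∧ (1 / 8 ≤ |c.1 i₁ l| ∨ 1 / 8 ≤ |c.1 l i₂|)} = ∅ := by
        ext c
        exact ⟨fun h => hl h.1, fun h => h.elim⟩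
      rw [h1]
      exact isClosed_empty

theorem App.mono {i₁ i₂ : B} {ε ε' : ℝ} (h : ε ≤ ε') {c : G n} (hc : App i₁ i₂ ε c) :
    App i₁ i₂ ε' c := by
  obtain ⟨h1, h2, h3, h4, h5, h6⟩ := hc
  exact ⟨fun a b => (h1 a b).trans h, fun k l hk hl => (h2 k l hk hl).trans h,
    fun a l hl ha => (h3 a l hl ha).trans h, fun a l hl ha => (h4 a l hl ha).trans h, h5, h6⟩

theorem App.bdd {i₁ i₂ : B} {ε : ℝ} (hε : ε ≤ 1) {c : G n} (hc : App i₁ i₂ ε c) :
    ∀ i j, |c.1 i j| ≤ 7 := by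
  obtain ⟨h1, h2, h3, h4, h5, h6⟩ := hc
  intro i j
  by_cases hi : i ∈ B
  · by_cases hj : j ∈ B
    · have h := h1 ⟨i, hi⟩ ⟨j, hj⟩
      split_ifs at h
      · have := abs_sub_abs_le_abs_sub (c.1 i j) 1
        rw [abs_one] at this
        linarith only [hε, hi, hj, h, this]
      · rw [sub_zero] at h
        linarith
    · by_cases hi1 : (⟨i, hi⟩ : B) = i₁
      · have := (h5 j hj).1
        rw [← hi1] at this
        exact this
      · have := h3 ⟨i, hi⟩ j hj hi1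
        change |c.1 i j| ≤ ε at this
        linarith only [hε, this]
  · by_cases hj : j ∈ B
    · by_cases hj1 : (⟨j, hj⟩ : B) = i₂
      · have := (h5 i hi).2
        rw [← hj1] at this
        exact this
      · have := h4 ⟨j, hj⟩ i hi hj1
        change |c.1 i j| ≤ ε at this
        linarith
    · have h := h2 i j hi hj
      split_ifs at h
      · have := abs_sub_abs_le_abs_sub (c.1 i j) 1
        rw [abs_one] at this
        linarith only [hε, h, this]
      · rw [sub_zero] at h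
        linarith

theorem exists_no_app {i₁ i₂ : B} {K : Set (X n)} (hK : IsCompact K)
    (hV : ∀ x ∈ K, ∀ c : G n, tr c x ∈ K → (∀ k, c.1 k k = 1) →
      (∀ k l : Fin n, k ≠ l → ¬ (k = (i₁ : Fin n) ∧ l = (i₂ : Fin n)) →
        ¬ (k = (i₁ : Fin n) ∧ l ∉ B) → ¬ (k ∉ B ∧ l = (i₂ : Fin n)) →
        c.1 k l = 0) → ∀ l ∉ B, c.1 i₁ l = 0 ∧ c.1 l i₂ = 0) :
    ∃ ε : ℝ, 0 < ε ∧ ∀ z ∈ K, ∀ c : G n, tr c z ∈ K → ¬ App i₁ i₂ ε c := by
  by_contra hcon
  push Not at hcon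
  let S : ℕ → Set (X n × G n) := fun k =>
    {q | q.1 ∈ K ∧ tr q.2 q.1 ∈ K ∧ App i₁ i₂ (1 / ((k : ℝ) + 1)) q.2}
  have hKc : IsClosed K := hK.isClosed
  have hSc : ∀ k, IsClosed (S k) := fun k =>
    (hKc.preimage continuous_fst).inter ((hKc.preimage continuous_tr_uncurry).inter
      ((isClosed_App i₁ i₂ _).preimage continuous_snd))
  have hS1 : ∀ k, (S k).Nonempty := by
    intro k
    obtain ⟨z, hz, c, hc, happ⟩ := hcon (1 / ((k : ℝ) + 1)) (by positivity)
    exact ⟨(z, c), hz, hc, happ⟩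
  have hS2 : ∀ k, S (k + 1) ⊆ S k := by
    rintro k q ⟨h1, h2, h3⟩
    refine ⟨h1, h2, h3.mono ?_⟩
    push_cast
    exact one_div_le_one_div_of_le (by positivity) (by linarith)
  have hS0 : IsCompact (S 0) := by
    refine (hK.prod (isCompact_entries 7)).of_isClosed_subset (hSc 0) ?_
    rintro q ⟨h1, h2, h3⟩
    exact ⟨h1, h3.bdd (by norm_num)⟩
  obtain ⟨⟨z, c⟩, hzc⟩ := IsCompact.nonempty_iInter_of_sequence_nonempty_isCompact_isClosed S
    hS2 hS1 hS0 hSc
  rw [Set.mem_iInter] at hzc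
  have hlim : ∀ t : ℝ, (∀ k : ℕ, t ≤ 1 / ((k : ℝ) + 1)) → t ≤ 0 := fun t ht =>
    ge_of_tendsto' tendsto_one_div_add_atTop_nhds_zero_nat ht
  have hz : z ∈ K := (hzc 0).1
  have hcz : tr c z ∈ K := (hzc 0).2.1
  have e1 : ∀ a b : B, c.1 a b = if a = b then 1 else 0 := by
    intro a b
    have := hlim _ fun k => (hzc k).2.2.1 a b
    exact sub_eq_zero.1 (abs_nonpos_iff.1 this)
  have e2 : ∀ k l, k ∉ B → l ∉ B → c.1 k l = if k = l then 1 else 0 := by
    intro a b ha hb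
    have := hlim _ fun k => (hzc k).2.2.2.1 a b ha hb
    exact sub_eq_zero.1 (abs_nonpos_iff.1 this)
  have e3 : ∀ (a : B) l, l ∉ B → a ≠ i₁ → c.1 a l = 0 := by
    intro a b ha hb
    exact abs_nonpos_iff.1 (hlim _ fun k => (hzc k).2.2.2.2.1 a b ha hb)
  have e4 : ∀ (a : B) l, l ∉ B → a ≠ i₂ → c.1 l a = 0 := by
    intro a b ha hb
    exact abs_nonpos_iff.1 (hlim _ fun k => (hzc k).2.2.2.2.2.1 a b ha hb)
  have h := hV z hz c hcz ?_ ?_
  · obtain ⟨l, hl, h6⟩ := (hzc 0).2.2.2.2.2.2.2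
    obtain ⟨h7, h8⟩ := h l hl
    rcases h6 with h6 | h6
    · change 1 / 8 ≤ |c.1 i₁ l| at h6
      rw [h7, abs_zero] at h6
      norm_num at h6
    · change 1 / 8 ≤ |c.1 l i₂| at h6
      rw [h8, abs_zero] at h6
      norm_num at h6
  · intro k
    by_cases hk : k ∈ B
    · have := e1 ⟨k, hk⟩ ⟨k, hk⟩
      rwa [if_pos rfl] at this
    · rw [e2 k k hk hk, if_pos rfl]
  · intro k l hkl h2 h3 h4
    by_cases hk : k ∈ B
    · by_cases hl : l ∈ B
      · have := e1 ⟨k, hk⟩ ⟨l, hl⟩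
        rwa [if_neg (fun h => hkl (congrArg Subtype.val h))] at this
      · refine e3 ⟨k, hk⟩ l hl fun h => h3 ⟨congrArg Subtype.val h, hl⟩
    · by_cases hl : l ∈ B
      · exact e4 ⟨l, hl⟩ k hk fun h => h4 ⟨hk, congrArg Subtype.val h⟩
      · rw [e2 k l hk hl, if_neg hkl]

end Vale.Agent.P007.R.Blk
end

section

/-! Splitting a small displacement `h = io M * p`; pigeonhole. -/

set_option autoImplicit false

open MeasureTheory Matrix Filter Topology ProbabilityTheory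
open scoped ENNReal

namespace Vale.Agent.P007.R.Blk

open Vale.Agent.P007 Vale.Agent.P007.Koopman Vale.Agent.P007.Mautner Vale.Agent.P007.R

variable {n : ℕ} {B : Finset (Fin n)}

theorem pigeon (P Q : ℕ → Prop) (N : ℕ) (hN : 2 ≤ N)
    (h1 : 8 * ({k ∈ Set.Ico 0 N | P k} : Set ℕ).ncard ≤ N)
    (h2 : 8 * ({k ∈ Set.Ico 0 N | Q k} : Set ℕ).ncard ≤ N) :
    ∃ s, N ≤ 2 * s ∧ s < N ∧ ¬ P s ∧ ¬ Q s := by
  by_contra hcon
  push Not at hcon
  have hsub : Set.Ico ((N + 1) / 2) N ⊆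
      ({k ∈ Set.Ico 0 N | P k} : Set ℕ) ∪ ({k ∈ Set.Ico 0 N | Q k} : Set ℕ) := by
    intro s hs
    obtain ⟨hs1, hs2⟩ := Set.mem_Ico.1 hs
    by_cases hP : P s
    · exact Or.inl ⟨Set.mem_Ico.2 ⟨Nat.zero_le _, hs2⟩, hP⟩
    · exact Or.inr ⟨Set.mem_Ico.2 ⟨Nat.zero_le _, hs2⟩, hcon s (by omega) hs2 hP⟩
  have hfin : (({k ∈ Set.Ico 0 N | P k} : Set ℕ) ∪ ({k ∈ Set.Ico 0 N | Q k} : Set ℕ)).Finite :=
    ((Set.finite_Ico 0 N).subset fun _ h => h.1).union ((Set.finite_Ico 0 N).subset fun _ h => h.1)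
  have h3 := Set.ncard_le_ncard hsub hfin
  have h4 := Set.ncard_union_le ({k ∈ Set.Ico 0 N | P k} : Set ℕ)
    ({k ∈ Set.Ico 0 N | Q k} : Set ℕ)
  have h5 : (Set.Ico ((N + 1) / 2) N).ncard = N - (N + 1) / 2 := by
    rw [← Finset.coe_Ico, Set.ncard_coe_finset, Nat.card_Ico]
  omega

/-- the `B × B` block -/
def blk (B : Finset (Fin n)) (h : G n) : Matrix B B ℝ := fun i j => h.1 i j

theorem continuous_blk : Continuous (blk B : G n → Matrix B B ℝ) :=
  continuous_pi fun i => continuous_pi fun j => continuous_entry (i : Fin n) (j : Fin n)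

theorem blk_one : blk B (1 : G n) = 1 := by
  ext i j
  change (1 : Matrix (Fin n) (Fin n) ℝ) i j = (1 : Matrix B B ℝ) i j
  rw [one_apply, one_apply]
  simp only [Subtype.ext_iff]

theorem det_smul_blk (hB : 0 < B.card) {h : G n} (hd : 0 < (blk B h).det) :
    (((blk B h).det ^ ((B.card : ℝ)⁻¹))⁻¹ • blk B h).det = 1 := by
  rw [det_smul, Fintype.card_coe, inv_pow, ← Real.rpow_natCast, ← Real.rpow_mul hd.le,
    inv_mul_cancel₀ (by exact_mod_cast hB.ne'), Real.rpow_one, inv_mul_cancel₀ hd.ne']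

open Classical in
/-- the normalised `B × B` block -/
noncomputable def Mf (B : Finset (Fin n)) (h : G n) : HB B :=
  if hh : 0 < B.card ∧ 0 < (blk B h).det then
    ⟨((blk B h).det ^ ((B.card : ℝ)⁻¹))⁻¹ • blk B h, det_smul_blk hh.1 hh.2⟩ else 1

theorem coe_Mf (hB : 0 < B.card) {h : G n} (hd : 0 < (blk B h).det) :
    (Mf B h).1 = ((blk B h).det ^ ((B.card : ℝ)⁻¹))⁻¹ • blk B h := by
  have h1 : Mf B h = ⟨((blk B h).det ^ ((B.card : ℝ)⁻¹))⁻¹ • blk B h, det_smul_blk hB hd⟩ :=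
    dif_pos ⟨hB, hd⟩
  rw [h1]

theorem Mf_one : Mf B (1 : G n) = 1 := by
  by_cases hB : 0 < B.card
  · apply Subtype.ext
    rw [coe_Mf hB (by rw [blk_one, det_one]; norm_num), blk_one, det_one, Real.one_rpow, inv_one,
      one_smul]
    rfl
  · exact dif_neg fun h => hB h.1

theorem eventually_det_pos : ∀ᶠ h in 𝓝 (1 : G n), 0 < (blk B h).det := by
  have h1 : Continuous fun h : G n => (blk B h).det := continuous_blk.matrix_det
  have h2 : Tendsto (fun h : G n => (blk B h).det) (𝓝 1) (𝓝 1) := by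
    have h3 := h1.tendsto (1 : G n)
    rwa [blk_one, det_one] at h3
  exact h2.eventually (lt_mem_nhds one_pos)

theorem continuousAt_Mf (hB : 0 < B.card) : ContinuousAt (Mf B) (1 : G n) := by
  refine (Matrix.SpecialLinearGroup.isClosedEmbedding_val.isEmbedding.isInducing.continuousAt_iff).mpr ?_
  have h1 : (Subtype.val ∘ Mf B) =ᶠ[𝓝 (1 : G n)]
      fun h => ((blk B h).det ^ ((B.card : ℝ)⁻¹))⁻¹ • blk B h := by
    filter_upwards [eventually_det_pos] with h hh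
    exact coe_Mf hB hh
  rw [continuousAt_congr h1]
  have h2 : ContinuousAt (fun h : G n => (blk B h).det) 1 :=
    (continuous_blk.matrix_det).continuousAt
  have h3 : (blk B (1 : G n)).det ≠ 0 := by rw [blk_one, det_one]; exact one_ne_zero
  refine ContinuousAt.smul (ContinuousAt.inv₀ (h2.rpow_const (Or.inl h3)) ?_)
    continuous_blk.continuousAt
  rw [blk_one, det_one, Real.one_rpow]
  exact one_ne_zero

/-- the rest of the displacement -/
noncomputable def pf (B : Finset (Fin n)) (h : G n) : G n := io (Mf B h)⁻¹ * h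

theorem io_Mf_mul_pf (h : G n) : io (Mf B h) * pf B h = h := by
  unfold pf
  rw [map_inv, mul_inv_cancel_left]

theorem pf_one : pf B (1 : G n) = 1 := by
  unfold pf
  rw [Mf_one, inv_one, map_one, mul_one]

theorem continuousAt_pf (hB : 0 < B.card) : ContinuousAt (pf B) (1 : G n) := by
  unfold pf
  exact (continuous_io.continuousAt.comp (continuousAt_Mf hB).inv).mul continuousAt_id

theorem SB_pf (hB : 0 < B.card) {h : G n} (hd : 0 < (blk B h).det) :
    SB B ((blk B h).det ^ ((B.card : ℝ)⁻¹)) (pf B h) := by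
  intro i j
  have hpos : 0 < (blk B h).det ^ ((B.card : ℝ)⁻¹) := Real.rpow_pos_of_pos hd _
  have h1 : (pf B h).1 = bm ((Mf B h)⁻¹).1 * h.1 := rfl
  rw [h1, bm_mul_apply]
  have h2 : ∀ k : B, h.1 k j = (blk B h).det ^ ((B.card : ℝ)⁻¹) * (Mf B h).1 k j := by
    intro k
    rw [coe_Mf hB hd, Matrix.smul_apply, smul_eq_mul, mul_inv_cancel_left₀ hpos.ne']
    rfl
  have h3 : ((Mf B h)⁻¹).1 * (Mf B h).1 = (1 : Matrix B B ℝ) :=
    congrArg Subtype.val (inv_mul_cancel (Mf B h))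
  have h4 := congrFun (congrFun h3 i) j
  rw [mul_apply, one_apply] at h4
  calc ∑ k : B, ((Mf B h)⁻¹).1 i k * h.1 k j
      = (blk B h).det ^ ((B.card : ℝ)⁻¹) * ∑ k : B, ((Mf B h)⁻¹).1 i k * (Mf B h).1 k j := by
        rw [Finset.mul_sum]
        exact Finset.sum_congr rfl fun k _ => by rw [h2 k]; ring
    _ = _ := by
        rw [h4]
        split_ifs <;> simp

theorem Bd_mem_nhds {δ : ℝ} (hδ : 0 < δ) : Bd δ ∈ 𝓝 (1 : G n) := by
  have h1 : ∀ i j : Fin n, ∀ᶠ h in 𝓝 (1 : G n),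
      |h.1 i j - (1 : Matrix (Fin n) (Fin n) ℝ) i j| ≤ δ := by
    intro i j
    have h2 : Tendsto (fun h : G n => |h.1 i j - (1 : Matrix (Fin n) (Fin n) ℝ) i j|) (𝓝 1)
        (𝓝 0) := by
      have h3 := (((continuous_entry i j).sub
        (continuous_const (y := (1 : Matrix (Fin n) (Fin n) ℝ) i j))).abs).tendsto (1 : G n)
      change Tendsto _ _ (𝓝 |(1 : Matrix (Fin n) (Fin n) ℝ) i j -
        (1 : Matrix (Fin n) (Fin n) ℝ) i j|) at h3
      rwa [sub_self, abs_zero] at h3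
    exact (h2.eventually (gt_mem_nhds hδ)).mono fun _ h => le_of_lt h
  exact eventually_all.2 fun i => eventually_all.2 fun j => h1 i j

theorem continuous_cj_uncurry : Continuous fun q : HB B × G n => cj q.1 q.2 := by
  unfold cj
  exact ((continuous_io.comp continuous_fst.inv).mul continuous_snd).mul
    (continuous_io.comp continuous_fst)

theorem cj_one' (g : HB B) : cj g (1 : G n) = 1 := by
  unfold cj
  rw [mul_one, ← map_mul, inv_mul_cancel, map_one]

theorem not_BD_cj {g : HB B} {p : G n} (h : ¬ BD B p.1) : ¬ BD B (cj g p).1 := by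
  intro h1
  apply h
  have h2 : p = io g * cj g p * io g⁻¹ := by
    unfold cj
    rw [map_inv]
    group
  have h3 : p.1 = (io g : G n).1 * (cj g p).1 * (io g⁻¹ : G n).1 := by
    conv_lhs => rw [h2]
    rfl
  rw [h3]
  exact ((BD_io g).mul h1).mul (BD_io g⁻¹)

theorem not_BD_pf {h : G n} (hh : ¬ BD B h.1) : ¬ BD B (pf B h).1 := by
  intro h1
  apply hh
  have h3 : h.1 = (io (Mf B h) : G n).1 * (pf B h).1 := by
    conv_lhs => rw [← io_Mf_mul_pf (B := B) h]
    rfl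
  rw [h3]
  exact (BD_io _).mul h1

end Vale.Agent.P007.R.Blk
end

section

/-! The drift claim: returns close to `1` are block diagonal. -/

set_option autoImplicit false

open MeasureTheory Matrix Filter Topology ProbabilityTheory
open scoped ENNReal

namespace Vale.Agent.P007.R.Blk

open Vale.Agent.P007 Vale.Agent.P007.Koopman Vale.Agent.P007.Mautner Vale.Agent.P007.R

variable {n : ℕ} {B : Finset (Fin n)}

theorem ug_pow (i j : Fin n) (k : ℕ) : (ug i j 1 : G n) ^ k = ug i j k := by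
  induction k with
  | zero => rw [pow_zero, Nat.cast_zero, ug_zero]
  | succ k ih => rw [pow_succ, ih, ← ug_add, Nat.cast_succ]

/-- good set for the flow: measurable, of large measure -/
theorem exists_good1 (μ : Measure (X n)) [IsProbabilityMeasure μ] {i j : Fin n}
    (hU : UInv μ i j) {K : Set (X n)} (hK : IsCompact K) :
    ∃ G1 : Set (X n), MeasurableSet G1 ∧ μ G1ᶜ ≤ 8 * μ Kᶜ ∧ ∀ x ∈ G1, ∀ N : ℕ, 0 < N →
      8 * ({k ∈ Set.Ico 0 N | tr (ug i j k) x ∉ K} : Set ℕ).ncard ≤ N := by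
  have hmp : MeasurePreserving (tr (ug i j 1)) μ μ := mp_of_mem (ug_mem_invG hU 1)
  have h1 := maximal_visits hmp hK.measurableSet.compl (8 : ℝ≥0∞)⁻¹ (by simp)
  set A : Set (X n) := {x | ∃ N : ℕ, 0 < N ∧ (8 : ℝ≥0∞)⁻¹ * N <
    ({k ∈ Set.Ico 0 N | (tr (ug i j 1))^[k] x ∈ Kᶜ} : Set ℕ).ncard} with hA
  refine ⟨(toMeasurable μ A)ᶜ, (measurableSet_toMeasurable μ A).compl, ?_, ?_⟩
  · rw [compl_compl, measure_toMeasurable]
    refine h1.trans (le_of_eq ?_)
    rw [ENNReal.div_eq_inv_mul, inv_inv]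
  · intro x hx N hN
    have hxA : x ∉ A := fun h => hx (subset_toMeasurable μ A h)
    have h2 : ¬ ((8 : ℝ≥0∞)⁻¹ * N <
      ({k ∈ Set.Ico 0 N | (tr (ug i j 1))^[k] x ∈ Kᶜ} : Set ℕ).ncard) := fun h =>
        hxA ⟨N, hN, h⟩
    push Not at h2
    have h3 : (8 : ℝ≥0∞) * ({k ∈ Set.Ico 0 N | (tr (ug i j 1))^[k] x ∈ Kᶜ} : Set ℕ).ncard ≤ N := by
      calc (8 : ℝ≥0∞) * ({k ∈ Set.Ico 0 N | (tr (ug i j 1))^[k] x ∈ Kᶜ} : Set ℕ).ncard
          ≤ 8 * ((8 : ℝ≥0∞)⁻¹ * N) := by gcongr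
        _ = N := by rw [← mul_assoc, ENNReal.mul_inv_cancel (by norm_num) (by norm_num), one_mul]
    have h4 : ({k ∈ Set.Ico 0 N | (tr (ug i j 1))^[k] x ∈ Kᶜ} : Set ℕ) =
        ({k ∈ Set.Ico 0 N | tr (ug i j k) x ∉ K} : Set ℕ) := by
      ext k
      simp only [iterate_tr, ug_pow, Set.mem_compl_iff]
    rw [h4] at h3
    exact_mod_cast h3


/-- the bad part of `SL_B`-fibres: measurability and mean. -/
theorem exists_goodH (μ : Measure (X n)) [IsProbabilityMeasure μ]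
    (hinv : ∀ q : HB B, (io q : G n) ∈ invG μ) {GF : Set (X n)} (hGF : MeasurableSet GF)
    {Q1 : Set (HB B)} (hQ1 : MeasurableSet Q1) (m : ℝ≥0∞) (hm : m ≠ 0) (hm' : m ≠ ∞) :
    ∃ E : Set (X n), MeasurableSet E ∧ μ Eᶜ ≤ hH B Q1 * μ GFᶜ / m ∧
      ∀ x ∈ E, hH B {q | q ∈ Q1 ∧ tr (io q) x ∉ GF} ≤ m := by
  let S : Set (X n × HB B) := {p | p.2 ∈ Q1 ∧ tr (io p.2) p.1 ∉ GF}
  have hcont : Continuous fun p : X n × HB B => tr (io p.2) p.1 :=
    continuous_tr_uncurry.comp (continuous_fst.prodMk (continuous_io.comp continuous_snd))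
  have hS : MeasurableSet S :=
    (measurable_snd hQ1).inter (hcont.measurable hGF).compl
  have hb : Measurable fun x : X n => hH B (Prod.mk x ⁻¹' S) :=
    measurable_measure_prodMk_left hS
  refine ⟨{x | hH B (Prod.mk x ⁻¹' S) ≤ m}, measurableSet_le hb measurable_const, ?_, ?_⟩
  · have h1 : ∫⁻ x, hH B (Prod.mk x ⁻¹' S) ∂μ = hH B Q1 * μ GFᶜ := by
      rw [← Measure.prod_apply hS, Measure.prod_apply_symm hS]
      have h2 : ∀ q : HB B, μ ((fun x => (x, q)) ⁻¹' S) = Q1.indicator (fun _ => μ GFᶜ) q := by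
        intro q
        by_cases hq : q ∈ Q1
        · rw [Set.indicator_of_mem hq]
          have h3 : (fun x => (x, q)) ⁻¹' S = tr (io q) ⁻¹' GFᶜ := by
            ext x
            exact ⟨fun h => h.2, fun h => ⟨hq, h⟩⟩
          rw [h3, (mp_of_mem (hinv q)).measure_preimage hGF.compl.nullMeasurableSet]
        · rw [Set.indicator_of_notMem hq]
          have h3 : (fun x => (x, q)) ⁻¹' S = ∅ := by
            ext x
            exact ⟨fun h => hq h.1, fun h => h.elim⟩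
          rw [h3, measure_empty]
      simp only [h2]
      rw [lintegral_indicator_const hQ1, mul_comm]
    have h4 : {x | hH B (Prod.mk x ⁻¹' S) ≤ m}ᶜ ⊆ {x | m ≤ hH B (Prod.mk x ⁻¹' S)} := by
      intro x hx
      have : ¬ hH B (Prod.mk x ⁻¹' S) ≤ m := hx
      exact (not_le.1 this).le
    refine (measure_mono h4).trans ?_
    rw [← h1]
    exact meas_ge_le_lintegral_div hb.aemeasurable hm hm'
  · intro x hx
    exact hx


theorem exists_eps0 {c : ℝ≥0∞} (hc : c ≠ ∞) : ∃ ε₀ : ℝ≥0∞, ε₀ ≠ 0 ∧ c * ε₀ < 1 := by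
  refine ⟨(c + 1)⁻¹, ?_, ?_⟩
  · exact ENNReal.inv_ne_zero.2 (ENNReal.add_ne_top.2 ⟨hc, by norm_num⟩)
  · rw [← div_eq_mul_inv]
    refine (ENNReal.div_lt_iff (Or.inl ?_) (Or.inl ?_)).2 ?_
    · exact (lt_of_lt_of_le one_pos (le_add_self)).ne'
    · exact ENNReal.add_ne_top.2 ⟨hc, by norm_num⟩
    · rw [one_mul]
      exact ENNReal.lt_add_right hc one_ne_zero

theorem quarter_add_quarter (a : ℝ≥0∞) : a / 4 + a / 4 = a / 2 := by
  have h4 : (4 : ℝ≥0∞)⁻¹ + 4⁻¹ = 2⁻¹ := by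
    rw [← two_mul]
    have : (4 : ℝ≥0∞) = 2 * 2 := by norm_num
    rw [this, ENNReal.mul_inv (by norm_num) (by norm_num), ← mul_assoc,
      ENNReal.mul_inv_cancel (by norm_num) (by norm_num), one_mul]
  rw [div_eq_mul_inv, ← mul_add, h4, ← div_eq_mul_inv]

theorem exists_good_q {ν : Measure (HB B)} {Q0 : Set (HB B)} (hm0 : ν Q0 ≠ 0) (hm0' : ν Q0 ≠ ∞)
    (P1 P2 : HB B → Prop) (h1 : ν {q | q ∈ Q0 ∧ ¬ P1 q} ≤ ν Q0 / 4)
    (h2 : ν {q | q ∈ Q0 ∧ ¬ P2 q} ≤ ν Q0 / 4) : ∃ q ∈ Q0, P1 q ∧ P2 q := by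
  by_contra hcon
  push Not at hcon
  have h3 : Q0 ⊆ {q | q ∈ Q0 ∧ ¬ P1 q} ∪ {q | q ∈ Q0 ∧ ¬ P2 q} := by
    intro q hq
    by_cases h4 : P1 q
    · exact Or.inr ⟨hq, hcon q hq h4⟩
    · exact Or.inl ⟨hq, h4⟩
  have h4 : ν Q0 ≤ ν Q0 / 4 + ν Q0 / 4 :=
    (measure_mono h3).trans ((measure_union_le _ _).trans (add_le_add h1 h2))
  rw [quarter_add_quarter] at h4
  exact absurd h4 (not_le.2 (ENNReal.half_lt_self hm0 hm0'))

theorem tendsto_Mf_mul (hB0 : 0 < B.card) (q : HB B) :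
    Tendsto (fun z : G n × HB B => Mf B z.1 * z.2) (𝓝 (1, q)) (𝓝 q) := by
  have h1 : Tendsto (Mf B) (𝓝 (1 : G n)) (𝓝 1) := by
    have := (continuousAt_Mf (n := n) hB0).tendsto
    rwa [Mf_one] at this
  have h2 : Tendsto (fun z : G n × HB B => Mf B z.1) (𝓝 (1, q)) (𝓝 1) :=
    h1.comp (continuous_fst.tendsto (1, q))
  have h3 : Tendsto (fun z : G n × HB B => z.2) (𝓝 (1, q)) (𝓝 q) :=
    continuous_snd.tendsto (1, q)
  have h4 := h2.mul h3
  rwa [one_mul] at h4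

theorem tendsto_cj_one (q : HB B) :
    Tendsto (fun w : HB B × G n => cj w.1 w.2) (𝓝 (q, 1)) (𝓝 1) := by
  have h := (continuous_cj_uncurry (n := n) (B := B)).tendsto (q, (1 : G n))
  have h2 : cj (q, (1 : G n)).1 (q, (1 : G n)).2 = 1 := cj_one' q
  rw [h2] at h
  exact h

theorem tendsto_pf_one (hB0 : 0 < B.card) : Tendsto (pf B) (𝓝 (1 : G n)) (𝓝 1) := by
  have := (continuousAt_pf (n := n) hB0).tendsto
  rwa [pf_one] at this

theorem tendsto_pf_fst (hB0 : 0 < B.card) (q : HB B) :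
   Tendsto (fun z : G n × HB B => pf B z.1) (𝓝 (1, q)) (𝓝 1) :=
   (tendsto_pf_one hB0).comp (continuous_fst.tendsto (1, q))

theorem tendsto_pair (hB0 : 0 < B.card) (q : HB B) :
   Tendsto (fun z : G n × HB B => (z.2, pf B z.1)) (𝓝 (1, q)) (𝓝 (q, 1)) := 
   (continuous_snd.tendsto (1, q)).prodMk_nhds (tendsto_pf_fst hB0 q)

theorem tendsto_cj_pf (hB0 : 0 < B.card) (q : HB B) :
    Tendsto (fun z : G n × HB B => cj z.2 (pf B z.1)) (𝓝 (1, q)) (𝓝 1) := by
  have h := Tendsto.comp (tendsto_cj_one (n := n) (B := B) q) (tendsto_pair hB0 q)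
  have e : ((fun w : HB B × G n => cj w.1 w.2) ∘ fun z : G n × HB B => (z.2, pf B z.1)) = 
    fun z : G n × HB B => cj z.2 (pf B z.1) := by
    funext z
    rw [Function.comp_apply]
  rw [e] at h
  exact h

theorem near_nhds (hB0 : 0 < B.card) {Q0 Q1 : Set (HB B)} (hQ0c : IsCompact Q0)
    (hQ01 : Q0 ⊆ interior Q1) {δ : ℝ} (hδ0 : 0 < δ) :
    {h : G n | (∀ q ∈ Q0, Mf B h * q ∈ Q1) ∧ (∀ q ∈ Q0, cj q (pf B h) ∈ Bd δ) ∧
      0 < (blk B h).det} ∈ 𝓝 (1 : G n) := by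
  have hU1 : ∀ᶠ h in 𝓝 (1 : G n), ∀ q ∈ Q0, Mf B h * q ∈ Q1 := by
    refine hQ0c.eventually_forall_of_forall_eventually fun q hq => ?_
    exact ((tendsto_Mf_mul hB0 q).eventually_mem (isOpen_interior.mem_nhds (hQ01 hq))).mono
      fun z hz => interior_subset hz
  have hU2 : ∀ᶠ h in 𝓝 (1 : G n), ∀ q ∈ Q0, cj q (pf B h) ∈ Bd δ := by
    refine hQ0c.eventually_forall_of_forall_eventually fun q _ => ?_
    exact (tendsto_cj_pf hB0 q).eventually_mem (Bd_mem_nhds hδ0)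
  exact hU1.and (hU2.and eventually_det_pos)

theorem group_id (M q f t : HB B) (p : G n) :
    io (M * q) * (io f * io t) * cj (f * t) (cj q p) =
      (io M * p) * (io q * (io f * io t)) := by
  rw [← cj_mul]
  unfold cj
  simp only [map_mul, _root_.mul_inv_rev, map_inv]
  group

theorem drift_point {i₁ i₂ : B} (h12 : i₁ ≠ i₂) (hB0 : 0 < B.card) {ε δ : ℝ} (hδ1 : δ ≤ 1 / 16)
    (hδ2 : 2 * δ ≤ ε) {K G1 : Set (X n)}
    (hno : ∀ z ∈ K, ∀ c : G n, tr c z ∈ K → ¬ App i₁ i₂ ε c)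
    (hG1 : ∀ x ∈ G1, ∀ N : ℕ, 0 < N →
      8 * ({k ∈ Set.Ico 0 N | tr (ug (i₁ : Fin n) i₂ k) x ∉ K} : Set ℕ).ncard ≤ N)
    {x : X n} {h : G n} (hd : 0 < (blk B h).det) {q : HB B} (hq : cj q (pf B h) ∈ Bd δ)
    (hu : ∀ f, tr (io (fam i₁ i₂ f)) (tr (io (Mf B h * q)) x) ∈ G1)
    (hv : ∀ f, tr (io (fam i₁ i₂ f)) (tr (io q) (tr h x)) ∈ G1) : BD B h.1 := by
  by_contra hnot
  obtain ⟨f, N, hN2, hN⟩ := step_app (ε := ε) h12 (cj q (pf B h)) ((SB_pf hB0 hd).cj q) hq hδ1 hδ2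
    (not_BD_cj (not_BD_pf hnot))
  obtain ⟨s, hs1, hs2, hs3, hs4⟩ := pigeon _ _ N hN2 (hG1 _ (hu f) N (by omega))
    (hG1 _ (hv f) N (by omega))
  push Not at hs3 hs4
  have hus : (ug (i₁ : Fin n) i₂ (s : ℝ) : G n) = io (tB h12 (s : ℝ)) := (io_tB h12 (s : ℝ)).symm
  rw [hus, tr_tr, tr_tr] at hs3
  rw [hus, tr_tr, tr_tr, tr_tr] at hs4
  refine hno _ hs3 (cj (fam i₁ i₂ f * tB h12 s) (cj q (pf B h))) ?_ (hN s hs1 hs2)
  rw [tr_tr, group_id, io_Mf_mul_pf]
  exact hs4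


theorem exists_GF (μ : Measure (X n)) [IsProbabilityMeasure μ]
    (hinv : ∀ q : HB B, (io q : G n) ∈ invG μ) (i₁ i₂ : B) {G1 : Set (X n)}
    (hG1m : MeasurableSet G1) {ε₀ : ℝ≥0∞} (hG1μ : μ G1ᶜ ≤ 8 * ε₀) :
    ∃ GF : Set (X n), MeasurableSet GF ∧
      μ GFᶜ ≤ (Fintype.card (Option (B ⊕ B)) : ℝ≥0∞) * (8 * ε₀) ∧
      ∀ x ∈ GF, ∀ f, tr (io (fam i₁ i₂ f)) x ∈ G1 := by
  refine ⟨⋂ f : Option (B ⊕ B), tr (io (fam i₁ i₂ f)) ⁻¹' G1,
    MeasurableSet.iInter fun f => (continuous_tr _).measurable hG1m, ?_,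
    fun x hx f => Set.mem_iInter.1 hx f⟩
  rw [Set.compl_iInter]
  refine (measure_iUnion_le _).trans ?_
  rw [tsum_fintype]
  have h3 : ∀ f : Option (B ⊕ B), μ (tr (io (fam i₁ i₂ f)) ⁻¹' G1)ᶜ ≤ 8 * ε₀ := by
    intro f
    rw [← Set.preimage_compl,
      (mp_of_mem (hinv _)).measure_preimage hG1m.compl.nullMeasurableSet]
    exact hG1μ
  refine (Finset.sum_le_sum fun f _ => h3 f).trans (le_of_eq ?_)
  rw [Finset.sum_const, Finset.card_univ, nsmul_eq_mul]

theorem exists_E (μ : Measure (X n)) [IsProbabilityMeasure μ]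
    (hinv : ∀ q : HB B, (io q : G n) ∈ invG μ) (i₁ i₂ : B)
    (hU : UInv μ (i₁ : Fin n) i₂) {Q0 Q1 : Set (HB B)} (hm0 : hH B Q0 ≠ 0) (hm0' : hH B Q0 ≠ ∞)
    (hm1' : hH B Q1 ≠ ∞) (hQ1 : MeasurableSet Q1) {X' : Set (X n)} (hX'm : MeasurableSet X')
    (hX'0 : μ X'ᶜ = 0) :
    ∃ (K G1 GF E : Set (X n)), K ⊆ X' ∧ IsCompact K ∧
      (∀ x ∈ G1, ∀ N : ℕ, 0 < N →
        8 * ({k ∈ Set.Ico 0 N | tr (ug (i₁ : Fin n) i₂ k) x ∉ K} : Set ℕ).ncard ≤ N) ∧
      (∀ x ∈ GF, ∀ f, tr (io (fam i₁ i₂ f)) x ∈ G1) ∧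
      MeasurableSet E ∧ μ E ≠ 0 ∧
      ∀ x ∈ E, hH B {q | q ∈ Q1 ∧ tr (io q) x ∉ GF} ≤ hH B Q0 / 4 := by
  set m : ℝ≥0∞ := hH B Q0 / 4 with hm
  have hmne : m ≠ 0 := ENNReal.div_ne_zero.2 ⟨hm0, by norm_num⟩
  have hmtop : m ≠ ∞ := ENNReal.div_ne_top hm0' (by norm_num)
  set F : ℝ≥0∞ := (Fintype.card (Option (B ⊕ B)) : ℝ≥0∞) with hF
  have hc : hH B Q1 * (F * 8) / m ≠ ∞ :=
    ENNReal.div_ne_top (ENNReal.mul_ne_top hm1'
      (ENNReal.mul_ne_top (ENNReal.natCast_ne_top _) (by norm_num))) hmne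
  obtain ⟨ε₀, hε₀, hε₀'⟩ := exists_eps0 hc
  obtain ⟨K, hKX', hK, hKμ, -⟩ := lusin μ (fun _ : X n => (0 : ℝ)) measurable_const hX'm hε₀
  have hKc : μ Kᶜ ≤ ε₀ := by
    have h3 : Kᶜ ⊆ X'ᶜ ∪ (X' \ K) := by
      intro x hx
      by_cases hx' : x ∈ X'
      · exact Or.inr ⟨hx', hx⟩
      · exact Or.inl hx'
    refine (measure_mono h3).trans ((measure_union_le _ _).trans ?_)
    rw [hX'0, zero_add]
    exact hKμ.le
  obtain ⟨G1, hG1m, hG1μ, hG1⟩ := exists_good1 μ hU hK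
  obtain ⟨GF, hGFm, hGFμ, hGF⟩ := exists_GF μ hinv i₁ i₂ hG1m
    (hG1μ.trans (mul_le_mul_of_nonneg_left hKc (by norm_num)))
  obtain ⟨E, hEm, hEμ, hE⟩ := exists_goodH (B := B) μ hinv hGFm hQ1 m hmne hmtop
  refine ⟨K, G1, GF, E, hKX', hK, hG1, hGF, hEm, ?_, hE⟩
  intro h0
  have h3 : μ Eᶜ = 1 := by
    rw [prob_compl_eq_one_sub hEm, h0, tsub_zero]
  have h4 : μ Eᶜ < 1 := by
    refine lt_of_le_of_lt (hEμ.trans ?_) hε₀'
    have e1 : hH B Q1 * (F * 8) / m * ε₀ = hH B Q1 * (F * (8 * ε₀)) / m := by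
      simp only [div_eq_mul_inv]
      ring
    rw [e1]
    exact ENNReal.div_le_div_right (mul_le_mul_of_nonneg_left hGFμ (by simp)) _
  exact absurd h3 h4.ne

/-- **The drift claim.** -/
theorem drift (μ : Measure (X n)) [IsProbabilityMeasure μ] (hA : AInv μ)
    (B : Finset (Fin n)) (hB : 2 ≤ B.card)
    (h1 : ∀ i ∈ B, ∀ j ∈ B, i ≠ j → UInv μ i j)
    (h2 : ∀ i ∈ B, ∀ l ∉ B, Triv μ i l ∧ Triv μ l i) :
    ∃ E : Set (X n), MeasurableSet E ∧ μ E ≠ 0 ∧ ∃ U ∈ 𝓝 (1 : G n), ∀ x ∈ E, ∀ h ∈ U,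
      tr h x ∈ E → BD B h.1 := by
  have hB0 : 0 < B.card := by omega
  obtain ⟨a₁, ha₁, a₂, ha₂, ha⟩ := Finset.one_lt_card.1 (show 1 < B.card by omega)
  have h12 : (⟨a₁, ha₁⟩ : B) ≠ ⟨a₂, ha₂⟩ := fun h => ha (congrArg Subtype.val h)
  have hinv : ∀ q : HB B, (io q : G n) ∈ invG μ := io_mem_invG μ hB h1
  obtain ⟨X', hX'm, hX'0, hX'⟩ := lemmaV μ hA (↑B : Set (Fin n)) ha ha₁ ha₂
    (fun l hl => ⟨(h2 a₁ ha₁ l hl).1, (h2 a₂ ha₂ l hl).2⟩)
  obtain ⟨Q0, hQ0c, hQ0n⟩ := exists_compact_mem_nhds (1 : HB B)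
  obtain ⟨Q1, hQ1c, hQ01⟩ := exists_compact_superset hQ0c
  have hm0 : hH B Q0 ≠ 0 := (Measure.measure_pos_of_mem_nhds (hH B) hQ0n).ne'
  have hm0' : hH B Q0 ≠ ∞ := hQ0c.measure_lt_top.ne
  have hm1' : hH B Q1 ≠ ∞ := hQ1c.measure_lt_top.ne
  obtain ⟨K, G1, GF, E, hKX', hK, hG1, hGF, hEm, hEne, hE⟩ :=
    exists_E μ hinv ⟨a₁, ha₁⟩ ⟨a₂, ha₂⟩ (h1 a₁ ha₁ a₂ ha₂ ha) hm0 hm0' hm1'
      hQ1c.measurableSet hX'm hX'0
  obtain ⟨ε, hε, hno⟩ := exists_no_app (i₁ := ⟨a₁, ha₁⟩) (i₂ := ⟨a₂, ha₂⟩) hK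
    (fun x hx c hc e1 e2 l hl => hX' x (hKX' hx) c (hKX' hc) e1 e2 l hl)
  obtain ⟨δ, hδ0, hδ1, hδ2⟩ : ∃ δ : ℝ, 0 < δ ∧ δ ≤ 1 / 16 ∧ 2 * δ ≤ ε := by
    refine ⟨min (1 / 16) (ε / 2), lt_min (by norm_num) (by linarith only [hε]), min_le_left _ _, ?_⟩
    have := min_le_right (1 / 16 : ℝ) (ε / 2)
    linarith only [this]
  refine ⟨E, hEm, hEne, _, near_nhds hB0 hQ0c hQ01 hδ0, ?_⟩
  rintro x hx h ⟨hh1, hh2, hh3⟩ hhx
  have hbad1 : hH B {q | q ∈ Q0 ∧ ¬ tr (io (Mf B h * q)) x ∈ GF} ≤ hH B Q0 / 4 := by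
    refine le_trans ?_ (hE x hx)
    rw [← measure_preimage_mul (hH B) (Mf B h) {q | q ∈ Q1 ∧ tr (io q) x ∉ GF}]
    refine measure_mono ?_
    rintro q ⟨hq1, hq2⟩
    exact ⟨hh1 q hq1, hq2⟩
  have hbad2 : hH B {q | q ∈ Q0 ∧ ¬ tr (io q) (tr h x) ∈ GF} ≤ hH B Q0 / 4 := by
    refine le_trans ?_ (hE _ hhx)
    refine measure_mono ?_
    rintro q ⟨hq1, hq2⟩
    exact ⟨interior_subset (hQ01 hq1), hq2⟩
  obtain ⟨q, hq, hq1, hq2⟩ := exists_good_q hm0 hm0' _ _ hbad1 hbad2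
  exact drift_point h12 hB0 hδ1 hδ2 hno hG1 hh3 (hh2 q hq) (hGF _ hq1) (hGF _ hq2)

end Vale.Agent.P007.R.Blk
end
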