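import Vale.Agent.P007.Bdl.B14
import Vale.Agent.P007.Bdl.B2
import Vale.Agent.P007.Bdl.B10
import Vale.Agent.P007.Bdl.B11
import Vale.Agent.P007.Bdl.B12
import Vale.Agent.P007.Bdl.B13
import Vale.Agent.P001.Mertens

section

/-! Typical points: no integral (row or column) vector is supported on the complement of `B`. -/

set_option autoImplicit false

open MeasureTheory Matrix Filter Topology ProbabilityTheory
open scoped ENNReal

namespace Vale.Agent.P007.R.Blk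

open Vale.Agent.P007 Vale.Agent.P007.Koopman Vale.Agent.P007.Mautner Vale.Agent.P007.R

variable {n : ℕ}

theorem exists_compact_lift (K : Set (X n)) (hK : IsCompact K) :
    ∃ L : Set (G n), IsCompact L ∧ ∀ y ∈ K, ∃ g ∈ L, pt g = y := by
  refine hK.induction_on (p := fun S => ∃ L : Set (G n), IsCompact L ∧ ∀ y ∈ S, ∃ g ∈ L, pt g = y)
    ?_ ?_ ?_ ?_
  · exact ⟨∅, isCompact_empty, fun y hy => absurd hy (Set.notMem_empty y)⟩
  · rintro S T hST ⟨L, hL, h⟩
    exact ⟨L, hL, fun y hy => h y (hST hy)⟩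
  · rintro S T ⟨L, hL, h⟩ ⟨L', hL', h'⟩
    refine ⟨L ∪ L', hL.union hL', ?_⟩
    rintro y (hy | hy)
    · obtain ⟨g, hg, he⟩ := h y hy
      exact ⟨g, Or.inl hg, he⟩
    · obtain ⟨g, hg, he⟩ := h' y hy
      exact ⟨g, Or.inr hg, he⟩
  · intro x _
    obtain ⟨g, rfl⟩ := pt_surjective x
    obtain ⟨L, hL, hgL⟩ := exists_compact_mem_nhds g
    refine ⟨pt '' L, mem_nhdsWithin_of_mem_nhds
      (isOpenQuotientMap_pt.isOpenMap.image_mem_nhds hgL), L, hL, ?_⟩
    rintro y ⟨g', hg', rfl⟩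
    exact ⟨g', hg', rfl⟩

theorem exists_bound {L : Set (G n)} (hL : IsCompact L) : ∃ R : ℝ, 0 < R ∧ ∀ M ∈ L, ∀ i j,
    |M.1 i j| ≤ R ∧ |(M⁻¹).1 i j| ≤ R := by
  have h1 : ∀ q : Fin n × Fin n, ∃ R : ℝ, ∀ M ∈ L, |M.1 q.1 q.2| ≤ R ∧ |(M⁻¹).1 q.1 q.2| ≤ R := by
    intro q
    obtain ⟨R1, hR1⟩ := hL.bddAbove_image (f := fun M : G n => |M.1 q.1 q.2|)
      (continuous_entry q.1 q.2).abs.continuousOn
    obtain ⟨R2, hR2⟩ := hL.bddAbove_image (f := fun M : G n => |(M⁻¹).1 q.1 q.2|)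
      (((continuous_entry q.1 q.2).comp continuous_inv).abs).continuousOn
    refine ⟨max R1 R2, fun M hM => ⟨?_, ?_⟩⟩
    · exact (hR1 ⟨M, hM, rfl⟩).trans (le_max_left _ _)
    · exact (hR2 ⟨M, hM, rfl⟩).trans (le_max_right _ _)
  choose R hR using h1
  refine ⟨∑ q, |R q| + 1, by positivity, fun M hM i j => ?_⟩
  have h2 : |R (i, j)| ≤ ∑ q, |R q| :=
    Finset.single_le_sum (f := fun q => |R q|) (fun q _ => abs_nonneg _) (Finset.mem_univ (i, j))
  have h3 := hR (i, j) M hM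
  have h4 := le_abs_self (R (i, j))
  exact ⟨h3.1.trans (by linarith only [h2, h4]), h3.2.trans (by linarith only [h2, h4])⟩

/-- integer row vector -/
def zr (z : Fin n → ℤ) : Fin n → ℝ := fun i => (z i : ℝ)

theorem Gam_row {γ : G n} (hγ : γ ∈ Gam n) (z : Fin n → ℤ) :
    ∃ z' : Fin n → ℤ, zr z' = zr z ᵥ* γ.1 := by
  obtain ⟨m, rfl⟩ := hγ
  refine ⟨z ᵥ* m.1, ?_⟩
  funext j
  simp only [zr, vecMul, dotProduct, Int.cast_sum, Int.cast_mul]
  rfl

theorem Gam_col {γ : G n} (hγ : γ ∈ Gam n) (z : Fin n → ℤ) :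
    ∃ z' : Fin n → ℤ, zr z' = γ.1 *ᵥ zr z := by
  obtain ⟨m, rfl⟩ := hγ
  refine ⟨m.1 *ᵥ z, ?_⟩
  funext j
  simp only [zr, mulVec, dotProduct, Int.cast_sum, Int.cast_mul]
  rfl

theorem zr_eq_zero {z : Fin n → ℤ} (h : ∀ i, |zr z i| < 1) : z = 0 := by
  funext i
  have h1 := h i
  simp only [zr] at h1
  have h2 : |z i| < 1 := by exact_mod_cast h1
  exact Int.abs_lt_one_iff.1 h2

theorem zr_zero : zr (0 : Fin n → ℤ) = 0 := by
  funext i; simp [zr]

/-- indicator direction -/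
noncomputable def bI (B : Finset (Fin n)) : Fin n → ℝ := fun i => if i ∈ B then 1 else 0

theorem mean_bI_pos {B : Finset (Fin n)} (hB : B.Nonempty) : 0 < mean (bI B) := by
  unfold mean bI
  obtain ⟨i, hi⟩ := hB
  have hn : (0 : ℝ) < n := by
    have : 0 < n := i.pos
    exact_mod_cast this
  refine div_pos ?_ hn
  refine Finset.sum_pos' (fun j _ => ?_) ⟨i, Finset.mem_univ _, ?_⟩
  · split_ifs <;> norm_num
  · rw [if_pos hi]; norm_num

theorem coe_da_pow (β : Fin n → ℝ) (k : ℕ) : ((da β ^ k : G n) : Matrix (Fin n) (Fin n) ℝ) =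
    diagonal fun i => Real.exp (k * (β i - mean β)) := by
  rw [← da_nsmul, coe_da]
  congr 1
  funext i
  rw [mean_smul, Pi.smul_apply, smul_eq_mul]
  congr 1
  ring

theorem row_typical {B : Finset (Fin n)} (hB : B.Nonempty) {x : X n} {K : Set (X n)}
    (hK : IsCompact K) (hrec : ∃ᶠ k : ℕ in atTop, tr (da (bI B) ^ k) x ∈ K) (g : G n)
    (hg : pt g = x) (z : Fin n → ℤ) (hz : z ≠ 0) : ∃ i ∈ B, (zr z ᵥ* g.1) i ≠ 0 := by
  by_contra hcon
  push Not at hcon
  obtain ⟨L, hL, hKL⟩ := exists_compact_lift K hK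
  obtain ⟨R, hR, hLR⟩ := exists_bound hL
  set v := zr z ᵥ* g.1 with hv
  set m := mean (bI B) with hm
  have hm0 : 0 < m := mean_bI_pos hB
  -- decay
  have hlim : Tendsto (fun k : ℕ => (∑ j, Real.exp (-(k * m)) * |v j| * R)) atTop (𝓝 0) := by
    have h1 : Tendsto (fun k : ℕ => Real.exp (-(k * m))) atTop (𝓝 0) := by
      refine Real.tendsto_exp_neg_atTop_nhds_zero.comp ?_
      exact tendsto_natCast_atTop_atTop.atTop_mul_const hm0
    have h2 : Tendsto (fun k : ℕ => (∑ j, Real.exp (-(k * m)) * |v j| * R)) atTop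
        (𝓝 (∑ j : Fin n, 0 * |v j| * R)) :=
      tendsto_finsetSum _ fun j _ => (h1.mul_const _).mul_const _
    simpa only [zero_mul, Finset.sum_const_zero] using h2
  obtain ⟨k, hk1, hk2⟩ := (hrec.and_eventually (hlim.eventually (gt_mem_nhds one_pos))).exists
  obtain ⟨M, hM, hMpt⟩ := hKL _ hk1
  rw [← hg, tr_pt, pt_eq_pt] at hMpt
  set γ : G n := g * da (bI B) ^ k * M⁻¹ with hγ
  have hγM : g * da (bI B) ^ k = γ * M := by rw [hγ]; group
  obtain ⟨z', hz'⟩ := Gam_row hMpt z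
  have h3 : zr z' = (v ᵥ* (da (bI B) ^ k : G n).1) ᵥ* (M⁻¹).1 := by
    rw [hz', hv, vecMul_vecMul, vecMul_vecMul, hγ]
    congr 1
    change (g.1 * (da (bI B) ^ k : G n).1) * (M⁻¹).1 = _
    rw [Matrix.mul_assoc]
  have h4 : z' = 0 := by
    apply zr_eq_zero
    intro i
    rw [h3, vecMul, dotProduct]
    refine lt_of_le_of_lt (Finset.abs_sum_le_sum_abs _ _) (lt_of_le_of_lt ?_ hk2)
    refine Finset.sum_le_sum fun j _ => ?_
    rw [abs_mul]
    refine mul_le_mul ?_ (hLR M hM j i).2 (abs_nonneg _) (by (clear * -; positivity))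
    rw [coe_da_pow, vecMul_diagonal, abs_mul, abs_of_pos (Real.exp_pos _), mul_comm]
    by_cases hj : j ∈ B
    · rw [hcon j hj, abs_zero, mul_zero, mul_zero]
    · refine mul_le_mul_of_nonneg_right (Real.exp_le_exp.2 ?_) (abs_nonneg _)
      simp only [bI, if_neg hj]
      change (k : ℝ) * (0 - m) ≤ -(k * m)
      linarith only []
  have h5 : zr z = 0 := by
    have h6 : zr z ᵥ* γ.1 = 0 := by rw [← hz', h4, zr_zero]
    have h7 : (zr z ᵥ* γ.1) ᵥ* (γ⁻¹).1 = zr z := by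
      rw [vecMul_vecMul]
      have : γ.1 * (γ⁻¹).1 = 1 := congrArg Subtype.val (mul_inv_cancel γ)
      rw [this, vecMul_one]
    rw [← h7, h6, zero_vecMul]
  apply hz
  apply zr_eq_zero
  intro i
  rw [h5]
  simp

theorem col_typical {B : Finset (Fin n)} (hB : B.Nonempty) {x : X n} {K : Set (X n)}
    (hK : IsCompact K) (hrec : ∃ᶠ k : ℕ in atTop, tr (da (-bI B) ^ k) x ∈ K) (g : G n)
    (hg : pt g = x) (z : Fin n → ℤ) (hz : z ≠ 0) : ∃ i ∈ B, ((g⁻¹).1 *ᵥ zr z) i ≠ 0 := by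
  by_contra hcon
  push Not at hcon
  obtain ⟨L, hL, hKL⟩ := exists_compact_lift K hK
  obtain ⟨R, hR, hLR⟩ := exists_bound hL
  set v := (g⁻¹).1 *ᵥ zr z with hv
  set m := mean (bI B) with hm
  have hm0 : 0 < m := mean_bI_pos hB
  -- decay
  have hlim : Tendsto (fun k : ℕ => (∑ j, R * (Real.exp (-(k * m)) * |v j|))) atTop (𝓝 0) := by
    have h1 : Tendsto (fun k : ℕ => Real.exp (-(k * m))) atTop (𝓝 0) := by
      refine Real.tendsto_exp_neg_atTop_nhds_zero.comp ?_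
      exact tendsto_natCast_atTop_atTop.atTop_mul_const hm0
    have h2 : Tendsto (fun k : ℕ => (∑ j, R * (Real.exp (-(k * m)) * |v j|))) atTop
        (𝓝 (∑ j : Fin n, R * (0 * |v j|))) :=
      tendsto_finsetSum _ fun j _ => (h1.mul_const _).const_mul _
    simpa only [zero_mul, mul_zero, Finset.sum_const_zero] using h2
  obtain ⟨k, hk1, hk2⟩ := (hrec.and_eventually (hlim.eventually (gt_mem_nhds one_pos))).exists
  obtain ⟨M, hM, hMpt⟩ := hKL _ hk1
  rw [← hg, tr_pt, pt_eq_pt] at hMpt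
  set γ : G n := g * da (-bI B) ^ k * M⁻¹ with hγ
  obtain ⟨z', hz'⟩ := Gam_col (inv_mem hMpt) z
  have h3 : zr z' = M.1 *ᵥ ((da (bI B) ^ k : G n).1 *ᵥ v) := by
    rw [hz', hv, mulVec_mulVec, mulVec_mulVec]
    have e1 : γ⁻¹ = M * (da (bI B) ^ k * g⁻¹) := by
      rw [hγ, da_neg, inv_pow]; group
    rw [e1]
    change (M.1 * ((da (bI B) ^ k : G n).1 * (g⁻¹).1)) *ᵥ zr z = _
    rw [Matrix.mul_assoc]
  have h4 : z' = 0 := by
    apply zr_eq_zero
    intro i
    rw [h3, mulVec, dotProduct]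
    refine lt_of_le_of_lt (Finset.abs_sum_le_sum_abs _ _) (lt_of_le_of_lt ?_ hk2)
    refine Finset.sum_le_sum fun j _ => ?_
    rw [abs_mul]
    refine mul_le_mul (hLR M hM i j).1 ?_ (abs_nonneg _) hR.le
    rw [coe_da_pow, mulVec_diagonal, abs_mul, abs_of_pos (Real.exp_pos _)]
    by_cases hj : j ∈ B
    · rw [hcon j hj, abs_zero, mul_zero, mul_zero]
    · refine mul_le_mul_of_nonneg_right (Real.exp_le_exp.2 ?_) (abs_nonneg _)
      simp only [bI, if_neg hj]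
      change (k : ℝ) * (0 - m) ≤ -(k * m)
      linarith only []
  have h5 : zr z = 0 := by
    have h6 : (γ⁻¹).1 *ᵥ zr z = 0 := by rw [← hz', h4, zr_zero]
    have h7 : γ.1 *ᵥ ((γ⁻¹).1 *ᵥ zr z) = zr z := by
      rw [mulVec_mulVec]
      have : γ.1 * (γ⁻¹).1 = 1 := congrArg Subtype.val (mul_inv_cancel γ)
      rw [this, one_mulVec]
    rw [← h7, h6, mulVec_zero]
  apply hz
  apply zr_eq_zero
  intro i
  rw [h5]
  simp

/-- almost every point is typical -/
theorem ae_typical (μ : Measure (X n)) [IsProbabilityMeasure μ] (hA : AInv μ)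
    {B : Finset (Fin n)} (hB : B.Nonempty) : ∀ᵐ x ∂μ, ∀ g : G n, pt g = x → ∀ z : Fin n → ℤ,
      z ≠ 0 → (∃ i ∈ B, (zr z ᵥ* g.1) i ≠ 0) ∧ ∃ i ∈ B, ((g⁻¹).1 *ᵥ zr z) i ≠ 0 := by
  obtain ⟨X1, -, -, hX1, h1⟩ := covisit μ (da (bI B)) (hA _) (fun _ : X n => (0 : ℝ))
    measurable_const MeasurableSet.univ (by simp)
  obtain ⟨X2, -, -, hX2, h2⟩ := covisit μ (da (-bI B)) (hA _) (fun _ : X n => (0 : ℝ))
    measurable_const MeasurableSet.univ (by simp)
  have e1 : ∀ᵐ x ∂μ, x ∈ X1 := hX1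
  have e2 : ∀ᵐ x ∂μ, x ∈ X2 := hX2
  filter_upwards [e1, e2] with x hx1 hx2 g hg z hz
  obtain ⟨K1, -, hK1, -, hr1⟩ := h1 x hx1 x hx1
  obtain ⟨K2, -, hK2, -, hr2⟩ := h2 x hx2 x hx2
  exact ⟨row_typical hB hK1 (hr1.mono fun k hk => hk.1) g hg z hz,
    col_typical hB hK2 (hr2.mono fun k hk => hk.1) g hg z hz⟩

end Vale.Agent.P007.R.Blk
end

section

/-! The arithmetic contradiction of III.8. -/

set_option autoImplicit false

open MeasureTheory Matrix Filter Topology ProbabilityTheory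
open scoped ENNReal

namespace Vale.Agent.P007.R.Blk

open Vale.Agent.P007 Vale.Agent.P007.Koopman Vale.Agent.P007.Mautner Vale.Agent.P007.R

variable {n : ℕ}

/-- rational vector as a real vector -/
def qr (w : Fin n → ℚ) : Fin n → ℝ := fun i => (w i : ℝ)

/-- rational matrix as a real matrix -/
def qm (s : Matrix (Fin n) (Fin n) ℚ) : Matrix (Fin n) (Fin n) ℝ := s.map fun q => (q : ℝ)

theorem qm_mul (s t : Matrix (Fin n) (Fin n) ℚ) : qm (s * t) = qm s * qm t := by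
  unfold qm
  ext i j
  simp only [map_apply, mul_apply, Rat.cast_sum, Rat.cast_mul]

theorem qr_vecMul (w : Fin n → ℚ) (s : Matrix (Fin n) (Fin n) ℚ) :
    qr (w ᵥ* s) = qr w ᵥ* qm s := by
  funext j
  simp only [qr, qm, vecMul, dotProduct, Rat.cast_sum, Rat.cast_mul, map_apply]

theorem qr_dot (w z : Fin n → ℚ) : ((w ⬝ᵥ z : ℚ) : ℝ) = qr w ⬝ᵥ qr z := by
  simp only [qr, dotProduct, Rat.cast_sum, Rat.cast_mul]

/-- clearing denominators -/
theorem exists_int (w : Fin n → ℚ) (hw : w ≠ 0) : ∃ (N : ℤ) (z : Fin n → ℤ), N ≠ 0 ∧ z ≠ 0 ∧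
    zr z = (N : ℝ) • qr w := by
  obtain ⟨b, hb⟩ := IsLocalization.exist_integer_multiples_of_finite (nonZeroDivisors ℤ) w
  choose z hz using hb
  have hb0 : (b : ℤ) ≠ 0 := nonZeroDivisors.coe_ne_zero b
  have hz' : ∀ i, ((z i : ℤ) : ℚ) = (b : ℤ) * w i := by
    intro i
    have := hz i
    rw [zsmul_eq_mul] at this
    exact this
  refine ⟨b, z, hb0, ?_, ?_⟩
  · intro h
    apply hw
    funext i
    have h1 := hz' i
    rw [h, Pi.zero_apply, Int.cast_zero] at h1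
    rcases mul_eq_zero.1 h1.symm with h2 | h2
    · exact absurd (by exact_mod_cast h2) hb0
    · exact h2
  · funext i
    simp only [zr, qr, Pi.smul_apply, smul_eq_mul]
    exact_mod_cast congrArg (fun q : ℚ => (q : ℝ)) (hz' i)

/-- the rational algebra -/
def AA (B : Finset (Fin n)) (g : G n) : Set (Matrix (Fin n) (Fin n) ℚ) :=
  {s | BD B ((g⁻¹).1 * qm s * g.1)}

theorem g_mul_inv (g : G n) : g.1 * (g⁻¹).1 = 1 := congrArg Subtype.val (mul_inv_cancel g)

theorem g_inv_mul (g : G n) : (g⁻¹).1 * g.1 = 1 := congrArg Subtype.val (inv_mul_cancel g)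

section

variable {B : Finset (Fin n)} (g : G n)
    (hrow : ∀ z : Fin n → ℤ, z ≠ 0 → ∃ i ∈ B, (zr z ᵥ* g.1) i ≠ 0)
    (hcol : ∀ z : Fin n → ℤ, z ≠ 0 → ∃ i ∈ B, ((g⁻¹).1 *ᵥ zr z) i ≠ 0)
    (hD : ∀ i ∈ B, ∀ j ∈ B, Matrix.single i j (1 : ℝ) ∈ Submodule.span ℝ
      {M | ∃ s ∈ AA B g, M = (g⁻¹).1 * qm s * g.1})

include hrow in
theorem hrow' (w : Fin n → ℚ) (hw : w ≠ 0) : ∃ i ∈ B, (qr w ᵥ* g.1) i ≠ 0 := by
  obtain ⟨N, z, hN, hz, h⟩ := exists_int w hw
  obtain ⟨i, hi, h1⟩ := hrow z hz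
  refine ⟨i, hi, fun h2 => h1 ?_⟩
  rw [h, smul_vecMul, Pi.smul_apply, h2, smul_zero]

include hcol in
theorem hcol' (w : Fin n → ℚ) (hw : w ≠ 0) : ∃ i ∈ B, ((g⁻¹).1 *ᵥ qr w) i ≠ 0 := by
  obtain ⟨N, z, hN, hz, h⟩ := exists_int w hw
  obtain ⟨i, hi, h1⟩ := hcol z hz
  refine ⟨i, hi, fun h2 => h1 ?_⟩
  rw [h, mulVec_smul, Pi.smul_apply, h2, smul_zero]

include hrow hcol hD in
theorem irr (W : Submodule ℚ (Fin n → ℚ)) (hW : ∀ s ∈ AA B g, ∀ w ∈ W, w ᵥ* s ∈ W) :
    W = ⊥ ∨ W = ⊤ := by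
  by_contra hcon
  push Not at hcon
  obtain ⟨w, hwW, hw⟩ := W.exists_mem_ne_zero_of_ne_bot hcon.1
  obtain ⟨f, hf, hfW⟩ := W.exists_le_ker_of_lt_top (lt_top_iff_ne_top.2 hcon.2)
  set z : Fin n → ℚ := fun i => f (Pi.single i 1) with hz
  have hfz : ∀ v : Fin n → ℚ, f v = v ⬝ᵥ z := by
    intro v
    have h1 : v = ∑ i, v i • (Pi.single i (1 : ℚ) : Fin n → ℚ) := by
      rw [← pi_eq_sum_univ' v]
    conv_lhs => rw [h1]
    rw [map_sum, dotProduct]
    refine Finset.sum_congr rfl fun i _ => ?_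
    rw [map_smul, smul_eq_mul]
  have hz0 : z ≠ 0 := by
    intro h
    apply hf
    refine LinearMap.ext fun v => ?_
    rw [hfz v, h, dotProduct_zero]
    rfl
  obtain ⟨i, hi, h1⟩ := hrow' g hrow w hw
  obtain ⟨j, hj, h2⟩ := hcol' g hcol z hz0
  have h3 : ∀ M ∈ Submodule.span ℝ {M | ∃ s ∈ AA B g, M = (g⁻¹).1 * qm s * g.1},
      (qr w ᵥ* g.1) ⬝ᵥ (M *ᵥ ((g⁻¹).1 *ᵥ qr z)) = 0 := by
    intro M hM
    induction hM using Submodule.span_induction with
    | mem M hM =>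
      obtain ⟨s, hs, rfl⟩ := hM
      rw [← dotProduct_mulVec, mulVec_mulVec, mulVec_mulVec]
      have e1 : g.1 * ((g⁻¹).1 * qm s * g.1) * (g⁻¹).1 = qm s := by
        rw [Matrix.mul_assoc, Matrix.mul_assoc, g_mul_inv, Matrix.mul_one, ← Matrix.mul_assoc,
          g_mul_inv, Matrix.one_mul]
      rw [e1, dotProduct_mulVec, ← qr_vecMul, ← qr_dot, ← hfz]
      have h4 : f (w ᵥ* s) = 0 := hfW (hW s hs w hwW)
      rw [h4, Rat.cast_zero]
    | zero => rw [zero_mulVec, dotProduct_zero]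
    | add M N _ _ hM hN => rw [add_mulVec, dotProduct_add, hM, hN, add_zero]
    | smul c M _ hM => rw [smul_mulVec, dotProduct_smul, hM, smul_zero]
  have h4 := h3 _ (hD i hi j hj)
  have h5 : Matrix.single i j (1 : ℝ) *ᵥ ((g⁻¹).1 *ᵥ qr z) =
      Pi.single i (((g⁻¹).1 *ᵥ qr z) j) := by
    funext k
    rw [mulVec, dotProduct]
    simp only [Matrix.single_apply, ite_mul, one_mul, zero_mul]
    by_cases hk : i = k
    · subst hk
      simp only [true_and, Matrix.SpecialLinearGroup.coe_inv, Finset.sum_ite_eq, Finset.mem_univ,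
        ↓reduceIte, Pi.single_eq_same]
    · rw [Pi.single_eq_of_ne (Ne.symm hk)]
      exact Finset.sum_eq_zero fun l _ => by rw [if_neg fun h => hk h.1]
  rw [h5, dotProduct_single] at h4
  rcases mul_eq_zero.1 h4 with h6 | h6
  · exact h1 h6
  · exact h2 h6

end

/-- a real nonscalar matrix in the commutant gives a rational nonscalar one -/
theorem exists_rational_comm {A : Set (Matrix (Fin n) (Fin n) ℚ)} (P : Matrix (Fin n) (Fin n) ℝ)
    (hP : ∀ s ∈ A, P * qm s = qm s * P) (hns : ∀ c : ℝ, P ≠ c • 1) (hn : 0 < n) :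
    ∃ c : Matrix (Fin n) (Fin n) ℚ, (∀ s ∈ A, c * s = s * c) ∧ ∀ q : ℚ, c ≠ q • 1 := by
  have hcomm : ∀ φ : ℝ →ₗ[ℚ] ℚ, ∀ s ∈ A, (P.map φ) * s = s * (P.map φ) := by
    intro φ s hs
    ext i j
    have h1 := congrFun (congrFun (hP s hs) i) j
    rw [mul_apply, mul_apply] at h1 ⊢
    have h2 := congrArg φ h1
    rw [map_sum, map_sum] at h2
    calc ∑ k, P.map φ i k * s k j = ∑ k, φ (P i k * qm s k j) := by
          refine Finset.sum_congr rfl fun k _ => ?_
          have : P i k * qm s k j = (s k j) • P i k := by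
            rw [Rat.smul_def, mul_comm]; rfl
          rw [this, map_smul, smul_eq_mul, map_apply, mul_comm]
      _ = ∑ k, φ (qm s i k * P k j) := h2
      _ = ∑ k, s i k * P.map φ k j := by
          refine Finset.sum_congr rfl fun k _ => ?_
          have : qm s i k * P k j = (s i k) • P k j := by
            rw [Rat.smul_def]; rfl
          rw [this, map_smul, smul_eq_mul, map_apply]
  by_contra hcon
  push Not at hcon
  have hsc : ∀ φ : ℝ →ₗ[ℚ] ℚ, ∃ q : ℚ, P.map φ = q • 1 := fun φ => hcon _ (hcomm φ)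
  let i₀ : Fin n := ⟨0, hn⟩
  apply hns (P i₀ i₀)
  ext i j
  rw [Matrix.smul_apply, smul_eq_mul]
  by_cases hij : i = j
  · subst hij
    rw [one_apply_eq, mul_one, ← sub_eq_zero]
    refine (Module.forall_dual_apply_eq_zero_iff ℚ _).1 fun φ => ?_
    obtain ⟨q, hq⟩ := hsc φ
    have h1 := congrFun (congrFun hq i) i
    have h2 := congrFun (congrFun hq i₀) i₀
    rw [map_apply, Matrix.smul_apply, one_apply_eq] at h1 h2
    rw [map_sub, h1, h2, sub_self]
  · rw [one_apply_ne hij, mul_zero]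
    refine (Module.forall_dual_apply_eq_zero_iff ℚ _).1 fun φ => ?_
    obtain ⟨q, hq⟩ := hsc φ
    have h1 := congrFun (congrFun hq i) j
    rw [map_apply, Matrix.smul_apply, one_apply_ne hij, smul_zero] at h1
    exact h1


theorem arith_contra (hn : n.Prime) {B : Finset (Fin n)} (hB : 2 ≤ B.card)
    (hB' : B ≠ Finset.univ) (g : G n)
    (hrow : ∀ z : Fin n → ℤ, z ≠ 0 → ∃ i ∈ B, (zr z ᵥ* g.1) i ≠ 0)
    (hcol : ∀ z : Fin n → ℤ, z ≠ 0 → ∃ i ∈ B, ((g⁻¹).1 *ᵥ zr z) i ≠ 0)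
    (hD : ∀ i ∈ B, ∀ j ∈ B, Matrix.single i j (1 : ℝ) ∈ Submodule.span ℝ
      {M | ∃ s ∈ AA B g, M = (g⁻¹).1 * qm s * g.1}) : False := by
  -- the real commutant
  set π : Matrix (Fin n) (Fin n) ℝ := diagonal (bI B) with hπ
  have hπcomm : ∀ M : Matrix (Fin n) (Fin n) ℝ, BD B M → π * M = M * π := by
    intro M hM
    ext i j
    rw [hπ, diagonal_mul, mul_diagonal]
    by_cases hi : i ∈ B
    · by_cases hj : j ∈ B
      · simp [bI, hi, hj]
      · rw [(hM i hi j hj).1, mul_zero, zero_mul]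
    · by_cases hj : j ∈ B
      · rw [(hM j hj i hi).2, mul_zero, zero_mul]
      · simp [bI, hi, hj]
  obtain ⟨c, hc, hcns⟩ := exists_rational_comm (A := AA B g) (g.1 * π * (g⁻¹).1) (by
    intro s hs
    have h1 := hπcomm _ hs
    have e1 : g.1 * π * (g⁻¹).1 * qm s = g.1 * (π * ((g⁻¹).1 * qm s * g.1)) * (g⁻¹).1 := by
      simp only [Matrix.mul_assoc]
      rw [g_mul_inv, Matrix.mul_one]
    have e2 : qm s * (g.1 * π * (g⁻¹).1) = g.1 * (((g⁻¹).1 * qm s * g.1) * π) * (g⁻¹).1 := by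
      simp only [← Matrix.mul_assoc]
      rw [g_mul_inv, Matrix.one_mul]
    rw [e1, e2, h1]) (by
    intro c hc
    have e1 : π = c • (1 : Matrix (Fin n) (Fin n) ℝ) := by
      have e2 : (g⁻¹).1 * (g.1 * π * (g⁻¹).1) * g.1 = π := by
        simp only [Matrix.mul_assoc]
        rw [g_inv_mul, Matrix.mul_one, ← Matrix.mul_assoc, g_inv_mul, Matrix.one_mul]
      rw [← e2, hc, Matrix.mul_smul, Matrix.mul_one, Matrix.smul_mul, g_inv_mul]
    obtain ⟨i, hi⟩ : B.Nonempty := Finset.card_pos.1 (by omega)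
    obtain ⟨j, hj⟩ : ∃ j, j ∉ B := by
      by_contra hcon
      push Not at hcon
      exact hB' (Finset.eq_univ_iff_forall.2 hcon)
    have h1 := congrFun (congrFun e1 i) i
    have h2 := congrFun (congrFun e1 j) j
    rw [hπ, diagonal_apply_eq, Matrix.smul_apply, one_apply_eq, smul_eq_mul, mul_one] at h1 h2
    simp only [bI, if_pos hi, if_neg hj] at h1 h2
    linarith only [h1, h2]) hn.pos
  -- commutativity of the rational algebra
  have hcomm : ∀ s ∈ AA B g, ∀ t ∈ AA B g, s * t = t * s := by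
    intro s hs t ht
    have hfr : Module.finrank ℚ (Fin n → ℚ) = n := by
      rw [Module.finrank_fintype_fun_eq_card, Fintype.card_fin]
    have hcom : ∀ s ∈ AA B g, Commute (vecMulLinear s : Module.End ℚ (Fin n → ℚ))
        (vecMulLinear c) := by
      intro s hs
      refine LinearMap.ext fun w => ?_
      change (w ᵥ* c) ᵥ* s = (w ᵥ* s) ᵥ* c
      rw [vecMul_vecMul, vecMul_vecMul, hc s hs]
    have h1 := comm_of_prime (V := Fin n → ℚ) (by rw [hfr]; exact hn) (vecMulLinear c) (by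
      intro f hf
      rcases irr g hrow hcol hD
        (LinearMap.ker (Polynomial.aeval (vecMulLinear c : Module.End ℚ (Fin n → ℚ)) f)) (by
          intro s hs w hw
          have h2 := commute_aeval (hcom s hs) f
          have h3 := congrArg (fun L : Module.End ℚ (Fin n → ℚ) => L w) h2.eq
          change (vecMulLinear s) ((Polynomial.aeval (vecMulLinear c) f) w) =
            (Polynomial.aeval (vecMulLinear c) f) (w ᵥ* s) at h3
          rw [LinearMap.mem_ker, ← h3, LinearMap.mem_ker.1 hw, map_zero]) with h | h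
      · exact h
      · exact absurd (LinearMap.ker_eq_top.1 h) hf) (by
      intro q hq
      apply hcns q
      ext i j
      have h2 := congrArg (fun L : Module.End ℚ (Fin n → ℚ) => L (Pi.single i 1) j) hq
      change ((Pi.single i (1 : ℚ) : Fin n → ℚ) ᵥ* c) j =
        (algebraMap ℚ (Module.End ℚ (Fin n → ℚ)) q) (Pi.single i 1) j at h2
      rw [single_one_vecMul, Module.algebraMap_end_apply, Pi.smul_apply, smul_eq_mul] at h2
      change c i j = _ at h2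
      rw [h2, Matrix.smul_apply, smul_eq_mul, one_apply]
      congr 1
      by_cases hij : i = j
      · subst hij; rw [Pi.single_eq_same, if_pos rfl]
      · rw [Pi.single_eq_of_ne (Ne.symm hij), if_neg hij])
      (vecMulLinear t) (vecMulLinear s) (hcom t ht) (hcom s hs)
    ext i j
    have h2 := congrArg (fun L : Module.End ℚ (Fin n → ℚ) => L (Pi.single i 1) j) h1.eq
    change (((Pi.single i (1 : ℚ) : Fin n → ℚ) ᵥ* s) ᵥ* t) j =
      (((Pi.single i (1 : ℚ) : Fin n → ℚ) ᵥ* t) ᵥ* s) j at h2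
    rw [vecMul_vecMul, vecMul_vecMul, single_one_vecMul, single_one_vecMul] at h2
    exact h2
  -- commutativity of the real span
  have hspan : ∀ M ∈ Submodule.span ℝ {M | ∃ s ∈ AA B g, M = (g⁻¹).1 * qm s * g.1},
      ∀ N ∈ Submodule.span ℝ {M | ∃ s ∈ AA B g, M = (g⁻¹).1 * qm s * g.1}, M * N = N * M := by
    intro M hM N hN
    induction hM using Submodule.span_induction with
    | mem M hM =>
      obtain ⟨s, hs, rfl⟩ := hM
      induction hN using Submodule.span_induction with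
      | mem N hN =>
        obtain ⟨t, ht, rfl⟩ := hN
        have e1 : ∀ s t : Matrix (Fin n) (Fin n) ℚ, (g⁻¹).1 * qm s * g.1 *
            ((g⁻¹).1 * qm t * g.1) = (g⁻¹).1 * qm (s * t) * g.1 := by
          intro s t
          rw [qm_mul]
          simp only [Matrix.mul_assoc]
          congr 2
          rw [← Matrix.mul_assoc, g_mul_inv, Matrix.one_mul]
        rw [e1, e1, hcomm s hs t ht]
      | zero => rw [Matrix.mul_zero, Matrix.zero_mul]
      | add N N' _ _ h1 h2 => rw [Matrix.mul_add, Matrix.add_mul, h1, h2]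
      | smul c N _ h1 => rw [Matrix.mul_smul, Matrix.smul_mul, h1]
    | zero => rw [Matrix.mul_zero, Matrix.zero_mul]
    | add M M' _ _ h1 h2 => rw [Matrix.mul_add, Matrix.add_mul, h1, h2]
    | smul c M _ h1 => rw [Matrix.mul_smul, Matrix.smul_mul, h1]
  obtain ⟨i, hi, j, hj, hij⟩ := Finset.one_lt_card.1 (show 1 < B.card by omega)
  have h1 := hspan _ (hD i hi i hi) _ (hD i hi j hj)
  have h2 := congrFun (congrFun h1 i) j
  rw [single_mul_single_same, single_mul_single_of_ne _ _ _ _ hij.symm, mul_one,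
    single_apply_same, Matrix.zero_apply] at h2
  exact one_ne_zero h2

end Vale.Agent.P007.R.Blk
end

section

/-! III.8: blocks are impossible for prime `n`. -/

set_option autoImplicit false

open MeasureTheory Matrix Filter Topology ProbabilityTheory
open scoped ENNReal

namespace Vale.Agent.P007.R.Blk

open Vale.Agent.P007 Vale.Agent.P007.Koopman Vale.Agent.P007.Mautner Vale.Agent.P007.R

variable {n : ℕ}

theorem BD_iff (B : Finset (Fin n)) (M : Matrix (Fin n) (Fin n) ℝ) :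
    BD B M ↔ diagonal (bI B) * M = M * diagonal (bI B) := by
  constructor
  · intro hM
    ext i j
    rw [diagonal_mul, mul_diagonal]
    by_cases hi : i ∈ B
    · by_cases hj : j ∈ B
      · simp [bI, hi, hj]
      · rw [(hM i hi j hj).1, mul_zero, zero_mul]
    · by_cases hj : j ∈ B
      · rw [(hM j hj i hi).2, mul_zero, zero_mul]
      · simp [bI, hi, hj]
  · intro h i hi l hl
    have h1 := congrFun (congrFun h i) l
    have h2 := congrFun (congrFun h l) i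
    rw [diagonal_mul, mul_diagonal] at h1 h2
    simp only [bI, if_pos hi, if_neg hl] at h1 h2
    rw [one_mul, mul_zero] at h1
    rw [zero_mul, mul_one] at h2
    exact ⟨h1, h2.symm⟩

theorem BD_inv {B : Finset (Fin n)} {h : G n} (hh : BD B h.1) : BD B (h⁻¹).1 := by
  rw [BD_iff] at hh ⊢
  have e1 : (h⁻¹).1 * (diagonal (bI B) * h.1) * (h⁻¹).1 =
      (h⁻¹).1 * (h.1 * diagonal (bI B)) * (h⁻¹).1 := by rw [hh]
  have e2 : (h⁻¹).1 * (diagonal (bI B) * h.1) * (h⁻¹).1 = (h⁻¹).1 * diagonal (bI B) := by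
    rw [Matrix.mul_assoc, Matrix.mul_assoc, g_mul_inv, Matrix.mul_one]
  have e3 : (h⁻¹).1 * (h.1 * diagonal (bI B)) * (h⁻¹).1 = diagonal (bI B) * (h⁻¹).1 := by
    rw [← Matrix.mul_assoc (h⁻¹).1, g_inv_mul, Matrix.one_mul]
  rw [← e3, ← e2, e1]

theorem BD_diagonal (B : Finset (Fin n)) (d : Fin n → ℝ) : BD B (diagonal d) := by
  intro i hi l hl
  have hne : i ≠ l := fun h => hl (h ▸ hi)
  exact ⟨diagonal_apply_ne d hne, diagonal_apply_ne d hne.symm⟩

theorem BD_ug {B : Finset (Fin n)} {i j : Fin n} (hi : i ∈ B) (hj : j ∈ B) (hij : i ≠ j)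
    (s : ℝ) : BD B (ug i j s : G n).1 := by
  have h1 : (⟨i, hi⟩ : B) ≠ ⟨j, hj⟩ := fun h => hij (congrArg Subtype.val h)
  have h2 := io_tB (n := n) h1 s
  change io (tB h1 s) = ug i j s at h2
  rw [← h2]
  exact BD_io _

theorem BD_pow {B : Finset (Fin n)} {h : G n} (hh : BD B h.1) (m : ℕ) : BD B (h ^ m).1 := by
  induction m with
  | zero =>
    rw [pow_zero]
    have h1 : (1 : G n).1 = diagonal fun _ => (1 : ℝ) := diagonal_one.symm
    rw [h1]
    exact BD_diagonal B _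
  | succ m ih =>
    rw [pow_succ]
    exact ih.mul hh

/-- limits of normalised block diagonal stabilisers -/
theorem limit_mem {B : Finset (Fin n)} (g : G n) {E : Set (X n)} {U : Set (G n)}
    (hU : U ∈ 𝓝 (1 : G n)) (hEU : ∀ x ∈ E, ∀ h ∈ U, tr h x ∈ E → BD B h.1)
    (hx : pt g ∈ E) (H : G n) (hH : BD B H.1) (M : Matrix (Fin n) (Fin n) ℝ)
    (hM : Tendsto (fun m : ℕ => Real.exp (-(m : ℝ)) • (H ^ m).1) atTop (𝓝 M))
    (hrec : ∀ V ∈ 𝓝 (1 : G n), ∃ᶠ m : ℕ in atTop, ∃ h ∈ V, tr (H ^ m) (pt g) = tr h (pt g) ∧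
      tr (H ^ m) (pt g) ∈ E) :
    M ∈ Submodule.span ℝ {M | ∃ s ∈ AA B g, M = (g⁻¹).1 * qm s * g.1} := by
  set D := Submodule.span ℝ {M | ∃ s ∈ AA B g, M = (g⁻¹).1 * qm s * g.1} with hD
  have hDc : IsClosed (D : Set (Matrix (Fin n) (Fin n) ℝ)) :=
    Submodule.closed_of_finiteDimensional D
  have hmem : M ∈ closure (D : Set (Matrix (Fin n) (Fin n) ℝ)) := by
    rw [mem_closure_iff_nhds]
    intro O hO
    have hcont : Tendsto (fun q : Matrix (Fin n) (Fin n) ℝ × G n => q.1 * (q.2⁻¹).1)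
        (𝓝 (M, 1)) (𝓝 M) := by
      have h0 : Continuous fun q : Matrix (Fin n) (Fin n) ℝ × G n => (q.2⁻¹ : G n) :=
        continuous_snd.inv
      have h1 : Continuous fun q : Matrix (Fin n) (Fin n) ℝ × G n => q.1 * (q.2⁻¹).1 :=
        continuous_fst.mul
          (Matrix.SpecialLinearGroup.isClosedEmbedding_val.continuous.comp h0)
      have h2 := h1.tendsto (M, (1 : G n))
      have h3 : M * ((1 : G n)⁻¹).1 = M := by
        rw [inv_one]
        exact Matrix.mul_one M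
      change Tendsto _ _ (𝓝 (M * ((1 : G n)⁻¹).1)) at h2
      rwa [h3] at h2
    have hO2 := hcont hO
    rw [Filter.mem_map, nhds_prod_eq, Filter.mem_prod_iff] at hO2
    obtain ⟨O1, hO1, V, hV, hOV⟩ := hO2
    obtain ⟨m, ⟨h, ⟨hhV, hhU⟩, heq, hE⟩, hm⟩ :=
      ((hrec (V ∩ U) (inter_mem hV hU)).and_eventually (hM.eventually_mem hO1)).exists
    have hmemO : (Real.exp (-(m : ℝ)) • (H ^ m).1 * (h⁻¹).1) ∈ O := hOV (Set.mk_mem_prod hm hhV)
    refine ⟨_, hmemO, ?_⟩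
    have hh : BD B h.1 := hEU _ hx h hhU (heq ▸ hE)
    have hδ : BD B (H ^ m * h⁻¹).1 := (BD_pow hH m).mul (BD_inv hh)
    have hstab : g * (H ^ m * h⁻¹) * g⁻¹ ∈ Gam n := by
      have h1 : pt g = pt (g * (H ^ m * h⁻¹)) := by
        have h2 : tr (h⁻¹) (tr (H ^ m) (pt g)) = tr h⁻¹ (tr h (pt g)) := by rw [heq]
        rw [tr_tr, tr_tr, mul_inv_cancel, Vale.Agent.P007.tr_one, tr_pt] at h2
        exact h2.symm
      exact pt_eq_pt.1 h1
    obtain ⟨k, hk⟩ := hstab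
    set s : Matrix (Fin n) (Fin n) ℚ := k.1.map fun z : ℤ => (z : ℚ) with hs
    have hqs : qm s = (g * (H ^ m * h⁻¹) * g⁻¹).1 := by
      have e1 : (g * (H ^ m * h⁻¹) * g⁻¹).1 =
          (Matrix.SpecialLinearGroup.map (Int.castRingHom ℝ) k).1 := by rw [hk]
      rw [e1]
      ext i j
      rw [hs, qm, map_apply, map_apply]
      change (((k.1 i j : ℤ) : ℚ) : ℝ) = ((k.1 i j : ℤ) : ℝ)
      exact Rat.cast_intCast _
    have e2 : (g⁻¹).1 * qm s * g.1 = (H ^ m * h⁻¹).1 := by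
      have e3 : ∀ δ : G n, g⁻¹ * (g * δ * g⁻¹) * g = δ := fun δ => by group
      rw [hqs]
      change (g⁻¹ * (g * (H ^ m * h⁻¹) * g⁻¹) * g).1 = _
      rw [e3]
    have hmemD : (H ^ m * h⁻¹).1 ∈ D := by
      refine Submodule.subset_span ⟨s, ?_, e2.symm⟩
      change BD B ((g⁻¹).1 * qm s * g.1)
      rw [e2]
      exact hδ
    have h5 : Real.exp (-(m : ℝ)) • (H ^ m).1 * (h⁻¹).1 =
        Real.exp (-(m : ℝ)) • (H ^ m * h⁻¹).1 := by
      rw [Matrix.smul_mul]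
      rfl
    rw [h5]
    exact D.smul_mem _ hmemD
  rwa [hDc.closure_eq] at hmem

/-- the direction `e_i - e_j` -/
noncomputable def bij (i j : Fin n) : Fin n → ℝ := Pi.single i 1 - Pi.single j 1

theorem mean_bij (i j : Fin n) : mean (bij i j) = 0 := by
  unfold mean bij
  rw [Finset.sum_congr rfl fun k _ => Pi.sub_apply _ _ k, Finset.sum_sub_distrib,
    Finset.sum_pi_single', Finset.sum_pi_single']
  simp only [Finset.mem_univ, ↓reduceIte, sub_self, zero_div]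

theorem tendsto_H0 {i j : Fin n} (hij : i ≠ j) :
    Tendsto (fun m : ℕ => Real.exp (-(m : ℝ)) • (da (bij i j) ^ m : G n).1) atTop
      (𝓝 (Matrix.single i i 1)) := by
  have h1 : Tendsto (fun m : ℕ => Real.exp (-(m : ℝ))) atTop (𝓝 0) :=
    Real.tendsto_exp_neg_atTop_nhds_zero.comp tendsto_natCast_atTop_atTop
  refine tendsto_pi_nhds.2 fun k => tendsto_pi_nhds.2 fun l => ?_
  have h2 : ∀ m : ℕ, (Real.exp (-(m : ℝ)) • (da (bij i j) ^ m : G n).1) k l =
      if k = l then Real.exp (-(m : ℝ)) * Real.exp (m * bij i j k) else 0 := by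
    intro m
    rw [Matrix.smul_apply, coe_da_pow, diagonal_apply, mean_bij, smul_eq_mul]
    split_ifs with h
    · rw [sub_zero]
    · rw [mul_zero]
  simp only [h2]
  by_cases hkl : k = l
  · subst hkl
    simp only [if_true]
    by_cases hki : k = i
    · subst hki
      have h3 : ∀ m : ℕ, Real.exp (-(m : ℝ)) * Real.exp (m * bij k j k) = 1 := by
        intro m
        have : bij k j k = 1 := by simp [bij, hij]
        rw [this, mul_one, ← Real.exp_add, neg_add_cancel, Real.exp_zero]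
      simp only [h3, single_apply_same]
      exact tendsto_const_nhds
    · have h4 : (Matrix.single i i (1 : ℝ)) k k = 0 := by
        rw [Matrix.single_apply, if_neg fun h => hki h.1.symm]
      rw [h4]
      refine squeeze_zero (fun m => by positivity) (fun m => ?_) h1
      have h5 : bij i j k ≤ 0 := by
        simp only [bij, Pi.sub_apply, Pi.single_apply, if_neg hki]
        split_ifs <;> norm_num
      have h6 : Real.exp (m * bij i j k) ≤ 1 :=
        Real.exp_le_one_iff.2 (mul_nonpos_of_nonneg_of_nonpos (Nat.cast_nonneg m) h5)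
      calc Real.exp (-(m : ℝ)) * Real.exp (m * bij i j k) ≤ Real.exp (-(m : ℝ)) * 1 :=
            mul_le_mul_of_nonneg_left h6 (Real.exp_pos _).le
        _ = _ := mul_one _
  · simp only [if_neg hkl]
    have h4 : (Matrix.single i i (1 : ℝ)) k l = 0 := by
      rw [Matrix.single_apply, if_neg fun h => hkl (h.1.symm.trans h.2)]
    rw [h4]
    exact tendsto_const_nhds

theorem conj_pow' (u H : G n) (m : ℕ) : (u * H * u⁻¹) ^ m = u * H ^ m * u⁻¹ := conj_pow

theorem tendsto_H1 {i j : Fin n} (hij : i ≠ j) :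
    Tendsto (fun m : ℕ => Real.exp (-(m : ℝ)) •
      ((ug i j 1 * da (bij i j) * (ug i j 1)⁻¹) ^ m : G n).1) atTop
      (𝓝 (Matrix.single i i 1 - Matrix.single i j 1)) := by
  have h1 : ∀ m : ℕ, Real.exp (-(m : ℝ)) •
      ((ug i j 1 * da (bij i j) * (ug i j 1)⁻¹) ^ m : G n).1 =
      (ug i j 1 : G n).1 * (Real.exp (-(m : ℝ)) • (da (bij i j) ^ m : G n).1) *
        ((ug i j 1)⁻¹ : G n).1 := by
    intro m
    rw [conj_pow', Matrix.mul_smul, Matrix.smul_mul]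
    rfl
  simp only [h1]
  have h2 : Continuous fun M : Matrix (Fin n) (Fin n) ℝ =>
      (ug i j 1 : G n).1 * M * ((ug i j 1)⁻¹ : G n).1 :=
    (continuous_const.mul continuous_id).mul continuous_const
  have h3 := (h2.tendsto _).comp (tendsto_H0 hij)
  have h4 : (ug i j 1 : G n).1 * Matrix.single i i (1 : ℝ) * ((ug i j 1)⁻¹ : G n).1 =
      Matrix.single i i 1 - Matrix.single i j 1 := by
    rw [← ug_neg, ug_of_ne hij, ug_of_ne hij]
    change transvection i j 1 * Matrix.single i i (1 : ℝ) * transvection i j (-1) = _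
    simp only [transvection, add_mul, mul_add, one_mul, mul_one]
    rw [single_mul_single_of_ne _ _ _ _ hij.symm, single_mul_single_same, zero_mul]
    ext a b
    simp only [Matrix.add_apply, Matrix.sub_apply, Matrix.single_apply, Matrix.zero_apply]
    split_ifs <;> ring
  rw [h4] at h3
  exact h3

end Vale.Agent.P007.R.Blk

namespace Vale.Agent.P007.R

open Vale.Agent.P007 Vale.Agent.P007.Koopman Vale.Agent.P007.Mautner Vale.Agent.P007.R.Blk

variable {n : ℕ}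

theorem blocks (hn : n.Prime) (μ : Measure (X n)) [IsProbabilityMeasure μ] (hA : AInv μ)
    (B : Finset (Fin n)) (hB : 2 ≤ B.card) (hB' : B ≠ Finset.univ)
    (h1 : ∀ i ∈ B, ∀ j ∈ B, i ≠ j → UInv μ i j)
    (h2 : ∀ i ∈ B, ∀ l ∉ B, Triv μ i l ∧ Triv μ l i) : False := by
  obtain ⟨E, hEm, hE0, U, hU, hEU⟩ := drift μ hA B hB h1 h2
  have hBne : B.Nonempty := Finset.card_pos.1 (by omega)
  have htyp := ae_typical μ hA hBne
  have hr0 : ∀ i j : Fin n, ∀ᵐ x ∂μ, x ∈ E → ∀ V ∈ 𝓝 (1 : G n), ∃ᶠ m : ℕ in atTop,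
      ∃ h ∈ V, tr (da (bij i j) ^ m) x = tr h x ∧ tr (da (bij i j) ^ m) x ∈ E := fun i j =>
    poincare μ _ (hA _) hEm
  have hr1 : ∀ i j : Fin n, i ∈ B → j ∈ B → i ≠ j → ∀ᵐ x ∂μ, x ∈ E → ∀ V ∈ 𝓝 (1 : G n),
      ∃ᶠ m : ℕ in atTop, ∃ h ∈ V,
        tr ((ug i j 1 * da (bij i j) * (ug i j 1)⁻¹) ^ m) x = tr h x ∧
        tr ((ug i j 1 * da (bij i j) * (ug i j 1)⁻¹) ^ m) x ∈ E := fun i j hi hj hij =>
    poincare μ _ (mul_mem (mul_mem (ug_mem_invG (h1 i hi j hj hij) 1) (da_mem_invG hA _))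
      (inv_mem (ug_mem_invG (h1 i hi j hj hij) 1)) : _ ∈ invG μ) hEm
  have hr0' : ∀ᵐ x ∂μ, ∀ i j : Fin n, x ∈ E → ∀ V ∈ 𝓝 (1 : G n), ∃ᶠ m : ℕ in atTop,
      ∃ h ∈ V, tr (da (bij i j) ^ m) x = tr h x ∧ tr (da (bij i j) ^ m) x ∈ E :=
    ae_all_iff.2 fun i => ae_all_iff.2 fun j => hr0 i j
  have hr1' : ∀ᵐ x ∂μ, ∀ i j : Fin n, i ∈ B → j ∈ B → i ≠ j → x ∈ E → ∀ V ∈ 𝓝 (1 : G n),
      ∃ᶠ m : ℕ in atTop, ∃ h ∈ V,
        tr ((ug i j 1 * da (bij i j) * (ug i j 1)⁻¹) ^ m) x = tr h x ∧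
        tr ((ug i j 1 * da (bij i j) * (ug i j 1)⁻¹) ^ m) x ∈ E := by
    refine ae_all_iff.2 fun i => ae_all_iff.2 fun j => ?_
    by_cases hc : i ∈ B ∧ j ∈ B ∧ i ≠ j
    · filter_upwards [hr1 i j hc.1 hc.2.1 hc.2.2] with x hx _ _ _
      exact hx
    · exact Filter.Eventually.of_forall fun x hi hj hij => absurd ⟨hi, hj, hij⟩ hc
  obtain ⟨x, hxE, hx1, hx2, hx3⟩ : ∃ x ∈ E, (∀ g : G n, pt g = x → ∀ z : Fin n → ℤ,
      z ≠ 0 → (∃ i ∈ B, (zr z ᵥ* g.1) i ≠ 0) ∧ ∃ i ∈ B, ((g⁻¹).1 *ᵥ zr z) i ≠ 0) ∧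
      (∀ i j : Fin n, x ∈ E → ∀ V ∈ 𝓝 (1 : G n), ∃ᶠ m : ℕ in atTop,
      ∃ h ∈ V, tr (da (bij i j) ^ m) x = tr h x ∧ tr (da (bij i j) ^ m) x ∈ E) ∧
      ∀ i j : Fin n, i ∈ B → j ∈ B → i ≠ j → x ∈ E → ∀ V ∈ 𝓝 (1 : G n),
      ∃ᶠ m : ℕ in atTop, ∃ h ∈ V,
        tr ((ug i j 1 * da (bij i j) * (ug i j 1)⁻¹) ^ m) x = tr h x ∧
        tr ((ug i j 1 * da (bij i j) * (ug i j 1)⁻¹) ^ m) x ∈ E := by
    by_contra hcon
    apply hE0
    refine measure_mono_null ?_ (htyp.and (hr0'.and hr1'))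
    intro x hx hx'
    exact hcon ⟨x, hx, hx'.1, hx'.2.1, hx'.2.2⟩
  obtain ⟨g, rfl⟩ := pt_surjective x
  have hii : ∀ i ∈ B, ∀ j ∈ B, i ≠ j → Matrix.single i i (1 : ℝ) ∈ Submodule.span ℝ
      {M | ∃ s ∈ AA B g, M = (g⁻¹).1 * qm s * g.1} := fun i hi j hj hij =>
    limit_mem g hU hEU hxE (da (bij i j)) (BD_diagonal B _) _ (tendsto_H0 hij) (hx2 i j hxE)
  have hij' : ∀ i ∈ B, ∀ j ∈ B, i ≠ j → Matrix.single i j (1 : ℝ) ∈ Submodule.span ℝ
      {M | ∃ s ∈ AA B g, M = (g⁻¹).1 * qm s * g.1} := by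
    intro i hi j hj hij
    have h3 := limit_mem g hU hEU hxE (ug i j 1 * da (bij i j) * (ug i j 1)⁻¹)
      (((BD_ug hi hj hij 1).mul (BD_diagonal B _)).mul (BD_inv (BD_ug hi hj hij 1))) _
      (tendsto_H1 hij) (hx3 i j hi hj hij hxE)
    have h4 := Submodule.sub_mem _ (hii i hi j hj hij) h3
    rwa [sub_sub_cancel] at h4
  refine arith_contra hn hB hB' g (fun z hz => (hx1 g rfl z hz).1)
    (fun z hz => (hx1 g rfl z hz).2) ?_
  intro i hi j hj
  by_cases hij : i = j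
  · subst hij
    obtain ⟨j, hj, hne⟩ := Finset.exists_mem_ne (show 1 < B.card by omega) i
    exact hii i hi j hj hne.symm
  · exact hij' i hi j hj hij

end Vale.Agent.P007.R
end

section

/-!
Rigidity: a probability measure on the space of lattices in odd prime dimension that is invariant
under the diagonal group and satisfies (*) is the invariant one.
-/

set_option autoImplicit false

open MeasureTheory Matrix Filter Topology ProbabilityTheory
open scoped ENNReal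

namespace Vale.Agent.P007.R

open Vale.Agent.P007 Vale.Agent.P007.Koopman Vale.Agent.P007.Mautner

variable {n : ℕ}

theorem inputs (hn : n.Prime) (hn' : Odd n) : Inputs n where
  hopf μ _ a ha F hF hinv := hopf μ a ha F hF hinv
  star_cycle μ _ hA hS F h1 h2 := star_cycle_of_names (names n) hn.one_lt μ hA hS F h1 h2
  haar_symm μ _ hA F h1 h2 _ _ hil hU := haar_symm_of_names (names n) μ hA F h1 h2 hil hU
  not_triv_of_uinv hij hU := not_triv_of_uinv hij hU
  high μ _ hA hP _ _ _ hij hjk hik h1 h2 := high μ hA hP hij hjk hik h1 h2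
  low μ _ hA hP _ _ hij h1 h2 := low hn' μ hA hP hij h1 h2
  blocks μ _ hA B hB hB' h1 h2 := blocks hn μ hA B hB hB' h1 h2

/-- Rigidity. -/
theorem rigidity (hn : n.Prime) (hn' : Odd n) (μ : Measure (X n)) [IsProbabilityMeasure μ]
    (hA : AInv μ) (hS : Star μ) : IsInvProb μ :=
  rigidity_of (inputs hn hn') hn.one_lt μ hA hS

end Vale.Agent.P007.R
end

section

/-!
The number of invertible ideals of the maximal order is the number of ideals.
-/

set_option autoImplicit false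

open MeasureTheory Matrix NumberField Filter Topology
open scoped ENNReal nonZeroDivisors

namespace Vale.Agent.P007.N

open Vale.Agent.P007 Vale.Agent.P007.R

variable {n : ℕ}

theorem algMap_order_inj (D : Datum n) : Function.Injective (algebraMap D.O D.K) := by
  intro a b h
  have h1 : ((a : 𝓞 D.K) : D.K) = ((b : 𝓞 D.K) : D.K) := h
  exact Subtype.ext (RingOfIntegers.coe_injective h1)

theorem isFractionRing_order (D : Datum n) : IsFractionRing D.O D.K := by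
  refine (isLocalization_iff D.O⁰ D.K).mpr ⟨?_, ?_, ?_⟩
  · intro y
    refine (isUnit_iff_ne_zero).mpr ?_
    intro h
    have h1 : (y : D.O) = 0 := algMap_order_inj D (by rw [h, map_zero])
    exact nonZeroDivisors.ne_zero y.2 h1
  · intro z
    obtain ⟨N, hN, y, hy⟩ := D.exists_mul_mem z
    refine ⟨(y, ⟨(N : D.O), ?_⟩), ?_⟩
    · refine mem_nonZeroDivisors_of_ne_zero ?_
      exact_mod_cast hN
    · have h1 : algebraMap D.O D.K y = ((y : 𝓞 D.K) : D.K) := rfl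
      rw [h1, ← hy]
      simp [mul_comm]
  · intro x y h
    exact ⟨1, by rw [algMap_order_inj D h]⟩

/-- Every nonzero ideal of the maximal order is invertible. -/
theorem isUnit_of_ne_bot (D : Datum n) (J : Ideal (mx D).O) (hJ : J ≠ ⊥) :
    IsUnit (J : FractionalIdeal (mx D).O⁰ (mx D).K) := by
  have := isFractionRing_order (mx D)
  let e : (mx D).O ≃+* 𝓞 D.K := Subring.topEquiv
  obtain ⟨a, haJ, ha0⟩ := Submodule.exists_mem_ne_zero_of_ne_bot hJ
  have h1 : Ideal.map e J ∣ Ideal.span {e a} := by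
    rw [Ideal.dvd_iff_le, Ideal.span_singleton_le_iff_mem]
    exact Ideal.mem_map_of_mem e haJ
  obtain ⟨I', hI'⟩ := h1
  have h2 : J * Ideal.map e.symm I' = Ideal.span {a} := by
    have h3 := congrArg (Ideal.map e.symm) hI'
    rw [Ideal.map_span, Ideal.map_mul] at h3
    have h4 : Ideal.map e.symm (Ideal.map e J) = J := by
      exact Ideal.map_of_equiv e
    rw [h4] at h3
    rw [← h3]
    simp
  have h5 : (J : FractionalIdeal (mx D).O⁰ (mx D).K) *
      ((Ideal.map e.symm I' : Ideal (mx D).O) : FractionalIdeal (mx D).O⁰ (mx D).K) =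
      FractionalIdeal.spanSingleton (mx D).O⁰ (algebraMap (mx D).O (mx D).K a) := by
    rw [← FractionalIdeal.coeIdeal_mul, h2, FractionalIdeal.coeIdeal_span_singleton]
  have h6 : IsUnit (FractionalIdeal.spanSingleton (mx D).O⁰ (algebraMap (mx D).O (mx D).K a)) := by
    have h7 : algebraMap (mx D).O (mx D).K a ≠ 0 := by
      intro h
      exact ha0 (algMap_order_inj (mx D) (by rw [h, map_zero]))
    refine IsUnit.of_mul_eq_one (FractionalIdeal.spanSingleton (mx D).O⁰ (algebraMap (mx D).O (mx D).K a)⁻¹) ?_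
    rw [FractionalIdeal.spanSingleton_mul_spanSingleton, mul_inv_cancel₀ h7,
      FractionalIdeal.spanSingleton_one]
  rw [← h5] at h6
  exact isUnit_of_mul_isUnit_left h6

theorem card_quot_top (D : Datum n) (J : Ideal (mx D).O) :
    Nat.card ((mx D).O ⧸ J) =
      Ideal.absNorm (Ideal.map (Subring.topEquiv : (mx D).O ≃+* 𝓞 D.K) J) := by
  rw [Ideal.absNorm_apply, Submodule.cardQuot_apply]
  exact Nat.card_congr (Ideal.quotientEquiv J _ (Subring.topEquiv : (mx D).O ≃+* 𝓞 D.K) rfl).toEquiv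

theorem rO_mx (D : Datum n) {m : ℕ} (hm : m ≠ 0) : rO (mx D) m = Z.aN D.K m := by
  unfold rO Z.aN
  let e : (mx D).O ≃+* 𝓞 D.K := Subring.topEquiv
  refine Nat.card_congr ?_
  refine Equiv.subtypeEquiv e.idealComapOrderIso.symm.toEquiv ?_
  intro J
  have h0 : e.idealComapOrderIso.symm.toEquiv J = Ideal.map e J := by
    simp
  rw [h0, card_quot_top D J]
  constructor
  · rintro ⟨_, h⟩
    exact h
  · intro h
    refine ⟨isUnit_of_ne_bot D J ?_, h⟩
    rintro rfl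
    apply hm
    rw [← h]
    have h1 : Ideal.map e (⊥ : Ideal (mx D).O) = ⊥ := Ideal.map_bot
    change Ideal.absNorm (Ideal.map e ⊥) = 0
    rw [h1]
    exact Ideal.absNorm_bot

end Vale.Agent.P007.N
end

section

/-!
Lower bound for the local unit density of the maximal order.
-/

set_option autoImplicit false

open MeasureTheory Matrix NumberField Filter Topology IsDedekindDomain
open scoped ENNReal nonZeroDivisors

namespace Vale.Agent.P007.N

open Vale.Agent.P007 Vale.Agent.P007.R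

section Field

variable {E : Type*} [Field E] [NumberField E]

theorem finite_rc (p : ℕ) : {v : HeightOneSpectrum (𝓞 E) | Z.rc v = p}.Finite := by
  by_contra h
  obtain ⟨t, ht, hc⟩ := Set.Infinite.exists_subset_card_eq (s := {v : HeightOneSpectrum (𝓞 E) | Z.rc v = p})
    h (Module.finrank ℚ E + 1)
  have := Z.card_rc_le t p (fun v hv => ht hv)
  omega

/-- the primes above `p` -/
noncomputable def Tp (E : Type*) [Field E] [NumberField E] (p : ℕ) :
    Finset (HeightOneSpectrum (𝓞 E)) := (finite_rc p).toFinset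

theorem mem_Tp {p : ℕ} {v : HeightOneSpectrum (𝓞 E)} : v ∈ Tp E p ↔ Z.rc v = p := by
  simp [Tp]

theorem rc_eq_of_mem {p : ℕ} (hp : p.Prime) {v : HeightOneSpectrum (𝓞 E)}
    (h : (p : 𝓞 E) ∈ v.asIdeal) : Z.rc v = p := by
  by_contra hne
  have h1 := Z.rc_mem v
  have h2 : Nat.Coprime (Z.rc v) p := (Nat.coprime_primes (Z.rc_prime v) hp).mpr hne
  have h3 := Nat.isCoprime_iff_coprime.mpr h2
  obtain ⟨a, b, hab⟩ := h3
  have h4 : (1 : 𝓞 E) ∈ v.asIdeal := by
    have h5 : (1 : 𝓞 E) = (a : 𝓞 E) * (Z.rc v : 𝓞 E) + (b : 𝓞 E) * (p : 𝓞 E) := by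
      exact_mod_cast hab.symm
    rw [h5]
    exact Ideal.add_mem _ (Ideal.mul_mem_left _ _ h1) (Ideal.mul_mem_left _ _ h)
  exact v.isPrime.ne_top ((Ideal.eq_top_iff_one _).mpr h4)

theorem absNorm_span_natCast (p : ℕ) :
    Ideal.absNorm (Ideal.span {(p : 𝓞 E)}) = p ^ Module.finrank ℚ E := by
  rw [Ideal.absNorm_span_singleton, Algebra.norm_natCast, RingOfIntegers.rank]
  simp

theorem card_quot_p (p : ℕ) :
    Nat.card (𝓞 E ⧸ Ideal.span {(p : 𝓞 E)}) = p ^ Module.finrank ℚ E := by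
  rw [← absNorm_span_natCast, Ideal.absNorm_apply, Submodule.cardQuot_apply]

theorem finite_quot_p {p : ℕ} (hp : p ≠ 0) : Finite (𝓞 E ⧸ Ideal.span {(p : 𝓞 E)}) := by
  refine Nat.finite_of_card_ne_zero ?_
  rw [card_quot_p]
  positivity

/-- the image of a prime in the quotient has cardinality `p^n / N v` -/
theorem card_map_mul {p : ℕ} (v : HeightOneSpectrum (𝓞 E))
    (hv : (p : 𝓞 E) ∈ v.asIdeal) :
    Nat.card (Ideal.map (Ideal.Quotient.mk (Ideal.span {(p : 𝓞 E)})) v.asIdeal) * Z.Nv v =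
      p ^ Module.finrank ℚ E := by
  have hle : Ideal.span {(p : 𝓞 E)} ≤ v.asIdeal := by
    rwa [Ideal.span_singleton_le_iff_mem]
  have h1 := Submodule.card_eq_card_quotient_mul_card
    (Ideal.map (Ideal.Quotient.mk (Ideal.span {(p : 𝓞 E)})) v.asIdeal)
  rw [card_quot_p] at h1
  have h2 : Nat.card ((𝓞 E ⧸ Ideal.span {(p : 𝓞 E)}) ⧸
      Ideal.map (Ideal.Quotient.mk (Ideal.span {(p : 𝓞 E)})) v.asIdeal) = Z.Nv v := by
    rw [Nat.card_congr (DoubleQuot.quotQuotEquivQuotOfLE hle).toEquiv, Z.Nv, Ideal.absNorm_apply,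
      Submodule.cardQuot_apply]
  rw [h1, h2, mul_comm]

theorem exists_prime_of_not_isUnit {p : ℕ} (hp : p.Prime) (x : 𝓞 E ⧸ Ideal.span {(p : 𝓞 E)})
    (hx : ¬ IsUnit x) : ∃ v ∈ Tp E p,
      x ∈ Ideal.map (Ideal.Quotient.mk (Ideal.span {(p : 𝓞 E)})) v.asIdeal := by
  obtain ⟨M, hM, hxM⟩ := exists_max_ideal_of_mem_nonunits hx
  have hprime : (Ideal.comap (Ideal.Quotient.mk (Ideal.span {(p : 𝓞 E)})) M).IsPrime :=
    Ideal.comap_isPrime _ _
  have hpM : (p : 𝓞 E) ∈ Ideal.comap (Ideal.Quotient.mk (Ideal.span {(p : 𝓞 E)})) M := by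
    rw [Ideal.mem_comap]
    have : Ideal.Quotient.mk (Ideal.span {(p : 𝓞 E)}) (p : 𝓞 E) = 0 :=
      Ideal.Quotient.eq_zero_iff_mem.mpr (Ideal.mem_span_singleton_self _)
    rw [this]
    exact M.zero_mem
  have hne : Ideal.comap (Ideal.Quotient.mk (Ideal.span {(p : 𝓞 E)})) M ≠ ⊥ := by
    intro h
    rw [h, Ideal.mem_bot] at hpM
    exact hp.ne_zero (by exact_mod_cast hpM)
  refine ⟨⟨_, hprime, hne⟩, ?_, ?_⟩
  · rw [mem_Tp]
    exact rc_eq_of_mem hp hpM
  · rw [Ideal.map_comap_of_surjective _ Ideal.Quotient.mk_surjective]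
    exact hxM

theorem card_nonunits_le {p : ℕ} (hp : p.Prime) :
    (Nat.card {x : 𝓞 E ⧸ Ideal.span {(p : 𝓞 E)} // ¬ IsUnit x} : ℝ) / (p : ℝ) ^ Module.finrank ℚ E ≤
      ∑ v ∈ Tp E p, ((Z.Nv v : ℝ))⁻¹ := by
  classical
  have hfin := finite_quot_p (E := E) hp.ne_zero
  have := Fintype.ofFinite (𝓞 E ⧸ Ideal.span {(p : 𝓞 E)})
  have hpn : (0 : ℝ) < (p : ℝ) ^ Module.finrank ℚ E := by
    have : (0 : ℝ) < p := by exact_mod_cast hp.pos
    positivity
  rw [div_le_iff₀ hpn, Finset.sum_mul]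
  have h1 : Nat.card {x : 𝓞 E ⧸ Ideal.span {(p : 𝓞 E)} // ¬ IsUnit x} ≤
      ∑ v ∈ Tp E p, Nat.card (Ideal.map (Ideal.Quotient.mk (Ideal.span {(p : 𝓞 E)})) v.asIdeal) := by
    have h2 : ∀ v : HeightOneSpectrum (𝓞 E),
        Nat.card (Ideal.map (Ideal.Quotient.mk (Ideal.span {(p : 𝓞 E)})) v.asIdeal) =
        (Finset.univ.filter fun x : 𝓞 E ⧸ Ideal.span {(p : 𝓞 E)} =>
          x ∈ Ideal.map (Ideal.Quotient.mk (Ideal.span {(p : 𝓞 E)})) v.asIdeal).card := by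
      intro v
      rw [Nat.card_eq_fintype_card]
      exact Fintype.card_subtype _
    rw [Nat.card_eq_fintype_card, Fintype.card_subtype]
    simp_rw [h2]
    refine le_trans (Finset.card_le_card ?_) Finset.card_biUnion_le
    intro x hx
    rw [Finset.mem_filter] at hx
    obtain ⟨v, hv, hxv⟩ := exists_prime_of_not_isUnit hp x hx.2
    rw [Finset.mem_biUnion]
    exact ⟨v, hv, by simpa using hxv⟩
  have h3 : ((∑ v ∈ Tp E p, Nat.card (Ideal.map (Ideal.Quotient.mk (Ideal.span {(p : 𝓞 E)})) v.asIdeal) : ℕ) : ℝ)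
      = ∑ v ∈ Tp E p, (Z.Nv v : ℝ)⁻¹ * (p : ℝ) ^ Module.finrank ℚ E := by
    rw [Nat.cast_sum]
    refine Finset.sum_congr rfl fun v hv => ?_
    have h4 : (p : 𝓞 E) ∈ v.asIdeal := by
      have := Z.rc_mem v
      rwa [mem_Tp.mp hv] at this
    have h5 := card_map_mul v h4
    have h6 : (0 : ℝ) < Z.Nv v := by exact_mod_cast Z.Nv_pos v
    have h7 : (Nat.card (Ideal.map (Ideal.Quotient.mk (Ideal.span {(p : 𝓞 E)})) v.asIdeal) : ℝ) *
      (Z.Nv v : ℝ) = (p : ℝ) ^ Module.finrank ℚ E := by exact_mod_cast h5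
    rw [← h7]
    field_simp
  rw [← h3]
  exact_mod_cast h1

theorem sum_Tp_le {p : ℕ} (hp : p.Prime) :
    ∑ v ∈ Tp E p, ((Z.Nv v : ℝ))⁻¹ ≤ (Z.aN E p : ℝ) / p + Module.finrank ℚ E / (p : ℝ) ^ 2 := by
  classical
  have hp0 : (0 : ℝ) < p := by exact_mod_cast hp.pos
  rw [← Finset.sum_filter_add_sum_filter_not (Tp E p) (fun v => Z.Nv v = p)]
  refine add_le_add ?_ ?_
  · have h1 : ∀ v ∈ (Tp E p).filter (fun v => Z.Nv v = p), ((Z.Nv v : ℝ))⁻¹ = (p : ℝ)⁻¹ := by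
      intro v hv
      rw [(Finset.mem_filter.mp hv).2]
    rw [Finset.sum_congr rfl h1, Finset.sum_const, nsmul_eq_mul, div_eq_mul_inv]
    refine mul_le_mul_of_nonneg_right ?_ (by positivity)
    have key : ∀ q : Nat.Primes, Finite {v : HeightOneSpectrum (𝓞 E) // Z.Nv v = q} :=
      fun q => inferInstance
    have h2 : Nat.card {v : HeightOneSpectrum (𝓞 E) // Z.Nv v = p} = Z.aN E p :=
      Z.card_primeNorm (E := E) ⟨p, hp⟩
    have hfin : Finite {v : HeightOneSpectrum (𝓞 E) // Z.Nv v = p} := key ⟨p, hp⟩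
    have h3 : ((Tp E p).filter (fun v => Z.Nv v = p)).card ≤
        Nat.card {v : HeightOneSpectrum (𝓞 E) // Z.Nv v = p} := by
      rw [← Fintype.card_coe, ← Nat.card_eq_fintype_card]
      exact Nat.card_le_card_of_injective
        (fun v : ((Tp E p).filter (fun v => Z.Nv v = p)) =>
          (⟨v.1, (Finset.mem_filter.mp v.2).2⟩ : {v : HeightOneSpectrum (𝓞 E) // Z.Nv v = p}))
        (fun v w h => Subtype.ext (congrArg (fun x => x.1) h))
    rw [h2] at h3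
    exact_mod_cast h3
  · have h1 : ∀ v ∈ (Tp E p).filter (fun v => ¬ Z.Nv v = p), ((Z.Nv v : ℝ))⁻¹ ≤ ((p : ℝ) ^ 2)⁻¹ := by
      intro v hv
      rw [Finset.mem_filter, mem_Tp] at hv
      have h2 : ¬ (Z.Nv v).Prime := by
        intro h
        apply hv.2
        rw [← hv.1, Z.rc, h.minFac_eq]
      have := Z.Nv_inv_le_of_not_prime h2
      rwa [hv.1] at this
    refine (Finset.sum_le_sum h1).trans ?_
    rw [Finset.sum_const, nsmul_eq_mul, div_eq_mul_inv]
    refine mul_le_mul_of_nonneg_right ?_ (by positivity)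
    have h3 : ((Tp E p).filter (fun v => ¬ Z.Nv v = p)).card ≤ Module.finrank ℚ E :=
      Z.card_rc_le _ p (fun v hv => mem_Tp.mp (Finset.mem_filter.mp hv).1)
    exact_mod_cast h3

/-- lower bound for the density of units mod `p` -/
theorem card_units_ge {p : ℕ} (hp : p.Prime) :
    1 - ((Z.aN E p : ℝ) / p + Module.finrank ℚ E / (p : ℝ) ^ 2) ≤
      (Nat.card (𝓞 E ⧸ Ideal.span {(p : 𝓞 E)})ˣ : ℝ) / (p : ℝ) ^ Module.finrank ℚ E := by
  classical
  have hfin := finite_quot_p (E := E) hp.ne_zero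
  have := Fintype.ofFinite (𝓞 E ⧸ Ideal.span {(p : 𝓞 E)})
  have hpn : (0 : ℝ) < (p : ℝ) ^ Module.finrank ℚ E := by
    have : (0 : ℝ) < p := by exact_mod_cast hp.pos
    positivity
  have h1 := (card_nonunits_le (E := E) hp).trans (sum_Tp_le hp)
  have h2 : Nat.card (𝓞 E ⧸ Ideal.span {(p : 𝓞 E)})ˣ +
      Nat.card {x : 𝓞 E ⧸ Ideal.span {(p : 𝓞 E)} // ¬ IsUnit x} = p ^ Module.finrank ℚ E := by
    rw [← card_quot_p (E := E) p]
    have h3 : Nat.card (𝓞 E ⧸ Ideal.span {(p : 𝓞 E)})ˣ =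
        Nat.card {x : 𝓞 E ⧸ Ideal.span {(p : 𝓞 E)} // IsUnit x} := by
      refine Nat.card_congr ?_
      exact Equiv.ofBijective (fun u => ⟨u.1, u.isUnit⟩)
        ⟨fun u v h => Units.ext (congrArg (fun x => x.1) h), fun x => ⟨x.2.unit, by simp⟩⟩
    rw [h3, ← Nat.card_sum]
    exact Nat.card_congr (Equiv.sumCompl _)
  have h3 : (Nat.card (𝓞 E ⧸ Ideal.span {(p : 𝓞 E)})ˣ : ℝ) +
      Nat.card {x : 𝓞 E ⧸ Ideal.span {(p : 𝓞 E)} // ¬ IsUnit x} = (p : ℝ) ^ Module.finrank ℚ E := by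
    exact_mod_cast h2
  rw [div_le_iff₀ hpn] at h1
  rw [le_div_iff₀ hpn]
  linarith

theorem card_units_pos {p : ℕ} (hp : p.Prime) :
    1 ≤ Nat.card (𝓞 E ⧸ Ideal.span {(p : 𝓞 E)})ˣ := by
  have hfin := finite_quot_p (E := E) hp.ne_zero
  exact Nat.card_pos

end Field

variable {n : ℕ}

theorem up_mx (D : Datum n) (p : ℕ) :
    up (mx D) p = (Nat.card (𝓞 D.K ⧸ Ideal.span {(p : 𝓞 D.K)})ˣ : ℝ) / (p : ℝ) ^ n := by
  unfold up
  congr 2
  let e : (mx D).O ≃+* 𝓞 D.K := Subring.topEquiv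
  have h1 : Ideal.span {(p : 𝓞 D.K)} = Ideal.map (e : (mx D).O →+* 𝓞 D.K) (Ideal.span {(p : (mx D).O)}) := by
    rw [Ideal.map_span, Set.image_singleton, map_natCast]
  exact Nat.card_congr (Units.mapEquiv (Ideal.quotientEquiv _ _ e h1).toMulEquiv).toEquiv

/-- `-log u_p ≤ a(p)/p + C/p^2` for `p ≥ 4 n` -/
theorem neg_log_up_le (D : Datum n) {p : ℕ} (hp : p.Prime) (hpn : 4 * n ≤ p) :
    -Real.log (up (mx D) p) ≤ (Z.aN D.K p : ℝ) / p + (n + 8 * n ^ 2) / (p : ℝ) ^ 2 := by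
  have hn := D.pos
  have hn' : (1 : ℝ) ≤ n := by exact_mod_cast hn
  have hp0 : (0 : ℝ) < p := by exact_mod_cast hp.pos
  have hpn' : 4 * (n : ℝ) ≤ p := by exact_mod_cast hpn
  set x : ℝ := (Z.aN D.K p : ℝ) / p + n / (p : ℝ) ^ 2 with hx
  have h1 : 1 - x ≤ up (mx D) p := by
    have := card_units_ge (E := D.K) hp
    rw [D.deg] at this
    rw [up_mx]
    exact this
  have ha : (Z.aN D.K p : ℝ) ≤ n := by
    have := Z.aN_prime_le (E := D.K) ⟨p, hp⟩
    rw [D.deg] at this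
    exact_mod_cast this
  have hx0 : 0 ≤ x := by (clear * - hn hp0; positivity)
  have hx2 : x ≤ 2 * n / p := by
    have h2 : (Z.aN D.K p : ℝ) / p ≤ n / p := by (clear * - hp0 ha; gcongr)
    have h3 : (n : ℝ) / (p : ℝ) ^ 2 ≤ n / p := by
      have : (p : ℝ) ≤ (p : ℝ) ^ 2 := by nlinarith only [hn', hpn']
      (clear * - hn hp0 this; gcongr)
    rw [hx, two_mul, add_div]
    exact add_le_add h2 h3
  have hx3 : x ≤ 1 / 2 := by
    refine hx2.trans ?_
    rw [div_le_div_iff₀ hp0 (by norm_num)]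
    linarith only [hpn']
  have h4 : -Real.log (up (mx D) p) ≤ -Real.log (1 - x) := by
    rw [neg_le_neg_iff]
    exact Real.log_le_log (by linarith only [hx3]) h1
  have h5 : -Real.log (1 - x) ≤ x + 2 * x ^ 2 := by
    have h6 := Real.one_sub_inv_le_log_of_pos (show (0 : ℝ) < 1 - x by linarith only [hx3])
    have h7 : (1 - x)⁻¹ ≤ 1 + x + 2 * x ^ 2 := by
      rw [inv_le_iff_one_le_mul₀ (by linarith only [hx3])]
      nlinarith only [mul_nonneg hx0 hx0,
        mul_nonneg (mul_nonneg hx0 hx0) (show (0 : ℝ) ≤ 1 / 2 - x by linarith), hx0, hx3]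
    linarith only [h6, h7]
  have h8 : x ^ 2 ≤ 4 * n ^ 2 / (p : ℝ) ^ 2 := by
    have h9 : x ^ 2 ≤ (2 * n / p) ^ 2 := by (clear * - hn hp0 hx2; gcongr)
    refine h9.trans (le_of_eq ?_)
    rw [div_pow]
    ring
  have h10 : (n + 8 * (n : ℝ) ^ 2) / (p : ℝ) ^ 2 = n / (p : ℝ) ^ 2 + 2 * (4 * n ^ 2 / (p : ℝ) ^ 2) := by
    ring
  rw [h10]
  have h11 : x = (Z.aN D.K p : ℝ) / p + n / (p : ℝ) ^ 2 := hx
  linarith only [h4, h5, h8]

/-- `-log u_p ≤ n log p` -/
theorem neg_log_up_le' (D : Datum n) {p : ℕ} (hp : p.Prime) :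
    -Real.log (up (mx D) p) ≤ n * Real.log p := by
  have hp0 : (0 : ℝ) < p := by exact_mod_cast hp.pos
  have h1 := card_units_pos (E := D.K) hp
  have h2 : ((p : ℝ) ^ n)⁻¹ ≤ up (mx D) p := by
    rw [up_mx, ← one_div]
    have : (1 : ℝ) ≤ (Nat.card (𝓞 D.K ⧸ Ideal.span {(p : 𝓞 D.K)})ˣ : ℝ) := by exact_mod_cast h1
    gcongr
  have h3 := Real.log_le_log (by positivity) h2
  rw [Real.log_inv, Real.log_pow] at h3
  linarith only [h3]

theorem up_mx_pos (D : Datum n) {p : ℕ} (hp : p.Prime) : 0 < up (mx D) p := by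
  have hp0 : (0 : ℝ) < p := by exact_mod_cast hp.pos
  have h1 := card_units_pos (E := D.K) hp
  rw [up_mx]
  have : (1 : ℝ) ≤ (Nat.card (𝓞 D.K ⧸ Ideal.span {(p : 𝓞 D.K)})ˣ : ℝ) := by exact_mod_cast h1
  positivity

theorem mem_P2 {X : ℝ} {p : ℕ} : p ∈ P2 X ↔ p ≤ ⌊2 * X⌋₊ ∧ p.Prime := by
  simp [P2]

/-- `∑_{p ≤ 2X} -log u_p ≤ ∑_{p ≤ 2X} a(p)/p + O_n(1)` -/
theorem sum_neg_log_up (n : ℕ) : ∃ C : ℝ, ∀ (D : Datum n) (X : ℝ),
    ∑ p ∈ P2 X, -Real.log (up (mx D) p) ≤ ∑ p ∈ P2 X, (Z.aN D.K p : ℝ) / p + C := by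
  have hs : Summable fun k : ℕ => ((k : ℝ) ^ 2)⁻¹ := Real.summable_nat_pow_inv.2 (by norm_num)
  refine ⟨∑ p ∈ Finset.range (4 * n), n * Real.log p + (n + 8 * n ^ 2) * ∑' k : ℕ, ((k : ℝ) ^ 2)⁻¹,
    fun D X => ?_⟩
  rw [← Finset.sum_filter_add_sum_filter_not (P2 X) (fun p => p < 4 * n)]
  have h1 : ∑ p ∈ (P2 X).filter (fun p => p < 4 * n), -Real.log (up (mx D) p) ≤
      ∑ p ∈ Finset.range (4 * n), n * Real.log p := by
    calc ∑ p ∈ (P2 X).filter (fun p => p < 4 * n), -Real.log (up (mx D) p) ≤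
        ∑ p ∈ (P2 X).filter (fun p => p < 4 * n), n * Real.log p := by
          refine Finset.sum_le_sum fun p hp => ?_
          rw [Finset.mem_filter, mem_P2] at hp
          exact neg_log_up_le' D hp.1.2
      _ ≤ _ := by
          refine Finset.sum_le_sum_of_subset_of_nonneg ?_ ?_
          · intro p hp
            rw [Finset.mem_filter] at hp
            exact Finset.mem_range.mpr hp.2
          · intro p _ _
            exact mul_nonneg (by positivity) (Real.log_natCast_nonneg p)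
  have h2 : ∑ p ∈ (P2 X).filter (fun p => ¬ p < 4 * n), -Real.log (up (mx D) p) ≤
      ∑ p ∈ P2 X, (Z.aN D.K p : ℝ) / p + (n + 8 * n ^ 2) * ∑' k : ℕ, ((k : ℝ) ^ 2)⁻¹ := by
    calc ∑ p ∈ (P2 X).filter (fun p => ¬ p < 4 * n), -Real.log (up (mx D) p) ≤
        ∑ p ∈ (P2 X).filter (fun p => ¬ p < 4 * n),
          ((Z.aN D.K p : ℝ) / p + (n + 8 * n ^ 2) * ((p : ℝ) ^ 2)⁻¹) := by
          refine Finset.sum_le_sum fun p hp => ?_
          rw [Finset.mem_filter, mem_P2] at hp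
          exact neg_log_up_le D hp.1.2 (by omega)
      _ = ∑ p ∈ (P2 X).filter (fun p => ¬ p < 4 * n), (Z.aN D.K p : ℝ) / p +
          (n + 8 * n ^ 2) * ∑ p ∈ (P2 X).filter (fun p => ¬ p < 4 * n), ((p : ℝ) ^ 2)⁻¹ := by
          rw [Finset.sum_add_distrib, Finset.mul_sum]
      _ ≤ _ := by
          refine add_le_add ?_ ?_
          · exact Finset.sum_le_sum_of_subset_of_nonneg (Finset.filter_subset _ _)
              (fun p _ _ => by (clear * -; positivity))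
          · refine mul_le_mul_of_nonneg_left ?_ (by positivity)
            exact hs.sum_le_tsum _ (fun k _ => by positivity)
  linarith

end Vale.Agent.P007.N
end

section

/-!
Lower bound for the residue of the zeta function, given that there is no exceptional zero.
-/

set_option autoImplicit false

open MeasureTheory Matrix NumberField Filter Topology IsDedekindDomain
open scoped ENNReal nonZeroDivisors

namespace Vale.Agent.P007.N

open Vale.Agent.P007 Vale.Agent.P007.R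

/-- the trivial character -/
noncomputable def chi0 : ℕ →*₀ ℂ where
  toFun k := if k = 0 then 0 else 1
  map_zero' := by simp
  map_one' := by simp
  map_mul' a b := by
    by_cases ha : a = 0 <;> by_cases hb : b = 0 <;> simp [ha, hb]

theorem chi0_apply {k : ℕ} (hk : k ≠ 0) : chi0 k = 1 := if_neg hk

theorem norm_chi0_le (k : ℕ) : ‖chi0 k‖ ≤ 1 := by
  by_cases hk : k = 0
  · subst hk; simp only [map_zero, norm_zero, zero_le_one]
  · rw [chi0_apply hk]; simp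

section Field

variable (E : Type) [Field E] [NumberField E]

theorem PS_chi0 (σ : ℝ) : Z.PS E chi0 σ = ∑' p : Nat.Primes, (Z.aN E p : ℝ) * (p : ℝ) ^ (-σ) := by
  unfold Z.PS
  refine tsum_congr fun p => ?_
  rw [chi0_apply p.2.ne_zero]
  simp

theorem summable_aN_prime {σ : ℝ} (hσ : 1 < σ) :
    Summable fun p : Nat.Primes => (Z.aN E p : ℝ) * (p : ℝ) ^ (-σ) := by
  refine (Z.summable_PS (E := E) norm_chi0_le hσ).congr fun p => ?_
  rw [chi0_apply p.2.ne_zero]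
  simp

theorem Del_one {ℓ η : ℝ} (hℓ : 0 < ℓ) (hη : 0 < η) :
    Z.Del E (1 : DirichletCharacter ℂ 1) ℓ η = Z.PS E chi0 (1 + η / ℓ) - Z.PS E chi0 (1 + 1 / ℓ) := by
  have h1 : 1 < 1 + η / ℓ := by
    have : 0 < η / ℓ := by positivity
    linarith only [this]
  have h2 : 1 < 1 + 1 / ℓ := by
    have : 0 < 1 / ℓ := by positivity
    linarith only [this]
  rw [PS_chi0, PS_chi0, ← (summable_aN_prime E h1).tsum_sub (summable_aN_prime E h2), Z.Del]
  refine tsum_congr fun p => ?_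
  have h3 : (1 : DirichletCharacter ℂ 1) ((p : ℕ) : ZMod 1) = 1 := by
    rw [Subsingleton.elim ((p : ℕ) : ZMod 1) 1, map_one]
  have h4 : (Z.aE E p : ℝ) = Z.aN E p := rfl
  rw [h3, h4, Z.wt]
  simp only [Complex.one_re, one_mul]
  ring

theorem Lf_chi0 (s : ℂ) : Z.Lf E chi0 s = dedekindZeta E s := by
  unfold Z.Lf dedekindZeta
  refine LSeries_congr (fun {k} hk => ?_) s
  rw [chi0_apply hk, one_mul]
  rfl

theorem residue_ge_of_Del {C ℓ : ℝ} (hℓ : 0 < ℓ)
    (h : ∀ η : ℝ, 0 < η → η ≤ 1 → -Real.log η - C ≤ Z.Del E (1 : DirichletCharacter ℂ 1) ℓ η) :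
    ℓ⁻¹ * Real.exp (Z.PS E chi0 (1 + 1 / ℓ) - C - 4 * Module.finrank ℚ E) ≤
      dedekindZeta_residue E := by
  have h1 := (tendsto_sub_one_mul_dedekindZeta_nhdsGT E).norm
  have h2 : ‖((dedekindZeta_residue E : ℝ) : ℂ)‖ = dedekindZeta_residue E := by
    rw [Complex.norm_real, Real.norm_eq_abs, abs_of_pos (dedekindZeta_residue_pos E)]
  rw [h2] at h1
  refine ge_of_tendsto h1 ?_
  have h3 : Set.Ioc (1 : ℝ) (1 + 1 / ℓ) ∈ 𝓝[>] (1 : ℝ) := by
    refine Ioc_mem_nhdsGT ?_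
    have : 0 < 1 / ℓ := by positivity
    linarith only [this]
  filter_upwards [h3] with s hs
  obtain ⟨hs1, hs2⟩ := hs
  set η : ℝ := (s - 1) * ℓ with hη
  have hη0 : 0 < η := mul_pos (by linarith only [hs1]) hℓ
  have hη1 : η ≤ 1 := by
    have : (s - 1) * ℓ ≤ 1 / ℓ * ℓ := mul_le_mul_of_nonneg_right (by linarith) hℓ.le
    rwa [one_div_mul_cancel hℓ.ne'] at this
  have hs3 : 1 + η / ℓ = s := by
    rw [hη, mul_div_cancel_right₀ _ hℓ.ne']
    ring
  have h4 := h η hη0 hη1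
  rw [Del_one E hℓ hη0, hs3] at h4
  have h5 := Z.abs_log_Lf_sub_PS_le (E := E) norm_chi0_le hs1
  rw [Lf_chi0] at h5
  have h6 : dedekindZeta E (s : ℂ) ≠ 0 := by
    rw [← Lf_chi0]
    exact Z.Lf_ne_zero norm_chi0_le (by simpa using hs1)
  have h7 : 0 < ‖dedekindZeta E (s : ℂ)‖ := norm_pos_iff.mpr h6
  have h8 : Z.PS E chi0 (1 + 1 / ℓ) - C - 4 * Module.finrank ℚ E - Real.log η ≤
      Real.log ‖dedekindZeta E (s : ℂ)‖ := by
    rw [abs_le] at h5
    linarith [h5.1]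
  have h9 := Real.exp_le_exp.mpr h8
  rw [Real.exp_log h7, Real.exp_sub _ (Real.log η), Real.exp_log hη0, div_le_iff₀ hη0] at h9
  have h10 : ‖((s : ℂ) - 1) * dedekindZeta E (s : ℂ)‖ = (s - 1) * ‖dedekindZeta E (s : ℂ)‖ := by
    rw [norm_mul]
    congr 1
    rw [← Complex.ofReal_one, ← Complex.ofReal_sub, Complex.norm_real, Real.norm_eq_abs,
      abs_of_pos (by linarith only [hs1])]
  rw [h10, inv_mul_le_iff₀ hℓ]
  calc _ ≤ _ := h9
    _ = _ := by rw [hη]; ring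

end Field

variable {n : ℕ}

theorem sum_log_div_le {X : ℝ} (hX : 1 ≤ X) :
    ∑ p ∈ P2 X, Real.log p / p ≤ Real.log (2 * X) + Real.log 4 := by
  have h0 : 1 ≤ ⌊2 * X⌋₊ := Nat.le_floor (by push_cast; linarith only [hX])
  have h1 := P001.mertens_upper ⌊2 * X⌋₊ h0
  have h2 : P2 X = P001.prs 0 ⌊2 * X⌋₊ := by
    ext p
    rw [mem_P2, P001.mem_prs]
    constructor
    · rintro ⟨h, hp⟩
      exact ⟨hp.pos, h, hp⟩
    · rintro ⟨_, h, hp⟩
      exact ⟨h, hp⟩
  rw [h2]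
  refine h1.trans ?_
  have h3 : (⌊2 * X⌋₊ : ℝ) ≤ 2 * X := Nat.floor_le (by linarith only [hX])
  have h4 : (0 : ℝ) < (⌊2 * X⌋₊ : ℝ) := by exact_mod_cast h0
  have := Real.log_le_log h4 h3
  linarith only [this]

theorem disc_mx (D : Datum n) : (mx D).disc = (discr D.K).natAbs := by
  have h : (mx D).O.toAddSubgroup.index = 1 := by
    change (⊤ : Subring (𝓞 D.K)).toAddSubgroup.index = 1
    rw [Subring.toAddSubgroup_top, AddSubgroup.index_top]
  unfold Datum.disc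
  rw [h]
  simp only [mx, one_pow, mul_one]

theorem three_le_disc (D : Datum n) (hn : 2 ≤ n) : 3 ≤ (mx D).disc := by
  rw [disc_mx]
  have h1 := abs_discr_gt_two (K := D.K) (by rw [D.deg]; omega)
  have h2 : ((discr D.K).natAbs : ℤ) = |discr D.K| := Int.natCast_natAbs _
  omega

/-- `∑_{p ≤ 2X} a(p)/p ≤ PS(1+1/ℓ) + O(1)` if `ℓ ≥ 2 log X` -/
theorem sum_aN_div_le (D : Datum n) {X ℓ : ℝ} (hX : 1 ≤ X) (hℓ : 1 ≤ ℓ)
    (hℓX : 2 * Real.log X ≤ ℓ) :
    ∑ p ∈ P2 X, (Z.aN D.K p : ℝ) / p ≤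
      Z.PS D.K chi0 (1 + 1 / ℓ) + n * (1 / 2 + Real.log 8) := by
  have hℓ0 : 0 < ℓ := by linarith only [hℓ]
  have hσ : 1 < 1 + 1 / ℓ := by
    have : 0 < 1 / ℓ := by positivity
    linarith
  have h1 : ∑ p ∈ P2 X, (Z.aN D.K p : ℝ) * (p : ℝ) ^ (-(1 + 1 / ℓ)) ≤
      Z.PS D.K chi0 (1 + 1 / ℓ) := by
    rw [PS_chi0]
    have h2 := (summable_aN_prime D.K hσ).sum_le_tsum
      (show Finset Nat.Primes from (P2 X).subtype Nat.Prime) (fun p _ => by (clear * -; positivity))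
    refine le_trans (le_of_eq ?_) h2
    have h3 : ∀ p ∈ P2 X, p.Prime := fun p hp => (mem_P2.mp hp).2
    exact (Finset.sum_subtype_of_mem (fun p : ℕ => (Z.aN D.K p : ℝ) * (p : ℝ) ^ (-(1 + 1 / ℓ))) h3).symm
  have h4 : ∑ p ∈ P2 X, (Z.aN D.K p : ℝ) / p ≤
      ∑ p ∈ P2 X, ((Z.aN D.K p : ℝ) * (p : ℝ) ^ (-(1 + 1 / ℓ)) + n / ℓ * (Real.log p / p)) := by
    refine Finset.sum_le_sum fun p hp => ?_
    have hp' := (mem_P2.mp hp).2
    have hp0 : (0 : ℝ) < p := by exact_mod_cast hp'.pos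
    have ha : (Z.aN D.K p : ℝ) ≤ n := by
      have := Z.aN_prime_le (E := D.K) ⟨p, hp'⟩
      rw [D.deg] at this
      exact_mod_cast this
    have h5 : (p : ℝ) ^ (-(1 + 1 / ℓ)) = (p : ℝ)⁻¹ * Real.exp (-(Real.log p / ℓ)) := by
      have h5a : -(1 + 1 / ℓ) = -1 + -(1 / ℓ) := by ring
      rw [h5a, Real.rpow_add hp0, Real.rpow_neg_one, Real.rpow_def_of_pos hp0 (-(1 / ℓ))]
      congr 2
      ring
    have h6 : 1 - Real.log p / ℓ ≤ Real.exp (-(Real.log p / ℓ)) := by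
      have := Real.add_one_le_exp (-(Real.log p / ℓ))
      linarith only [this]
    have h7 : 0 ≤ Real.log p := Real.log_natCast_nonneg p
    rw [h5]
    have h8 : (Z.aN D.K p : ℝ) / p = (Z.aN D.K p : ℝ) * ((p : ℝ)⁻¹ * (1 - Real.log p / ℓ)) +
        (Z.aN D.K p : ℝ) / ℓ * (Real.log p / p) := by
      field_simp
      ring
    rw [h8]
    refine add_le_add ?_ ?_
    · (clear * - hp0 h6; gcongr)
    · (clear * - hℓ hp0 ha; gcongr)
  refine h4.trans ?_
  rw [Finset.sum_add_distrib, ← Finset.mul_sum]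
  refine add_le_add h1 ?_
  have h9 := sum_log_div_le hX
  have h10 : n / ℓ * ∑ p ∈ P2 X, Real.log p / p ≤ n / ℓ * (Real.log (2 * X) + Real.log 4) := by
    (clear * - hℓ h9; gcongr)
  refine h10.trans ?_
  have h11 : Real.log (2 * X) + Real.log 4 = Real.log X + Real.log 8 := by
    rw [← Real.log_mul (by positivity) (by norm_num), ← Real.log_mul (by positivity) (by norm_num)]
    congr 1
    ring
  rw [h11, div_mul_eq_mul_div, mul_div_assoc]
  refine mul_le_mul_of_nonneg_left ?_ (by (clear * -; positivity))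
  rw [div_le_iff₀ hℓ0]
  have h12 : 0 ≤ Real.log 8 := Real.log_nonneg (by norm_num)
  nlinarith only [hℓ, hℓX, h12]

/-- The residue bound: `ρ ≥ c H(X)`. -/
theorem residue_ge (n : ℕ) (hn : 2 ≤ n) (C₀ ℓ₀ : ℝ)
    (hZ : ∀ (K : Type) [Field K] [NumberField K]
      [IsTotallyReal K], Module.finrank ℚ K = n → ∀ ℓ : ℝ, ℓ₀ ≤ ℓ →
      Real.log |(discr K : ℝ)| ≤ ℓ → ∀ η : ℝ, 0 < η → η ≤ 1 →
        -Real.log η - C₀ ≤ Z.Del K (1 : DirichletCharacter ℂ 1) ℓ η) :
    ∃ c : ℝ, 0 < c ∧ ∀ D : Datum n, ∀ X : ℝ, √((mx D).disc : ℝ) ≤ X →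
      c * HO (mx D) X ≤ dedekindZeta_residue D.K := by
  obtain ⟨C₁, hC₁⟩ := sum_neg_log_up n
  set A : ℝ := C₀ + 4 * n + n * (1 / 2 + Real.log 8) + C₁ with hA
  have hl3 : 0 < Real.log √3 := by
    apply Real.log_pos
    rw [Real.lt_sqrt (by norm_num)]
    norm_num
  set B : ℝ := max ℓ₀ 1 / Real.log √3 + 2 with hB
  have hm : 0 < max ℓ₀ 1 := lt_max_of_lt_right one_pos
  have hB0 : 0 < B := by positivity
  refine ⟨(B * Real.exp A)⁻¹, by positivity, fun D X hX => ?_⟩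
  have hd3 := three_le_disc D hn
  have hs3 : √3 ≤ X := by
    refine le_trans (Real.sqrt_le_sqrt ?_) hX
    exact_mod_cast hd3
  have hs1 : (1 : ℝ) < √3 := by
    rw [Real.lt_sqrt (by norm_num)]
    norm_num
  have hX1 : 1 ≤ X := by linarith only [hs3, hs1]
  have hX0 : 0 < X := by linarith only [hs3, hs1]
  have hlX : Real.log √3 ≤ Real.log X := Real.log_le_log (by positivity) hs3
  have hlX0 : 0 < Real.log X := by linarith only [hl3, hlX]
  set ℓ : ℝ := max (max ℓ₀ 1) (2 * Real.log X) with hℓ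
  have hℓ1 : 1 ≤ ℓ := (le_max_right _ _).trans (le_max_left _ _)
  have hℓ0 : ℓ₀ ≤ ℓ := (le_max_left _ _).trans (le_max_left _ _)
  have hℓX : 2 * Real.log X ≤ ℓ := le_max_right _ _
  have hℓB : ℓ ≤ B * Real.log X := by
    refine max_le ?_ ?_
    · have h1 : max ℓ₀ 1 = max ℓ₀ 1 / Real.log √3 * Real.log √3 := by field_simp
      have h2 : max ℓ₀ 1 / Real.log √3 * Real.log √3 ≤ B * Real.log X := by
        have : max ℓ₀ 1 / Real.log √3 ≤ B := by rw [hB]; linarith only []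
        (clear * - hl3 hlX this; gcongr)
      linarith only [h1, h2]
    · have : 2 ≤ B := by
        rw [hB]
        have : 0 ≤ max ℓ₀ 1 / Real.log √3 := by positivity
        linarith only [this]
      (clear * - hlX0 this; gcongr)
  have hdisc : Real.log |(discr D.K : ℝ)| ≤ ℓ := by
    have h1 : |(discr D.K : ℝ)| = ((mx D).disc : ℝ) := by
      rw [disc_mx, Nat.cast_natAbs, Int.cast_abs]
    rw [h1]
    have h2 : ((mx D).disc : ℝ) ≤ X ^ 2 := by
      rw [← Real.sqrt_le_left hX0.le]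
      exact hX
    have h3 : (0 : ℝ) < ((mx D).disc : ℝ) := by
      have : 0 < (mx D).disc := by omega
      exact_mod_cast this
    have h4 := Real.log_le_log h3 h2
    rw [Real.log_pow] at h4
    refine h4.trans ?_
    exact_mod_cast hℓX
  have h1 := residue_ge_of_Del D.K (by linarith only [hl3, hlX, hℓX] : 0 < ℓ) (hZ D.K D.deg ℓ hℓ0 hdisc)
  rw [D.deg] at h1
  have h2 : HO (mx D) X ≤ (Real.log X)⁻¹ *
      Real.exp (Z.PS D.K chi0 (1 + 1 / ℓ) + n * (1 / 2 + Real.log 8) + C₁) := by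
    unfold HO
    refine mul_le_mul_of_nonneg_left ?_ (by positivity)
    have h3 : ∏ p ∈ P2 X, (up (mx D) p)⁻¹ = Real.exp (∑ p ∈ P2 X, -Real.log (up (mx D) p)) := by
      rw [Real.exp_sum]
      refine Finset.prod_congr rfl fun p hp => ?_
      rw [Real.exp_neg, Real.exp_log (up_mx_pos D (mem_P2.mp hp).2)]
    rw [h3]
    refine Real.exp_le_exp.mpr ?_
    refine (hC₁ D X).trans ?_
    have := sum_aN_div_le D hX1 hℓ1 hℓX
    linarith only [this]
  have h3 : (B * Real.exp A)⁻¹ * HO (mx D) X ≤ (B * Real.exp A)⁻¹ * ((Real.log X)⁻¹ *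
      Real.exp (Z.PS D.K chi0 (1 + 1 / ℓ) + n * (1 / 2 + Real.log 8) + C₁)) := by
    gcongr
  refine h3.trans (le_trans ?_ h1)
  have h4 : Real.exp (Z.PS D.K chi0 (1 + 1 / ℓ) + n * (1 / 2 + Real.log 8) + C₁) =
      Real.exp (Z.PS D.K chi0 (1 + 1 / ℓ) - C₀ - 4 * n) * Real.exp A := by
    rw [← Real.exp_add, hA]
    congr 1
    ring
  rw [h4]
  have h5 : (B * Real.exp A)⁻¹ * ((Real.log X)⁻¹ *
      (Real.exp (Z.PS D.K chi0 (1 + 1 / ℓ) - C₀ - 4 * n) * Real.exp A)) =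
      (B * Real.log X)⁻¹ * Real.exp (Z.PS D.K chi0 (1 + 1 / ℓ) - C₀ - 4 * n) := by
    field_simp
  rw [h5]
  refine mul_le_mul_of_nonneg_right ?_ (Real.exp_pos _).le
  exact inv_anti₀ (by linarith only [hl3, hlX, hℓX]) hℓB

end Vale.Agent.P007.N
end

section

/-!
Lower bound for the packet volume of a maximal order, from the Riesz mean asymptotics and the
residue bound.
-/

set_option autoImplicit false

open MeasureTheory Matrix NumberField Filter Topology IsDedekindDomain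
open scoped ENNReal nonZeroDivisors

namespace Vale.Agent.P007.N

open Vale.Agent.P007 Vale.Agent.P007.R

variable {n : ℕ}

/-- `α ≥ ρ / e` -/
theorem alpha_ge (D : Datum n) (hn : 1 ≤ n) {α A : ℝ}
    (h : ∀ Y : ℝ, 1 ≤ Y →
      |∑ m ∈ Finset.Icc 1 ⌊Y⌋₊, (rO (mx D) m : ℝ) * Real.log (Y / m) ^ (n - 1) - α * Y| ≤
        A * Y ^ (1 - 1 / (n : ℝ))) :
    dedekindZeta_residue D.K ≤ Real.exp 1 * α := by
  have he : 0 < Real.exp 1 := Real.exp_pos 1
  have he1 : 1 ≤ Real.exp 1 := by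
    have := Real.add_one_le_exp (1 : ℝ)
    linarith only [this]
  have hn0 : (0 : ℝ) < n := by exact_mod_cast hn
  -- the inequality for `Y = e N`
  have h1 : ∀ N : ℕ, 1 ≤ N → (∑ k ∈ Finset.Icc 1 N, (Z.aN D.K k : ℝ)) / N ≤
      Real.exp 1 * α + |A| * Real.exp 1 * (N : ℝ) ^ (-(1 / (n : ℝ))) := by
    intro N hN
    have hN0 : (0 : ℝ) < N := by exact_mod_cast hN
    have hN1 : (1 : ℝ) ≤ N := by exact_mod_cast hN
    set Y : ℝ := Real.exp 1 * N with hY
    have hY1 : 1 ≤ Y := by nlinarith only [he1, hN1]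
    have hNY : (N : ℝ) ≤ Y := by nlinarith only [he1]
    have h2 := h Y hY1
    rw [abs_le] at h2
    have h3 : ∑ k ∈ Finset.Icc 1 N, (Z.aN D.K k : ℝ) ≤
        ∑ m ∈ Finset.Icc 1 ⌊Y⌋₊, (rO (mx D) m : ℝ) * Real.log (Y / m) ^ (n - 1) := by
      calc ∑ k ∈ Finset.Icc 1 N, (Z.aN D.K k : ℝ) ≤
          ∑ m ∈ Finset.Icc 1 N, (rO (mx D) m : ℝ) * Real.log (Y / m) ^ (n - 1) := by
            refine Finset.sum_le_sum fun m hm => ?_
            rw [Finset.mem_Icc] at hm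
            have hm0 : (0 : ℝ) < m := by exact_mod_cast hm.1
            have hmN : (m : ℝ) ≤ N := by exact_mod_cast hm.2
            rw [rO_mx D (by omega)]
            have h4 : 1 ≤ Real.log (Y / m) := by
              rw [Real.le_log_iff_exp_le (by (clear * - hN hm0; positivity)), le_div_iff₀ hm0, hY]
              gcongr
            have h5 : 1 ≤ Real.log (Y / m) ^ (n - 1) := one_le_pow₀ h4
            exact le_mul_of_one_le_right (by (clear * -; positivity)) h5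
        _ ≤ _ := by
            refine Finset.sum_le_sum_of_subset_of_nonneg ?_ ?_
            · refine Finset.Icc_subset_Icc_right ?_
              exact Nat.le_floor hNY
            · intro m hm _
              rw [Finset.mem_Icc] at hm
              have hm0 : (0 : ℝ) < m := by exact_mod_cast hm.1
              have hmY : (m : ℝ) ≤ Y := (Nat.cast_le.mpr hm.2).trans (Nat.floor_le (by linarith only [hY1]))
              have h4 : 0 ≤ Real.log (Y / m) := Real.log_nonneg (by rwa [one_le_div hm0])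
              (clear * - h4; positivity)
    have h4 : ∑ k ∈ Finset.Icc 1 N, (Z.aN D.K k : ℝ) ≤ α * Y + |A| * Y ^ (1 - 1 / (n : ℝ)) := by
      have h5 : A * Y ^ (1 - 1 / (n : ℝ)) ≤ |A| * Y ^ (1 - 1 / (n : ℝ)) := by
        have := le_abs_self A
        have h6 : (0 : ℝ) ≤ Y ^ (1 - 1 / (n : ℝ)) := by positivity
        nlinarith only [this, h6]
      linarith [h2.2]
    have h5 : Y ^ (1 - 1 / (n : ℝ)) ≤ Real.exp 1 * ((N : ℝ) ^ (-(1 / (n : ℝ))) * N) := by
      rw [hY, Real.mul_rpow he.le hN0.le]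
      have h6 : (N : ℝ) ^ (1 - 1 / (n : ℝ)) = (N : ℝ) ^ (-(1 / (n : ℝ))) * N := by
        rw [sub_eq_neg_add, Real.rpow_add_one hN0.ne']
      have h7 : Real.exp 1 ^ (1 - 1 / (n : ℝ)) ≤ Real.exp 1 := by
        refine (Real.rpow_le_rpow_of_exponent_le he1 (y := 1 - 1 / (n : ℝ)) (z := 1) ?_).trans
          (le_of_eq (Real.rpow_one _))
        have : 0 < 1 / (n : ℝ) := by positivity
        linarith only [this]
      rw [h6]
      (clear * - hN h7; gcongr)
    rw [div_le_iff₀ hN0]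
    refine h4.trans ?_
    have h6 : |A| * Y ^ (1 - 1 / (n : ℝ)) ≤
        |A| * (Real.exp 1 * ((N : ℝ) ^ (-(1 / (n : ℝ))) * N)) :=
      mul_le_mul_of_nonneg_left h5 (abs_nonneg A)
    rw [hY] at *
    nlinarith only [h6]
  have h2 := Z.tendsto_sum_aN D.K
  have h3 : Tendsto (fun N : ℕ => Real.exp 1 * α +
      |A| * Real.exp 1 * (N : ℝ) ^ (-(1 / (n : ℝ)))) atTop (𝓝 (Real.exp 1 * α +
      |A| * Real.exp 1 * 0)) := by
    refine Tendsto.const_add _ (Tendsto.const_mul _ ?_)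
    exact (tendsto_rpow_neg_atTop (by positivity)).comp tendsto_natCast_atTop_atTop
  rw [mul_zero, add_zero] at h3
  refine le_of_tendsto_of_tendsto h2 h3 ?_
  filter_upwards [eventually_ge_atTop 1] with N hN
  exact h1 N hN

/-- The statement of `S_asymp`, for fixed `n`. -/
def SAsymp (n : ℕ) : Prop := ∃ κ C : ℝ, 0 < κ ∧ ∀ D : Datum n, ∀ (q : ℕ) [NeZero q]
    (χ : DirichletCharacter ℂ q), Odd (orderOf χ) → ∃ α : ℂ,
      (q = 1 → α = κ * (vol D).toReal / √(D.disc : ℝ)) ∧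
      (χ = 1 → α ≠ 0) ∧
      ‖α‖ ≤ (D.disc * q : ℝ) ^ C * C ∧
      ∀ Y : ℝ, 1 ≤ Y →
        ‖∑ m ∈ Finset.Icc 1 ⌊Y⌋₊, χ (m : ZMod q) * (rO D m : ℂ) * (Real.log (Y / m) : ℂ) ^ (n - 1) -
          α * Y‖ ≤ C * (D.disc * q : ℝ) ^ C * Y ^ (1 - 1 / (n : ℝ))

/-- The statement of `Z.not_exceptional`, for fixed `n`. -/
def NotExc (n : ℕ) : Prop := ∃ C ℓ₀ : ℝ, ∀ (K : Type) [Field K] [NumberField K]
    [IsTotallyReal K], Module.finrank ℚ K = n → ∀ ℓ : ℝ, ℓ₀ ≤ ℓ →
    Real.log |(discr K : ℝ)| ≤ ℓ → ∀ η : ℝ, 0 < η → η ≤ 1 →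
      -Real.log η - C ≤ Z.Del K (1 : DirichletCharacter ℂ 1) ℓ η

theorem residue_le_vol (n : ℕ) (hn : 2 ≤ n) (hS : SAsymp n) : ∃ c : ℝ, 0 < c ∧
    ∀ D : Datum n, c * √((mx D).disc : ℝ) * dedekindZeta_residue D.K ≤ (vol (mx D)).toReal := by
  obtain ⟨κ, C, hκ, hS⟩ := hS
  refine ⟨(Real.exp 1 * κ)⁻¹, by positivity, fun D => ?_⟩
  obtain ⟨α, hα, _, _, hY⟩ := hS (mx D) 1 1 (by rw [orderOf_one]; exact odd_one)
  have hα1 := hα rfl
  have hd3 := three_le_disc D hn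
  have hs0 : 0 < √((mx D).disc : ℝ) := by
    apply Real.sqrt_pos.mpr
    have : 0 < (mx D).disc := by omega
    exact_mod_cast this
  set a : ℝ := κ * (vol (mx D)).toReal / √((mx D).disc : ℝ) with ha
  have hαa : α = (a : ℂ) := by
    rw [hα1, ha]
    push_cast
    ring
  have h1 := alpha_ge D (by omega) (α := a) (A := C * ((mx D).disc * (1 : ℕ) : ℝ) ^ C) (fun Y hY1 => by
    have h2 := hY Y hY1
    rw [hαa] at h2
    have h3 : ∑ m ∈ Finset.Icc 1 ⌊Y⌋₊, (1 : DirichletCharacter ℂ 1) (m : ZMod 1) *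
        (rO (mx D) m : ℂ) * (Real.log (Y / m) : ℂ) ^ (n - 1) - (a : ℂ) * Y =
        ((∑ m ∈ Finset.Icc 1 ⌊Y⌋₊, (rO (mx D) m : ℝ) * Real.log (Y / m) ^ (n - 1) - a * Y : ℝ) : ℂ) := by
      push_cast
      congr 1
      refine Finset.sum_congr rfl fun m _ => ?_
      have h4 : (1 : DirichletCharacter ℂ 1) (m : ZMod 1) = 1 := by
        rw [Subsingleton.elim ((m : ℕ) : ZMod 1) 1, map_one]
      rw [h4, one_mul]
    rw [h3, Complex.norm_real, Real.norm_eq_abs] at h2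
    exact h2)
  rw [ha] at h1
  rw [mul_assoc, inv_mul_le_iff₀ (by positivity)]
  calc √((mx D).disc : ℝ) * dedekindZeta_residue D.K ≤
      √((mx D).disc : ℝ) * (Real.exp 1 * (κ * (vol (mx D)).toReal / √((mx D).disc : ℝ))) := by
        (clear * - hd3 h1; gcongr)
    _ = _ := by
        field_simp

theorem residue_lower_of (n : ℕ) (hn : 2 ≤ n) (hZ : NotExc n) (hS : SAsymp n) : ∃ c : ℝ, 0 < c ∧
    ∀ D : Datum n, ∀ X : ℝ, √((mx D).disc : ℝ) ≤ X →
      c * √((mx D).disc : ℝ) * HO (mx D) X ≤ (vol (mx D)).toReal := by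
  obtain ⟨C₀, ℓ₀, hZ⟩ := hZ
  obtain ⟨c₁, hc₁, h1⟩ := residue_ge n hn C₀ ℓ₀ hZ
  obtain ⟨c₂, hc₂, h2⟩ := residue_le_vol n hn hS
  refine ⟨c₂ * c₁, by positivity, fun D X hX => ?_⟩
  calc c₂ * c₁ * √((mx D).disc : ℝ) * HO (mx D) X =
      c₂ * √((mx D).disc : ℝ) * (c₁ * HO (mx D) X) := by ring
    _ ≤ c₂ * √((mx D).disc : ℝ) * dedekindZeta_residue D.K := by
        have := h1 D X hX
        (clear * - hc₂ this; gcongr)
    _ ≤ _ := h2 D

theorem disc_mx_le (D : Datum n) : (mx D).disc ≤ D.disc := by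
  rw [disc_mx]
  unfold Datum.disc
  have h := D.ind_ne_zero
  have h1 : 1 ≤ D.O.toAddSubgroup.index ^ 2 := Nat.one_le_pow _ _ (Nat.pos_of_ne_zero h)
  exact Nat.le_mul_of_pos_right _ h1

theorem ind_le_of_sqrt_le (D : Datum n) {X : ℝ} (hX : √(D.disc : ℝ) ≤ X) : (D.ind : ℝ) ≤ X := by
  refine le_trans ?_ hX
  apply Real.le_sqrt_of_sq_le
  have h1 : D.ind ^ 2 ≤ D.disc := by
    unfold Datum.disc Datum.ind
    have h2 : 1 ≤ (discr D.K).natAbs := by
      have := discr_ne_zero D.K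
      omega
    exact Nat.le_mul_of_pos_left _ h2
  exact_mod_cast h1

theorem HO_eq (D : Datum n) {X : ℝ} (hX : √(D.disc : ℝ) ≤ X)
    (hup : ∀ p : ℕ, p.Prime → ¬ p ∣ D.ind → up D p = up (mx D) p) :
    HO D X = HO (mx D) X * ∏ p ∈ D.ind.primeFactors, (up (mx D) p / up D p) := by
  classical
  have hsub : D.ind.primeFactors ⊆ P2 X := by
    intro p hp
    rw [Nat.mem_primeFactors] at hp
    rw [mem_P2]
    refine ⟨?_, hp.1⟩
    apply Nat.le_floor
    have h1 : (p : ℝ) ≤ D.ind := by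
      exact_mod_cast Nat.le_of_dvd (Nat.pos_of_ne_zero hp.2.2) hp.2.1
    have h2 := ind_le_of_sqrt_le D hX
    have h3 : (0 : ℝ) ≤ D.ind := by positivity
    linarith
  have h1 : ∏ p ∈ D.ind.primeFactors, (up (mx D) p / up D p) =
      ∏ p ∈ P2 X, (up (mx D) p / up D p) := by
    refine Finset.prod_subset hsub ?_
    intro p hp hp'
    have hpp := (mem_P2.mp hp).2
    have h2 : ¬ p ∣ D.ind := fun h => hp' (Nat.mem_primeFactors.mpr ⟨hpp, h, D.ind_ne_zero⟩)
    rw [hup p hpp h2]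
    exact div_self (up_mx_pos D hpp).ne'
  rw [h1, HO, HO, mul_assoc, ← Finset.prod_mul_distrib]
  congr 1
  refine Finset.prod_congr rfl fun p hp => ?_
  have h2 := (up_mx_pos D (mem_P2.mp hp).2).ne'
  rw [div_eq_mul_inv, ← mul_assoc, inv_mul_cancel₀ h2, one_mul]

theorem vol_lower_ge_of (n : ℕ) (hn : 2 ≤ n) (hZ : NotExc n) (hS : SAsymp n)
    (hcmp : ∀ D : Datum n, (vol D).toReal / √(D.disc : ℝ) =
      (vol (mx D)).toReal / √((mx D).disc : ℝ) *
        ∏ p ∈ D.ind.primeFactors, (up (mx D) p / up D p))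
    (hup : ∀ (D : Datum n) (p : ℕ), p.Prime → ¬ p ∣ D.ind → up D p = up (mx D) p)
    (hpos : ∀ (D : Datum n) (p : ℕ), p.Prime → 0 < up D p) :
    ∃ c : ℝ, 0 < c ∧ ∀ D : Datum n, ∀ X : ℝ, √(D.disc : ℝ) ≤ X →
      c * √(D.disc : ℝ) * HO D X ≤ (vol D).toReal := by
  obtain ⟨c, hc, h⟩ := residue_lower_of n hn hZ hS
  refine ⟨c, hc, fun D X hX => ?_⟩
  have hle : √((mx D).disc : ℝ) ≤ X := by
    refine le_trans (Real.sqrt_le_sqrt ?_) hX
    exact_mod_cast disc_mx_le D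
  have h1 := h D X hle
  have hd3 := three_le_disc D hn
  have hs0 : 0 < √((mx D).disc : ℝ) := by
    apply Real.sqrt_pos.mpr
    have : 0 < (mx D).disc := by omega
    exact_mod_cast this
  have hs1 : 0 < √(D.disc : ℝ) := by
    refine lt_of_lt_of_le hs0 (Real.sqrt_le_sqrt ?_)
    exact_mod_cast disc_mx_le D
  have h2 : c * HO (mx D) X ≤ (vol (mx D)).toReal / √((mx D).disc : ℝ) := by
    rw [le_div_iff₀ hs0]
    linarith only [h1]
  have h3 : (0 : ℝ) ≤ ∏ p ∈ D.ind.primeFactors, (up (mx D) p / up D p) := by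
    refine Finset.prod_nonneg fun p hp => ?_
    have hp' := (Nat.mem_primeFactors.mp hp).1
    exact div_nonneg (up_mx_pos D hp').le (hpos D p hp').le
  have h4 : (vol D).toReal = √(D.disc : ℝ) * ((vol D).toReal / √(D.disc : ℝ)) := by
    (clear * - hs1; field_simp)
  rw [h4, hcmp D, HO_eq D hX (hup D)]
  calc c * √(D.disc : ℝ) * (HO (mx D) X * ∏ p ∈ D.ind.primeFactors, (up (mx D) p / up D p)) =
      √(D.disc : ℝ) * (c * HO (mx D) X * ∏ p ∈ D.ind.primeFactors, (up (mx D) p / up D p)) := by ring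
    _ ≤ _ := by (clear * - hs1 h2 h3; gcongr)

end Vale.Agent.P007.N
end
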