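import Vale.Agent.P007.Bdl.B10

section

/-! P007 A6, part 1: consequences of the Hall–Tenenbaum bounds for the sums which occur in the
unfolding of short-vector sets. -/

set_option autoImplicit false

open MeasureTheory Matrix NumberField Filter Topology
open scoped ENNReal nonZeroDivisors

namespace Vale.Agent.P007.N

/-- `H(X) = (log X)^{-1} ∏_{p ≤ 2X} U_p` -/
noncomputable def hx (U : ℕ → ℝ) (X : ℝ) : ℝ := (Real.log X)⁻¹ * ∏ p ∈ P2 X, U p

theorem HO_eq_hx {n : ℕ} (D : Datum n) (X : ℝ) : HO D X = hx (fun p => (up D p)⁻¹) X := rfl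

theorem P2_mono {X Y : ℝ} (h : X ≤ Y) : P2 X ⊆ P2 Y := by
  intro p hp
  unfold P2 at hp ⊢
  rw [Finset.mem_filter, Finset.mem_range] at hp ⊢
  refine ⟨lt_of_lt_of_le hp.1 ?_, hp.2⟩
  have := Nat.floor_le_floor (show 2 * X ≤ 2 * Y by linarith only [h])
  omega

theorem hx_nonneg {U : ℕ → ℝ} (hU : ∀ p, p.Prime → 1 ≤ U p) {X : ℝ} (hX : 1 ≤ X) : 0 ≤ hx U X := by
  unfold hx
  refine mul_nonneg (inv_nonneg.2 (Real.log_nonneg hX)) (Finset.prod_nonneg fun p hp => ?_)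
  unfold P2 at hp
  rw [Finset.mem_filter] at hp
  linarith [hU p hp.2]

/-- comparison of `H` at two scales -/
theorem hx_le {U : ℕ → ℝ} (hU : ∀ p, p.Prime → 1 ≤ U p) {Z X : ℝ} (hZ : 2 ≤ Z) (hZX : Z ≤ X) :
    hx U Z ≤ 25 * (X / Z) ^ (1 / 16 : ℝ) * hx U X := by
  have hZ0 : 0 < Z := by linarith
  have hX0 : 0 < X := by linarith
  have hlZ : 0.6931471803 < Real.log Z :=
    lt_of_lt_of_le Real.log_two_gt_d9 (Real.log_le_log (by norm_num) hZ)
  have hlX : Real.log Z ≤ Real.log X := Real.log_le_log hZ0 hZX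
  have hlX0 : 0 < Real.log X := by linarith only [hlZ, hlX]
  have hP : ∏ p ∈ P2 Z, U p ≤ ∏ p ∈ P2 X, U p := by
    refine Finset.prod_le_prod_of_subset_of_one_le (P2_mono hZX) (fun p hp => ?_)
      (fun p hp _ => ?_)
    · unfold P2 at hp
      rw [Finset.mem_filter] at hp
      linarith only [hU p hp.2, hU, hp]
    · unfold P2 at hp
      rw [Finset.mem_filter] at hp
      exact hU p hp.2
  have hP0 : 0 ≤ ∏ p ∈ P2 X, U p := by
    refine Finset.prod_nonneg fun p hp => ?_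
    unfold P2 at hp
    rw [Finset.mem_filter] at hp
    linarith only [hU p hp.2, hU, hp]
  have h1 : 1 ≤ X / Z := by rw [le_div_iff₀ hZ0]; linarith only [hZX]
  have h2 : Real.log (X / Z) ≤ (X / Z) ^ (1 / 16 : ℝ) / (1 / 16) :=
    Real.log_le_rpow_div (by positivity) (by norm_num)
  have h3 : 1 ≤ (X / Z) ^ (1 / 16 : ℝ) := Real.one_le_rpow h1 (by norm_num)
  rw [Real.log_div hX0.ne' hZ0.ne'] at h2
  have h4 : (Real.log Z)⁻¹ ≤ 25 * (X / Z) ^ (1 / 16 : ℝ) * (Real.log X)⁻¹ := by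
    rw [← div_eq_mul_inv, le_div_iff₀ hlX0, inv_mul_le_iff₀ (by linarith only [hlZ])]
    have h5 : 16 * (X / Z) ^ (1 / 16 : ℝ) + Real.log Z ≤
        Real.log Z * (25 * (X / Z) ^ (1 / 16 : ℝ)) := by
      nlinarith only [hlZ, hlX, h2, h3]
    linarith
  unfold hx
  calc (Real.log Z)⁻¹ * ∏ p ∈ P2 Z, U p
      ≤ (25 * (X / Z) ^ (1 / 16 : ℝ) * (Real.log X)⁻¹) * ∏ p ∈ P2 X, U p := by
        refine mul_le_mul h4 hP ?_ (by positivity)
        refine Finset.prod_nonneg fun p hp => ?_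
        unfold P2 at hp
        rw [Finset.mem_filter] at hp
        linarith only [hU p hp.2, hU, hp]
    _ = _ := by ring

/-- crude bound at all scales `1 ≤ Z ≤ X` -/
theorem crude_all {g U : ℕ → ℝ} (hg : ∀ m, 0 ≤ g m) (hU : ∀ p, p.Prime → 1 ≤ U p) {C : ℝ}
    (hC0 : 0 < C) (hC : ∀ X : ℝ, 2 ≤ X →
      ∑ m ∈ Finset.Icc 1 ⌊X⌋₊, g m ≤ C * X / Real.log X * ∏ p ∈ P2 X, U p)
    {Z X : ℝ} (hZ : 1 ≤ Z) (hZX : Z ≤ X) (hX : 2 ≤ X) :
    ∑ m ∈ Finset.Icc 1 ⌊Z⌋₊, g m ≤ 50 * C * Z * (X / Z) ^ (1 / 16 : ℝ) * hx U X := by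
  have hX0 : 0 < X := by linarith
  have hZ0 : 0 < Z := by linarith
  have hH : 0 ≤ hx U X := hx_nonneg hU (by linarith)
  -- for `Z ≥ 2`
  have key : ∀ W : ℝ, 2 ≤ W → W ≤ X →
      ∑ m ∈ Finset.Icc 1 ⌊W⌋₊, g m ≤ 25 * C * W * (X / W) ^ (1 / 16 : ℝ) * hx U X := by
    intro W hW hWX
    have h1 := hC W hW
    have h2 := hx_le hU hW hWX
    have h3 : C * W / Real.log W * ∏ p ∈ P2 W, U p = C * W * hx U W := by
      unfold hx; ring
    rw [h3] at h1
    calc _ ≤ C * W * hx U W := h1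
      _ ≤ C * W * (25 * (X / W) ^ (1 / 16 : ℝ) * hx U X) :=
        mul_le_mul_of_nonneg_left h2 (by positivity)
      _ = _ := by ring
  rcases le_or_gt 2 Z with h | h
  · refine (key Z h hZX).trans ?_
    have : 0 ≤ C * Z * (X / Z) ^ (1 / 16 : ℝ) * hx U X := by positivity
    nlinarith only [this]
  · have h1 : ∑ m ∈ Finset.Icc 1 ⌊Z⌋₊, g m ≤ ∑ m ∈ Finset.Icc 1 ⌊(2 : ℝ)⌋₊, g m := by
      refine Finset.sum_le_sum_of_subset_of_nonneg ?_ (fun m _ _ => hg m)
      exact Finset.Icc_subset_Icc le_rfl (Nat.floor_le_floor h.le)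
    refine h1.trans ((key 2 le_rfl hX).trans ?_)
    have h2 : (X / 2) ^ (1 / 16 : ℝ) ≤ (X / Z) ^ (1 / 16 : ℝ) := by
      refine Real.rpow_le_rpow (by positivity) ?_ (by norm_num)
      exact div_le_div_of_nonneg_left hX0.le hZ0 h.le
    have h3 : 0 ≤ (X / Z) ^ (1 / 16 : ℝ) := by positivity
    calc 25 * C * 2 * (X / 2) ^ (1 / 16 : ℝ) * hx U X
        ≤ 25 * C * 2 * (X / Z) ^ (1 / 16 : ℝ) * hx U X := by gcongr
      _ = 50 * C * (X / Z) ^ (1 / 16 : ℝ) * hx U X * 1 := by ring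
      _ ≤ 50 * C * (X / Z) ^ (1 / 16 : ℝ) * hx U X * Z := by (clear * - hC0 hZ hX hH; gcongr)
      _ = _ := by ring

theorem rpow_combine {X Z : ℝ} (hX : 0 < X) (hZ : 0 < Z) :
    Z * (X / Z) ^ (1 / 16 : ℝ) * (X / Z) ^ (1 / 16 : ℝ) = X * (Z / X) ^ (7 / 8 : ℝ) := by
  have h1 : (X / Z) ^ (1 / 16 : ℝ) * (X / Z) ^ (1 / 16 : ℝ) = (X / Z) ^ (1 / 8 : ℝ) := by
    rw [← Real.rpow_add (by positivity)]; norm_num
  have h2 : X / Z = (Z / X)⁻¹ := by rw [inv_div]
  have h3 : (X / Z) ^ (1 / 8 : ℝ) = ((Z / X) ^ (1 / 8 : ℝ))⁻¹ := by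
    rw [h2, Real.inv_rpow (by positivity)]
  have h4 : (Z / X) ^ (7 / 8 : ℝ) * (Z / X) ^ (1 / 8 : ℝ) = Z / X := by
    rw [← Real.rpow_add (by positivity)]; norm_num
  have h5 : 0 < (Z / X) ^ (1 / 8 : ℝ) := by positivity
  rw [mul_assoc, h1, h3, ← div_eq_mul_inv, div_eq_iff h5.ne', mul_assoc, h4]
  field_simp

theorem half_rpow_le : ((1 / 2 : ℝ)) ^ (7 / 8 : ℝ) ≤ 3 / 4 := by
  have h1 : ((1 / 2 : ℝ) ^ (7 / 8 : ℝ)) ^ 8 ≤ (3 / 4 : ℝ) ^ 8 := by
    rw [← Real.rpow_natCast, ← Real.rpow_mul (by norm_num)]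
    norm_num
  exact le_of_pow_le_pow_left₀ (by norm_num) (by norm_num) h1

/-- weighted crude bound -/
theorem crude_weighted {g U : ℕ → ℝ} (hg : ∀ m, 0 ≤ g m) (hU : ∀ p, p.Prime → 1 ≤ U p) {C : ℝ}
    (hC0 : 0 < C) (hC : ∀ X : ℝ, 2 ≤ X →
      ∑ m ∈ Finset.Icc 1 ⌊X⌋₊, g m ≤ C * X / Real.log X * ∏ p ∈ P2 X, U p)
    {Z X : ℝ} (hZ : 0 < Z) (hZX : Z ≤ X) (hX : 2 ≤ X) :
    ∑ m ∈ Finset.Icc 1 ⌊Z⌋₊, g m * (X / m) ^ (1 / 16 : ℝ) ≤
      400 * C * X * (Z / X) ^ (7 / 8 : ℝ) * hx U X := by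
  have hX0 : 0 < X := by linarith only [hX]
  have hH : 0 ≤ hx U X := hx_nonneg hU (by linarith)
  obtain ⟨K, hK⟩ := pow_unbounded_of_one_lt Z (one_lt_two : (1 : ℝ) < 2)
  -- pointwise
  have hpt : ∀ m ∈ Finset.Icc 1 ⌊Z⌋₊, (X / m) ^ (1 / 16 : ℝ) ≤
      2 * ∑ k ∈ Finset.range K, if (m : ℝ) * 2 ^ k ≤ Z then (X / (Z / 2 ^ k)) ^ (1 / 16 : ℝ)
        else 0 := by
    intro m hm
    rw [Finset.mem_Icc] at hm
    have hm1 : (1 : ℝ) ≤ m := by exact_mod_cast hm.1
    have hmZ : (m : ℝ) ≤ Z := (Nat.le_floor_iff hZ.le).1 hm.2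
    have hex : ∃ k : ℕ, Z < (m : ℝ) * 2 ^ (k + 1) := by
      refine ⟨K, hK.trans_le ?_⟩
      have : (2 : ℝ) ^ K ≤ 2 ^ (K + 1) := pow_le_pow_right₀ (by norm_num) (by omega)
      have h2 : (0 : ℝ) < 2 ^ (K + 1) := by positivity
      nlinarith only [hZ, hK, hm1, this]
    classical
    set k0 := Nat.find hex with hk0
    have h1 : Z < (m : ℝ) * 2 ^ (k0 + 1) := Nat.find_spec hex
    have h2 : (m : ℝ) * 2 ^ k0 ≤ Z := by
      rcases Nat.eq_zero_or_pos k0 with h | h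
      · rw [h]; simpa only [pow_zero, mul_one] using hmZ
      · have := Nat.find_min hex (m := k0 - 1) (by omega)
        rw [not_lt] at this
        rwa [Nat.sub_add_cancel h] at this
    have h3 : k0 < K := by
      by_contra hcon
      push Not at hcon
      have h4 : (2 : ℝ) ^ K ≤ 2 ^ k0 := pow_le_pow_right₀ (by norm_num) hcon
      have h5 : (0 : ℝ) < 2 ^ k0 := by positivity
      nlinarith only [hZ, hK, hm1, h2, h4]
    have h4 : X / m ≤ 2 * (X / (Z / 2 ^ k0)) := by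
      have h5 : (0 : ℝ) < 2 ^ k0 := by positivity
      rw [div_div_eq_mul_div, div_le_iff₀ (by linarith only [hm1]), mul_comm 2, mul_assoc, div_mul_eq_mul_div,
        le_div_iff₀ hZ]
      have h6 : Z ≤ (m : ℝ) * (2 * 2 ^ k0) := by rw [← pow_succ']; exact h1.le
      nlinarith only [hZ, hZX, h6]
    have h5 : (X / m) ^ (1 / 16 : ℝ) ≤ 2 * (X / (Z / 2 ^ k0)) ^ (1 / 16 : ℝ) := by
      refine (Real.rpow_le_rpow (by positivity) h4 (by norm_num)).trans ?_
      rw [Real.mul_rpow (by norm_num) (by positivity)]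
      refine mul_le_mul_of_nonneg_right ?_ (by positivity)
      calc (2 : ℝ) ^ (1 / 16 : ℝ) ≤ 2 ^ (1 : ℝ) :=
            Real.rpow_le_rpow_of_exponent_le (by norm_num) (by norm_num)
        _ = 2 := Real.rpow_one 2
    refine h5.trans (mul_le_mul_of_nonneg_left ?_ (by norm_num))
    have h6 := Finset.single_le_sum (s := Finset.range K)
      (f := fun k => if (m : ℝ) * 2 ^ k ≤ Z then (X / (Z / 2 ^ k)) ^ (1 / 16 : ℝ) else 0)
      (fun k _ => by
        split_ifs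
        · positivity
        · exact le_rfl) (Finset.mem_range.2 h3)
    simp only [if_pos h2] at h6
    exact h6
  have hstep : ∀ k, ∑ m ∈ Finset.Icc 1 ⌊Z⌋₊, (if (m : ℝ) * 2 ^ k ≤ Z then g m else 0) ≤
      50 * C * (Z / 2 ^ k) * (X / (Z / 2 ^ k)) ^ (1 / 16 : ℝ) * hx U X := by
    intro k
    have h2k : (0 : ℝ) < 2 ^ k := by positivity
    rw [← Finset.sum_filter]
    rcases le_or_gt 1 (Z / 2 ^ k) with h | h
    · have h1 : (Finset.Icc 1 ⌊Z⌋₊).filter (fun m : ℕ => (m : ℝ) * 2 ^ k ≤ Z) ⊆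
          Finset.Icc 1 ⌊Z / 2 ^ k⌋₊ := by
        intro m hm
        rw [Finset.mem_filter, Finset.mem_Icc] at hm
        rw [Finset.mem_Icc]
        exact ⟨hm.1.1, Nat.le_floor (by rw [le_div_iff₀ h2k]; exact hm.2)⟩
      refine (Finset.sum_le_sum_of_subset_of_nonneg h1 (fun m _ _ => hg m)).trans ?_
      refine crude_all hg hU hC0 hC h ?_ hX
      have : (1 : ℝ) ≤ 2 ^ k := one_le_pow₀ (by norm_num)
      exact (div_le_self hZ.le this).trans hZX
    · have h1 : (Finset.Icc 1 ⌊Z⌋₊).filter (fun m : ℕ => (m : ℝ) * 2 ^ k ≤ Z) = ∅ := by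
        rw [Finset.filter_eq_empty_iff]
        intro m hm
        rw [Finset.mem_Icc] at hm
        have hm1 : (1 : ℝ) ≤ m := by exact_mod_cast hm.1
        rw [div_lt_one h2k] at h
        rw [not_le]
        nlinarith only [h2k, h, hm1]
      rw [h1, Finset.sum_empty]
      (clear * - hC0 hZ hX hH; positivity)
  calc ∑ m ∈ Finset.Icc 1 ⌊Z⌋₊, g m * (X / m) ^ (1 / 16 : ℝ)
      ≤ ∑ m ∈ Finset.Icc 1 ⌊Z⌋₊, g m * (2 * ∑ k ∈ Finset.range K,
          if (m : ℝ) * 2 ^ k ≤ Z then (X / (Z / 2 ^ k)) ^ (1 / 16 : ℝ) else 0) :=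
        Finset.sum_le_sum fun m hm => mul_le_mul_of_nonneg_left (hpt m hm) (hg m)
    _ = 2 * ∑ k ∈ Finset.range K, (X / (Z / 2 ^ k)) ^ (1 / 16 : ℝ) *
          ∑ m ∈ Finset.Icc 1 ⌊Z⌋₊, (if (m : ℝ) * 2 ^ k ≤ Z then g m else 0) := by
        simp only [Finset.mul_sum]
        rw [Finset.sum_comm]
        refine Finset.sum_congr rfl fun k _ => Finset.sum_congr rfl fun m _ => ?_
        split_ifs <;> ring
    _ ≤ 2 * ∑ k ∈ Finset.range K, (X / (Z / 2 ^ k)) ^ (1 / 16 : ℝ) *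
          (50 * C * (Z / 2 ^ k) * (X / (Z / 2 ^ k)) ^ (1 / 16 : ℝ) * hx U X) := by
        gcongr with k _
        exact hstep k
    _ = 100 * C * hx U X * ∑ k ∈ Finset.range K, X * ((Z / 2 ^ k) / X) ^ (7 / 8 : ℝ) := by
        rw [Finset.mul_sum, Finset.mul_sum]
        refine Finset.sum_congr rfl fun k _ => ?_
        rw [← rpow_combine hX0 (show 0 < Z / 2 ^ k by positivity)]
        ring
    _ ≤ 100 * C * hx U X * ∑ k ∈ Finset.range K, X * ((Z / X) ^ (7 / 8 : ℝ) * (3 / 4) ^ k) := by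
        gcongr with k _
        have h1 : Z / 2 ^ k / X = Z / X * (1 / 2) ^ k := by
          rw [one_div, inv_pow]; field_simp
        rw [h1, Real.mul_rpow (by positivity) (by positivity)]
        gcongr
        rw [← Real.rpow_natCast, ← Real.rpow_mul (by norm_num), mul_comm ((k : ℕ) : ℝ),
          Real.rpow_mul (by norm_num), Real.rpow_natCast]
        exact pow_le_pow_left₀ (by positivity) half_rpow_le k
    _ = 100 * C * hx U X * (X * (Z / X) ^ (7 / 8 : ℝ)) * ∑ k ∈ Finset.range K, (3 / 4 : ℝ) ^ k := by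
        rw [Finset.mul_sum, Finset.mul_sum]
        refine Finset.sum_congr rfl fun k _ => ?_
        ring
    _ ≤ 100 * C * hx U X * (X * (Z / X) ^ (7 / 8 : ℝ)) * 4 := by
        gcongr
        have h1 := geom_sum_eq (show (3 / 4 : ℝ) ≠ 1 by norm_num) K
        rw [h1]
        have h2 : (0 : ℝ) ≤ (3 / 4) ^ K := by positivity
        rw [div_le_iff_of_neg (by norm_num)]
        linarith only [h2]
    _ = _ := by ring

/-- weighted short interval bound -/
theorem short_weighted {g U : ℕ → ℝ} (hg : ∀ m, 0 ≤ g m) (hU : ∀ p, p.Prime → 1 ≤ U p) {C δ : ℝ}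
    (hC0 : 0 < C) (hδ : 0 < δ) {Y X : ℝ} (hY : 2 ≤ Y) (hYX : Y ≤ X)
    (hC : ∑ m ∈ Finset.Icc ⌈Y⌉₊ ⌊(1 + δ) * Y⌋₊, g m ≤
      C * δ * Y / Real.log Y * ∏ p ∈ P2 Y, U p) :
    ∑ m ∈ Finset.Icc ⌈Y⌉₊ ⌊(1 + δ) * Y⌋₊, g m * (X / m) ^ (1 / 16 : ℝ) ≤
      25 * C * δ * (X * (Y / X) ^ (7 / 8 : ℝ)) * hx U X := by
  have hY0 : 0 < Y := by linarith only [hY]
  have hX0 : 0 < X := by linarith only [hY, hYX]
  have h1 : C * δ * Y / Real.log Y * ∏ p ∈ P2 Y, U p = C * δ * Y * hx U Y := by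
    unfold hx; ring
  rw [h1] at hC
  have h2 := hx_le hU hY hYX
  calc ∑ m ∈ Finset.Icc ⌈Y⌉₊ ⌊(1 + δ) * Y⌋₊, g m * (X / m) ^ (1 / 16 : ℝ)
      ≤ ∑ m ∈ Finset.Icc ⌈Y⌉₊ ⌊(1 + δ) * Y⌋₊, g m * (X / Y) ^ (1 / 16 : ℝ) := by
        refine Finset.sum_le_sum fun m hm => mul_le_mul_of_nonneg_left ?_ (hg m)
        rw [Finset.mem_Icc] at hm
        have h3 : Y ≤ m := (Nat.le_ceil Y).trans (by exact_mod_cast hm.1)
        refine Real.rpow_le_rpow (by positivity) ?_ (by norm_num)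
        exact div_le_div_of_nonneg_left hX0.le hY0 h3
    _ = (∑ m ∈ Finset.Icc ⌈Y⌉₊ ⌊(1 + δ) * Y⌋₊, g m) * (X / Y) ^ (1 / 16 : ℝ) := by
        rw [Finset.sum_mul]
    _ ≤ (C * δ * Y * (25 * (X / Y) ^ (1 / 16 : ℝ) * hx U X)) * (X / Y) ^ (1 / 16 : ℝ) := by
        gcongr
        exact hC.trans (mul_le_mul_of_nonneg_left h2 (by positivity))
    _ = _ := by
        rw [← rpow_combine hX0 hY0]
        ring

/-- the window lemma: at most `C √ε X H(X)` (with weights) for the `m ≤ X` within `εX/27` of `y` -/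
theorem window {n : ℕ} {B C1 C2 : ℝ} (hC1 : 0 < C1) (hC2 : 0 < C2)
    (hcrude : ∀ g U : ℕ → ℝ, HT n B g U →
      ∀ X : ℝ, 2 ≤ X → ∑ m ∈ Finset.Icc 1 ⌊X⌋₊, g m ≤ C1 * X / Real.log X * ∏ p ∈ P2 X, U p)
    (hshort : ∀ δ : ℝ, 0 < δ → δ ≤ 1 → ∃ X₀ : ℝ, ∀ g U : ℕ → ℝ, HT n B g U → ∀ X : ℝ, X₀ ≤ X →
      ∑ m ∈ Finset.Icc ⌈X⌉₊ ⌊(1 + δ) * X⌋₊, g m ≤ C2 * δ * X / Real.log X * ∏ p ∈ P2 X, U p)
    {ε : ℝ} (hε : 0 < ε) (hε1 : ε < 1) :
    ∃ X₁ : ℝ, ∀ g U : ℕ → ℝ, HT n B g U → ∀ X : ℝ, X₁ ≤ X → ∀ (y : ℝ) (W : Finset ℕ),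
      W ⊆ Finset.Icc 1 ⌊X⌋₊ → (∀ m ∈ W, |(m : ℝ) - y| < ε * X / 27) →
      ∑ m ∈ W, g m * (X / m) ^ (1 / 16 : ℝ) ≤ (400 * C1 + 25 * C2) * √ε * X * hx U X := by
  set e : ℝ := √(√ε) with he
  have hs0 : 0 < √ε := Real.sqrt_pos.2 hε
  have hs1 : √ε < 1 := by rw [Real.sqrt_lt' one_pos]; simpa using hε1
  have he0 : 0 < e := Real.sqrt_pos.2 hs0
  have he1 : e < 1 := by rw [he, Real.sqrt_lt' one_pos]; simpa using hs1
  have he2 : e ^ 2 = √ε := Real.sq_sqrt hs0.le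
  have he4 : e ^ 4 = ε := by
    have : e ^ 4 = (e ^ 2) ^ 2 := by ring
    rw [this, he2, Real.sq_sqrt hε.le]
  obtain ⟨Xa, hXa⟩ := hshort (√ε) hs0 hs1.le
  obtain ⟨Xb, hXb⟩ := hshort e he0 he1.le
  refine ⟨max 2 (max Xa (max Xb 2) / (2 / 27 * e ^ 3)), ?_⟩
  intro g U hgU X hX y W hW hWy
  have hX2 : 2 ≤ X := (le_max_left _ _).trans hX
  have hX0 : 0 < X := by linarith only [hε, hε1, hX2]
  have hXl : max Xa (max Xb 2) ≤ 2 / 27 * e ^ 3 * X := by
    have := (le_max_right _ _).trans hX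
    rwa [div_le_iff₀ (by positivity), mul_comm] at this
  have hU := hgU.U1
  have hg := hgU.nonneg
  have hH : 0 ≤ hx U X := hx_nonneg hU (by linarith only [hε, hε1, hX2])
  have hterm : ∀ m : ℕ, 0 ≤ g m * (X / m) ^ (1 / 16 : ℝ) := fun m =>
    mul_nonneg (hg m) (by (clear * - hX2; positivity))
  set Y : ℝ := y - ε * X / 27 with hY
  have hWlo : ∀ m ∈ W, Y < m := by
    intro m hm
    have := (abs_lt.1 (hWy m hm)).1
    linarith only [hY, this]
  have hWhi : ∀ m ∈ W, (m : ℝ) < Y + 2 / 27 * e ^ 4 * X := by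
    intro m hm
    have := (abs_lt.1 (hWy m hm)).2
    rw [he4]
    linarith only [hY, this]
  have hWX : ∀ m ∈ W, (m : ℝ) ≤ X := by
    intro m hm
    have := Finset.mem_Icc.1 (hW hm)
    exact (Nat.le_floor_iff hX0.le).1 this.2
  have hRHS : 0 ≤ √ε * X * hx U X := by (clear * - hε hX2 hH; positivity)
  -- the short interval estimate at scale `δ`
  have hgen : ∀ δ : ℝ, 0 < δ → 2 ≤ Y → Y ≤ X →
      (∑ m ∈ Finset.Icc ⌈Y⌉₊ ⌊(1 + δ) * Y⌋₊, g m ≤
        C2 * δ * Y / Real.log Y * ∏ p ∈ P2 Y, U p) → 2 / 27 * e ^ 4 * X ≤ δ * Y →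
      ∑ m ∈ W, g m * (X / m) ^ (1 / 16 : ℝ) ≤
        25 * C2 * δ * (X * (Y / X) ^ (7 / 8 : ℝ)) * hx U X := by
    intro δ hδ hY2 hYX hs hδY
    refine le_trans (Finset.sum_le_sum_of_subset_of_nonneg ?_ fun m _ _ => hterm m)
      (short_weighted hg hU hC2 hδ hY2 hYX hs)
    intro m hm
    rw [Finset.mem_Icc]
    refine ⟨Nat.ceil_le.2 (hWlo m hm).le, Nat.le_floor ?_⟩
    have := hWhi m hm
    linarith only [hδY, this]
  rcases lt_or_ge X Y with hXY | hYX
  · have : W = ∅ := by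
      rw [Finset.eq_empty_iff_forall_notMem]
      intro m hm
      have h1 := hWlo m hm
      have h2 := hWX m hm
      linarith only [hXY, h1, h2]
    rw [this, Finset.sum_empty]
    have : 0 ≤ (400 * C1 + 25 * C2) * (√ε * X * hx U X) := by (clear * - hC1 hC2 hε hX2 hH; positivity)
    linarith only [this]
  rcases lt_or_ge Y (2 / 27 * e ^ 3 * X) with h3 | h3
  · -- crude
    have hsub : W ⊆ Finset.Icc 1 ⌊e ^ 3 * X⌋₊ := by
      intro m hm
      rw [Finset.mem_Icc]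
      refine ⟨(Finset.mem_Icc.1 (hW hm)).1, Nat.le_floor ?_⟩
      have h4 := hWhi m hm
      have h5 : e ^ 4 ≤ e ^ 3 := pow_le_pow_of_le_one he0.le he1.le (by norm_num)
      have h6 : 0 < e ^ 3 * X := by positivity
      nlinarith only [hε, hε1, he0, he1, h3, h4]
    have h4 := crude_weighted (Z := e ^ 3 * X) hg hU hC1 (hcrude g U hgU) (by positivity)
      (by
        have : e ^ 3 ≤ 1 := pow_le_one₀ he0.le he1.le
        nlinarith only [hX2, this]) hX2
    refine (Finset.sum_le_sum_of_subset_of_nonneg hsub fun m _ _ => hterm m).trans (h4.trans ?_)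
    have h5 : e ^ 3 * X / X = e ^ 3 := by (clear * - he0 hX2; field_simp)
    rw [h5]
    have h6 : (e ^ 3) ^ (7 / 8 : ℝ) ≤ √ε := by
      rw [← he2, ← Real.rpow_natCast, ← Real.rpow_mul he0.le, ← Real.rpow_natCast]
      exact Real.rpow_le_rpow_of_exponent_ge he0 he1.le (by norm_num)
    calc 400 * C1 * X * (e ^ 3) ^ (7 / 8 : ℝ) * hx U X
        ≤ 400 * C1 * X * √ε * hx U X := by (clear * - hC1 hX2 hH h6; gcongr)
      _ ≤ 400 * C1 * X * √ε * hx U X + 25 * C2 * (√ε * X * hx U X) := by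
        have : 0 ≤ 25 * C2 * (√ε * X * hx U X) := by (clear * - hC2 hε hX2 hH; positivity)
        linarith only [this]
      _ = _ := by ring
  · have hY2 : 2 ≤ Y := by
      have : (2 : ℝ) ≤ max Xa (max Xb 2) := (le_max_right _ _).trans (le_max_right _ _)
      linarith only [hXl, h3, this]
    have hY0 : 0 < Y := by linarith only [hε, hε1, hY2]
    have hYa : Xa ≤ Y := by
      have : Xa ≤ max Xa (max Xb 2) := le_max_left _ _
      linarith only [hXl, h3, this]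
    have hYb : Xb ≤ Y := by
      have : Xb ≤ max Xa (max Xb 2) := (le_max_left _ _).trans (le_max_right _ _)
      linarith only [hXl, h3, this]
    rcases lt_or_ge Y (2 / 27 * e ^ 2 * X) with h2 | h2
    · -- scale `e`
      have h4 := hgen e he0 hY2 hYX (hXb g U hgU Y hYb) (by
        have : e * (2 / 27 * e ^ 3 * X) ≤ e * Y := mul_le_mul_of_nonneg_left h3 he0.le
        nlinarith only [this])
      refine h4.trans ?_
      have h5 : (Y / X) ^ (7 / 8 : ℝ) ≤ e := by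
        have h6 : Y / X ≤ e ^ 2 := by
          rw [div_le_iff₀ hX0]
          have : 0 < e ^ 2 * X := by positivity
          linarith only [hε, hε1, hY2, h2]
        refine (Real.rpow_le_rpow (by (clear * - hX2 hY2; positivity)) h6 (by norm_num)).trans ?_
        rw [← Real.rpow_natCast, ← Real.rpow_mul he0.le]
        calc e ^ (((2 : ℕ) : ℝ) * (7 / 8)) ≤ e ^ (1 : ℝ) :=
              Real.rpow_le_rpow_of_exponent_ge he0 he1.le (by norm_num)
          _ = e := Real.rpow_one e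
      calc 25 * C2 * e * (X * (Y / X) ^ (7 / 8 : ℝ)) * hx U X
          ≤ 25 * C2 * e * (X * e) * hx U X := by (clear * - hC2 hε hX2 hH h5; gcongr)
        _ = 25 * C2 * (√ε * X * hx U X) := by rw [← he2]; ring
        _ ≤ 25 * C2 * (√ε * X * hx U X) + 400 * C1 * (√ε * X * hx U X) := by
          have : 0 ≤ 400 * C1 * (√ε * X * hx U X) := by (clear * - hC1 hε hX2 hH; positivity)
          linarith only [this]
        _ = _ := by ring
    · -- scale `√ε`
      have h4 := hgen (√ε) hs0 hY2 hYX (hXa g U hgU Y hYa) (by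
        rw [← he2]
        have : e ^ 2 * (2 / 27 * e ^ 2 * X) ≤ e ^ 2 * Y := mul_le_mul_of_nonneg_left h2 (by positivity)
        nlinarith only [this])
      refine h4.trans ?_
      have h5 : (Y / X) ^ (7 / 8 : ℝ) ≤ 1 :=
        Real.rpow_le_one (by (clear * - hX2 hY2; positivity)) (by rw [div_le_one hX0]; exact hYX) (by norm_num)
      calc 25 * C2 * √ε * (X * (Y / X) ^ (7 / 8 : ℝ)) * hx U X
          ≤ 25 * C2 * √ε * (X * 1) * hx U X := by (clear * - hC2 hε hX2 hH h5; gcongr)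
        _ = 25 * C2 * (√ε * X * hx U X) := by ring
        _ ≤ 25 * C2 * (√ε * X * hx U X) + 400 * C1 * (√ε * X * hx U X) := by
          have : 0 ≤ 400 * C1 * (√ε * X * hx U X) := by (clear * - hC1 hε hX2 hH; positivity)
          linarith only [this]
        _ = _ := by ring

end Vale.Agent.P007.N
end

section

/-! P007 A6, part 2: property (*) and tightness for packet measures, from the unfolding formula,
the Hall–Tenenbaum bounds and the lower bound for the volume of the packet. -/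

set_option autoImplicit false

open MeasureTheory Matrix NumberField Filter Topology
open scoped ENNReal nonZeroDivisors

namespace Vale.Agent.P007.N

open Vale.Agent.P007 Vale.Agent.P007.R

variable {n : ℕ}

/-! ### the sets of lattices with a vector in an open set -/

theorem isOpen_vec {V : Set (Fin n → ℝ)} (hV : IsOpen V) :
    IsOpen {x : X n | ∃ v ∈ latx x, v ≠ 0 ∧ v ∈ V} := by
  have h1 : {x : X n | ∃ v ∈ latx x, v ≠ 0 ∧ v ∈ V} =
      pt '' (⋃ c : Fin n → ℤ, {g : G n | (fun i => (c i : ℝ)) ᵥ* g.1 ∈ V \ {0}}) := by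
    ext x
    simp only [Set.mem_ofPred_eq, Set.mem_image, Set.mem_iUnion]
    constructor
    · rintro ⟨v, ⟨g, hg, c, hc⟩, hv0, hvV⟩
      refine ⟨g, ⟨c, ?_⟩, hg⟩
      have hc' : (fun i => (c i : ℝ)) ᵥ* g.1 = v := hc
      rw [hc']
      exact ⟨hvV, hv0⟩
    · rintro ⟨g, ⟨c, hc⟩, hg⟩
      exact ⟨_, ⟨g, hg, c, rfl⟩, hc.2, hc.1⟩
  rw [h1]
  refine isOpenQuotientMap_pt.isOpenMap _ (isOpen_iUnion fun c => ?_)
  have hcont : Continuous fun g : G n => (fun i => (c i : ℝ)) ᵥ* (g.1 : Matrix (Fin n) (Fin n) ℝ) :=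
    Continuous.matrix_vecMul continuous_const continuous_subtype_val
  exact (hV.sdiff isClosed_singleton).preimage hcont

/-- the packet measure of such a set, by unfolding -/
theorem packet_bound (D : Datum n)
    (hunf : ∀ φ : (Fin n → ℝ) → ℝ≥0∞, Measurable φ →
      ∑' S : D.packet, ∫⁻ x, (∑' v : {v : Fin n → ℝ // v ∈ latx x ∧ v ≠ 0}, φ v.1) ∂(orbMeas S.1) =
      ∑' m : ℕ, (rO D m : ℝ≥0∞) * ∑ w : Fin n → ℤˣ, ∫⁻ u : Fin (n - 1) → ℝ,
        φ (fun j => ((m : ℝ) / √(D.disc : ℝ)) ^ ((n : ℝ)⁻¹) * ((w j : ℤ) : ℝ) *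
          Real.exp (expo u j)))
    {V : Set (Fin n → ℝ)} (hV : IsOpen V) :
    D.packetMeas {x | ∃ v ∈ latx x, v ≠ 0 ∧ v ∈ V} ≤
      (vol D)⁻¹ * ∑' m : ℕ, (rO D m : ℝ≥0∞) * ∑ w : Fin n → ℤˣ, ∫⁻ u : Fin (n - 1) → ℝ,
        V.indicator 1 (fun j => ((m : ℝ) / √(D.disc : ℝ)) ^ ((n : ℝ)⁻¹) * ((w j : ℤ) : ℝ) *
          Real.exp (expo u j)) := by
  have hA := isOpen_vec hV
  set A := {x : X n | ∃ v ∈ latx x, v ≠ 0 ∧ v ∈ V} with hAdef
  have hφ : Measurable (V.indicator (1 : (Fin n → ℝ) → ℝ≥0∞)) :=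
    measurable_one.indicator hV.measurableSet
  rw [← hunf _ hφ]
  unfold Datum.packetMeas
  rw [Measure.smul_apply, Measure.sum_apply _ hA.measurableSet, smul_eq_mul]
  refine mul_le_mul_right (ENNReal.tsum_le_tsum fun S => ?_) _
  rw [← lintegral_indicator_one hA.measurableSet]
  refine lintegral_mono fun x => ?_
  by_cases hx : x ∈ A
  · rw [Set.indicator_of_mem hx]
    obtain ⟨v, hv, hv0, hvV⟩ := hx
    refine le_trans ?_ (ENNReal.le_tsum (⟨v, hv, hv0⟩ : {v : Fin n → ℝ // v ∈ latx x ∧ v ≠ 0}))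
    simp only [Pi.one_apply]
    rw [Set.indicator_of_mem hvV, Pi.one_apply]
  · rw [Set.indicator_of_notMem hx]
    exact zero_le

/-! ### the volume of a simplex -/

theorem expo_volume (hn : 2 ≤ n) {L : ℝ} (hL : 0 < L) :
    volume {u : Fin (n - 1) → ℝ | ∀ j : Fin n, expo u j < L} ≤
      ENNReal.ofReal (((n : ℝ) * L) ^ (n - 1)) := by
  have h1 : {u : Fin (n - 1) → ℝ | ∀ j : Fin n, expo u j < L} ⊆
      Set.Icc (fun _ => -(((n : ℝ) - 1) * L)) (fun _ => L) := by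
    intro u hu
    have hval : ∀ i : Fin (n - 1), expo (n := n) u ⟨i.1, by omega⟩ = u i := by
      intro i
      unfold expo
      rw [dif_pos i.2]
    rw [Set.mem_Icc, Pi.le_def, Pi.le_def]
    refine ⟨fun i => ?_, fun i => ?_⟩
    · have h2 := sum_expo (n := n) u
      rw [← Finset.add_sum_erase _ _ (Finset.mem_univ (⟨i.1, by omega⟩ : Fin n)), hval i] at h2
      have h3 : ∑ j ∈ Finset.univ.erase (⟨i.1, by omega⟩ : Fin n), expo u j ≤ ((n : ℝ) - 1) * L := by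
        have h4 := Finset.sum_le_card_nsmul (Finset.univ.erase (⟨i.1, by omega⟩ : Fin n))
          (fun j => expo u j) L (fun j _ => (hu j).le)
        rw [Finset.card_erase_of_mem (Finset.mem_univ _), Finset.card_univ, Fintype.card_fin,
          nsmul_eq_mul, Nat.cast_sub (by omega), Nat.cast_one] at h4
        exact h4
      linarith only [hn, h2, h3]
    · rw [← hval i]
      exact (hu _).le
  refine (measure_mono h1).trans ?_
  rw [Real.volume_Icc_pi]
  simp only [Finset.prod_const, Finset.card_univ, Fintype.card_fin]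
  rw [← ENNReal.ofReal_pow (by
    have : (2 : ℝ) ≤ n := by exact_mod_cast hn
    nlinarith only [hL])]
  apply ENNReal.ofReal_le_ofReal
  apply le_of_eq
  congr 1
  ring

theorem isOpen_expo_lt (L : ℝ) : IsOpen {u : Fin (n - 1) → ℝ | ∀ j : Fin n, expo u j < L} := by
  have : {u : Fin (n - 1) → ℝ | ∀ j : Fin n, expo u j < L} =
      ⋂ j : Fin n, {u | expo u j < L} := by
    ext u; simp only [Set.mem_ofPred_eq, Set.mem_iInter]
  rw [this]
  exact isOpen_iInter_of_finite fun j => isOpen_lt (continuous_expo j) continuous_const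

theorem expo_volume_zero (hn : 2 ≤ n) {L : ℝ} (hL : L ≤ 0) :
    {u : Fin (n - 1) → ℝ | ∀ j : Fin n, expo u j < L} = ∅ := by
  ext u
  simp only [Set.mem_ofPred_eq, Set.mem_empty_iff_false, iff_false]
  intro hu
  have h1 : ∑ j : Fin n, expo u j < ∑ _j : Fin n, (0 : ℝ) := by
    have : Nonempty (Fin n) := ⟨⟨0, by omega⟩⟩
    exact Finset.sum_lt_sum_of_nonempty Finset.univ_nonempty fun j _ => (hu j).trans_le hL
  rw [sum_expo] at h1
  simp only [Finset.sum_const_zero, lt_self_iff_false] at h1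

/-- the inner integral -/
theorem inner_bound (hn : 2 ≤ n) {R t : ℝ} (hR : 0 < R) (ht : 0 < t) (w : Fin n → ℤˣ) :
    ∫⁻ u : Fin (n - 1) → ℝ, Set.indicator {v : Fin n → ℝ | ∀ i, |v i| < R} 1
      (fun j => t ^ ((n : ℝ)⁻¹) * ((w j : ℤ) : ℝ) * Real.exp (expo u j)) ≤
      if t < R ^ n then ENNReal.ofReal ((Real.log (R ^ n / t)) ^ (n - 1)) else 0 := by
  have hn0 : (0 : ℝ) < n := by
    have : 0 < n := by omega
    exact_mod_cast this
  set L : ℝ := Real.log (R ^ n / t) / n with hL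
  have hset : ∀ u : Fin (n - 1) → ℝ, (∀ i : Fin n,
      |t ^ ((n : ℝ)⁻¹) * ((w i : ℤ) : ℝ) * Real.exp (expo u i)| < R) ↔ ∀ i : Fin n, expo u i < L := by
    intro u
    refine forall_congr' fun i => ?_
    have hw : |((w i : ℤ) : ℝ)| = 1 := by
      rcases Int.units_eq_one_or (w i) with h | h <;> simp [h]
    have htp : 0 < t ^ ((n : ℝ)⁻¹) := by positivity
    rw [abs_mul, abs_mul, hw, mul_one, abs_of_pos htp, abs_of_pos (Real.exp_pos _),
      ← Real.exp_log htp, ← Real.exp_add, ← Real.lt_log_iff_exp_lt hR, Real.log_rpow ht, hL,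
      Real.log_div (by positivity) ht.ne', Real.log_pow]
    constructor
    · intro h
      rw [lt_div_iff₀ hn0]
      have h2 : ((n : ℝ)⁻¹ * Real.log t + expo u i) * n < Real.log R * n :=
        mul_lt_mul_of_pos_right h hn0
      have h3 : ((n : ℝ)⁻¹ * Real.log t + expo u i) * n = Real.log t + expo u i * n := by
        field_simp
      linarith only [h2, h3]
    · intro h
      rw [lt_div_iff₀ hn0] at h
      refine lt_of_mul_lt_mul_right ?_ hn0.le
      have h3 : ((n : ℝ)⁻¹ * Real.log t + expo u i) * n = Real.log t + expo u i * n := by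
        field_simp
      rw [h3]
      linarith only [h]
  have hind : ∀ u : Fin (n - 1) → ℝ, Set.indicator {v : Fin n → ℝ | ∀ i, |v i| < R}
      (1 : (Fin n → ℝ) → ℝ≥0∞)
      (fun j => t ^ ((n : ℝ)⁻¹) * ((w j : ℤ) : ℝ) * Real.exp (expo u j)) =
      Set.indicator {u : Fin (n - 1) → ℝ | ∀ j : Fin n, expo u j < L} 1 u := by
    intro u
    by_cases h : ∀ i : Fin n, expo u i < L
    · rw [Set.indicator_of_mem (show u ∈ {u : Fin (n - 1) → ℝ | ∀ j : Fin n, expo u j < L} from h),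
        Set.indicator_of_mem]
      · rfl
      · exact (hset u).2 h
    · rw [Set.indicator_of_notMem
        (show u ∉ {u : Fin (n - 1) → ℝ | ∀ j : Fin n, expo u j < L} from h),
        Set.indicator_of_notMem]
      exact fun h' => h ((hset u).1 h')
  simp only [hind]
  rw [lintegral_indicator_one (isOpen_expo_lt L).measurableSet]
  split_ifs with h
  · have h1 : 1 < R ^ n / t := by rw [lt_div_iff₀ ht]; linarith only [h]
    have hLpos : 0 < L := div_pos (Real.log_pos h1) hn0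
    refine (expo_volume hn hLpos).trans (le_of_eq ?_)
    rw [hL, mul_div_cancel₀ _ hn0.ne']
  · have h1 : R ^ n / t ≤ 1 := by rw [div_le_one ht]; linarith
    have hL0 : L ≤ 0 := div_nonpos_of_nonpos_of_nonneg (Real.log_nonpos (by positivity) h1) hn0.le
    rw [expo_volume_zero hn hL0, measure_empty]

/-! ### assembling -/

theorem log_pow_le (hn : 1 ≤ n) {x : ℝ} (hx : 1 ≤ x) :
    (Real.log x) ^ (n - 1) ≤ (16 * n : ℝ) ^ (n - 1) * x ^ (1 / 16 : ℝ) := by
  have hn0 : (0 : ℝ) < n := by exact_mod_cast hn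
  have hx0 : 0 < x := by linarith only [hx]
  have h1 : Real.log x ≤ x ^ (1 / (16 * n) : ℝ) / (1 / (16 * n)) :=
    Real.log_le_rpow_div hx0.le (by positivity)
  have h2 : x ^ (1 / (16 * n) : ℝ) / (1 / (16 * n)) = (16 * n) * x ^ (1 / (16 * n) : ℝ) := by
    field_simp
  rw [h2] at h1
  refine (pow_le_pow_left₀ (Real.log_nonneg hx) h1 _).trans ?_
  rw [mul_pow]
  refine mul_le_mul_of_nonneg_left ?_ (by positivity)
  rw [← Real.rpow_natCast, ← Real.rpow_mul hx0.le]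
  refine Real.rpow_le_rpow_of_exponent_le hx ?_
  rw [Nat.cast_sub hn, Nat.cast_one, one_div_mul_eq_div, div_le_div_iff₀ (by positivity) (by norm_num)]
  linarith only []

theorem packet_sum_bound (D : Datum n) (hn : 2 ≤ n)
    (hunf : ∀ φ : (Fin n → ℝ) → ℝ≥0∞, Measurable φ →
      ∑' S : D.packet, ∫⁻ x, (∑' v : {v : Fin n → ℝ // v ∈ latx x ∧ v ≠ 0}, φ v.1) ∂(orbMeas S.1) =
      ∑' m : ℕ, (rO D m : ℝ≥0∞) * ∑ w : Fin n → ℤˣ, ∫⁻ u : Fin (n - 1) → ℝ,
        φ (fun j => ((m : ℝ) / √(D.disc : ℝ)) ^ ((n : ℝ)⁻¹) * ((w j : ℤ) : ℝ) *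
          Real.exp (expo u j)))
    (hr0 : rO D 0 = 0) (hd : 0 < √(D.disc : ℝ)) {V : Set (Fin n → ℝ)} (hV : IsOpen V) {R : ℝ}
    (hR0 : 0 < R) (hR3 : R ≤ 3) (hVR : V ⊆ {v : Fin n → ℝ | ∀ i, |v i| < R}) (W : Finset ℕ)
    (hW : ∀ m : ℕ, 1 ≤ m → (m : ℝ) / √(D.disc : ℝ) < R ^ n →
      (∃ (w : Fin n → ℤˣ) (u : Fin (n - 1) → ℝ),
        (fun j => ((m : ℝ) / √(D.disc : ℝ)) ^ ((n : ℝ)⁻¹) * ((w j : ℤ) : ℝ) *
          Real.exp (expo u j)) ∈ V) → m ∈ W) :
    D.packetMeas {x | ∃ v ∈ latx x, v ≠ 0 ∧ v ∈ V} ≤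
      (vol D)⁻¹ * ENNReal.ofReal (2 ^ n * (16 * n : ℝ) ^ (n - 1) *
        ∑ m ∈ W, (rO D m : ℝ) * (3 ^ n * √(D.disc : ℝ) / m) ^ (1 / 16 : ℝ)) := by
  refine (packet_bound D hunf hV).trans (mul_le_mul_right ?_ _)
  have hterm : ∀ m : ℕ, (rO D m : ℝ≥0∞) * ∑ w : Fin n → ℤˣ, ∫⁻ u : Fin (n - 1) → ℝ,
        V.indicator 1 (fun j => ((m : ℝ) / √(D.disc : ℝ)) ^ ((n : ℝ)⁻¹) * ((w j : ℤ) : ℝ) *
          Real.exp (expo u j)) ≤
      if m ∈ W then ENNReal.ofReal (2 ^ n * (16 * n : ℝ) ^ (n - 1) *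
        ((rO D m : ℝ) * (3 ^ n * √(D.disc : ℝ) / m) ^ (1 / 16 : ℝ))) else 0 := by
    intro m
    rcases Nat.eq_zero_or_pos m with rfl | hm
    · rw [hr0]; simp only [CharP.cast_eq_zero, zero_div, zero_mul, div_zero, one_div, ne_eq,
                  inv_eq_zero, OfNat.ofNat_ne_zero, not_false_eq_true, Real.zero_rpow, mul_zero,
                  ENNReal.ofReal_zero, ite_self, Std.le_refl]
    have hm0 : (0 : ℝ) < m := by exact_mod_cast hm
    have ht : 0 < (m : ℝ) / √(D.disc : ℝ) := by positivity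
    have hle : ∀ w : Fin n → ℤˣ, ∫⁻ u : Fin (n - 1) → ℝ,
        V.indicator 1 (fun j => ((m : ℝ) / √(D.disc : ℝ)) ^ ((n : ℝ)⁻¹) * ((w j : ℤ) : ℝ) *
          Real.exp (expo u j)) ≤
        if (m : ℝ) / √(D.disc : ℝ) < R ^ n then
          ENNReal.ofReal ((Real.log (R ^ n / ((m : ℝ) / √(D.disc : ℝ)))) ^ (n - 1)) else 0 := by
      intro w
      refine le_trans (lintegral_mono fun u => ?_) (inner_bound hn hR0 ht w)
      exact Set.indicator_le_indicator_of_subset hVR (fun _ => zero_le) _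
    by_cases hmW : m ∈ W
    · rw [if_pos hmW]
      by_cases hlt : (m : ℝ) / √(D.disc : ℝ) < R ^ n
      · simp only [if_pos hlt] at hle
        have h1 : 1 ≤ R ^ n / ((m : ℝ) / √(D.disc : ℝ)) := by
          rw [le_div_iff₀ ht]; linarith only [hlt]
        have h2 : R ^ n / ((m : ℝ) / √(D.disc : ℝ)) ≤ 3 ^ n * √(D.disc : ℝ) / m := by
          rw [div_div_eq_mul_div]
          (clear * - hd hR0 hR3 hm; gcongr)
        have h3 : (Real.log (R ^ n / ((m : ℝ) / √(D.disc : ℝ)))) ^ (n - 1) ≤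
            (16 * n : ℝ) ^ (n - 1) * (3 ^ n * √(D.disc : ℝ) / m) ^ (1 / 16 : ℝ) := by
          refine (log_pow_le (by omega) h1).trans ?_
          (clear * - hn hd hR0 hm h2; gcongr)
        calc (rO D m : ℝ≥0∞) * ∑ w : Fin n → ℤˣ, ∫⁻ u : Fin (n - 1) → ℝ,
              V.indicator 1 (fun j => ((m : ℝ) / √(D.disc : ℝ)) ^ ((n : ℝ)⁻¹) *
                ((w j : ℤ) : ℝ) * Real.exp (expo u j))
            ≤ (rO D m : ℝ≥0∞) * ∑ _w : Fin n → ℤˣ, ENNReal.ofReal
                ((16 * n : ℝ) ^ (n - 1) * (3 ^ n * √(D.disc : ℝ) / m) ^ (1 / 16 : ℝ)) := by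
              gcongr with w _
              exact (hle w).trans (ENNReal.ofReal_le_ofReal h3)
          _ = _ := by
              rw [Finset.sum_const, Finset.card_univ, Fintype.card_fun, Fintype.card_fin,
                Fintype.card_units_int, nsmul_eq_mul]
              have e1 : (rO D m : ℝ≥0∞) = ENNReal.ofReal (rO D m : ℝ) := by simp
              have e2 : (((2 : ℕ) ^ n : ℕ) : ℝ≥0∞) = ENNReal.ofReal ((2 : ℝ) ^ n) := by
                rw [ENNReal.ofReal_pow (by norm_num)]; simp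
              rw [e1, e2, ← ENNReal.ofReal_mul (by positivity), ← ENNReal.ofReal_mul (by (clear * -; positivity))]
              congr 1
              ring
      · simp only [if_neg hlt] at hle
        have h0 : ∑ w : Fin n → ℤˣ, ∫⁻ u : Fin (n - 1) → ℝ,
            V.indicator 1 (fun j => ((m : ℝ) / √(D.disc : ℝ)) ^ ((n : ℝ)⁻¹) * ((w j : ℤ) : ℝ) *
              Real.exp (expo u j)) = 0 :=
          Finset.sum_eq_zero fun w _ => le_antisymm (hle w) zero_le
        rw [h0, mul_zero]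
        exact zero_le
    · rw [if_neg hmW]
      have h0 : ∑ w : Fin n → ℤˣ, ∫⁻ u : Fin (n - 1) → ℝ,
          V.indicator 1 (fun j => ((m : ℝ) / √(D.disc : ℝ)) ^ ((n : ℝ)⁻¹) * ((w j : ℤ) : ℝ) *
            Real.exp (expo u j)) = 0 := by
        refine Finset.sum_eq_zero fun w _ => ?_
        by_cases hlt : (m : ℝ) / √(D.disc : ℝ) < R ^ n
        · have h1 : ∀ u : Fin (n - 1) → ℝ, V.indicator (1 : (Fin n → ℝ) → ℝ≥0∞)
              (fun j => ((m : ℝ) / √(D.disc : ℝ)) ^ ((n : ℝ)⁻¹) *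
              ((w j : ℤ) : ℝ) * Real.exp (expo u j)) = 0 := by
            intro u
            refine Set.indicator_of_notMem (fun hu => hmW (hW m hm hlt ⟨w, u, hu⟩)) _
          simp only [h1, lintegral_zero]
        · have := hle w
          rw [if_neg hlt] at this
          exact le_antisymm this zero_le
      rw [h0, mul_zero]
  refine (ENNReal.tsum_le_tsum hterm).trans ?_
  rw [tsum_eq_sum (s := W) (fun m hm => if_neg hm), Finset.sum_congr rfl fun m hm => if_pos hm,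
    ← ENNReal.ofReal_sum_of_nonneg (fun m hm => by (clear * - hn hd; positivity)), Finset.mul_sum]

theorem hx_pos {U : ℕ → ℝ} (hU : ∀ p, p.Prime → 1 ≤ U p) {X : ℝ} (hX : 1 < X) : 0 < hx U X := by
  unfold hx
  refine mul_pos (inv_pos.2 (Real.log_pos hX)) (Finset.prod_pos fun p hp => ?_)
  unfold P2 at hp
  rw [Finset.mem_filter] at hp
  linarith [hU p hp.2]

theorem final_ineq {V : ℝ≥0∞} {Q A c s sd h T : ℝ} (hc : 0 < c) (hsd : 0 < sd) (hh : 0 < h)
    (hV : c * sd * h ≤ V.toReal) (hQ : Q ≤ A * s * (T * sd) * h) :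
    V⁻¹ * ENNReal.ofReal Q ≤ ENNReal.ofReal (A * T / c * s) := by
  have h0 : 0 < c * sd * h := by positivity
  have h1 : ENNReal.ofReal (c * sd * h) ≤ V := ENNReal.ofReal_le_of_le_toReal hV
  calc V⁻¹ * ENNReal.ofReal Q ≤ (ENNReal.ofReal (c * sd * h))⁻¹ * ENNReal.ofReal Q := by
        gcongr
    _ = ENNReal.ofReal (Q / (c * sd * h)) := by
        rw [ENNReal.ofReal_div_of_pos h0, ENNReal.div_eq_inv_mul]
    _ ≤ _ := by
        apply ENNReal.ofReal_le_ofReal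
        rw [div_le_iff₀ h0]
        refine hQ.trans (le_of_eq ?_)
        field_simp

/-- the product of the coordinates of the vectors which occur in the unfolding -/
theorem prod_vec (hn : 1 ≤ n) {t : ℝ} (ht : 0 < t) (w : Fin n → ℤˣ) (u : Fin (n - 1) → ℝ) :
    ∏ j : Fin n, (t ^ ((n : ℝ)⁻¹) * ((w j : ℤ) : ℝ) * Real.exp (expo u j)) =
      t * ∏ j, ((w j : ℤ) : ℝ) := by
  have hn0 : (n : ℝ) ≠ 0 := by
    have : n ≠ 0 := by omega
    exact_mod_cast this
  rw [Finset.prod_mul_distrib, Finset.prod_mul_distrib, ← Real.exp_sum, sum_expo, Real.exp_zero,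
    mul_one, Finset.prod_const, Finset.card_univ, Fintype.card_fin, ← Real.rpow_natCast,
    ← Real.rpow_mul ht.le, inv_mul_cancel₀ hn0, Real.rpow_one]

theorem abs_prod_sign (w : Fin n → ℤˣ) : |∏ j, ((w j : ℤ) : ℝ)| = 1 := by
  rw [Finset.abs_prod]
  refine Finset.prod_eq_one fun j _ => ?_
  rcases Int.units_eq_one_or (w j) with h | h <;> simp [h]

/-- property (*) for packet measures, from the unfolding formula, Hall–Tenenbaum bounds and the
lower bound for the volume -/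
theorem star_packet_of (n : ℕ) (hn3 : 3 ≤ n)
    (hunf : ∀ (D : Datum n) (φ : (Fin n → ℝ) → ℝ≥0∞), Measurable φ →
      ∑' S : D.packet, ∫⁻ x, (∑' v : {v : Fin n → ℝ // v ∈ latx x ∧ v ≠ 0}, φ v.1) ∂(orbMeas S.1) =
      ∑' m : ℕ, (rO D m : ℝ≥0∞) * ∑ w : Fin n → ℤˣ, ∫⁻ u : Fin (n - 1) → ℝ,
        φ (fun j => ((m : ℝ) / √(D.disc : ℝ)) ^ ((n : ℝ)⁻¹) * ((w j : ℤ) : ℝ) *
          Real.exp (expo u j)))
    (hrHT : ∃ B : ℝ, ∀ D : Datum n, HT n B (fun m => (rO D m : ℝ)) (fun p => (up D p)⁻¹))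
    (hr0 : ∀ D : Datum n, rO D 0 = 0)
    (hcrude : ∀ B : ℝ, ∃ C : ℝ, 0 < C ∧ ∀ g U : ℕ → ℝ, HT n B g U →
      ∀ X : ℝ, 2 ≤ X → ∑ m ∈ Finset.Icc 1 ⌊X⌋₊, g m ≤ C * X / Real.log X * ∏ p ∈ P2 X, U p)
    (hshort : ∀ B : ℝ, ∃ C : ℝ, 0 < C ∧ ∀ δ : ℝ, 0 < δ → δ ≤ 1 →
      ∃ X₀ : ℝ, ∀ g U : ℕ → ℝ, HT n B g U → ∀ X : ℝ, X₀ ≤ X →
        ∑ m ∈ Finset.Icc ⌈X⌉₊ ⌊(1 + δ) * X⌋₊, g m ≤ C * δ * X / Real.log X * ∏ p ∈ P2 X, U p)
    (hvol : ∃ c : ℝ, 0 < c ∧ ∀ (D : Datum n) (X : ℝ), √(D.disc : ℝ) ≤ X →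
      c * √(D.disc : ℝ) * HO D X ≤ (vol D).toReal) :
    ∃ C : ℝ, ∀ ε : ℝ, 0 < ε → ε < 1 →
      ∃ D₀ : ℕ, ∀ D : Datum n, D₀ ≤ D.disc → ∀ N0 : ℝ,
      D.packetMeas {x | ∃ v ∈ latx x, v ≠ 0 ∧ (∀ i, |v i| < 3) ∧ |∏ i, v i - N0| < ε} ≤
        ENNReal.ofReal (C * √ε) := by
  obtain ⟨B, hHT⟩ := hrHT
  obtain ⟨C1, hC1, hcr⟩ := hcrude B
  obtain ⟨C2, hC2, hsh⟩ := hshort B
  obtain ⟨c, hc, hvl⟩ := hvol
  refine ⟨2 ^ n * (16 * n : ℝ) ^ (n - 1) * (400 * C1 + 25 * C2) * 3 ^ n / c, ?_⟩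
  intro ε hε hε1
  obtain ⟨X₁, hwin⟩ := window hC1 hC2 hcr hsh hε hε1
  obtain ⟨D₀, hD₀⟩ := exists_nat_ge ((max 2 X₁) ^ 2)
  refine ⟨D₀, fun D hD N0 => ?_⟩
  have hdisc : (max 2 X₁) ≤ √(D.disc : ℝ) := by
    refine Real.le_sqrt_of_sq_le (hD₀.trans ?_)
    exact_mod_cast hD
  have hsd2 : 2 ≤ √(D.disc : ℝ) := (le_max_left _ _).trans hdisc
  have hsd : 0 < √(D.disc : ℝ) := by linarith only [hε, hε1, hsd2]
  set sd := √(D.disc : ℝ) with hsddef
  set X : ℝ := 3 ^ n * sd with hX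
  have h3n : (27 : ℝ) ≤ 3 ^ n := by
    calc (27 : ℝ) = 3 ^ 3 := by norm_num
      _ ≤ 3 ^ n := pow_le_pow_right₀ (by norm_num) hn3
  have hXsd : sd ≤ X := by nlinarith only [hε, hε1, hsd2, h3n]
  have hX1 : X₁ ≤ X := ((le_max_right _ _).trans hdisc).trans hXsd
  have hXpos : 0 < X := by linarith only [hε, hε1, hsd2, hXsd]
  classical
  set W : Finset ℕ := (Finset.Icc 1 ⌊X⌋₊).filter (fun m : ℕ => |(m : ℝ) - |N0| * sd| < ε * X / 27)
    with hWdef
  set V : Set (Fin n → ℝ) := {v | (∀ i, |v i| < 3) ∧ |∏ i, v i - N0| < ε} with hVdef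
  have hVopen : IsOpen V := by
    have h1 : V = (⋂ i : Fin n, {v : Fin n → ℝ | |v i| < 3}) ∩
        {v : Fin n → ℝ | |∏ i, v i - N0| < ε} := by
      ext v; simp only [hVdef, Set.mem_ofPred_eq, Set.mem_inter_iff, Set.mem_iInter]
    rw [h1]
    refine IsOpen.inter (isOpen_iInter_of_finite fun i => ?_) ?_
    · exact isOpen_lt ((continuous_apply i).abs) continuous_const
    · exact isOpen_lt (((continuous_finsetProd _ fun i _ => continuous_apply i).sub
        continuous_const).abs) continuous_const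
  have hb := packet_sum_bound D (by omega) (hunf D) (hr0 D) hsd hVopen (R := 3) (by norm_num)
    le_rfl (fun v hv => hv.1) W (by
      rintro m hm hlt ⟨w, u, hwu⟩
      have hm0 : (0 : ℝ) < m := by exact_mod_cast hm
      have ht : 0 < (m : ℝ) / sd := by (clear * - hsd2 hm; positivity)
      rw [hWdef, Finset.mem_filter, Finset.mem_Icc]
      refine ⟨⟨hm, Nat.le_floor ?_⟩, ?_⟩
      · rw [div_lt_iff₀ hsd] at hlt
        exact hlt.le
      · have h1 : |∏ j : Fin n, ((↑m / sd) ^ ((n : ℝ)⁻¹) * ((w j : ℤ) : ℝ) *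
            Real.exp (expo u j)) - N0| < ε := hwu.2
        rw [prod_vec (by omega) ht] at h1
        have h2 := abs_abs_sub_abs_le ((m : ℝ) / sd * ∏ j, ((w j : ℤ) : ℝ)) N0
        rw [abs_mul, abs_prod_sign, mul_one, abs_of_pos ht] at h2
        have h3 : abs ((m : ℝ) / sd - |N0|) < ε := h2.trans_lt h1
        have h4 : (m : ℝ) - |N0| * sd = ((m : ℝ) / sd - |N0|) * sd := by (clear * - hsd2; field_simp)
        rw [h4, abs_mul, abs_of_pos hsd]
        have h5 : abs ((m : ℝ) / sd - |N0|) * sd < ε * sd := mul_lt_mul_of_pos_right h3 hsd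
        refine h5.trans_le ?_
        rw [hX, le_div_iff₀ (by norm_num)]
        have : 0 < ε * sd := by (clear * - hε hsd2; positivity)
        nlinarith only [hε, hε1, h3n, this])
  refine hb.trans ?_
  have hU := (hHT D).U1
  have hw := hwin _ _ (hHT D) X hX1 (|N0| * sd) W (Finset.filter_subset _ _) (by
    intro m hm
    rw [hWdef, Finset.mem_filter] at hm
    exact hm.2)
  have hh : 0 < hx (fun p => (up D p)⁻¹) X := hx_pos hU (by linarith only [hε, hε1, hsd2, hXsd])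
  have hv := hvl D X hXsd
  rw [HO_eq_hx] at hv
  refine final_ineq hc hsd hh hv ?_
  calc 2 ^ n * (16 * n : ℝ) ^ (n - 1) *
        ∑ m ∈ W, (rO D m : ℝ) * (3 ^ n * sd / m) ^ (1 / 16 : ℝ)
      ≤ 2 ^ n * (16 * n : ℝ) ^ (n - 1) *
        ((400 * C1 + 25 * C2) * √ε * X * hx (fun p => (up D p)⁻¹) X) := by
        (clear * - hn3 hw; gcongr)
    _ = _ := by rw [hX]; ring

/-- tightness for packet measures, uniform in the discriminant -/
theorem tight_packet_of (n : ℕ) (hn3 : 3 ≤ n)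
    (hunf : ∀ (D : Datum n) (φ : (Fin n → ℝ) → ℝ≥0∞), Measurable φ →
      ∑' S : D.packet, ∫⁻ x, (∑' v : {v : Fin n → ℝ // v ∈ latx x ∧ v ≠ 0}, φ v.1) ∂(orbMeas S.1) =
      ∑' m : ℕ, (rO D m : ℝ≥0∞) * ∑ w : Fin n → ℤˣ, ∫⁻ u : Fin (n - 1) → ℝ,
        φ (fun j => ((m : ℝ) / √(D.disc : ℝ)) ^ ((n : ℝ)⁻¹) * ((w j : ℤ) : ℝ) *
          Real.exp (expo u j)))
    (hrHT : ∃ B : ℝ, ∀ D : Datum n, HT n B (fun m => (rO D m : ℝ)) (fun p => (up D p)⁻¹))
    (hr0 : ∀ D : Datum n, rO D 0 = 0)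
    (hcrude : ∀ B : ℝ, ∃ C : ℝ, 0 < C ∧ ∀ g U : ℕ → ℝ, HT n B g U →
      ∀ X : ℝ, 2 ≤ X → ∑ m ∈ Finset.Icc 1 ⌊X⌋₊, g m ≤ C * X / Real.log X * ∏ p ∈ P2 X, U p)
    (hvol : ∃ c : ℝ, 0 < c ∧ ∀ (D : Datum n) (X : ℝ), √(D.disc : ℝ) ≤ X →
      c * √(D.disc : ℝ) * HO D X ≤ (vol D).toReal) :
    ∃ C : ℝ, ∀ ε : ℝ, 0 < ε → ε < 1 → ∃ D₀ : ℕ, ∀ D : Datum n, D₀ ≤ D.disc →
      D.packetMeas {x | ∃ v ∈ latx x, v ≠ 0 ∧ ∀ i, |v i| < ε} ≤ ENNReal.ofReal (C * √ε) := by
  obtain ⟨B, hHT⟩ := hrHT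
  obtain ⟨C1, hC1, hcr⟩ := hcrude B
  obtain ⟨c, hc, hvl⟩ := hvol
  refine ⟨2 ^ n * (16 * n : ℝ) ^ (n - 1) * (400 * C1) * 3 ^ n / c, ?_⟩
  intro ε hε hε1
  refine ⟨4, fun D hD => ?_⟩
  have hsd2 : 2 ≤ √(D.disc : ℝ) := by
    refine Real.le_sqrt_of_sq_le ?_
    have : (4 : ℝ) ≤ D.disc := by exact_mod_cast hD
    linarith only [this]
  have hsd : 0 < √(D.disc : ℝ) := by linarith only [hε, hε1, hsd2]
  set sd := √(D.disc : ℝ) with hsddef
  set X : ℝ := 3 ^ n * sd with hX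
  have h3n : (27 : ℝ) ≤ 3 ^ n := by
    calc (27 : ℝ) = 3 ^ 3 := by norm_num
      _ ≤ 3 ^ n := pow_le_pow_right₀ (by norm_num) hn3
  have hXsd : sd ≤ X := by nlinarith only [hε, hε1, hsd2, h3n]
  have hXpos : 0 < X := by linarith only [hε, hε1, hsd2, hXsd]
  have hen : 0 < ε ^ n := by positivity
  have hen1 : ε ^ n ≤ 1 := pow_le_one₀ hε.le hε1.le
  set V : Set (Fin n → ℝ) := {v | ∀ i, |v i| < ε} with hVdef
  have hVopen : IsOpen V := by
    have h1 : V = ⋂ i : Fin n, {v : Fin n → ℝ | |v i| < ε} := by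
      ext v; simp only [hVdef, Set.mem_ofPred_eq, Set.mem_iInter]
    rw [h1]
    exact isOpen_iInter_of_finite fun i => isOpen_lt ((continuous_apply i).abs) continuous_const
  have hb := packet_sum_bound D (by omega) (hunf D) (hr0 D) hsd hVopen (R := ε) hε
    (by linarith only [hε, hε1]) (fun v hv => hv) (Finset.Icc 1 ⌊ε ^ n * sd⌋₊) (by
      rintro m hm hlt ⟨w, u, hwu⟩
      rw [Finset.mem_Icc]
      refine ⟨hm, Nat.le_floor ?_⟩
      rw [div_lt_iff₀ hsd] at hlt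
      exact hlt.le)
  refine hb.trans ?_
  have hU := (hHT D).U1
  have hh : 0 < hx (fun p => (up D p)⁻¹) X := hx_pos hU (by linarith only [hε, hε1, hsd2, hXsd])
  have hv := hvl D X hXsd
  rw [HO_eq_hx] at hv
  refine final_ineq hc hsd hh hv ?_
  have hw := crude_weighted (g := fun m => (rO D m : ℝ)) (Z := ε ^ n * sd) (X := X)
    (hHT D).nonneg hU hC1 (hcr _ _ (hHT D)) (by positivity) (by nlinarith only [hε, hε1, hsd2,
                                                                  h3n, hen1]) (by linarith only [hsd2,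
                                                                                 hXsd])
  have h1 : (ε ^ n * sd / X) ^ (7 / 8 : ℝ) ≤ √ε := by
    have h2 : ε ^ n * sd / X ≤ ε := by
      rw [div_le_iff₀ hXpos]
      have h3 : ε ^ n ≤ ε := by
        calc ε ^ n ≤ ε ^ 1 := pow_le_pow_of_le_one hε.le hε1.le (by omega)
          _ = ε := pow_one ε
      calc ε ^ n * sd ≤ ε * sd := by (clear * - hD h3; gcongr)
        _ ≤ ε * X := by (clear * - hε hXsd; gcongr)
    calc (ε ^ n * sd / X) ^ (7 / 8 : ℝ) ≤ ε ^ (7 / 8 : ℝ) :=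
          Real.rpow_le_rpow (by positivity) h2 (by norm_num)
      _ ≤ ε ^ (1 / 2 : ℝ) := Real.rpow_le_rpow_of_exponent_ge hε hε1.le (by norm_num)
      _ = √ε := (Real.sqrt_eq_rpow ε).symm
  calc 2 ^ n * (16 * n : ℝ) ^ (n - 1) *
        ∑ m ∈ Finset.Icc 1 ⌊ε ^ n * sd⌋₊, (rO D m : ℝ) * (3 ^ n * sd / m) ^ (1 / 16 : ℝ)
      ≤ 2 ^ n * (16 * n : ℝ) ^ (n - 1) *
        (400 * C1 * X * (ε ^ n * sd / X) ^ (7 / 8 : ℝ) * hx (fun p => (up D p)⁻¹) X) := by
        (clear * - hn3 hw; gcongr)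
    _ ≤ 2 ^ n * (16 * n : ℝ) ^ (n - 1) *
        (400 * C1 * X * √ε * hx (fun p => (up D p)⁻¹) X) := by (clear * - hn3 hC1 hD hh h1; gcongr)
    _ = _ := by rw [hX]; ring

end Vale.Agent.P007.N
end

section

set_option autoImplicit false

open MeasureTheory Matrix NumberField Filter Topology Module
open scoped ENNReal nonZeroDivisors

namespace Vale.Agent.P007.N

open Vale.Agent.P007 Vale.Agent.P007.R Vale.Agent.P007.Fib

variable {n : ℕ}

theorem latx_pt (g : G n) : latx (pt g) = (latS g : Set (Fin n → ℝ)) := by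
  ext v
  constructor
  · rintro ⟨g', hg, hv⟩
    have h1 := pt_eq_pt.mp hg
    have h2 := latS_Gam (g := g') h1
    rw [inv_mul_cancel_right] at h2
    change v ∈ latS g
    rw [h2]
    exact hv
  · intro hv
    exact ⟨g, rfl, hv⟩

theorem mul_ev_neg (v : Fin n → ℝ) (u : Fin (n - 1) → ℝ) : v * ev u * ev (-u) = v := by
  rw [mul_assoc, ← ev_add, add_neg_cancel, ev_zero, mul_one]

theorem mul_ev_neg' (v : Fin n → ℝ) (u : Fin (n - 1) → ℝ) : v * ev (-u) * ev u = v := by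
  rw [mul_assoc, ← ev_add, neg_add_cancel, ev_zero, mul_one]

/-- nonzero vectors -/
abbrev NZ (x : X n) : Type := {v : Fin n → ℝ // v ∈ latx x ∧ v ≠ 0}

theorem mem_latx_tr {x : X n} {u : Fin (n - 1) → ℝ} {v : Fin n → ℝ} (hv : v ∈ latx x) :
    v * ev u ∈ latx (tr (aexp u) x) := by
  obtain ⟨g, rfl⟩ := pt_surjective x
  rw [tr_pt, latx_pt, latS_mul_aexp]
  rw [latx_pt] at hv
  exact mem_vmul.mpr ⟨v, hv, mul_comm _ _⟩

/-- translation of nonzero vectors -/
noncomputable def nzEquiv (x : X n) (u : Fin (n - 1) → ℝ) : NZ x ≃ NZ (tr (aexp u) x) where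
  toFun v := ⟨v.1 * ev u, mem_latx_tr v.2.1, by
    intro h
    apply v.2.2
    have := congrArg (fun w => w * ev (-u)) h
    simpa only [ne_eq, mul_ev_neg, zero_mul] using this⟩
  invFun v := ⟨v.1 * ev (-u), by
      have h1 := mem_latx_tr (u := -u) v.2.1
      rwa [tr_neg_tr] at h1, by
    intro h
    apply v.2.2
    have := congrArg (fun w => w * ev u) h
    simpa only [ne_eq, mul_ev_neg', zero_mul] using this⟩
  left_inv v := Subtype.ext (mul_ev_neg _ _)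
  right_inv v := Subtype.ext (mul_ev_neg' _ _)

theorem tsum_nz_tr (x : X n) (u : Fin (n - 1) → ℝ) (φ : (Fin n → ℝ) → ℝ≥0∞) :
    ∑' v : NZ (tr (aexp u) x), φ v.1 = ∑' v : NZ x, φ (v.1 * ev u) :=
  ((nzEquiv x u).tsum_eq (fun v : NZ (tr (aexp u) x) => φ v.1)).symm

instance (x : X n) : Countable (NZ x) := by
  obtain ⟨g, rfl⟩ := pt_surjective x
  have h : ({v : Fin n → ℝ | v ∈ latx (pt g) ∧ v ≠ 0}).Countable := by
    refine Set.Countable.mono (fun v hv => hv.1) ?_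
    rw [latx_pt]
    exact Set.countable_range _
  exact h.to_subtype

theorem continuous_ev : Continuous (ev : (Fin (n - 1) → ℝ) → Fin n → ℝ) :=
  continuous_pi fun j => Real.continuous_exp.comp (continuous_expo j)

/-- pushforward under an injective parametrisation: no measurability of the integrand needed -/
theorem lintegral_map_section {x : X n} {E : Set (Fin (n - 1) → ℝ)} (hE : IsSection x E)
    (F : X n → ℝ≥0∞) :
    ∫⁻ y, F y ∂((volume.restrict E).map fun u => tr (aexp u) x) =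
      ∫⁻ u in E, F (tr (aexp u) x) := by
  have h1 : MeasurableEmbedding (fun u : E => tr (aexp u.1) x) := by
    have hm : Measurable (fun u : E => tr (aexp u.1) x) :=
      (continuous_orbMap x).measurable.comp measurable_subtype_coe
    have : StandardBorelSpace E := hE.1.standardBorel
    refine hm.measurableEmbedding ?_
    intro a b hab
    exact Subtype.ext (hE.2.injOn a.2 b.2 hab)
  have h2 : (volume.restrict E).map (fun u => tr (aexp u) x) =
      (Measure.comap (Subtype.val : E → _) volume).map (fun u : E => tr (aexp u.1) x) := by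
    rw [← map_comap_subtype_coe hE.1, Measure.map_map (continuous_orbMap x).measurable
      measurable_subtype_coe]
    rfl
  rw [h2, h1.lintegral_map, ← lintegral_subtype_comap hE.1]

/-- the Siegel transform over an orbit -/
theorem lintegral_orb {x : X n} {E : Set (Fin (n - 1) → ℝ)} (hE : IsSection x E)
    (φ : (Fin n → ℝ) → ℝ≥0∞) (hφ : Measurable φ) :
    ∫⁻ y, (∑' v : NZ y, φ v.1) ∂((volume.restrict E).map fun u => tr (aexp u) x) =
      ∑' v : NZ x, ∫⁻ u in E, φ (v.1 * ev u) := by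
  rw [lintegral_map_section hE]
  simp only [tsum_nz_tr]
  rw [lintegral_tsum]
  intro v
  exact (hφ.comp (measurable_const.mul continuous_ev.measurable)).aemeasurable

end Vale.Agent.P007.N
end

section

set_option autoImplicit false

open MeasureTheory Matrix NumberField Filter Topology Module
open scoped nonZeroDivisors ENNReal CompactlySupported Pointwise

namespace Vale.Agent.P007.Fib

open Vale.Agent.P007

variable {n : ℕ}

instance finite_RE (D : Datum n) : Module.Finite ℤ (RE D) := by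
  let φ := (sE D).comp (algebraMap (𝓞 D.K) D.K)
  let ψ : D.O →+ RE D :=
    { toFun := fun x => ⟨φ x, ⟨x, x.2, rfl⟩⟩
      map_zero' := by
        apply Subtype.ext
        change φ ((0 : D.O) : 𝓞 D.K) = 0
        rw [ZeroMemClass.coe_zero, map_zero]
      map_add' := by
        intro x y
        apply Subtype.ext
        change φ ((x + y : D.O) : 𝓞 D.K) = φ x + φ y
        rw [Subring.coe_add, map_add] }
  refine Module.Finite.of_surjective ψ.toIntLinearMap ?_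
  rintro ⟨_, r, hr, rfl⟩
  exact ⟨⟨r, hr⟩, rfl⟩

/-- quotients of finitely generated abelian groups killed by an integer -/
theorem finite_of_killed {A : Type*} [AddCommGroup A] [Module.Finite ℤ A] {f : ℕ} (hf : f ≠ 0)
    (h : ∀ x : A, f • x = 0) : Finite A := by
  refine Module.finite_of_fg_torsion A fun x => ?_
  refine ⟨⟨(f : ℤ), ?_⟩, ?_⟩
  · exact mem_nonZeroDivisors_of_ne_zero (by exact_mod_cast hf)
  · change (f : ℤ) • x = 0
    rw [natCast_zsmul]
    exact h x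

theorem finite_quot {R : Type*} [CommRing R] [Module.Finite ℤ R] {f : ℕ} (hf : f ≠ 0) :
    Finite (R ⧸ Ideal.span {(f : R)}) := by
  have h1 : Module.Finite ℤ (R ⧸ Ideal.span {(f : R)}) :=
    Module.Finite.of_surjective
      ((Ideal.Quotient.mk (Ideal.span {(f : R)})).toAddMonoidHom.toIntLinearMap)
      Ideal.Quotient.mk_surjective
  refine finite_of_killed hf fun x => ?_
  obtain ⟨r, rfl⟩ := Ideal.Quotient.mk_surjective x
  rw [nsmul_eq_mul, ← map_natCast (Ideal.Quotient.mk (Ideal.span {(f : R)})), ← map_mul,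
    Ideal.Quotient.eq_zero_iff_mem]
  exact Ideal.mul_mem_right _ _ (Ideal.mem_span_singleton_self _)

theorem finite_max {R : Type*} [CommRing R] [Module.Finite ℤ R] {f : ℕ} (hf : f ≠ 0) :
    {M : Ideal R | M.IsMaximal ∧ (f : R) ∈ M}.Finite := by
  have := finite_quot (R := R) hf
  refine Set.Finite.subset (Set.finite_range
    (Ideal.comap (Ideal.Quotient.mk (Ideal.span {(f : R)})))) ?_
  rintro M ⟨-, hM⟩
  refine ⟨M.map (Ideal.Quotient.mk (Ideal.span {(f : R)})), ?_⟩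
  rw [Ideal.comap_map_of_surjective _ Ideal.Quotient.mk_surjective, ← RingHom.ker_eq_comap_bot,
    Ideal.mk_ker, sup_eq_left, Ideal.span_singleton_le_iff_mem]
  exact hM

/-- change of order -/
def withO (D : Datum n) (O : Subring (𝓞 D.K)) (h : O.toAddSubgroup.FiniteIndex) : Datum n :=
  { K := D.K, deg := D.deg, O := O, full := h, σ := D.σ }

theorem mem_RE_withO {D : Datum n} {O : Subring (𝓞 D.K)} {h : O.toAddSubgroup.FiniteIndex}
    {x : Fin n → ℝ} : x ∈ RE (withO D O h) ↔ ∃ r ∈ O, x = sE D (r : D.K) := mem_RE (withO D O h)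

theorem pair_of (D : Datum n) {O₁ O₂ : Subring (𝓞 D.K)} (h₁ : O₁.toAddSubgroup.FiniteIndex)
    (h₂ : O₂.toAddSubgroup.FiniteIndex) (hle : O₁ ≤ O₂) {f : ℕ} (hf : f ≠ 0)
    (hmul : ∀ s ∈ O₂, (f : 𝓞 D.K) * s ∈ O₁) :
    Pair (RE (withO D O₁ h₁)) (RE (withO D O₂ h₂)) f where
  hn := D.pos
  f0 := hf
  le := by
    intro x hx
    obtain ⟨r, hr, rfl⟩ := mem_RE_withO.mp hx
    exact mem_RE_withO.mpr ⟨r, hle hr, rfl⟩
  mul := by
    intro x hx
    obtain ⟨r, hr, rfl⟩ := mem_RE_withO.mp hx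
    refine mem_RE_withO.mpr ⟨(f : 𝓞 D.K) * r, hmul r hr, ?_⟩
    change (f : Fin n → ℝ) * sE D (algebraMap (𝓞 D.K) D.K r) =
      sE D (algebraMap (𝓞 D.K) D.K ((f : 𝓞 D.K) * r))
    rw [map_mul, map_mul, map_natCast, map_natCast]
  finR := finite_max hf
  finS := finite_max hf

end Vale.Agent.P007.Fib
end

section

set_option autoImplicit false

open MeasureTheory Matrix NumberField Filter Topology Module
open scoped nonZeroDivisors ENNReal CompactlySupported Pointwise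

namespace Vale.Agent.P007.Fib

open Vale.Agent.P007

variable {n : ℕ}

theorem prod_abs_le (w : Fin n → ℝ) : ∏ j, |w j| ≤ ‖w‖ ^ n := by
  calc ∏ j, |w j| ≤ ∏ _j : Fin n, ‖w‖ :=
        Finset.prod_le_prod (fun j _ => abs_nonneg _) fun j _ => norm_le_pi_norm w j
    _ = ‖w‖ ^ n := by simp only [Finset.prod_const, Finset.card_univ, Fintype.card_fin]

/-- Elements of stable lattices have large norm. -/
theorem sep {S : Subring (Fin n → ℝ)} {b : Fin n → Fin n → ℝ} (hb : ∀ i, b i ∈ S)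
    (hdet : (Matrix.of b).det ≠ 0) {M : Submodule ℤ (Fin n → ℝ)} (hM : Stable S M)
    {g' : G n} {c : ℝ} (hc : 0 < c) (hg' : latS g' = vmul (fun _ => c) M) {w : Fin n → ℝ}
    (hw : w ∈ M) (hw0 : ∀ j, w j ≠ 0) :
    1 ≤ c ^ n * |(Matrix.of b).det| * ‖w‖ ^ n := by
  have hrow : ∀ i, (Matrix.of fun i j => c * (b i j * w j)) i ∈
      latM (g' : Matrix (Fin n) (Fin n) ℝ) := by
    intro i
    have h1 : b i * w ∈ M := hM _ (hb i) w hw
    have h2 : (fun _ => c) * (b i * w) ∈ latS g' := by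
      rw [hg', mem_vmul]
      exact ⟨_, h1, rfl⟩
    exact h2
  obtain ⟨P, hP⟩ := exists_int_mul hrow
  have hdetN : (Matrix.of fun i j => c * (b i j * w j)).det =
      c ^ n * ((Matrix.of b).det * ∏ j, w j) := by
    have h1 : (Matrix.of fun i j => c * (b i j * w j)) =
        c • ((Matrix.of b) * diagonal w) := by
      ext i j
      rw [Matrix.smul_apply, mul_diagonal]
      rfl
    rw [h1, det_smul, det_mul, det_diagonal, Fintype.card_fin]
  have hP2 : (P.det : ℝ) = c ^ n * ((Matrix.of b).det * ∏ j, w j) := by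
    rw [← hdetN, hP, det_mul, det_G, mul_one, cast_det]
  have hne : (P.det : ℝ) ≠ 0 := by
    rw [hP2]
    exact mul_ne_zero (pow_ne_zero _ hc.ne') (mul_ne_zero hdet
      (Finset.prod_ne_zero_iff.mpr fun j _ => hw0 j))
  have hne' : P.det ≠ 0 := by exact_mod_cast hne
  have h1 : (1 : ℝ) ≤ |(P.det : ℝ)| := by
    have := Int.one_le_abs hne'
    exact_mod_cast this
  rw [hP2, abs_mul, abs_mul, abs_of_pos (pow_pos hc n), Finset.abs_prod, ← mul_assoc] at h1
  exact h1.trans (mul_le_mul_of_nonneg_left (prod_abs_le w) (by (clear * - hdet hc; positivity)))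

/-- nonzero vectors of an invertible lattice have nonzero coordinates -/
theorem coord_ne_zero {S : Subring (Fin n → ℝ)} (hZ : ∀ s ∈ S, s ≠ 0 → ∀ j, s j ≠ 0)
    {L : Submodule ℤ (Fin n → ℝ)} (h : Inv S L) {w : Fin n → ℝ} (hw : w ∈ L) (hw0 : w ≠ 0)
    (j : Fin n) : w j ≠ 0 := by
  intro hj
  obtain ⟨hL, L', hL', hLL⟩ := h
  have h1 : ∀ y ∈ L', w * y = 0 := by
    intro y hy
    by_contra hne
    have h2 : w * y ∈ S := by
      have : w * y ∈ L * L' := Submodule.mul_mem_mul hw hy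
      rwa [hLL] at this
    have := hZ _ h2 hne j
    rw [Pi.mul_apply, hj, zero_mul] at this
    exact this rfl
  have h2 : ∀ x ∈ L * L', w * x = 0 := by
    intro x hx
    refine Submodule.mul_induction_on hx ?_ ?_
    · intro a _ y hy
      have : w * (a * y) = a * (w * y) := by ring
      rw [this, h1 y hy, mul_zero]
    · intro x y hx hy
      rw [mul_add, hx, hy, add_zero]
  have h3 : (1 : Fin n → ℝ) ∈ L * L' := by rw [hLL]; exact S.one_mem
  have h4 := h2 1 h3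
  rw [mul_one] at h4
  exact hw0 h4

end Vale.Agent.P007.Fib
end

section

set_option autoImplicit false

open MeasureTheory Matrix NumberField Filter Topology Module
open scoped ENNReal nonZeroDivisors

namespace Vale.Agent.P007.N

open Vale.Agent.P007 Vale.Agent.P007.R Vale.Agent.P007.Fib

variable {n : ℕ} (D : Datum n)

/-- invertible overmodules of the order (inverses of integral invertible ideals) -/
abbrev MM : Type := {M : Submodule ℤ (Fin n → ℝ) // Inv (RE D) M ∧ (1 : Fin n → ℝ) ∈ M}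

/-- sign vector -/
noncomputable def sg (v : Fin n → ℝ) (j : Fin n) : ℤˣ := if v j < 0 then -1 else 1

theorem sg_spec (v : Fin n → ℝ) (j : Fin n) : |v j| * ((sg v j : ℤ) : ℝ) = v j := by
  unfold sg
  split_ifs with h
  · rw [abs_of_neg h]; simp
  · rw [abs_of_nonneg (not_lt.mp h)]; simp

theorem sg_sq (w : Fin n → ℤˣ) (j : Fin n) : ((w j : ℤ) : ℝ) * ((w j : ℤ) : ℝ) = 1 := by
  rcases Int.units_eq_one_or (w j) with h | h <;> simp [h]

theorem sg_of (v : Fin n → ℝ) (w : Fin n → ℤˣ) (j : Fin n) {c : ℝ} (hc : 0 < c)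
    (h : v j = c * ((w j : ℤ) : ℝ)) : sg v j = w j := by
  unfold sg
  rcases Int.units_eq_one_or (w j) with h1 | h1
  · rw [h1] at h ⊢
    rw [if_neg]
    rw [h]; simp [hc.le]
  · rw [h1] at h ⊢
    rw [if_pos]
    rw [h]; simp [hc]

/-- the norm -/
noncomputable def nm (v : Fin n → ℝ) : ℝ := |∏ j, v j|

theorem nm_pos {v : Fin n → ℝ} (hv : ∀ j, v j ≠ 0) : 0 < nm v :=
  abs_pos.mpr (Finset.prod_ne_zero_iff.mpr fun j _ => hv j)

/-- the exponent vector of positive vectors of product one -/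
theorem exists_ev (hn : 0 < n) {δ : Fin n → ℝ} (hδ : ∀ j, 0 < δ j) (hprod : ∏ j, δ j = 1) :
    ∃ u : Fin (n - 1) → ℝ, ev u = δ := by
  obtain ⟨u, hu⟩ := exists_aexp hn hδ hprod
  refine ⟨u, ?_⟩
  rw [coe_aexp] at hu
  exact diagonal_injective hu

theorem ev_injective : Function.Injective (ev : (Fin (n - 1) → ℝ) → Fin n → ℝ) := by
  intro u v h
  funext i
  have hi : i.1 < n := lt_of_lt_of_le i.2 (Nat.sub_le n 1)
  have h1 := congrFun h ⟨i.1, hi⟩
  have h2 := Real.exp_injective h1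
  unfold expo at h2
  rw [dif_pos i.2, dif_pos i.2] at h2
  exact h2

/-- polar decomposition `v = c w e^u` -/
theorem exists_polar (hn : 0 < n) {v : Fin n → ℝ} (hv : ∀ j, v j ≠ 0) :
    ∃ u : Fin (n - 1) → ℝ, v = (fun j => nm v ^ ((n : ℝ)⁻¹) * ((sg v j : ℤ) : ℝ)) * ev u := by
  have h0 := nm_pos hv
  set c : ℝ := nm v ^ ((n : ℝ)⁻¹) with hc
  have hc0 : 0 < c := Real.rpow_pos_of_pos h0 _
  have hcn : c ^ n = nm v := by
    rw [hc, ← Real.rpow_natCast, ← Real.rpow_mul h0.le,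
      inv_mul_cancel₀ (by exact_mod_cast hn.ne'), Real.rpow_one]
  obtain ⟨u, hu⟩ := exists_ev hn (δ := fun j => |v j| / c)
    (fun j => div_pos (abs_pos.mpr (hv j)) hc0) (by
      rw [Finset.prod_div_distrib, Finset.prod_const, Finset.card_univ, Fintype.card_fin, hcn,
        ← Finset.abs_prod]
      exact div_self h0.ne')
  refine ⟨u, ?_⟩
  rw [hu]
  funext j
  rw [Pi.mul_apply]
  conv_lhs => rw [← sg_spec v j]
  (clear * - hc0; field_simp)

/-- orbit data -/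
structure OD where
  x : D.packet → X n
  E : D.packet → Set (Fin (n - 1) → ℝ)
  inv : ∀ o, InvPt (RE D) (x o)
  eq : ∀ o, o.1 = orb (x o)
  sec : ∀ o, IsSection (x o) (E o)
  meas : ∀ o, orbMeas o.1 = (volume.restrict (E o)).map fun u => tr (aexp u) (x o)

theorem nonempty_OD : Nonempty (OD D) := by
  obtain ⟨x, E, h1, h2, h3, h4⟩ := exists_reps D
  exact ⟨⟨x, E, h1, h2, h3, h4⟩⟩

/-- the lattice of a point as a submodule -/
noncomputable def Lx (x : X n) : Submodule ℤ (Fin n → ℝ) := latS (pt_surjective x).choose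

theorem coe_Lx (x : X n) : (Lx x : Set (Fin n → ℝ)) = latx x := by
  have h := (pt_surjective x).choose_spec
  conv_rhs => rw [← h]
  rw [latx_pt]
  rfl

theorem mem_Lx {x : X n} {v : Fin n → ℝ} : v ∈ Lx x ↔ v ∈ latx x := by
  rw [← coe_Lx]; rfl

theorem Lx_pt (g : G n) : Lx (pt g) = latS g := by
  apply SetLike.coe_injective
  rw [coe_Lx, latx_pt]

theorem Lx_tr (x : X n) (u : Fin (n - 1) → ℝ) : Lx (tr (aexp u) x) = vmul (ev u) (Lx x) := by
  obtain ⟨g, rfl⟩ := pt_surjective x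
  rw [tr_pt, Lx_pt, Lx_pt, latS_mul_aexp]

theorem inv_Lx {x : X n} (hx : InvPt (RE D) x) : Inv (RE D) (Lx x) := by
  obtain ⟨g, rfl⟩ := pt_surjective x
  rw [Lx_pt]
  exact hx.inv D.pos

theorem coord_ne {x : X n} (hx : InvPt (RE D) x) (v : NZ x) (j : Fin n) : v.1 j ≠ 0 := by
  refine coord_ne_zero (S := RE D) ?_ (inv_Lx D hx) (mem_Lx.mpr v.2.1) v.2.2 j
  intro s hs hs0 i
  obtain ⟨r, hr, rfl⟩ := (mem_RE D).mp hs
  exact sE_ne_zero D (fun h => hs0 (by rw [h, map_zero])) i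

/-- total index type -/
abbrev TT (W : OD D) : Type := Σ o : D.packet, NZ (W.x o)

theorem vmul_inv_mem {v : Fin n → ℝ} (hv : ∀ j, v j ≠ 0) {L : Submodule ℤ (Fin n → ℝ)}
    (h : v ∈ L) : (1 : Fin n → ℝ) ∈ vmul v⁻¹ L :=
  mem_vmul.mpr ⟨v, h, by rw [mul_comm, mul_inv_vec hv]⟩

/-- the class of `(o, v)` -/
noncomputable def cl (W : OD D) (τ : TT D W) : MM D × (Fin n → ℤˣ) :=
  (⟨vmul τ.2.1⁻¹ (Lx (W.x τ.1)),
    (inv_Lx D (W.inv τ.1)).vmul (by
      rw [mul_comm]; exact mul_inv_vec (coord_ne D (W.inv τ.1) τ.2)),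
    vmul_inv_mem (coord_ne D (W.inv τ.1) τ.2) (mem_Lx.mpr τ.2.2.1)⟩, sg τ.2.1)

theorem ev_inv (u : Fin (n - 1) → ℝ) : (ev (n := n) u)⁻¹ = ev (-u) := by
  have h := ev_mul_neg (n := n) u
  funext j
  have h1 := congrFun h j
  rw [Pi.mul_apply, Pi.one_apply] at h1
  rw [Pi.inv_apply]
  exact (eq_inv_of_mul_eq_one_right h1).symm

theorem sg_mul_ev (v : Fin n → ℝ) (u : Fin (n - 1) → ℝ) : sg (v * ev u) = sg v := by
  funext j
  unfold sg
  have h : (v * ev u) j < 0 ↔ v j < 0 := by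
    rw [Pi.mul_apply]
    constructor
    · intro h
      by_contra h1
      exact absurd h (not_lt.mpr (mul_nonneg (not_lt.mp h1) (ev_pos u j).le))
    · intro h; exact mul_neg_of_neg_of_pos h (ev_pos u j)
  simp only [h]

/-- translate by a stabiliser element inside the fibre -/
noncomputable def trans (W : OD D) (τ : TT D W) (l : Fin (n - 1) → ℝ)
    (hl : tr (aexp l) (W.x τ.1) = W.x τ.1) : TT D W :=
  ⟨τ.1, ⟨τ.2.1 * ev l, by
    have h1 := mem_latx_tr (u := l) τ.2.2.1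
    rwa [hl] at h1, by
    intro h
    apply τ.2.2.2
    have := congrArg (fun w => w * ev (-l)) h
    simpa only [ne_eq, mul_ev_neg, zero_mul] using this⟩⟩

theorem mul_inv_rev' (v w : Fin n → ℝ) : (v * w)⁻¹ = v⁻¹ * w⁻¹ := by
  funext j
  simp only [Pi.inv_apply, Pi.mul_apply, _root_.mul_inv_rev, mul_comm]

theorem cl_trans (W : OD D) (τ : TT D W) (l : Fin (n - 1) → ℝ)
    (hl : tr (aexp l) (W.x τ.1) = W.x τ.1) : cl D W (trans D W τ l hl) = cl D W τ := by
  refine Prod.ext (Subtype.ext ?_) ?_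
  · change vmul (τ.2.1 * ev l)⁻¹ (Lx (W.x τ.1)) = vmul τ.2.1⁻¹ (Lx (W.x τ.1))
    have h1 : Lx (W.x τ.1) = vmul (ev l) (Lx (W.x τ.1)) := by
      conv_lhs => rw [← hl, Lx_tr]
    conv_lhs => rw [h1]
    rw [vmul_vmul, mul_inv_rev', ev_inv, mul_assoc, ← ev_add, neg_add_cancel, ev_zero, mul_one]
  · exact sg_mul_ev _ _

/-- two elements of the same class differ by a stabiliser element -/
theorem exists_trans (W : OD D) (τ τ' : TT D W) (h : cl D W τ = cl D W τ') :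
    ∃ (l : Fin (n - 1) → ℝ) (hl : tr (aexp l) (W.x τ.1) = W.x τ.1), τ' = trans D W τ l hl := by
  obtain ⟨o, v⟩ := τ
  obtain ⟨o', v'⟩ := τ'
  have hv := coord_ne D (W.inv o) v
  have hv' := coord_ne D (W.inv o') v'
  have h1 : vmul v.1⁻¹ (Lx (W.x o)) = vmul v'.1⁻¹ (Lx (W.x o')) :=
    congrArg Subtype.val (congrArg Prod.fst h)
  have h2 : sg v.1 = sg v'.1 := congrArg Prod.snd h
  -- the positive quotient
  set δ : Fin n → ℝ := v'.1 * v.1⁻¹ with hδ
  have hδ0 : ∀ j, 0 < δ j := by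
    intro j
    rw [hδ, Pi.mul_apply, Pi.inv_apply, ← sg_spec v'.1 j, ← sg_spec v.1 j, h2, mul_inv,
      mul_mul_mul_comm]
    have h3 : ((sg v'.1 j : ℤ) : ℝ) * ((sg v'.1 j : ℤ) : ℝ)⁻¹ = 1 := by
      refine mul_inv_cancel₀ ?_
      exact_mod_cast (sg v'.1 j).ne_zero
    rw [h3, mul_one]
    exact mul_pos (abs_pos.mpr (hv' j)) (inv_pos.mpr (abs_pos.mpr (hv j)))
  have h3 : Lx (W.x o') = vmul δ (Lx (W.x o)) := by
    have h4 := congrArg (vmul v'.1) h1
    rw [vmul_vmul, vmul_vmul, mul_inv_vec hv', vmul_one] at h4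
    rw [← h4]
  have hprod0 : 0 < ∏ j, δ j := Finset.prod_pos fun j _ => hδ0 j
  have hn := D.pos
  set c : ℝ := (∏ j, δ j) ^ ((n : ℝ)⁻¹) with hc
  have hc0 : 0 < c := Real.rpow_pos_of_pos hprod0 _
  have hcn : c ^ n = ∏ j, δ j := by
    rw [hc, ← Real.rpow_natCast, ← Real.rpow_mul hprod0.le,
      inv_mul_cancel₀ (by exact_mod_cast hn.ne'), Real.rpow_one]
  obtain ⟨l, hl⟩ := exists_ev hn (δ := fun j => δ j / c) (fun j => div_pos (hδ0 j) hc0) (by
      rw [Finset.prod_div_distrib, Finset.prod_const, Finset.card_univ, Fintype.card_fin, hcn]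
      exact div_self hprod0.ne')
  have hδl : δ = (fun _ => c) * ev l := by
    rw [hl]; funext j
    rw [Pi.mul_apply]; (clear * - hc0; field_simp)
  obtain ⟨g, hg⟩ := pt_surjective (W.x o)
  obtain ⟨g', hg'⟩ := pt_surjective (W.x o')
  have h5 : latS g' = vmul (fun _ => c) (latS (g * aexp l)) := by
    rw [latS_mul_aexp, vmul_vmul, ← hδl, ← Lx_pt, ← Lx_pt, hg, hg', h3]
  obtain ⟨h6, h7⟩ := pt_eq_of_smul hn hc0 h5
  have h8 : W.x o' = tr (aexp l) (W.x o) := by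
    rw [← hg', h6, ← tr_pt, hg]
  have h9 : o' = o := by
    apply Subtype.ext
    rw [W.eq o', W.eq o, h8, orb_tr]
  subst h9
  refine ⟨l, h8.symm, ?_⟩
  have h10 : v' = ⟨v.1 * ev l, by
      have h1 := mem_latx_tr (u := l) v.2.1
      rwa [← h8] at h1, by
      intro h
      apply v.2.2
      have := congrArg (fun w => w * ev (-l)) h
      simpa only [ne_eq, mul_ev_neg, zero_mul] using this⟩ := by
    apply Subtype.ext
    change v'.1 = v.1 * ev l
    have h11 : v'.1 = δ * v.1 := by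
      rw [hδ]
      funext j
      rw [Pi.mul_apply, Pi.mul_apply, Pi.inv_apply, inv_mul_cancel_right₀ (hv j)]
    rw [h11, hδl, h7]
    funext j
    simp only [Pi.mul_apply, one_mul]
    ring
  rw [h10]
  rfl

end Vale.Agent.P007.N
end

section

set_option autoImplicit false

open MeasureTheory Matrix NumberField Filter Topology Module
open scoped ENNReal nonZeroDivisors

namespace Vale.Agent.P007.N

open Vale.Agent.P007 Vale.Agent.P007.R Vale.Agent.P007.Fib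

variable {n : ℕ} (D : Datum n)

/-- every invertible lattice is the row lattice of an invertible matrix -/
theorem exists_mat {M : Submodule ℤ (Fin n → ℝ)} (hM : Inv (RE D) M) :
    ∃ A : Matrix (Fin n) (Fin n) ℝ, A.det ≠ 0 ∧ latM A = (M : Set (Fin n → ℝ)) := by
  obtain ⟨t, I, ht, rfl⟩ := exists_of_inv D hM
  obtain ⟨b, hb⟩ := D.exists_basis I
  refine ⟨(Matrix.of fun i j => D.σ j (b i)) * diagonal t, ?_, ?_⟩
  · rw [det_mul, det_diagonal]
    exact mul_ne_zero (D.det_ne_zero b) (Finset.prod_ne_zero_iff.mpr fun j _ => ht j)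
  · rw [D.latM_basis (S := {x | x ∈ (I : FractionalIdeal D.O⁰ D.K)}) (fun x => hb x) t]
    ext v
    constructor
    · rintro ⟨a, ha, rfl⟩
      refine mem_vmul.mpr ⟨sE D a, (mem_sL D).mpr ⟨a, ha, rfl⟩, ?_⟩
      funext j
      rw [Pi.mul_apply, sE_apply, mul_comm]
    · intro hv
      obtain ⟨x, hx, rfl⟩ := mem_vmul.mp hv
      obtain ⟨a, ha, rfl⟩ := (mem_sL D).mp hx
      refine ⟨a, ha, ?_⟩
      funext j
      rw [Pi.mul_apply, sE_apply, mul_comm]

theorem exists_unit_lat {M : Submodule ℤ (Fin n → ℝ)} (hM : Inv (RE D) M) :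
    ∃ (c : ℝ) (g : G n), 0 < c ∧ latS g = vmul (fun _ => c) M := by
  obtain ⟨A, hA, hlat⟩ := exists_mat D hM
  obtain ⟨c, g, hc, hg⟩ := exists_normalize D.pos hA
  refine ⟨c, g, hc, ?_⟩
  ext v
  rw [mem_latS, hg, mem_vmul, hlat]
  rfl

theorem exists_fiber (W : OD D) (q : MM D × (Fin n → ℤˣ)) : ∃ τ : TT D W, cl D W τ = q := by
  obtain ⟨⟨M, hM, h1⟩, w⟩ := q
  set t : Fin n → ℝ := fun j => ((w j : ℤ) : ℝ) with ht
  have ht1 : t * t = 1 := by
    funext j; exact sg_sq w j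
  have hM' : Inv (RE D) (vmul t M) := hM.vmul ht1
  obtain ⟨c, g, hc, hg⟩ := exists_unit_lat D hM'
  have hcc : ∀ j : Fin n, (fun _ : Fin n => c) j ≠ 0 := fun _ => hc.ne'
  have hinv : InvPt (RE D) (pt g) := ⟨g, rfl, by
    rw [hg]; exact hM'.vmul (mul_inv_vec hcc)⟩
  have hmem : orb (pt g) ∈ D.packet := by
    rw [packet_eq]; exact ⟨pt g, hinv, rfl⟩
  set o : D.packet := ⟨orb (pt g), hmem⟩ with ho
  have h2 : W.x o ∈ orb (pt g) := by
    have h3 : orb (W.x o) = orb (pt g) := (W.eq o).symm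
    rw [← h3]; exact mem_orb_self _
  obtain ⟨u, hu⟩ := h2
  have hL : Lx (W.x o) = vmul ((fun _ => c) * t * ev u) M := by
    have hu' : tr (aexp u) (pt g) = W.x o := hu
    rw [← hu', Lx_tr, Lx_pt, hg, vmul_vmul, vmul_vmul]
    congr 1
    ring
  set v : Fin n → ℝ := (fun _ => c) * t * ev u with hv
  have hvj : ∀ j, v j = (c * ev u j) * ((w j : ℤ) : ℝ) := by
    intro j; rw [hv, Pi.mul_apply, Pi.mul_apply, ht]; ring
  have hv0 : ∀ j, v j ≠ 0 := by
    intro j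
    rw [hvj]
    refine mul_ne_zero (mul_pos hc (ev_pos u j)).ne' ?_
    exact_mod_cast (w j).ne_zero
  have hvmem : v ∈ latx (W.x o) := by
    rw [← mem_Lx, hL]
    exact mem_vmul.mpr ⟨1, h1, (mul_one v).symm⟩
  have hvne : v ≠ 0 := by
    intro h
    exact hv0 ⟨0, D.pos⟩ (congrFun h _)
  refine ⟨⟨o, ⟨v, hvmem, hvne⟩⟩, ?_⟩
  refine Prod.ext (Subtype.ext ?_) ?_
  · change vmul v⁻¹ (Lx (W.x o)) = M
    rw [hL, vmul_vmul, mul_comm, mul_inv_vec hv0, vmul_one]
  · funext j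
    exact sg_of v w j (mul_pos hc (ev_pos u j)) (hvj j)

/-- the integral attached to `(o, v)` -/
noncomputable def FI (W : OD D) (φ : (Fin n → ℝ) → ℝ≥0∞) (τ : TT D W) : ℝ≥0∞ :=
  ∫⁻ u in W.E τ.1, φ (τ.2.1 * ev u)

theorem sum_fiber (W : OD D) (φ : (Fin n → ℝ) → ℝ≥0∞)
    (τ₀ : TT D W) :
    ∑' τ : {τ : TT D W // cl D W τ = cl D W τ₀}, FI D W φ τ.1 =
      ∫⁻ u : Fin (n - 1) → ℝ, φ ((fun j => nm τ₀.2.1 ^ ((n : ℝ)⁻¹) *
        ((sg τ₀.2.1 j : ℤ) : ℝ)) * ev u) := by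
  obtain ⟨b, hb⟩ := exists_stabBasis_inv D (W.inv τ₀.1)
  have hfd := hb.isAddFundamentalDomain (W.sec τ₀.1)
  let e : Submodule.span ℤ (Set.range b) → {τ : TT D W // cl D W τ = cl D W τ₀} := fun l =>
    ⟨trans D W τ₀ l.1 ((hb l.1).mp l.2), cl_trans D W τ₀ l.1 ((hb l.1).mp l.2)⟩
  have he : Function.Bijective e := by
    constructor
    · intro l l' h
      have h1 : trans D W τ₀ l.1 ((hb l.1).mp l.2) = trans D W τ₀ l'.1 ((hb l'.1).mp l'.2) :=
        congrArg Subtype.val h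
      have h2 : (trans D W τ₀ l.1 ((hb l.1).mp l.2)).2.1 =
          (trans D W τ₀ l'.1 ((hb l'.1).mp l'.2)).2.1 := by
        have h3 := Sigma.mk.inj_iff.mp h1
        exact congrArg Subtype.val (eq_of_heq h3.2)
      have h3 : τ₀.2.1 * ev l.1 = τ₀.2.1 * ev l'.1 := h2
      apply Subtype.ext
      apply ev_injective
      funext j
      have h4 := congrFun h3 j
      rw [Pi.mul_apply, Pi.mul_apply] at h4
      exact mul_left_cancel₀ (coord_ne D (W.inv τ₀.1) τ₀.2 j) h4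
    · rintro ⟨τ, hτ⟩
      obtain ⟨l, hl, h1⟩ := exists_trans D W τ₀ τ hτ.symm
      exact ⟨⟨l, (hb l).mpr hl⟩, Subtype.ext h1.symm⟩
  rw [← (Equiv.ofBijective e he).tsum_eq]
  have h1 : ∀ l : Submodule.span ℤ (Set.range b),
      FI D W φ ((Equiv.ofBijective e he) l).1 =
        ∫⁻ u in W.E τ₀.1, φ (τ₀.2.1 * ev (l +ᵥ u)) := by
    intro l
    change ∫⁻ u in W.E τ₀.1, φ (τ₀.2.1 * ev l.1 * ev u) = _
    refine lintegral_congr fun u => ?_
    rw [mul_assoc, ← ev_add]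
    rfl
  simp only [h1]
  rw [← hfd.lintegral_eq_tsum'' (fun u => φ (τ₀.2.1 * ev u))]
  obtain ⟨r, hr⟩ := exists_polar D.pos (coord_ne D (W.inv τ₀.1) τ₀.2)
  calc ∫⁻ u : Fin (n - 1) → ℝ, φ (τ₀.2.1 * ev u)
      = ∫⁻ u : Fin (n - 1) → ℝ, φ ((fun j => nm τ₀.2.1 ^ ((n : ℝ)⁻¹) *
        ((sg τ₀.2.1 j : ℤ) : ℝ)) * ev (r + u)) := by
        refine lintegral_congr fun u => ?_
        rw [ev_add, ← mul_assoc, ← hr]
    _ = _ := lintegral_add_left_eq_self (fun u => φ ((fun j => nm τ₀.2.1 ^ ((n : ℝ)⁻¹) *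
        ((sg τ₀.2.1 j : ℤ) : ℝ)) * ev u)) r

/-- geometric form of the unfolding formula -/
theorem unfold_geom (W : OD D) (φ : (Fin n → ℝ) → ℝ≥0∞) (hφ : Measurable φ)
    (idx : MM D → ℝ) (hidx : ∀ τ : TT D W, nm τ.2.1 = idx (cl D W τ).1) :
    ∑' S : D.packet, ∫⁻ x, (∑' v : NZ x, φ v.1) ∂(orbMeas S.1) =
      ∑' M : MM D, ∑ w : Fin n → ℤˣ, ∫⁻ u : Fin (n - 1) → ℝ,
        φ ((fun j => idx M ^ ((n : ℝ)⁻¹) * ((w j : ℤ) : ℝ)) * ev u) := by
  have h1 : ∀ S : D.packet, ∫⁻ x, (∑' v : NZ x, φ v.1) ∂(orbMeas S.1) =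
      ∑' v : NZ (W.x S), FI D W φ ⟨S, v⟩ := by
    intro S
    rw [W.meas S, lintegral_orb (W.sec S) φ hφ]
    rfl
  simp only [h1]
  rw [← ENNReal.tsum_sigma' (fun τ : TT D W => FI D W φ τ)]
  rw [← (Equiv.sigmaFiberEquiv (cl D W)).tsum_eq, ENNReal.tsum_sigma']
  have h2 : ∀ q : MM D × (Fin n → ℤˣ),
      ∑' τ : {τ : TT D W // cl D W τ = q}, FI D W φ ((Equiv.sigmaFiberEquiv (cl D W)) ⟨q, τ⟩) =
        ∫⁻ u : Fin (n - 1) → ℝ, φ ((fun j => idx q.1 ^ ((n : ℝ)⁻¹) * ((q.2 j : ℤ) : ℝ)) * ev u) := by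
    intro q
    obtain ⟨τ₀, rfl⟩ := exists_fiber D W q
    have h3 := sum_fiber D W φ τ₀
    rw [hidx τ₀] at h3
    exact h3
  simp only [h2]
  rw [ENNReal.tsum_prod (f := fun (M : MM D) (w : Fin n → ℤˣ) => ∫⁻ u : Fin (n - 1) → ℝ,
    φ ((fun j => idx M ^ ((n : ℝ)⁻¹) * ((w j : ℤ) : ℝ)) * ev u))]
  simp only [tsum_fintype]

end Vale.Agent.P007.N
end

section

set_option autoImplicit false

open MeasureTheory Matrix NumberField Filter Topology Module
open scoped ENNReal nonZeroDivisors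

namespace Vale.Agent.P007.N

open Vale.Agent.P007 Vale.Agent.P007.R Vale.Agent.P007.Fib

variable {n : ℕ}

theorem exists_rowBasis {A : Matrix (Fin n) (Fin n) ℝ} (hA : A.det ≠ 0)
    {L : Submodule ℤ (Fin n → ℝ)} (hL : latM A = (L : Set (Fin n → ℝ))) :
    ∃ b : Basis (Fin n) ℝ (Fin n → ℝ), (∀ i, b i = A i) ∧ L = Submodule.span ℤ (Set.range b) := by
  have hli : LinearIndependent ℝ A.row := by
    rw [Matrix.linearIndependent_rows_iff_isUnit, Matrix.isUnit_iff_isUnit_det]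
    exact hA.isUnit
  obtain rfl | hn := Nat.eq_zero_or_pos n
  · refine ⟨Basis.empty _, fun i => i.elim0, ?_⟩
    apply SetLike.coe_injective
    exact Set.ext fun x => by
      have : x = 0 := Subsingleton.elim _ _
      subst this
      exact ⟨fun _ => Submodule.zero_mem _, fun _ => Submodule.zero_mem _⟩
  have : Nonempty (Fin n) := ⟨⟨0, hn⟩⟩
  let b := basisOfLinearIndependentOfCardEqFinrank hli (by simp)
  have hb : ∀ i, b i = A i := fun i => by
    simp only [b, coe_basisOfLinearIndependentOfCardEqFinrank]; rfl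
  refine ⟨b, hb, ?_⟩
  apply SetLike.coe_injective
  rw [← hL]
  ext v
  rw [SetLike.mem_coe, Submodule.mem_span_range_iff_exists_fun]
  constructor
  · rintro ⟨z, rfl⟩
    refine ⟨z, ?_⟩
    funext j
    rw [Finset.sum_apply]
    simp only [hb, Pi.smul_apply, zsmul_eq_mul]
    rfl
  · rintro ⟨z, rfl⟩
    refine ⟨z, ?_⟩
    funext j
    rw [Finset.sum_apply]
    simp only [hb, Pi.smul_apply, zsmul_eq_mul]
    rfl

theorem covolume_span (b : Basis (Fin n) ℝ (Fin n → ℝ)) {A : Matrix (Fin n) (Fin n) ℝ}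
    (hb : ∀ i, b i = A i) : ZLattice.covolume (Submodule.span ℤ (Set.range b)) = |A.det| := by
  rw [ZLattice.covolume_eq_det _ (b.restrictScalars ℤ)]
  congr 2
  ext i j
  simp [hb]

theorem relIndex_det {L M : Submodule ℤ (Fin n → ℝ)} (hLM : L ≤ M)
    {A B : Matrix (Fin n) (Fin n) ℝ} (hA : A.det ≠ 0) (hB : B.det ≠ 0)
    (hL : latM A = (L : Set (Fin n → ℝ))) (hM : latM B = (M : Set (Fin n → ℝ))) :
    (L.toAddSubgroup.relIndex M.toAddSubgroup : ℝ) = |A.det| / |B.det| := by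
  obtain ⟨b, hb, rfl⟩ := exists_rowBasis hA hL
  obtain ⟨b', hb', rfl⟩ := exists_rowBasis hB hM
  rw [← ZLattice.covolume_div_covolume_eq_relIndex _ _ hLM, covolume_span b hb,
    covolume_span b' hb']

variable (D : Datum n)

theorem det_sq (b : Basis (Fin n) ℚ D.K) :
    (Matrix.of fun i j => D.σ j (b i)).det ^ 2 = (Algebra.discr ℚ b : ℝ) := by
  let e₀ : Fin n → (D.K →ₐ[ℚ] ℂ) := fun j => ((Complex.ofRealHom).comp (D.σ j)).toRatAlgHom
  have hinj : Function.Injective e₀ := by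
    intro i j hij
    apply D.σ.injective
    ext x
    have h1 : ((D.σ i x : ℝ) : ℂ) = ((D.σ j x : ℝ) : ℂ) := DFunLike.congr_fun hij x
    exact_mod_cast h1
  have hcard : Fintype.card (Fin n) = Fintype.card (D.K →ₐ[ℚ] ℂ) := by
    rw [Fintype.card_fin, AlgHom.card, D.deg]
  let e : Fin n ≃ (D.K →ₐ[ℚ] ℂ) := Equiv.ofBijective e₀
    ((Fintype.bijective_iff_injective_and_card e₀).mpr ⟨hinj, hcard⟩)
  have h1 := Algebra.discr_eq_det_embeddingsMatrixReindex_pow_two ℚ ℂ b e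
  have h3 : Algebra.embeddingsMatrixReindex ℚ ℂ b e =
      (Matrix.of fun i j => D.σ j (b i)).map (Complex.ofRealHom) := by
    ext i j
    rfl
  have h4 : (Algebra.embeddingsMatrixReindex ℚ ℂ b e).det =
      (((Matrix.of fun i j => D.σ j (b i)).det : ℝ) : ℂ) := by
    rw [h3]
    exact (RingHom.map_det Complex.ofRealHom (Matrix.of fun i j => D.σ j (b i))).symm
  rw [h4] at h1
  have h5 : (((Algebra.discr ℚ b : ℚ) : ℝ) : ℂ) =
      (((Matrix.of fun i j => D.σ j (b i)).det ^ 2 : ℝ) : ℂ) := by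
    push_cast
    rw [← h1]
    simp
  exact (Complex.ofReal_injective h5).symm

/-- matrix of the order -/
theorem exists_mat_order : ∃ A : Matrix (Fin n) (Fin n) ℝ, A.det ≠ 0 ∧
    latM A = ((RM (RE D) : Submodule ℤ (Fin n → ℝ)) : Set (Fin n → ℝ)) := by
  refine exists_mat D (M := RM (RE D)) ?_
  rw [← sL_zmod_one]
  refine ⟨zmod_stable D _, sL D (D.zmod 1), zmod_stable D _, ?_⟩
  rw [← sL_mul, ← zmod_mul, mul_one, sL_zmod_one]

theorem abs_det_max {A : Matrix (Fin n) (Fin n) ℝ} (hA : A.det ≠ 0)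
    (hlat : latM A = ((RM (RE (mx D)) : Submodule ℤ (Fin n → ℝ)) : Set (Fin n → ℝ))) :
    |A.det| = √((discr D.K).natAbs : ℝ) := by
  -- an integral basis
  have hcard : Fintype.card (Free.ChooseBasisIndex ℤ (𝓞 D.K)) = n := by
    rw [← finrank_eq_card_basis (integralBasis D.K), D.deg]
  let e : Free.ChooseBasisIndex ℤ (𝓞 D.K) ≃ Fin n := Fintype.equivFinOfCardEq hcard
  let b : Basis (Fin n) ℚ D.K := (integralBasis D.K).reindex e
  have hdisc : Algebra.discr ℚ b = (discr D.K : ℚ) := by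
    rw [coe_discr]
    rw [Basis.coe_reindex]
    exact Algebra.discr_reindex ℚ (integralBasis D.K) e
  set B : Matrix (Fin n) (Fin n) ℝ := Matrix.of fun i j => D.σ j (b i) with hB
  have hBdet : B.det ≠ 0 := D.det_ne_zero b
  have hBlat : latM B = ((RM (RE (mx D)) : Submodule ℤ (Fin n → ℝ)) : Set (Fin n → ℝ)) := by
    have h1 := D.latM_basis (S := {x : D.K | x ∈ (algebraMap (𝓞 D.K) D.K).range}) (b := b) (by
      intro x
      constructor
      · intro hx
        have h2 : x ∈ Submodule.span ℤ (Set.range (integralBasis D.K)) :=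
          (mem_span_integralBasis D.K).mpr hx
        have h3 : Set.range (integralBasis D.K) = Set.range b := by
          rw [Basis.coe_reindex, EquivLike.range_comp]
        rw [h3, Submodule.mem_span_range_iff_exists_fun] at h2
        obtain ⟨z, hz⟩ := h2
        refine ⟨z, ?_⟩
        rw [← hz]
        simp only [zsmul_eq_mul]
      · rintro ⟨z, rfl⟩
        change _ ∈ (algebraMap (𝓞 D.K) D.K).range
        rw [← mem_span_integralBasis D.K]
        have h3 : Set.range (integralBasis D.K) = Set.range b := by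
          rw [Basis.coe_reindex, EquivLike.range_comp]
        rw [h3, Submodule.mem_span_range_iff_exists_fun]
        exact ⟨z, by simp only [zsmul_eq_mul]⟩) 1
    rw [show (diagonal (1 : Fin n → ℝ)) = 1 from diagonal_one, mul_one] at h1
    rw [hB, h1]
    ext v
    constructor
    · rintro ⟨a, ⟨r, rfl⟩, rfl⟩
      refine (mem_RE (mx D)).mpr ⟨r, Subring.mem_top _, ?_⟩
      funext j
      rw [Pi.one_apply, mul_one]
      rfl
    · intro hv
      obtain ⟨r, -, rfl⟩ := (mem_RE (mx D)).mp hv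
      refine ⟨algebraMap (𝓞 D.K) D.K r, ⟨r, rfl⟩, ?_⟩
      funext j
      rw [Pi.one_apply, mul_one]
      rfl
  have h4 := relIndex_det (le_refl (RM (RE (mx D)))) hA hBdet hlat hBlat
  rw [AddSubgroup.relIndex_self, Nat.cast_one, eq_comm, div_eq_one_iff_eq (abs_ne_zero.mpr hBdet)] at h4
  rw [h4]
  have h5 := det_sq D b
  rw [hdisc] at h5
  have h6 : B.det ^ 2 = ((discr D.K).natAbs : ℝ) := by
    rw [h5, Nat.cast_natAbs]
    have h7 : (0 : ℝ) ≤ ((discr D.K : ℤ) : ℝ) := by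
      have : ((discr D.K : ℚ) : ℝ) = B.det ^ 2 := h5.symm
      have h8 : ((discr D.K : ℤ) : ℝ) = B.det ^ 2 := by rw [← this]; simp
      rw [h8]; (clear * - hBdet; positivity)
    have h9 : (0 : ℤ) ≤ discr D.K := by exact_mod_cast h7
    rw [abs_of_nonneg h9]
    simp
  rw [← h6, Real.sqrt_sq_eq_abs]

theorem RE_le_mx : RM (RE D) ≤ RM (RE (mx D)) := by
  intro x hx
  obtain ⟨r, -, rfl⟩ := (mem_RE D).mp hx
  exact (mem_RE (mx D)).mpr ⟨r, Subring.mem_top _, rfl⟩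

theorem relIndex_order :
    (RM (RE D)).toAddSubgroup.relIndex (RM (RE (mx D))).toAddSubgroup = D.ind := by
  let f : 𝓞 D.K →+ (Fin n → ℝ) := ((sE D).comp (algebraMap (𝓞 D.K) D.K)).toAddMonoidHom
  have hf : Function.Injective f :=
    (sE_injective D).comp (RingOfIntegers.coe_injective)
  have h1 : (RM (RE D)).toAddSubgroup = D.O.toAddSubgroup.map f := by
    ext x
    constructor
    · intro hx
      obtain ⟨r, hr, rfl⟩ := (mem_RE D).mp hx
      exact ⟨r, hr, rfl⟩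
    · rintro ⟨r, hr, rfl⟩
      exact (mem_RE D).mpr ⟨r, hr, rfl⟩
  have h2 : (RM (RE (mx D))).toAddSubgroup = (⊤ : AddSubgroup (𝓞 D.K)).map f := by
    ext x
    constructor
    · intro hx
      obtain ⟨r, hr, rfl⟩ := (mem_RE (mx D)).mp hx
      exact ⟨r, AddSubgroup.mem_top _, rfl⟩
    · rintro ⟨r, hr, rfl⟩
      exact (mem_RE (mx D)).mpr ⟨r, Subring.mem_top _, rfl⟩
  rw [h1, h2, AddSubgroup.relIndex_map_map_of_injective _ _ hf, AddSubgroup.relIndex_top_right]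
  rfl

theorem abs_det_order {A : Matrix (Fin n) (Fin n) ℝ} (hA : A.det ≠ 0)
    (hlat : latM A = ((RM (RE D) : Submodule ℤ (Fin n → ℝ)) : Set (Fin n → ℝ))) :
    |A.det| = √(D.disc : ℝ) := by
  obtain ⟨B, hB, hBlat⟩ := exists_mat_order (mx D)
  have h1 := relIndex_det (RE_le_mx D) hA hB hlat hBlat
  rw [relIndex_order, abs_det_max D hB hBlat, eq_div_iff] at h1
  · rw [← h1]
    have h2 : (D.disc : ℝ) = ((discr D.K).natAbs : ℝ) * (D.ind : ℝ) ^ 2 := by
      unfold Datum.disc Datum.ind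
      push_cast
      rfl
    rw [h2, Real.sqrt_mul (Nat.cast_nonneg _), Real.sqrt_sq (Nat.cast_nonneg _), mul_comm]
  · rw [← abs_det_max D hB hBlat]
    exact abs_ne_zero.mpr hB

/-- `[M : R]` -/
noncomputable def idx (M : MM D) : ℕ :=
  (RM (RE D)).toAddSubgroup.relIndex M.1.toAddSubgroup

theorem disc_pos : (0 : ℝ) < √(D.disc : ℝ) := by
  obtain ⟨A, hA, hlat⟩ := exists_mat_order D
  rw [← abs_det_order D hA hlat]
  exact abs_pos.mpr hA

theorem RM_le_MM (M : MM D) : RM (RE D) ≤ M.1 := by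
  intro x hx
  have h := M.2.1.1 x hx 1 M.2.2
  rwa [mul_one] at h

theorem nm_eq (W : OD D) (τ : TT D W) :
    nm τ.2.1 = (idx D (cl D W τ).1 : ℝ) / √(D.disc : ℝ) := by
  obtain ⟨A, hA, hlat⟩ := exists_mat_order D
  obtain ⟨g, hg⟩ := pt_surjective (W.x τ.1)
  have hv := coord_ne D (W.inv τ.1) τ.2
  set B : Matrix (Fin n) (Fin n) ℝ := (g : Matrix (Fin n) (Fin n) ℝ) * diagonal (τ.2.1⁻¹) with hBdef
  have hBdet : B.det = (∏ j, τ.2.1 j)⁻¹ := by
    rw [hBdef, det_mul, det_G, one_mul, det_diagonal, ← Finset.prod_inv_distrib]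
    rfl
  have hB : B.det ≠ 0 := by
    rw [hBdet]
    exact inv_ne_zero (Finset.prod_ne_zero_iff.mpr fun j _ => hv j)
  have hBlat : latM B = (((cl D W τ).1.1 : Submodule ℤ (Fin n → ℝ)) : Set (Fin n → ℝ)) := by
    have h1 : (cl D W τ).1.1 = vmul τ.2.1⁻¹ (latS g) := by
      have h0 : Lx (W.x τ.1) = latS g := by rw [← hg, Lx_pt]
      change vmul τ.2.1⁻¹ (Lx (W.x τ.1)) = _
      rw [h0]
    rw [h1, hBdef, latM_mul_diagonal]
    ext v
    constructor
    · rintro ⟨u, hu, rfl⟩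
      exact mem_vmul.mpr ⟨u, hu, rfl⟩
    · intro hv
      obtain ⟨u, hu, rfl⟩ := mem_vmul.mp hv
      exact ⟨u, hu, rfl⟩
  have h2 := relIndex_det (RM_le_MM D (cl D W τ).1) hA hB hlat hBlat
  rw [abs_det_order D hA hlat, hBdet, abs_inv, div_inv_eq_mul] at h2
  have h3 : (idx D (cl D W τ).1 : ℝ) = √(D.disc : ℝ) * nm τ.2.1 := h2
  rw [h3, mul_div_cancel_left₀ _ (disc_pos D).ne']

end Vale.Agent.P007.N
end
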