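import Vale.Agent.P007.MathlibUsed
import Vale.Agent.PNT.Main
import Vale.Agent.P007.Bdl.B2

section

/-!
# Hall–Tenenbaum bounds (P007, I.3)

Upper bounds for `∑_{m ≤ X} r m` and `∑_{X ≤ m ≤ (1+δ) X} r m` for a nonnegative
submultiplicative function `r` with `r (p^k) ≤ C₀ p^(k - ⌈k/n⌉)`.
-/

set_option autoImplicit false

namespace Vale.Agent.P007.N

open Finset

/-- hypotheses of the Hall–Tenenbaum bound (same fields as `HT` of `N/Defs.lean`) -/
structure HTc (n : ℕ) (B : ℝ) (r U : ℕ → ℝ) : Prop where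
  nonneg : ∀ m, 0 ≤ r m
  one : r 1 = 1
  sub : ∀ a b : ℕ, a.Coprime b → r (a * b) ≤ r a * r b
  pow : ∀ p k : ℕ, p.Prime → 1 ≤ k → r (p ^ k) * (p : ℝ) ^ ((k + n - 1) / n) ≤ B * (p : ℝ) ^ k
  U1 : ∀ p, p.Prime → 1 ≤ U p
  sum : ∀ p M : ℕ, p.Prime → ∑ k ∈ Finset.range M, r (p ^ k) / (p : ℝ) ^ k ≤ U p

/-! ### sums over prime powers -/

/-- prime powers in `(A, B]` -/
noncomputable def PP (A B : ℕ) : Finset ℕ := by
  classical
  exact (Ioc A B).filter IsPrimePow

/-- primes `p` with `A < p^k ≤ B` -/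
noncomputable def QQ (A B k : ℕ) : Finset ℕ :=
  (Icc 1 B).filter (fun p => p.Prime ∧ A < p ^ k ∧ p ^ k ≤ B)

theorem mem_PP {A B m : ℕ} : m ∈ PP A B ↔ A < m ∧ m ≤ B ∧ IsPrimePow m := by
  unfold PP
  rw [mem_filter, mem_Ioc, and_assoc]

theorem mem_QQ {A B k p : ℕ} (hk : 1 ≤ k) :
    p ∈ QQ A B k ↔ p.Prime ∧ A < p ^ k ∧ p ^ k ≤ B := by
  unfold QQ
  rw [mem_filter, mem_Icc]
  constructor
  · exact fun h => h.2
  · intro h
    refine ⟨⟨h.1.one_lt.le, ?_⟩, h⟩
    exact (Nat.le_self_pow (by omega) p).trans h.2.2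

theorem sum_PP_le (f : ℕ → ℝ) (hf : ∀ m, 0 ≤ f m) (A B : ℕ) :
    ∑ m ∈ PP A B, f m ≤ ∑ k ∈ Icc 1 (Nat.log 2 B), ∑ p ∈ QQ A B k, f (p ^ k) := by
  classical
  rw [Finset.sum_sigma' (Icc 1 (Nat.log 2 B)) (fun k => QQ A B k) (fun k p => f (p ^ k))]
  set T := (Icc 1 (Nat.log 2 B)).sigma (fun k => QQ A B k) with hT
  let i : ℕ → (_ : ℕ) × ℕ := fun m => ⟨m.factorization m.minFac, m.minFac⟩
  have hgi : ∀ m ∈ PP A B, (i m).2 ^ (i m).1 = m := by
    intro m hm
    exact (mem_PP.mp hm).2.2.minFac_pow_factorization_eq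
  have hinj : Set.InjOn i (PP A B) := by
    intro m hm m' hm' h
    rw [← hgi m hm, ← hgi m' hm', h]
  have h1 : ∑ m ∈ PP A B, f m = ∑ s ∈ (PP A B).image i, f (s.2 ^ s.1) := by
    rw [Finset.sum_image hinj]
    apply Finset.sum_congr rfl
    intro m hm
    rw [hgi m hm]
  rw [h1]
  apply Finset.sum_le_sum_of_subset_of_nonneg
  · intro s hs
    obtain ⟨m, hm, rfl⟩ := Finset.mem_image.mp hs
    have h2 := mem_PP.mp hm
    have h3 := hgi m hm
    have hm1 : m ≠ 1 := h2.2.2.ne_one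
    have hprime : m.minFac.Prime := Nat.minFac_prime hm1
    have hk0 : m.factorization m.minFac ≠ 0 := by
      intro h0
      have h4 : m.minFac ^ m.factorization m.minFac = m := h3
      rw [h0, pow_zero] at h4
      exact hm1 h4.symm
    have h4 : m.minFac ^ m.factorization m.minFac = m := h3
    rw [hT, Finset.mem_sigma, mem_Icc]
    refine ⟨⟨Nat.one_le_iff_ne_zero.mpr hk0, ?_⟩, ?_⟩
    · apply Nat.le_log_of_pow_le (by norm_num)
      calc 2 ^ m.factorization m.minFac ≤ m.minFac ^ m.factorization m.minFac :=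
            Nat.pow_le_pow_left hprime.two_le _
        _ = m := h4
        _ ≤ B := h2.2.1
    · apply (mem_QQ (Nat.one_le_iff_ne_zero.mpr hk0)).mpr
      refine ⟨hprime, ?_, ?_⟩
      · change A < m.minFac ^ m.factorization m.minFac
        rw [h4]
        exact h2.1
      · change m.minFac ^ m.factorization m.minFac ≤ B
        rw [h4]
        exact h2.2.1
  · intro s _ _
    exact hf _

/-! ### the convolution inequality -/

theorem conv_ineq {n : ℕ} {B₀ : ℝ} {r U : ℕ → ℝ} (h : HTc n B₀ r U) (m : ℕ) (hm : 1 ≤ m) :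
    r m * Real.log m ≤ ∑ p ∈ m.primeFactors,
      r (m / p ^ m.factorization p) * (r (p ^ m.factorization p) *
        Real.log ((p ^ m.factorization p : ℕ) : ℝ)) := by
  have hm0 : m ≠ 0 := by omega
  have h1 : Real.log m = ∑ p ∈ m.primeFactors, Real.log ((p ^ m.factorization p : ℕ) : ℝ) := by
    conv_lhs => rw [← Nat.prod_factorization_pow_eq_self hm0]
    rw [Nat.prod_factorization_eq_prod_primeFactors, Nat.cast_prod, Real.log_prod]
    intro p hp
    have := (Nat.prime_of_mem_primeFactors hp).pos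
    (clear * - this; positivity)
  rw [h1, Finset.mul_sum]
  apply Finset.sum_le_sum
  intro p hp
  have hpp := Nat.prime_of_mem_primeFactors hp
  have h2 : p ^ m.factorization p ∣ m := Nat.ordProj_dvd m p
  have h3 : r m ≤ r (m / p ^ m.factorization p) * r (p ^ m.factorization p) := by
    have h4 : m / p ^ m.factorization p * p ^ m.factorization p = m := Nat.div_mul_cancel h2
    have h5 := h.sub (m / p ^ m.factorization p) (p ^ m.factorization p)
      ((Nat.coprime_ordCompl hpp hm0).symm.pow_right _)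
    rwa [h4] at h5
  rw [← mul_assoc]
  apply mul_le_mul_of_nonneg_right h3
  exact Real.log_natCast_nonneg _

theorem sum_conv_le {n : ℕ} {B₀ : ℝ} {r U : ℕ → ℝ} (h : HTc n B₀ r U) (A B : ℕ) :
    ∑ m ∈ Ioc A B, r m * Real.log m ≤
      ∑ a ∈ Icc 1 B, r a * ∑ q ∈ PP (A / a) (B / a), r q * Real.log (q : ℝ) := by
  classical
  have h1 : ∑ m ∈ Ioc A B, r m * Real.log m ≤ ∑ m ∈ Ioc A B, ∑ p ∈ m.primeFactors,
      r (m / p ^ m.factorization p) * (r (p ^ m.factorization p) *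
        Real.log ((p ^ m.factorization p : ℕ) : ℝ)) := by
    apply Finset.sum_le_sum
    intro m hm
    exact conv_ineq h m (by have := (mem_Ioc.mp hm).1; omega)
  refine h1.trans ?_
  have h2 : ∀ a, r a * ∑ q ∈ PP (A / a) (B / a), r q * Real.log (q : ℝ) =
      ∑ q ∈ PP (A / a) (B / a), r a * (r q * Real.log (q : ℝ)) := fun a => Finset.mul_sum _ _ _
  rw [Finset.sum_congr rfl (fun a _ => h2 a)]
  rw [Finset.sum_sigma', Finset.sum_sigma']
  let i : (_ : ℕ) × ℕ → (_ : ℕ) × ℕ := fun s =>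
    ⟨s.1 / s.2 ^ s.1.factorization s.2, s.2 ^ s.1.factorization s.2⟩
  set S := (Ioc A B).sigma (fun m => m.primeFactors) with hS
  have hfact : ∀ s ∈ S, s.2.Prime ∧ s.2 ∣ s.1 ∧ s.1 ≠ 0 ∧ 1 ≤ s.1.factorization s.2 ∧
      (i s).1 * (i s).2 = s.1 ∧ A < s.1 ∧ s.1 ≤ B := by
    intro s hs
    rw [hS, Finset.mem_sigma, mem_Ioc] at hs
    obtain ⟨⟨ha, hb⟩, hp⟩ := hs
    have hpp := Nat.prime_of_mem_primeFactors hp
    have hd := Nat.dvd_of_mem_primeFactors hp
    have h0 : s.1 ≠ 0 := by omega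
    refine ⟨hpp, hd, h0, (hpp.dvd_iff_one_le_factorization h0).mp hd, ?_, ha, hb⟩
    exact Nat.div_mul_cancel (Nat.ordProj_dvd _ _)
  have hinj : Set.InjOn i S := by
    intro s hs s' hs' he
    obtain ⟨p1, d1, z1, k1, e1, -, -⟩ := hfact s hs
    obtain ⟨p2, d2, z2, k2, e2, -, -⟩ := hfact s' hs'
    have h3 : s.1 = s'.1 := by rw [← e1, ← e2, he]
    have h4 : s.2 ^ s.1.factorization s.2 = s'.2 ^ s'.1.factorization s'.2 :=
      congrArg (fun t : (_ : ℕ) × ℕ => t.2) he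
    have h5 : s.2 = s'.2 := by
      have h6 : s.2 ∣ s'.2 ^ s'.1.factorization s'.2 := by
        rw [← h4]
        exact dvd_pow_self _ (by omega)
      exact (Nat.prime_dvd_prime_iff_eq p1 p2).mp (p1.dvd_of_dvd_pow h6)
    exact Sigma.ext h3 (heq_of_eq h5)
  have h3 : ∑ s ∈ S, r (s.1 / s.2 ^ s.1.factorization s.2) *
      (r (s.2 ^ s.1.factorization s.2) * Real.log ((s.2 ^ s.1.factorization s.2 : ℕ) : ℝ)) =
      ∑ t ∈ S.image i, r t.1 * (r t.2 * Real.log (t.2 : ℝ)) := by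
    rw [Finset.sum_image hinj]
  rw [h3]
  apply Finset.sum_le_sum_of_subset_of_nonneg
  · intro t ht
    obtain ⟨s, hs, rfl⟩ := Finset.mem_image.mp ht
    obtain ⟨hp, hd, h0, hk, he, hA, hB⟩ := hfact s hs
    have hq : 1 ≤ (i s).2 := Nat.one_le_pow _ _ hp.pos
    have ha : 1 ≤ (i s).1 := by
      rcases Nat.eq_zero_or_pos (i s).1 with h | h
      · rw [h, zero_mul] at he
        exact absurd he.symm h0
      · exact h
    rw [Finset.mem_sigma, mem_Icc]
    refine ⟨⟨ha, ?_⟩, ?_⟩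
    · calc (i s).1 ≤ (i s).1 * (i s).2 := Nat.le_mul_of_pos_right _ hq
        _ = s.1 := he
        _ ≤ B := hB
    · rw [mem_PP]
      refine ⟨?_, ?_, ?_⟩
      · rw [Nat.div_lt_iff_lt_mul ha, mul_comm, he]
        exact hA
      · rw [Nat.le_div_iff_mul_le ha, mul_comm, he]
        exact hB
      · exact hp.isPrimePow.pow (by omega)
  · intro t _ _
    exact mul_nonneg (h.nonneg _) (mul_nonneg (h.nonneg _) (Real.log_natCast_nonneg _))

/-! ### the Euler product bound -/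

/-- the multiplicative majorant -/
noncomputable def maj (r : ℕ → ℝ) (m : ℕ) : ℝ := m.factorization.prod fun p k => r (p ^ k) / (p : ℝ) ^ k

theorem maj_one (r : ℕ → ℝ) : maj r 1 = 1 := by
  unfold maj
  rw [Nat.factorization_one, Finsupp.prod_zero_index]

theorem maj_mul (r : ℕ → ℝ) {a b : ℕ} (hab : a.Coprime b) : maj r (a * b) = maj r a * maj r b := by
  unfold maj
  rw [Nat.factorization_mul_of_coprime hab]
  exact Finsupp.prod_add_index_of_disjoint hab.disjoint_primeFactors _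

theorem maj_nonneg {r : ℕ → ℝ} (hr : ∀ m, 0 ≤ r m) (m : ℕ) : 0 ≤ maj r m := by
  unfold maj Finsupp.prod
  exact Finset.prod_nonneg fun p _ => div_nonneg (hr _) (by positivity)

theorem maj_prime_pow {r : ℕ → ℝ} (hr : r 1 = 1) {p : ℕ} (hp : p.Prime) (k : ℕ) :
    maj r (p ^ k) = r (p ^ k) / (p : ℝ) ^ k := by
  unfold maj
  rw [hp.factorization_pow]
  rcases Nat.eq_zero_or_pos k with hk | hk
  · rw [hk, Finsupp.single_zero, Finsupp.prod_zero_index, pow_zero, pow_zero, hr, div_one]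
  · rw [Finsupp.prod_single_index]
    rw [pow_zero, pow_zero, hr, div_one]

theorem le_maj {n : ℕ} {B₀ : ℝ} {r U : ℕ → ℝ} (h : HTc n B₀ r U) (m : ℕ) (hm : 1 ≤ m) :
    r m / m ≤ maj r m := by
  induction m using Nat.recOnPosPrimePosCoprime with
  | prime_pow p k hp hk =>
    rw [maj_prime_pow h.one hp]
    push_cast
    exact le_rfl
  | zero => omega
  | one => rw [maj_one, h.one, Nat.cast_one, div_one]
  | coprime a b ha hb hab iha ihb =>
    rw [maj_mul r hab]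
    have h1 := iha (by omega)
    have h2 := ihb (by omega)
    have ha0 : (0 : ℝ) < a := by exact_mod_cast (by omega : 0 < a)
    have hb0 : (0 : ℝ) < b := by exact_mod_cast (by omega : 0 < b)
    calc r (a * b) / ((a * b : ℕ) : ℝ) ≤ r a * r b / ((a * b : ℕ) : ℝ) := by
          apply div_le_div_of_nonneg_right (h.sub a b hab)
          positivity
      _ = (r a / a) * (r b / b) := by
          push_cast
          field_simp
      _ ≤ maj r a * maj r b := by
          apply mul_le_mul h1 h2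
          · exact div_nonneg (h.nonneg _) hb0.le
          · exact maj_nonneg h.nonneg _

theorem sum_div_le {n : ℕ} {B₀ : ℝ} {r U : ℕ → ℝ} (h : HTc n B₀ r U) (N : ℕ) :
    ∑ m ∈ Icc 1 N, r m / m ≤ ∏ p ∈ (range (N + 1)).filter Nat.Prime, U p := by
  have hsummable : ∀ {p : ℕ}, p.Prime → Summable (fun k : ℕ => maj r (p ^ k)) := by
    intro p hp
    apply summable_of_sum_range_le (c := U p)
    · exact fun k => maj_nonneg h.nonneg _
    · intro M
      rw [Finset.sum_congr rfl (fun k _ => maj_prime_pow h.one hp k)]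
      exact h.sum p M hp
  have hsum : ∀ {p : ℕ}, p.Prime → Summable (fun k : ℕ => ‖maj r (p ^ k)‖) := by
    intro p hp
    refine (hsummable hp).congr fun k => ?_
    rw [Real.norm_of_nonneg (maj_nonneg h.nonneg _)]
  obtain ⟨hs1, hs2⟩ := EulerProduct.summable_and_hasSum_smoothNumbers_prod_primesBelow_tsum
    (f := maj r) (maj_one r) (fun hab => maj_mul r hab) hsum (N + 1)
  have h1 : ∑ m ∈ Icc 1 N, r m / m ≤ ∑ m ∈ Icc 1 N, maj r m := by
    apply Finset.sum_le_sum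
    intro m hm
    exact le_maj h m (mem_Icc.mp hm).1
  have h2 : ∑ m ∈ Icc 1 N, maj r m ≤ ∏ p ∈ (N + 1).primesBelow, ∑' k : ℕ, maj r (p ^ k) := by
    have hsm : ∀ m ∈ Icc 1 N, m ∈ (N + 1).smoothNumbers := by
      intro m hm
      obtain ⟨hm1, hm2⟩ := mem_Icc.mp hm
      refine Nat.mem_smoothNumbers'.mpr fun p hp hd => ?_
      exact Nat.lt_succ_of_le ((Nat.le_of_dvd (by omega) hd).trans hm2)
    have h3 : ∑ m ∈ Icc 1 N, maj r m =
        ∑ m ∈ (Icc 1 N).attach.image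
          (fun m => (⟨m.1, hsm m.1 m.2⟩ : (N + 1).smoothNumbers)), maj r m := by
      rw [Finset.sum_image]
      · rw [← Finset.sum_attach]
      · intro a _ b _ hab
        have h5 : a.1 = b.1 := congrArg (fun t : (N + 1).smoothNumbers => (t : ℕ)) hab
        exact Subtype.ext h5
    rw [h3]
    exact sum_le_hasSum _ (fun m _ => maj_nonneg h.nonneg _) hs2
  refine h1.trans (h2.trans ?_)
  have h4 : (N + 1).primesBelow = (range (N + 1)).filter Nat.Prime := rfl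
  rw [← h4]
  apply Finset.prod_le_prod
  · intro p _
    exact tsum_nonneg fun k => maj_nonneg h.nonneg _
  · intro p hp
    have hpp := Nat.prime_of_mem_primesBelow hp
    apply Real.tsum_le_of_sum_range_le
    · exact fun k => maj_nonneg h.nonneg _
    · intro M
      rw [Finset.sum_congr rfl (fun k _ => maj_prime_pow h.one hpp k)]
      exact h.sum p M hpp

/-! ### prime powers with a large exponent -/

theorem B_nonneg {n : ℕ} (hn : 0 < n) {B₀ : ℝ} {r U : ℕ → ℝ} (h : HTc n B₀ r U) : 0 ≤ B₀ := by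
  have h1 := h.pow 2 1 Nat.prime_two le_rfl
  have h2 : (1 + n - 1) / n = 1 := by
    rw [Nat.add_sub_cancel_left]
    exact Nat.div_self hn
  rw [h2] at h1
  have h3 := h.nonneg 2
  norm_num at h1
  linarith only [h3, h1]

theorem high_term {n : ℕ} (hn : 0 < n) {B₀ : ℝ} {r U : ℕ → ℝ} (h : HTc n B₀ r U) {b : ℝ}
    (hb : 1 ≤ b) {p k : ℕ} (hp : p.Prime) (hk : n < k) (hpk : (p : ℝ) ^ k ≤ b) :
    r (p ^ k) ≤ B₀ * b ^ ((1 : ℝ) - 1 / (2 * n)) / p := by
  have hB := B_nonneg hn h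
  set c := (k + n - 1) / n with hc
  set y := b ^ ((1 : ℝ) - 1 / (2 * n)) with hy
  have hb0 : 0 ≤ b := by linarith only [hb]
  have hy0 : 0 ≤ y := Real.rpow_nonneg hb0 _
  have hp0 : (0 : ℝ) < p := by exact_mod_cast hp.pos
  have hnR : (0 : ℝ) < n := by exact_mod_cast hn
  have hc2 : 2 ≤ c := by
    rw [hc, Nat.le_div_iff_mul_le hn]
    omega
  have hcn : k ≤ n * c := by
    have h1 : k + n - 1 < n * ((k + n - 1) / n + 1) := Nat.lt_mul_div_succ _ hn
    rw [← hc, Nat.mul_add, Nat.mul_one] at h1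
    omega
  have hck : c ≤ k := by
    rw [hc]
    apply Nat.div_le_of_le_mul
    have h2 : k ≤ n * k := Nat.le_mul_of_pos_left k hn
    rcases Nat.lt_or_ge n 2 with h3 | h3
    · have h4 : n = 1 := by omega
      subst h4
      omega
    · have h5 : 2 * k ≤ n * k := Nat.mul_le_mul_right k h3
      omega
  set e := k + 1 - c with he
  have hec : e + c = k + 1 := by omega
  have hexp : e * (2 * n) ≤ k * (2 * n - 1) := by
    have h1 : k * (2 * n - 1) = k * (2 * n) - k := by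
      rw [Nat.mul_sub, Nat.mul_one]
    rw [h1]
    have h2 : e * (2 * n) + (c - 1) * (2 * n) = k * (2 * n) := by
      rw [← Nat.add_mul]
      congr 1
      omega
    have h3 : k ≤ (c - 1) * (2 * n) := by
      have h4 : (c - 1) * (2 * n) = (c - 1) * n + (c - 1) * n := by ring
      have h5 : n ≤ (c - 1) * n := Nat.le_mul_of_pos_left n (by omega)
      have h6 : (c - 1) * n = n * c - n := by
        rw [Nat.mul_comm, Nat.mul_sub, Nat.mul_one]
      (clear * - hk hcn hec h4 h5 h6; omega)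
    omega
  have hpy : (p : ℝ) ^ e ≤ y := by
    have h1 : ((p : ℝ) ^ e) ^ (2 * n) ≤ y ^ (2 * n) := by
      have h2 : y ^ (2 * n) = b ^ (2 * n - 1) := by
        rw [hy, ← Real.rpow_natCast, ← Real.rpow_mul hb0, ← Real.rpow_natCast b (2 * n - 1)]
        congr 1
        rw [Nat.cast_sub (by omega)]
        push_cast
        field_simp
      rw [h2, ← pow_mul]
      calc (p : ℝ) ^ (e * (2 * n)) ≤ (p : ℝ) ^ (k * (2 * n - 1)) :=
            pow_le_pow_right₀ (by exact_mod_cast hp.one_lt.le) hexp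
        _ = ((p : ℝ) ^ k) ^ (2 * n - 1) := by rw [pow_mul]
        _ ≤ b ^ (2 * n - 1) := pow_le_pow_left₀ (by positivity) hpk _
    exact (pow_le_pow_iff_left₀ (by positivity) hy0 (by omega)).mp h1
  have h1 := h.pow p k hp (by omega)
  rw [← hc] at h1
  rw [le_div_iff₀ hp0]
  have hpc : (0 : ℝ) < (p : ℝ) ^ c := by (clear * - hp0; positivity)
  have h2 : r (p ^ k) * p * (p : ℝ) ^ c ≤ B₀ * y * (p : ℝ) ^ c := by
    calc r (p ^ k) * p * (p : ℝ) ^ c = (r (p ^ k) * (p : ℝ) ^ c) * p := by ring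
      _ ≤ B₀ * (p : ℝ) ^ k * p := mul_le_mul_of_nonneg_right h1 hp0.le
      _ = B₀ * ((p : ℝ) ^ e * (p : ℝ) ^ c) := by
          rw [← pow_add, hec, pow_succ]
          ring
      _ ≤ B₀ * (y * (p : ℝ) ^ c) :=
          mul_le_mul_of_nonneg_left (mul_le_mul_of_nonneg_right hpy hpc.le) hB
      _ = _ := by ring
  exact le_of_mul_le_mul_right h2 hpc

theorem sum_inv_le {b : ℝ} (hb : 1 ≤ b) (S : Finset ℕ) (hS : S ⊆ Icc 1 ⌊b⌋₊) :
    ∑ p ∈ S, (1 : ℝ) / p ≤ 1 + Real.log b := by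
  calc ∑ p ∈ S, (1 : ℝ) / p ≤ ∑ p ∈ Icc 1 ⌊b⌋₊, (1 : ℝ) / p :=
        Finset.sum_le_sum_of_subset_of_nonneg hS fun _ _ _ => by positivity
    _ = ((harmonic ⌊b⌋₊ : ℚ) : ℝ) := by
        rw [harmonic_eq_sum_Icc]
        push_cast
        exact Finset.sum_congr rfl fun i _ => one_div _
    _ ≤ _ := harmonic_floor_le_one_add_log b hb

theorem natLog_le {b : ℝ} (hb : 1 ≤ b) : (Nat.log 2 ⌊b⌋₊ : ℝ) ≤ 2 * Real.log b := by
  set N := ⌊b⌋₊ with hN
  have hN1 : 1 ≤ N := by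
    rw [hN]
    exact Nat.le_floor (by exact_mod_cast hb)
  have h1 : 2 ^ Nat.log 2 N ≤ N := Nat.pow_log_le_self 2 (by omega)
  have h2 : ((2 : ℝ)) ^ Nat.log 2 N ≤ b := by
    have h3 : ((2 ^ Nat.log 2 N : ℕ) : ℝ) ≤ (N : ℝ) := by exact_mod_cast h1
    push_cast at h3
    exact h3.trans (Nat.floor_le (by linarith only [hb]))
  have h3 : (Nat.log 2 N : ℝ) * Real.log 2 ≤ Real.log b := by
    rw [← Real.log_pow]
    exact Real.log_le_log (by positivity) h2
  have h4 := Real.log_two_gt_d9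
  have h5 : (0 : ℝ) ≤ (Nat.log 2 N : ℝ) := Nat.cast_nonneg _
  nlinarith only [h3, h4]

theorem high_sum {n : ℕ} (hn : 0 < n) {B₀ : ℝ} {r U : ℕ → ℝ} (h : HTc n B₀ r U) {b : ℝ}
    (hb : 1 ≤ b) (A : ℕ) :
    ∑ k ∈ Icc (n + 1) (Nat.log 2 ⌊b⌋₊), ∑ p ∈ QQ A ⌊b⌋₊ k, r (p ^ k) * Real.log ((p ^ k : ℕ) : ℝ) ≤
      (2 * (16 * n) ^ 2 * (1 + 16 * n)) * B₀ * b ^ ((1 : ℝ) - 1 / (4 * n)) := by
  have hB := B_nonneg hn h
  have hb0 : 0 < b := by linarith only [hb]
  have hlb : 0 ≤ Real.log b := Real.log_nonneg hb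
  have hnR : (0 : ℝ) < n := by exact_mod_cast hn
  set y := b ^ ((1 : ℝ) - 1 / (2 * n)) with hy
  have hy0 : 0 ≤ y := Real.rpow_nonneg hb0.le _
  have h1 : ∀ k ∈ Icc (n + 1) (Nat.log 2 ⌊b⌋₊),
      ∑ p ∈ QQ A ⌊b⌋₊ k, r (p ^ k) * Real.log ((p ^ k : ℕ) : ℝ) ≤
        B₀ * y * Real.log b * (1 + Real.log b) := by
    intro k hk
    have hk1 := (mem_Icc.mp hk).1
    calc ∑ p ∈ QQ A ⌊b⌋₊ k, r (p ^ k) * Real.log ((p ^ k : ℕ) : ℝ)
        ≤ ∑ p ∈ QQ A ⌊b⌋₊ k, B₀ * y * Real.log b * (1 / p) := by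
          apply Finset.sum_le_sum
          intro p hp
          obtain ⟨hpp, -, hpb⟩ := (mem_QQ (by omega)).mp hp
          have hpb' : (p : ℝ) ^ k ≤ b := by
            have h2 : ((p ^ k : ℕ) : ℝ) ≤ (⌊b⌋₊ : ℝ) := by exact_mod_cast hpb
            push_cast at h2
            exact h2.trans (Nat.floor_le hb0.le)
          have hp0 : (0 : ℝ) < p := by exact_mod_cast hpp.pos
          have h3 := high_term hn h hb hpp (by omega) hpb'
          have h4 : Real.log ((p ^ k : ℕ) : ℝ) ≤ Real.log b := by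
            push_cast
            exact Real.log_le_log (by (clear * - hp0; positivity)) hpb'
          calc r (p ^ k) * Real.log ((p ^ k : ℕ) : ℝ) ≤ (B₀ * y / p) * Real.log b :=
                mul_le_mul h3 h4 (Real.log_natCast_nonneg _) (by (clear * - hb hB hp0; positivity))
            _ = _ := by ring
      _ = B₀ * y * Real.log b * ∑ p ∈ QQ A ⌊b⌋₊ k, (1 : ℝ) / p := by rw [Finset.mul_sum]
      _ ≤ _ := by
          apply mul_le_mul_of_nonneg_left _ (by positivity)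
          exact sum_inv_le hb _ (Finset.filter_subset _ _)
  have h2 : ∑ k ∈ Icc (n + 1) (Nat.log 2 ⌊b⌋₊),
      ∑ p ∈ QQ A ⌊b⌋₊ k, r (p ^ k) * Real.log ((p ^ k : ℕ) : ℝ) ≤
        (2 * Real.log b) * (B₀ * y * Real.log b * (1 + Real.log b)) := by
    refine (Finset.sum_le_sum h1).trans ?_
    rw [Finset.sum_const, nsmul_eq_mul, Nat.card_Icc]
    apply mul_le_mul_of_nonneg_right _ (by (clear * - hb hB hlb; positivity))
    refine le_trans ?_ (natLog_le hb)
    exact_mod_cast (by omega : Nat.log 2 ⌊b⌋₊ + 1 - (n + 1) ≤ Nat.log 2 ⌊b⌋₊)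
  refine h2.trans ?_
  set s : ℝ := 1 / (16 * n) with hs
  have hs0 : 0 < s := by positivity
  set z := b ^ s with hz
  have hz1 : 1 ≤ z := Real.one_le_rpow hb hs0.le
  have h3 : Real.log b ≤ 16 * n * z := by
    have h4 := Real.log_le_rpow_div hb0.le hs0
    have h5 : b ^ s / s = 16 * n * z := by
      rw [hs, div_div_eq_mul_div, div_one, mul_comm]
    rwa [h5] at h4
  have h4 : 1 + Real.log b ≤ (1 + 16 * n) * z := by nlinarith only [hz1, h3]
  have h5 : z ^ 3 * y ≤ b ^ ((1 : ℝ) - 1 / (4 * n)) := by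
    rw [hz, hy, ← Real.rpow_natCast, ← Real.rpow_mul hb0.le, ← Real.rpow_add hb0]
    apply Real.rpow_le_rpow_of_exponent_le hb
    rw [hs]
    have h6 : (1 : ℝ) / (16 * n) * ((3 : ℕ) : ℝ) + (1 - 1 / (2 * n)) =
        1 - (5 / 16) * (1 / n) := by
      field_simp
      push_cast
      ring
    have h7 : (1 : ℝ) - 1 / (4 * n) = 1 - (1 / 4) * (1 / n) := by
      (clear * - hn; field_simp)
    rw [h6, h7]
    have h8 : 0 < (1 : ℝ) / n := by positivity
    linarith only [h8]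
  calc (2 * Real.log b) * (B₀ * y * Real.log b * (1 + Real.log b))
      ≤ (2 * (16 * n * z)) * (B₀ * y * (16 * n * z) * ((1 + 16 * n) * z)) := by (clear * - hn hb hB hlb h3 h4; gcongr)
    _ = (2 * (16 * n) ^ 2 * (1 + 16 * n)) * B₀ * (z ^ 3 * y) := by ring
    _ ≤ _ := by (clear * - hn hB h5; gcongr)

/-! ### prime powers with a small exponent -/

theorem theta_sub {z Y : ℝ} (hzY : z ≤ Y) :
    ∑ p ∈ (Ioc ⌊z⌋₊ ⌊Y⌋₊).filter Nat.Prime, Real.log p = Chebyshev.theta Y - Chebyshev.theta z := by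
  unfold Chebyshev.theta
  rw [Finset.sum_filter, Finset.sum_filter, Finset.sum_filter]
  have h1 := Finset.sum_Ioc_consecutive (fun p : ℕ => if p.Prime then Real.log (p : ℝ) else 0)
    (Nat.zero_le ⌊z⌋₊) (Nat.floor_le_floor hzY)
  linarith

theorem low_gen {n : ℕ} (hn : 0 < n) {B₀ : ℝ} {r U : ℕ → ℝ} (h : HTc n B₀ r U) {A B k : ℕ}
    (hk1 : 1 ≤ k) (hkn : k ≤ n) {z Y : ℝ} (hz : 0 ≤ z) (hzY : z ≤ Y)
    (hQ : ∀ p ∈ QQ A B k, z < p ∧ (p : ℝ) ≤ Y) :
    ∑ p ∈ QQ A B k, r (p ^ k) * Real.log ((p ^ k : ℕ) : ℝ) ≤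
      B₀ * k * Y ^ (k - 1) * (Chebyshev.theta Y - Chebyshev.theta z) := by
  have hB := B_nonneg hn h
  have hY : 0 ≤ Y := hz.trans hzY
  have hc : (k + n - 1) / n = 1 := by
    apply Nat.div_eq_of_lt_le <;> omega
  rw [← theta_sub hzY, Finset.mul_sum]
  calc ∑ p ∈ QQ A B k, r (p ^ k) * Real.log ((p ^ k : ℕ) : ℝ)
      ≤ ∑ p ∈ QQ A B k, B₀ * k * Y ^ (k - 1) * Real.log p := by
        apply Finset.sum_le_sum
        intro p hp
        obtain ⟨hpp, -, -⟩ := (mem_QQ hk1).mp hp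
        obtain ⟨-, hpY⟩ := hQ p hp
        have hp0 : (0 : ℝ) < p := by exact_mod_cast hpp.pos
        have h1 := h.pow p k hpp hk1
        rw [hc, pow_one] at h1
        have h2 : r (p ^ k) ≤ B₀ * (p : ℝ) ^ (k - 1) := by
          have h3 : r (p ^ k) * p ≤ B₀ * (p : ℝ) ^ (k - 1) * p := by
            refine h1.trans (le_of_eq ?_)
            rw [mul_assoc, ← pow_succ]
            congr 2
            omega
          exact le_of_mul_le_mul_right h3 hp0
        have h4 : Real.log ((p ^ k : ℕ) : ℝ) = k * Real.log p := by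
          push_cast
          rw [Real.log_pow]
        rw [h4]
        have h5 : 0 ≤ Real.log (p : ℝ) := Real.log_natCast_nonneg _
        calc r (p ^ k) * (k * Real.log p) ≤ (B₀ * (p : ℝ) ^ (k - 1)) * (k * Real.log p) :=
              mul_le_mul_of_nonneg_right h2 (by (clear * - hk1; positivity))
          _ ≤ (B₀ * Y ^ (k - 1)) * (k * Real.log p) := by (clear * - hk1 hB hpY hp0; gcongr)
          _ = _ := by ring
    _ ≤ _ := by
        apply Finset.sum_le_sum_of_subset_of_nonneg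
        · intro p hp
          obtain ⟨hpp, -, -⟩ := (mem_QQ hk1).mp hp
          obtain ⟨h1, h2⟩ := hQ p hp
          rw [mem_filter, mem_Ioc]
          exact ⟨⟨(Nat.floor_lt hz).mpr h1, Nat.le_floor h2⟩, hpp⟩
        · intro p _ _
          have h5 : 0 ≤ Real.log (p : ℝ) := Real.log_natCast_nonneg _
          (clear * - hk1 hB hY; positivity)

theorem root_pow {b : ℝ} (hb : 0 ≤ b) {k : ℕ} (hk : 1 ≤ k) : (b ^ ((k : ℝ)⁻¹)) ^ k = b :=
  Real.rpow_inv_natCast_pow hb (by omega)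

theorem low_all {n : ℕ} (hn : 0 < n) {B₀ : ℝ} {r U : ℕ → ℝ} (h : HTc n B₀ r U) {b : ℝ}
    (hb : 1 ≤ b) {k : ℕ} (hk1 : 1 ≤ k) (hkn : k ≤ n) (A : ℕ) :
    ∑ p ∈ QQ A ⌊b⌋₊ k, r (p ^ k) * Real.log ((p ^ k : ℕ) : ℝ) ≤ B₀ * n * Real.log 4 * b := by
  have hB := B_nonneg hn h
  have hb0 : 0 ≤ b := by linarith only [hb]
  set Y := b ^ ((k : ℝ)⁻¹) with hY
  have hY0 : 0 ≤ Y := Real.rpow_nonneg hb0 _
  have hYk : Y ^ k = b := root_pow hb0 hk1
  have h1 := low_gen hn h (A := A) (B := ⌊b⌋₊) hk1 hkn (z := 0) (Y := Y) le_rfl hY0 (by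
    intro p hp
    obtain ⟨hpp, -, hpb⟩ := (mem_QQ hk1).mp hp
    refine ⟨by exact_mod_cast hpp.pos, ?_⟩
    have hpb' : (p : ℝ) ^ k ≤ Y ^ k := by
      rw [hYk]
      have h2 : ((p ^ k : ℕ) : ℝ) ≤ (⌊b⌋₊ : ℝ) := by exact_mod_cast hpb
      push_cast at h2
      exact h2.trans (Nat.floor_le hb0)
    exact (pow_le_pow_iff_left₀ (by (clear * -; positivity)) hY0 (by omega)).mp hpb')
  refine h1.trans ?_
  rw [Chebyshev.theta_zero, sub_zero]
  have h4 : 0 ≤ Real.log 4 := Real.log_nonneg (by norm_num)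
  have hkn' : (k : ℝ) ≤ n := by exact_mod_cast hkn
  calc B₀ * k * Y ^ (k - 1) * Chebyshev.theta Y ≤ B₀ * k * Y ^ (k - 1) * (Real.log 4 * Y) :=
        mul_le_mul_of_nonneg_left (Chebyshev.theta_le_log4_mul_x hY0) (by positivity)
    _ = B₀ * k * Real.log 4 * (Y ^ (k - 1) * Y) := by ring
    _ = B₀ * k * Real.log 4 * b := by
        rw [← pow_succ, show k - 1 + 1 = k by omega, hYk]
    _ ≤ _ := by gcongr

theorem low_short {n : ℕ} (hn : 0 < n) {δ : ℝ} (hδ : 0 < δ) (hδ2 : δ ≤ 2) :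
    ∃ a₀ : ℝ, 1 ≤ a₀ ∧ ∀ {B₀ : ℝ} {r U : ℕ → ℝ}, HTc n B₀ r U → ∀ a : ℝ, a₀ ≤ a → ∀ k : ℕ,
      1 ≤ k → k ≤ n →
      ∑ p ∈ QQ ⌊a⌋₊ ⌊(1 + δ) * a⌋₊ k, r (p ^ k) * Real.log ((p ^ k : ℕ) : ℝ) ≤
        2 * B₀ * n * 3 ^ n * δ * a := by
  have hlim := Vale.Agent.PNT.theta_sub_theta_div_tendsto (a := 1) (b := 1 + δ) one_pos
    (by linarith only [hδ])
  have hlt : 1 + δ - 1 < 2 * δ := by linarith
  obtain ⟨z₀, hz₀⟩ := (hlim.eventually (gt_mem_nhds hlt)).exists_forall_of_atTop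
  set z₁ := max z₀ 1 with hz₁
  have hz11 : 1 ≤ z₁ := le_max_right _ _
  refine ⟨z₁ ^ n, one_le_pow₀ hz11, ?_⟩
  intro B₀ r U h a ha k hk1 hkn
  have hB := B_nonneg hn h
  have ha1 : 1 ≤ a := (one_le_pow₀ hz11).trans ha
  have ha0 : 0 ≤ a := by linarith only [ha1]
  set z := a ^ ((k : ℝ)⁻¹) with hz
  have hz0 : 0 ≤ z := Real.rpow_nonneg ha0 _
  have hzk : z ^ k = a := root_pow ha0 hk1
  have hzz : z₁ ≤ z := by
    have h1 : z₁ ^ k ≤ z ^ k := by
      rw [hzk]
      exact (pow_le_pow_right₀ hz11 hkn).trans ha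
    exact (pow_le_pow_iff_left₀ (by linarith only [hz11]) hz0 (by omega)).mp h1
  have hzpos : 0 < z := by linarith only [hz11, hzz]
  have hY : z ≤ (1 + δ) * z := by nlinarith only [hδ, hz0]
  have h1 := low_gen hn h (A := ⌊a⌋₊) (B := ⌊(1 + δ) * a⌋₊) hk1 hkn (z := z) (Y := (1 + δ) * z)
    hz0 hY (by
      intro p hp
      obtain ⟨hpp, hpa, hpb⟩ := (mem_QQ hk1).mp hp
      constructor
      · have h2 : a < ((p ^ k : ℕ) : ℝ) := (Nat.floor_lt ha0).mp hpa
        push_cast at h2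
        rw [← hzk] at h2
        exact lt_of_pow_lt_pow_left₀ k (by (clear * -; positivity)) h2
      · have h2 : ((p ^ k : ℕ) : ℝ) ≤ (⌊(1 + δ) * a⌋₊ : ℝ) := by exact_mod_cast hpb
        have h3 := h2.trans (Nat.floor_le (by positivity))
        push_cast at h3
        have h4 : (p : ℝ) ^ k ≤ ((1 + δ) * z) ^ k := by
          refine h3.trans ?_
          rw [mul_pow, hzk]
          apply mul_le_mul_of_nonneg_right _ ha0
          exact le_self_pow₀ (by linarith only [hδ]) (by omega)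
        exact (pow_le_pow_iff_left₀ (by (clear * -; positivity)) (by positivity) (by omega)).mp h4)
  refine h1.trans ?_
  have h2 : Chebyshev.theta ((1 + δ) * z) - Chebyshev.theta z ≤ 2 * δ * z := by
    have h3 := hz₀ z ((le_max_left _ _).trans hzz)
    rw [one_mul, div_lt_iff₀ hzpos] at h3
    linarith only [h3]
  have hkn' : (k : ℝ) ≤ n := by exact_mod_cast hkn
  calc B₀ * k * ((1 + δ) * z) ^ (k - 1) *
        (Chebyshev.theta ((1 + δ) * z) - Chebyshev.theta z)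
      ≤ B₀ * k * ((1 + δ) * z) ^ (k - 1) * (2 * δ * z) :=
        mul_le_mul_of_nonneg_left h2 (by (clear * - hδ hk1 hB ha1; positivity))
    _ = 2 * B₀ * k * (1 + δ) ^ (k - 1) * δ * (z ^ (k - 1) * z) := by
        rw [mul_pow]
        ring
    _ = 2 * B₀ * k * (1 + δ) ^ (k - 1) * δ * a := by
        rw [← pow_succ, show k - 1 + 1 = k by omega, hzk]
    _ ≤ 2 * B₀ * n * 3 ^ n * δ * a := by
        have h5 : (1 + δ) ^ (k - 1) ≤ 3 ^ n := by
          calc (1 + δ) ^ (k - 1) ≤ 3 ^ (k - 1) := pow_le_pow_left₀ (by positivity) (by linarith only [hδ2]) _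
            _ ≤ 3 ^ n := pow_le_pow_right₀ (by norm_num) (by omega)
        gcongr

/-! ### all prime powers -/

theorem split_sum (n L : ℕ) (F : ℕ → ℝ) (hF : ∀ k, 0 ≤ F k) :
    ∑ k ∈ Icc 1 L, F k ≤ ∑ k ∈ Icc 1 n, F k + ∑ k ∈ Icc (n + 1) L, F k := by
  rw [← Finset.sum_union]
  · apply Finset.sum_le_sum_of_subset_of_nonneg
    · intro k hk
      rw [mem_union, mem_Icc, mem_Icc]
      have := mem_Icc.mp hk
      omega
    · exact fun k _ _ => hF k
  · rw [Finset.disjoint_left]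
    intro k hk hk'
    have h1 := mem_Icc.mp hk
    have h2 := mem_Icc.mp hk'
    omega

theorem PP_all {n : ℕ} (hn : 0 < n) : ∃ C : ℝ, 0 < C ∧ ∀ {B₀ : ℝ} {r U : ℕ → ℝ}, HTc n B₀ r U →
    ∀ b : ℝ, 1 ≤ b → ∀ A : ℕ,
      ∑ q ∈ PP A ⌊b⌋₊, r q * Real.log (q : ℝ) ≤ C * B₀ * b := by
  have hnR : (0 : ℝ) < n := by exact_mod_cast hn
  have h4 : 0 ≤ Real.log 4 := Real.log_nonneg (by norm_num)
  refine ⟨n * (n * Real.log 4) + 2 * (16 * n) ^ 2 * (1 + 16 * n), by positivity, ?_⟩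
  intro B₀ r U h b hb A
  have hB := B_nonneg hn h
  have hb0 : 0 < b := by linarith only [hb]
  have hnn : ∀ m, 0 ≤ r m * Real.log (m : ℝ) := fun m =>
    mul_nonneg (h.nonneg m) (Real.log_natCast_nonneg m)
  have h1 := sum_PP_le (fun m => r m * Real.log (m : ℝ)) hnn A ⌊b⌋₊
  have h2 := split_sum n (Nat.log 2 ⌊b⌋₊)
    (fun k => ∑ p ∈ QQ A ⌊b⌋₊ k, r (p ^ k) * Real.log ((p ^ k : ℕ) : ℝ))
    (fun k => Finset.sum_nonneg fun p _ => hnn _)
  have h3 := high_sum hn h hb A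
  have h5 : ∑ k ∈ Icc 1 n, ∑ p ∈ QQ A ⌊b⌋₊ k, r (p ^ k) * Real.log ((p ^ k : ℕ) : ℝ) ≤
      n * (B₀ * n * Real.log 4 * b) := by
    have h6 : ∀ k ∈ Icc 1 n, ∑ p ∈ QQ A ⌊b⌋₊ k, r (p ^ k) * Real.log ((p ^ k : ℕ) : ℝ) ≤
        B₀ * n * Real.log 4 * b := fun k hk =>
      low_all hn h hb (mem_Icc.mp hk).1 (mem_Icc.mp hk).2 A
    refine (Finset.sum_le_sum h6).trans (le_of_eq ?_)
    rw [Finset.sum_const, Nat.card_Icc, Nat.add_sub_cancel, nsmul_eq_mul]
  have h6 : b ^ ((1 : ℝ) - 1 / (4 * n)) ≤ b := by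
    conv_rhs => rw [← Real.rpow_one b]
    apply Real.rpow_le_rpow_of_exponent_le hb
    have : (0 : ℝ) ≤ 1 / (4 * n) := by positivity
    linarith only [this]
  have h7 : (2 * (16 * n) ^ 2 * (1 + 16 * n)) * B₀ * b ^ ((1 : ℝ) - 1 / (4 * n)) ≤
      (2 * (16 * n) ^ 2 * (1 + 16 * n)) * B₀ * b := by (clear * - hn hB h6; gcongr)
  have h8 := h1.trans h2
  refine h8.trans ((add_le_add h5 (h3.trans h7)).trans (le_of_eq ?_))
  ring

theorem PP_short {n : ℕ} (hn : 0 < n) : ∃ C : ℝ, 0 < C ∧ ∀ δ : ℝ, 0 < δ → δ ≤ 2 →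
    ∃ a₀ : ℝ, 1 ≤ a₀ ∧ ∀ {B₀ : ℝ} {r U : ℕ → ℝ}, HTc n B₀ r U → ∀ a : ℝ, a₀ ≤ a →
      ∑ q ∈ PP ⌊a⌋₊ ⌊(1 + δ) * a⌋₊, r q * Real.log (q : ℝ) ≤ C * B₀ * δ * a := by
  have hnR : (0 : ℝ) < n := by exact_mod_cast hn
  refine ⟨n * (2 * n * 3 ^ n) + 1, by positivity, ?_⟩
  intro δ hδ hδ2
  obtain ⟨a₀, ha₀, hlow⟩ := low_short hn hδ hδ2
  set C1 : ℝ := 2 * (16 * n) ^ 2 * (1 + 16 * n) with hC1
  have hC1pos : 0 < C1 := by positivity
  have hs : (0 : ℝ) < 1 / (4 * n) := by positivity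
  obtain ⟨b₀, hb₀⟩ := ((tendsto_rpow_neg_atTop hs).eventually
    (gt_mem_nhds (show (0 : ℝ) < δ / (3 * C1) by positivity))).exists_forall_of_atTop
  refine ⟨max a₀ b₀, ha₀.trans (le_max_left _ _), ?_⟩
  intro B₀ r U h a ha
  have hB := B_nonneg hn h
  have haa : a₀ ≤ a := (le_max_left _ _).trans ha
  have hab : b₀ ≤ a := (le_max_right _ _).trans ha
  have ha1 : 1 ≤ a := ha₀.trans haa
  have ha0 : 0 < a := by linarith only [ha₀, haa]
  have hda : a ≤ (1 + δ) * a := by nlinarith only [hδ, ha₀, haa]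
  have hd1 : 1 ≤ (1 + δ) * a := ha1.trans hda
  have hd0 : 0 < (1 + δ) * a := by linarith only [ha₀, haa, hda]
  have hnn : ∀ m, 0 ≤ r m * Real.log (m : ℝ) := fun m =>
    mul_nonneg (h.nonneg m) (Real.log_natCast_nonneg m)
  have h1 := sum_PP_le (fun m => r m * Real.log (m : ℝ)) hnn ⌊a⌋₊ ⌊(1 + δ) * a⌋₊
  have h2 := split_sum n (Nat.log 2 ⌊(1 + δ) * a⌋₊)
    (fun k => ∑ p ∈ QQ ⌊a⌋₊ ⌊(1 + δ) * a⌋₊ k, r (p ^ k) * Real.log ((p ^ k : ℕ) : ℝ))
    (fun k => Finset.sum_nonneg fun p _ => hnn _)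
  have h3 := high_sum hn h hd1 ⌊a⌋₊
  rw [← hC1] at h3
  have h5 : ∑ k ∈ Icc 1 n, ∑ p ∈ QQ ⌊a⌋₊ ⌊(1 + δ) * a⌋₊ k,
      r (p ^ k) * Real.log ((p ^ k : ℕ) : ℝ) ≤ n * (2 * B₀ * n * 3 ^ n * δ * a) := by
    have h6 : ∀ k ∈ Icc 1 n, ∑ p ∈ QQ ⌊a⌋₊ ⌊(1 + δ) * a⌋₊ k,
        r (p ^ k) * Real.log ((p ^ k : ℕ) : ℝ) ≤ 2 * B₀ * n * 3 ^ n * δ * a := fun k hk =>
      hlow h a haa k (mem_Icc.mp hk).1 (mem_Icc.mp hk).2
    refine (Finset.sum_le_sum h6).trans (le_of_eq ?_)
    rw [Finset.sum_const, Nat.card_Icc, Nat.add_sub_cancel, nsmul_eq_mul]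
  have h6 : C1 * B₀ * ((1 + δ) * a) ^ ((1 : ℝ) - 1 / (4 * n)) ≤ B₀ * δ * a := by
    have h7 : ((1 + δ) * a) ^ ((1 : ℝ) - 1 / (4 * n)) =
        ((1 + δ) * a) * ((1 + δ) * a) ^ (-(1 / (4 * n) : ℝ)) := by
      rw [sub_eq_add_neg, Real.rpow_add hd0, Real.rpow_one]
    have h8 : ((1 + δ) * a) ^ (-(1 / (4 * n) : ℝ)) ≤ δ / (3 * C1) := (hb₀ _ (hab.trans hda)).le
    rw [h7]
    calc C1 * B₀ * (((1 + δ) * a) * ((1 + δ) * a) ^ (-(1 / (4 * n) : ℝ)))
        ≤ C1 * B₀ * ((3 * a) * (δ / (3 * C1))) := by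
          apply mul_le_mul_of_nonneg_left _ (by (clear * - hn hB; positivity))
          apply mul_le_mul _ h8 (Real.rpow_nonneg hd0.le _) (by positivity)
          apply mul_le_mul_of_nonneg_right _ ha0.le
          linarith only [hδ2]
      _ = B₀ * δ * a := by
          (clear * - hδ hC1pos ha1; field_simp)
  refine (h1.trans h2).trans ((add_le_add h5 (h3.trans h6)).trans (le_of_eq ?_))
  ring

/-! ### the main bounds -/

theorem prodU_mono {n : ℕ} {B₀ : ℝ} {r U : ℕ → ℝ} (h : HTc n B₀ r U) {N M : ℕ} (hNM : N ≤ M) :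
    ∏ p ∈ (range (N + 1)).filter Nat.Prime, U p ≤ ∏ p ∈ (range (M + 1)).filter Nat.Prime, U p := by
  apply Finset.prod_le_prod_of_subset_of_one_le
  · intro p hp
    rw [mem_filter, mem_range] at hp ⊢
    exact ⟨by omega, hp.2⟩
  · intro p hp
    exact zero_le_one.trans (h.U1 p (mem_filter.mp hp).2)
  · intro p hp _
    exact h.U1 p (mem_filter.mp hp).2

theorem prodU_nonneg {n : ℕ} {B₀ : ℝ} {r U : ℕ → ℝ} (h : HTc n B₀ r U) (N : ℕ) :
    0 ≤ ∏ p ∈ (range (N + 1)).filter Nat.Prime, U p :=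
  Finset.prod_nonneg fun p hp => zero_le_one.trans (h.U1 p (mem_filter.mp hp).2)

theorem htc_crude (n : ℕ) (hn : 0 < n) (B₀ : ℝ) : ∃ C : ℝ, 0 < C ∧ ∀ r U : ℕ → ℝ,
    HTc n B₀ r U → ∀ X : ℝ, 2 ≤ X →
      ∑ m ∈ Icc 1 ⌊X⌋₊, r m ≤
        C * X / Real.log X * ∏ p ∈ (range (⌊X⌋₊ + 1)).filter Nat.Prime, U p := by
  obtain ⟨C1, hC1, hall⟩ := PP_all hn
  refine ⟨C1 * |B₀| + 1, by positivity, ?_⟩
  intro r U h X hX
  have hB := B_nonneg hn h
  rw [abs_of_nonneg hB]
  have hX0 : 0 < X := by linarith only [hX]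
  have hlogX : 0 < Real.log X := Real.log_pos (by linarith)
  set P := ∏ p ∈ (range (⌊X⌋₊ + 1)).filter Nat.Prime, U p with hP
  have hsum := sum_div_le h ⌊X⌋₊
  rw [← hP] at hsum
  rw [div_mul_eq_mul_div, le_div_iff₀ hlogX, Finset.sum_mul]
  have h1 : ∀ m ∈ Icc 1 ⌊X⌋₊, r m * Real.log X ≤ r m * Real.log m + X * (r m / m) := by
    intro m hm
    have hm1 := (mem_Icc.mp hm).1
    have hm0 : (0 : ℝ) < m := by exact_mod_cast (by omega : 0 < m)
    have h2 : Real.log X = Real.log m + Real.log (X / m) := by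
      rw [Real.log_div hX0.ne' hm0.ne']
      ring
    have h3 : Real.log (X / m) ≤ X / m := by
      have := Real.log_le_sub_one_of_pos (show 0 < X / m by positivity)
      linarith only [this]
    rw [h2, mul_add]
    have h4 : r m * Real.log (X / m) ≤ r m * (X / m) := mul_le_mul_of_nonneg_left h3 (h.nonneg m)
    have h5 : r m * (X / m) = X * (r m / m) := by ring
    linarith only [h4, h5]
  have h2 : ∑ m ∈ Icc 1 ⌊X⌋₊, r m * Real.log m ≤ C1 * B₀ * X * P := by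
    have h3 : Icc 1 ⌊X⌋₊ = Ioc 0 ⌊X⌋₊ := by
      ext m
      rw [mem_Icc, mem_Ioc]
      omega
    rw [h3]
    refine (sum_conv_le h 0 ⌊X⌋₊).trans ?_
    calc ∑ a ∈ Icc 1 ⌊X⌋₊, r a * ∑ q ∈ PP (0 / a) (⌊X⌋₊ / a), r q * Real.log (q : ℝ)
        ≤ ∑ a ∈ Icc 1 ⌊X⌋₊, C1 * B₀ * X * (r a / a) := by
          apply Finset.sum_le_sum
          intro a ha
          obtain ⟨ha1, ha2⟩ := mem_Icc.mp ha
          have ha0 : (0 : ℝ) < a := by exact_mod_cast (by omega : 0 < a)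
          have haX : (a : ℝ) ≤ X := (Nat.le_floor_iff hX0.le).mp ha2
          have h4 := hall h (X / a) (by rw [le_div_iff₀ ha0, one_mul]; exact haX) (0 / a)
          rw [Nat.floor_div_natCast] at h4
          calc r a * ∑ q ∈ PP (0 / a) (⌊X⌋₊ / a), r q * Real.log (q : ℝ)
              ≤ r a * (C1 * B₀ * (X / a)) := mul_le_mul_of_nonneg_left h4 (h.nonneg a)
            _ = _ := by ring
      _ = C1 * B₀ * X * ∑ a ∈ Icc 1 ⌊X⌋₊, r a / a := by rw [Finset.mul_sum]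
      _ ≤ _ := mul_le_mul_of_nonneg_left hsum (by (clear * - hC1 hX hB; positivity))
  calc ∑ m ∈ Icc 1 ⌊X⌋₊, r m * Real.log X
      ≤ ∑ m ∈ Icc 1 ⌊X⌋₊, (r m * Real.log m + X * (r m / m)) := Finset.sum_le_sum h1
    _ = ∑ m ∈ Icc 1 ⌊X⌋₊, r m * Real.log m + X * ∑ m ∈ Icc 1 ⌊X⌋₊, r m / m := by
        rw [Finset.sum_add_distrib, Finset.mul_sum]
    _ ≤ C1 * B₀ * X * P + X * P := add_le_add h2 (mul_le_mul_of_nonneg_left hsum hX0.le)
    _ = _ := by ring

theorem short_w {n : ℕ} (hn : 0 < n) {B₀ : ℝ} {r U : ℕ → ℝ} (h : HTc n B₀ r U)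
    {C1 C2 a₀ δ X : ℝ} {A B : ℕ} (hC1 : 0 < C1) (hC2 : 0 < C2) (ha₀ : 1 ≤ a₀) (hδ : 0 < δ)
    (hδ1 : δ ≤ 1) (hX4 : 4 ≤ X) (hδX : 3 ≤ δ * X) (hA1 : X - 1 ≤ A) (hA2 : (A : ℝ) ≤ X)
    (hBle : (B : ℝ) ≤ (1 + δ) * X)
    (hall : ∀ b : ℝ, 1 ≤ b → ∀ A : ℕ,
      ∑ q ∈ PP A ⌊b⌋₊, r q * Real.log (q : ℝ) ≤ C1 * B₀ * b)
    (hsh : ∀ a : ℝ, a₀ ≤ a →
      ∑ q ∈ PP ⌊a⌋₊ ⌊(1 + 2 * δ) * a⌋₊, r q * Real.log (q : ℝ) ≤ C2 * B₀ * (2 * δ) * a)
    (a : ℕ) (ha : a ∈ Icc 1 B) :
    ∑ q ∈ PP (A / a) (B / a), r q * Real.log (q : ℝ) ≤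
      2 * C2 * B₀ * δ * X / a + 4 * C1 * B₀ * a₀ := by
  have hB := B_nonneg hn h
  have hA0 : (0 : ℝ) < A := by linarith only [hX4, hA1]
  have hX0 : 0 < X := by linarith
  obtain ⟨ha1, ha2⟩ := mem_Icc.mp ha
  have ha0 : (0 : ℝ) < a := by exact_mod_cast (by omega : 0 < a)
  have haB : (a : ℝ) ≤ B := by exact_mod_cast ha2
  have hnn : ∀ m, 0 ≤ r m * Real.log (m : ℝ) := fun m =>
    mul_nonneg (h.nonneg m) (Real.log_natCast_nonneg m)
  rcases le_or_gt a₀ ((A : ℝ) / a) with hc | hc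
  · have h1 := hsh ((A : ℝ) / a) hc
    have hsub : PP (A / a) (B / a) ⊆ PP ⌊(A : ℝ) / a⌋₊ ⌊(1 + 2 * δ) * ((A : ℝ) / a)⌋₊ := by
      intro q hq
      rw [mem_PP] at hq ⊢
      refine ⟨?_, ?_, hq.2.2⟩
      · rw [Nat.floor_div_natCast, Nat.floor_natCast]
        exact hq.1
      · refine hq.2.1.trans ?_
        apply Nat.le_floor
        have h2 : ((B / a : ℕ) : ℝ) ≤ (B : ℝ) / a := Nat.cast_div_le
        refine h2.trans ?_
        rw [← mul_div_assoc]
        apply div_le_div_of_nonneg_right _ ha0.le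
        nlinarith only [hδ, hX4, hδX, hA1, hBle]
    have h2 : 0 ≤ 4 * C1 * B₀ * a₀ := by (clear * - hC1 ha₀ hB; positivity)
    have h3 : (A : ℝ) / a ≤ X / a := div_le_div_of_nonneg_right hA2 ha0.le
    calc ∑ q ∈ PP (A / a) (B / a), r q * Real.log (q : ℝ)
        ≤ ∑ q ∈ PP ⌊(A : ℝ) / a⌋₊ ⌊(1 + 2 * δ) * ((A : ℝ) / a)⌋₊, r q * Real.log (q : ℝ) :=
          Finset.sum_le_sum_of_subset_of_nonneg hsub fun q _ _ => hnn q
      _ ≤ C2 * B₀ * (2 * δ) * ((A : ℝ) / a) := h1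
      _ ≤ C2 * B₀ * (2 * δ) * (X / a) := mul_le_mul_of_nonneg_left h3 (by (clear * - hC2 hδ hB; positivity))
      _ = 2 * C2 * B₀ * δ * X / a := by ring
      _ ≤ _ := by linarith only [h2]
  · have h1 := hall ((B : ℝ) / a) (by rw [le_div_iff₀ ha0, one_mul]; exact haB) (A / a)
    rw [Nat.floor_div_natCast, Nat.floor_natCast] at h1
    have h2 : (0 : ℝ) ≤ 2 * C2 * B₀ * δ * X / a := by (clear * - hC2 hδ hX4 hB ha1; positivity)
    have h3 : (B : ℝ) / a ≤ 4 * a₀ := by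
      rw [div_lt_iff₀ ha0] at hc
      rw [div_le_iff₀ ha0]
      have h4 : (B : ℝ) ≤ 2 * X := by nlinarith only [hδ, hδ1, hBle]
      nlinarith only [hX4, hA1, hc, h4]
    calc ∑ q ∈ PP (A / a) (B / a), r q * Real.log (q : ℝ) ≤ C1 * B₀ * ((B : ℝ) / a) := h1
      _ ≤ C1 * B₀ * (4 * a₀) := mul_le_mul_of_nonneg_left h3 (by positivity)
      _ = 4 * C1 * B₀ * a₀ := by ring
      _ ≤ _ := by linarith only [h2]

theorem short_main {n : ℕ} (hn : 0 < n) {B₀ : ℝ} {r U : ℕ → ℝ} (h : HTc n B₀ r U)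
    {C1 C2 C3 a₀ δ X P : ℝ} {A B : ℕ} (hC1 : 0 < C1) (hC2 : 0 < C2) (ha₀ : 1 ≤ a₀)
    (hδ : 0 < δ) (hX0 : 0 < X) (hlogX : 0 < Real.log X) (hP0 : 0 ≤ P)
    (hlogK : 8 * C1 * a₀ * C3 / δ ≤ Real.log X)
    (hAX : ∀ m, A < m → X ≤ (m : ℝ))
    (hsum : ∑ a ∈ Icc 1 B, r a / a ≤ P)
    (hcr : ∑ a ∈ Icc 1 B, r a ≤ C3 * (2 * X) / Real.log X * P)
    (hw : ∀ a ∈ Icc 1 B, ∑ q ∈ PP (A / a) (B / a), r q * Real.log (q : ℝ) ≤
      2 * C2 * B₀ * δ * X / a + 4 * C1 * B₀ * a₀) :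
    (∑ m ∈ Ioc A B, r m) * Real.log X ≤ (2 * C2 + 1) * B₀ * δ * X * P := by
  have hB := B_nonneg hn h
  rw [Finset.sum_mul]
  have e1 : ∑ m ∈ Ioc A B, r m * Real.log X ≤ ∑ m ∈ Ioc A B, r m * Real.log m := by
    apply Finset.sum_le_sum
    intro m hm
    apply mul_le_mul_of_nonneg_left _ (h.nonneg m)
    exact Real.log_le_log hX0 (hAX m (mem_Ioc.mp hm).1)
  have e2 := sum_conv_le h A B
  have e3 : ∑ a ∈ Icc 1 B, r a * ∑ q ∈ PP (A / a) (B / a), r q * Real.log (q : ℝ) ≤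
      ∑ a ∈ Icc 1 B, r a * (2 * C2 * B₀ * δ * X / a + 4 * C1 * B₀ * a₀) := by
    apply Finset.sum_le_sum
    intro a ha
    exact mul_le_mul_of_nonneg_left (hw a ha) (h.nonneg a)
  have e4 : ∑ a ∈ Icc 1 B, r a * (2 * C2 * B₀ * δ * X / a + 4 * C1 * B₀ * a₀) =
      2 * C2 * B₀ * δ * X * ∑ a ∈ Icc 1 B, r a / a +
        4 * C1 * B₀ * a₀ * ∑ a ∈ Icc 1 B, r a := by
    rw [Finset.mul_sum, Finset.mul_sum, ← Finset.sum_add_distrib]
    apply Finset.sum_congr rfl
    intro a _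
    ring
  have e5 : 2 * C2 * B₀ * δ * X * ∑ a ∈ Icc 1 B, r a / a ≤ 2 * C2 * B₀ * δ * X * P :=
    mul_le_mul_of_nonneg_left hsum (by (clear * - hC2 hδ hX0 hB; positivity))
  have e6 : 4 * C1 * B₀ * a₀ * ∑ a ∈ Icc 1 B, r a ≤
      4 * C1 * B₀ * a₀ * (C3 * (2 * X) / Real.log X * P) :=
    mul_le_mul_of_nonneg_left hcr (by (clear * - hC1 ha₀ hB; positivity))
  have e7 : 4 * C1 * B₀ * a₀ * (C3 * (2 * X) / Real.log X * P) =
      (8 * C1 * a₀ * C3 / Real.log X) * (B₀ * X * P) := by ring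
  have e8 : 8 * C1 * a₀ * C3 / Real.log X ≤ δ := by
    rw [div_le_iff₀ hlogX]
    rw [div_le_iff₀ hδ] at hlogK
    linarith only [hlogK]
  have e9 : (8 * C1 * a₀ * C3 / Real.log X) * (B₀ * X * P) ≤ δ * (B₀ * X * P) :=
    mul_le_mul_of_nonneg_right e8 (by (clear * - hX0 hP0 hB; positivity))
  have e10 : (2 * C2 + 1) * B₀ * δ * X * P = 2 * C2 * B₀ * δ * X * P + δ * (B₀ * X * P) := by
    ring
  linarith

theorem htc_short (n : ℕ) (hn : 0 < n) (B₀ : ℝ) : ∃ C : ℝ, 0 < C ∧ ∀ δ : ℝ, 0 < δ → δ ≤ 1 →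
    ∃ X₀ : ℝ, ∀ r U : ℕ → ℝ, HTc n B₀ r U → ∀ X : ℝ, X₀ ≤ X →
      ∑ m ∈ Icc ⌈X⌉₊ ⌊(1 + δ) * X⌋₊, r m ≤
        C * δ * X / Real.log X * ∏ p ∈ (range (⌊2 * X⌋₊ + 1)).filter Nat.Prime, U p := by
  obtain ⟨C1, hC1, hall⟩ := PP_all hn
  obtain ⟨C2, hC2, hshort⟩ := PP_short hn
  obtain ⟨C3, hC3, hcrude⟩ := htc_crude n hn B₀
  refine ⟨(2 * C2 + 1) * |B₀| + 1, by positivity, ?_⟩
  intro δ hδ hδ1
  obtain ⟨a₀, ha₀, hsh⟩ := hshort (2 * δ) (by linarith only [hδ]) (by linarith)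
  refine ⟨max (max 4 (3 / δ)) (Real.exp (8 * C1 * a₀ * C3 / δ)), ?_⟩
  intro r U h X hX
  have hB := B_nonneg hn h
  rw [abs_of_nonneg hB]
  have hX4 : 4 ≤ X := (le_max_left _ _).trans ((le_max_left _ _).trans hX)
  have hXδ : 3 / δ ≤ X := (le_max_right _ _).trans ((le_max_left _ _).trans hX)
  have hXe : Real.exp (8 * C1 * a₀ * C3 / δ) ≤ X := (le_max_right _ _).trans hX
  have hX0 : 0 < X := by linarith only [hX4]
  have hδX : 3 ≤ δ * X := by
    rw [div_le_iff₀ hδ] at hXδ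
    linarith only [hXδ]
  have hlogX : 0 < Real.log X := Real.log_pos (by linarith only [hX4])
  have hlogK : 8 * C1 * a₀ * C3 / δ ≤ Real.log X := by
    rw [Real.le_log_iff_exp_le hX0]
    exact hXe
  obtain ⟨B, hBdef⟩ : ∃ B, B = ⌊(1 + δ) * X⌋₊ := ⟨_, rfl⟩
  rw [← hBdef]
  have hBle : (B : ℝ) ≤ (1 + δ) * X := by
    rw [hBdef]
    exact Nat.floor_le (by positivity)
  have hceil : X ≤ (⌈X⌉₊ : ℝ) := Nat.le_ceil X
  have hceil2 : (⌈X⌉₊ : ℝ) < X + 1 := Nat.ceil_lt_add_one hX0.le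
  have hceil1 : 1 ≤ ⌈X⌉₊ := Nat.one_le_iff_ne_zero.mpr (by
    intro h0
    rw [h0, Nat.cast_zero] at hceil
    linarith only [hX4, hceil])
  obtain ⟨A, hA⟩ : ∃ A, A = ⌈X⌉₊ - 1 := ⟨_, rfl⟩
  have hAcast : (A : ℝ) = (⌈X⌉₊ : ℝ) - 1 := by
    rw [hA, Nat.cast_sub hceil1, Nat.cast_one]
  have hA1 : X - 1 ≤ A := by rw [hAcast]; linarith only [hceil]
  have hA2 : (A : ℝ) ≤ X := by rw [hAcast]; linarith only [hceil2]
  obtain ⟨P, hP⟩ : ∃ P, P = ∏ p ∈ (range (⌊2 * X⌋₊ + 1)).filter Nat.Prime, U p := ⟨_, rfl⟩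
  rw [← hP]
  have hP0 : 0 ≤ P := by
    rw [hP]
    exact prodU_nonneg h _
  have hB2X : B ≤ ⌊2 * X⌋₊ := by
    rw [hBdef]
    apply Nat.floor_le_floor
    nlinarith only [hδ1, hX4]
  have hPB : ∏ p ∈ (range (B + 1)).filter Nat.Prime, U p ≤ P := by
    rw [hP]
    exact prodU_mono h hB2X
  have hsum : ∑ a ∈ Icc 1 B, r a / a ≤ P := (sum_div_le h B).trans hPB
  have hcr : ∑ a ∈ Icc 1 B, r a ≤ C3 * (2 * X) / Real.log X * P := by
    have h1 := hcrude r U h ((1 + δ) * X) (by nlinarith only [hX4, hδX])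
    rw [← hBdef] at h1
    refine h1.trans ?_
    have h2 : Real.log X ≤ Real.log ((1 + δ) * X) := Real.log_le_log hX0 (by nlinarith only [hδX])
    have h3 : C3 * ((1 + δ) * X) / Real.log ((1 + δ) * X) ≤ C3 * (2 * X) / Real.log X := by
      apply div_le_div₀ (by positivity) _ hlogX h2
      apply mul_le_mul_of_nonneg_left _ hC3.le
      nlinarith only [hδ1, hX4]
    exact mul_le_mul h3 hPB (prodU_nonneg h _) (by positivity)
  have hw := short_w hn h hC1 hC2 ha₀ hδ hδ1 hX4 hδX hA1 hA2 hBle (hall h) (hsh h)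
  have hmain := short_main hn h hC1 hC2 ha₀ hδ hX0 hlogX hP0 hlogK
    (fun m hm => hceil.trans (by exact_mod_cast (by omega : ⌈X⌉₊ ≤ m))) hsum hcr hw
  have hIcc : Icc ⌈X⌉₊ B = Ioc A B := by
    ext m
    rw [mem_Icc, mem_Ioc]
    omega
  rw [hIcc]
  have h7 : ((2 * C2 + 1) * B₀ + 1) * δ * X / Real.log X * P =
      (((2 * C2 + 1) * B₀ + 1) * δ * X * P) / Real.log X := by ring
  rw [h7, le_div_iff₀ hlogX]
  refine hmain.trans ?_
  have h8 : 0 ≤ δ * X * P := by (clear * - hδ hX4 hP0; positivity)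
  have h9 : ((2 * C2 + 1) * B₀ + 1) * δ * X * P =
      (2 * C2 + 1) * B₀ * δ * X * P + δ * X * P := by ring
  rw [h9]
  linarith only [h8]

end Vale.Agent.P007.N
end

section

/-!
Local counts, part 1: roots of a monic integer polynomial modulo a prime power, and the number of
classes modulo `p^M` whose norm is divisible by `p^k`.
-/

set_option autoImplicit false

open Module Polynomial

namespace Vale.Agent.P007.N.Loc

theorem dvd_cancel {p : ℤ} (hp : Prime p) (e m : ℕ) :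
    ∀ x y : ℤ, ¬ p ^ (e + 1) ∣ x → p ^ (e + m) ∣ x * y → p ^ m ∣ y := by
  induction e with
  | zero =>
    intro x y hx h
    rw [zero_add, pow_one] at hx
    rw [zero_add] at h
    exact hp.pow_dvd_of_dvd_mul_left m hx h
  | succ e ih =>
    intro x y hx h
    by_cases hpx : p ∣ x
    · obtain ⟨x', rfl⟩ := hpx
      refine ih x' y ?_ ?_
      · intro h'
        apply hx
        rw [pow_succ' p (e + 1)]
        exact mul_dvd_mul_left p h'
      · have h2 : p ^ (e + 1 + m) = p * p ^ (e + m) := by ring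
        rw [h2, mul_assoc] at h
        exact (mul_dvd_mul_iff_left hp.ne_zero).mp h
    · exact hp.pow_dvd_of_dvd_mul_left m hpx ((pow_dvd_pow p (by omega : m ≤ e + 1 + m)).trans h)

/-- Among `n+1` integers pairwise incongruent mod `p^{e+1}`, a monic polynomial of degree `n` is not
always divisible by `p^{ne+1}`. -/
theorem exists_not_dvd {p : ℤ} (hp : Prime p) (e : ℕ) : ∀ (n : ℕ) (f : ℤ[X]), f.Monic →
    f.natDegree = n → ∀ s : Finset ℤ, s.card = n + 1 →
    (∀ a ∈ s, ∀ b ∈ s, a ≠ b → ¬ p ^ (e + 1) ∣ a - b) → ∃ a ∈ s, ¬ p ^ (n * e + 1) ∣ f.eval a := by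
  intro n
  induction n with
  | zero =>
    intro f hf hd s hs _
    have hf1 : f = 1 := (Polynomial.Monic.natDegree_eq_zero hf).mp hd
    obtain ⟨a, ha⟩ : s.Nonempty := by
      rw [← Finset.card_pos, hs]; exact Nat.succ_pos _
    refine ⟨a, ha, ?_⟩
    rw [hf1, eval_one, zero_mul, zero_add, pow_one]
    intro h
    exact hp.not_isUnit (isUnit_of_dvd_one h)
  | succ n ih =>
    intro f hf hd s hs hsep
    obtain ⟨a₀, ha₀⟩ : s.Nonempty := by
      rw [← Finset.card_pos, hs]; exact Nat.succ_pos _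
    by_contra! hcon
    set g := f /ₘ (X - C a₀) with hg
    have hdeg : f.degree ≠ 0 := by
      intro h
      have := natDegree_eq_zero_iff_degree_le_zero.mpr h.le
      omega
    have hgm : g.Monic := by
      rw [Monic, hg, leadingCoeff_divByMonic_X_sub_C f hdeg a₀]
      exact hf
    have hgd : g.natDegree = n := by
      rw [hg, natDegree_divByMonic f (monic_X_sub_C a₀), natDegree_X_sub_C, hd]
      rfl
    have hfg : ∀ a, f.eval a - f.eval a₀ = (a - a₀) * g.eval a := by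
      intro a
      have h1 := modByMonic_add_div f (X - C a₀)
      rw [modByMonic_X_sub_C_eq_C_eval] at h1
      have h2 := congrArg (eval a) h1
      rw [eval_add, eval_C, eval_mul, eval_sub, eval_X, eval_C] at h2
      rw [← h2]
      ring
    obtain ⟨a, ha, hna⟩ := ih g hgm hgd (s.erase a₀) (by rw [Finset.card_erase_of_mem ha₀, hs]; rfl)
      (fun a ha b hb hab => hsep a (Finset.mem_of_mem_erase ha) b (Finset.mem_of_mem_erase hb) hab)
    apply hna
    have ha' := Finset.mem_erase.mp ha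
    refine dvd_cancel hp e (n * e + 1) (a - a₀) _ (hsep a ha'.2 a₀ ha₀ ha'.1) ?_
    rw [← hfg]
    have h3 : e + (n * e + 1) = (n + 1) * e + 1 := by ring
    rw [h3]
    exact dvd_sub (hcon a ha'.2) (hcon a₀ ha₀)

theorem card_mod_fiber {q N : ℕ} (r : ℕ) (s : Finset ℕ)
    (hs : ∀ a ∈ s, a < q * N ∧ a % q = r) : s.card ≤ N := by
  rw [← Finset.card_range N]
  refine Finset.card_le_card_of_injOn (fun a => a / q) ?_ ?_
  · intro a ha
    rw [Finset.coe_range, Set.mem_Iio]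
    exact Nat.div_lt_of_lt_mul (hs a ha).1
  · intro a ha b hb hab
    have h1 := Nat.div_add_mod a q
    have h2 := Nat.div_add_mod b q
    rw [(hs a ha).2] at h1
    rw [(hs b hb).2] at h2
    simp only at hab
    rw [hab] at h1
    omega

/-- number of roots modulo a prime power -/
theorem card_roots_le {p : ℕ} (hp : p.Prime) {n k M e : ℕ} (f : ℤ[X]) (hf : f.Monic)
    (hn : f.natDegree = n) (hk : n * e + 1 ≤ k) (hM : e + 1 ≤ M) :
    ((Finset.range (p ^ M)).filter fun a : ℕ => (p : ℤ) ^ k ∣ f.eval (a : ℤ)).card * p ^ (e + 1) ≤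
      n * p ^ M := by
  classical
  set S := (Finset.range (p ^ M)).filter fun a : ℕ => (p : ℤ) ^ k ∣ f.eval (a : ℤ) with hS
  have hpp : Prime (p : ℤ) := Nat.prime_iff_prime_int.mp hp
  set q := p ^ (e + 1) with hq
  have hq0 : 0 < q := pow_pos hp.pos _
  have hMq : p ^ M = q * p ^ (M - (e + 1)) := by
    rw [hq, ← pow_add]
    congr 1
    omega
  have himg : (S.image fun a => a % q).card ≤ n := by
    by_contra! hcon
    obtain ⟨T, hT, hTc⟩ := Finset.exists_subset_card_eq (s := S.image fun a => a % q) (n := n + 1) hcon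
    have hch : ∀ t ∈ T, ∃ a ∈ S, a % q = t := by
      intro t ht
      obtain ⟨a, ha, hat⟩ := Finset.mem_image.mp (hT ht)
      exact ⟨a, ha, hat⟩
    choose! φ hφ using hch
    have hinj : Set.InjOn (fun t => ((φ t : ℕ) : ℤ)) T := by
      intro t ht t' ht' h
      have h1 : φ t = φ t' := Int.ofNat_injective h
      rw [← (hφ t ht).2, ← (hφ t' ht').2, h1]
    obtain ⟨a, ha, hna⟩ := exists_not_dvd hpp e n f hf hn (T.image fun t => ((φ t : ℕ) : ℤ))
      (by rw [Finset.card_image_of_injOn hinj, hTc]) (by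
        intro a ha b hb hab hdvd
        obtain ⟨t, ht, rfl⟩ := Finset.mem_image.mp ha
        obtain ⟨t', ht', rfl⟩ := Finset.mem_image.mp hb
        apply hab
        have h1 : ((q : ℕ) : ℤ) ∣ ((φ t : ℕ) : ℤ) - ((φ t' : ℕ) : ℤ) := by
          rw [hq]; push_cast; exact hdvd
        have h2 : φ t' ≡ φ t [MOD q] := (Nat.modEq_iff_dvd).mpr h1
        have h3 : t' = t := by
          rw [← (hφ t ht).2, ← (hφ t' ht').2]
          exact h2
        rw [h3])
    obtain ⟨t, ht, rfl⟩ := Finset.mem_image.mp ha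
    apply hna
    have h1 := (hφ t ht).1
    rw [hS, Finset.mem_filter] at h1
    exact (pow_dvd_pow _ hk).trans h1.2
  have hcard : S.card ≤ p ^ (M - (e + 1)) * (S.image fun a => a % q).card := by
    refine Finset.card_le_mul_card_image S _ ?_
    intro r _
    refine card_mod_fiber (q := q) r _ ?_
    intro a ha
    rw [Finset.mem_filter] at ha
    refine ⟨?_, ha.2⟩
    rw [← hMq]
    have := ha.1
    rw [hS, Finset.mem_filter, Finset.mem_range] at this
    exact this.1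
  calc S.card * q ≤ (p ^ (M - (e + 1)) * n) * q :=
        Nat.mul_le_mul_right _ (hcard.trans (Nat.mul_le_mul_left _ himg))
    _ = n * (q * p ^ (M - (e + 1))) := by ring
    _ = n * p ^ M := by rw [← hMq]

/-! ### determinants and indices -/

theorem card_quot_range {M : Type*} [AddCommGroup M] [Module.Free ℤ M] [Module.Finite ℤ M]
    (f : M →ₗ[ℤ] M) (hf : Function.Injective f) :
    Nat.card (M ⧸ LinearMap.range f) = (LinearMap.det f).natAbs := by
  rw [← Submodule.natAbs_det_equiv (LinearMap.range f) (LinearEquiv.ofInjective f hf)]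
  rfl

variable {R : Type*} [CommRing R] [IsDomain R] [Module.Free ℤ R] [Module.Finite ℤ R]

theorem card_span {x : R} (hx : x ≠ 0) :
    Nat.card (R ⧸ Ideal.span {x}) = (Algebra.norm ℤ x).natAbs := by
  have h1 := card_quot_range (Algebra.lmul ℤ R x) (fun a b hab => mul_left_cancel₀ hx hab)
  have h2 : LinearMap.range (Algebra.lmul ℤ R x) = (Ideal.span {x}).restrictScalars ℤ := by
    ext y
    rw [LinearMap.mem_range, Submodule.restrictScalars_mem, Ideal.mem_span_singleton']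
    constructor
    · rintro ⟨a, rfl⟩; exact ⟨a, mul_comm _ _⟩
    · rintro ⟨a, rfl⟩; exact ⟨a, mul_comm _ _⟩
  rw [h2] at h1
  exact h1

theorem card_nat {m : ℕ} (hm : m ≠ 0) :
    Nat.card (R ⧸ Ideal.span {(m : R)}) = m ^ finrank ℤ R := by
  have hm' : (m : R) ≠ 0 := by
    intro h
    have h1 : (m : ℤ) • (1 : R) = 0 := by rw [zsmul_eq_mul, mul_one]; exact_mod_cast h
    rcases smul_eq_zero.mp h1 with h2 | h2
    · exact hm (by exact_mod_cast h2)
    · exact one_ne_zero h2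
  rw [card_span hm']
  have h2 := Algebra.norm_algebraMap (R := ℤ) (S := R) (m : ℤ)
  have h3 : algebraMap ℤ R (m : ℤ) = (m : R) := by simp only [algebraMap_int_eq, map_natCast]
  rw [h3] at h2
  rw [h2, Int.natAbs_pow, Int.natAbs_natCast]

theorem dvd_norm {J : Ideal R} {x : R} (hx : x ∈ J) :
    ((Nat.card (R ⧸ J) : ℕ) : ℤ) ∣ Algebra.norm ℤ x := by
  by_cases hx0 : x = 0
  · have h1 : Algebra.norm ℤ x = 0 := Algebra.norm_eq_zero_iff.mpr hx0
    rw [h1]
    exact dvd_zero _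
  · have h1 := card_span hx0
    rw [Int.natCast_dvd, ← h1]
    have hle : Ideal.span {x} ≤ J := (Ideal.span_singleton_le_iff_mem J).mpr hx
    have h2 : (Ideal.span {x}).toAddSubgroup ≤ J.toAddSubgroup := hle
    exact AddSubgroup.index_dvd_of_le h2

/-- classes modulo `p^M` whose norm is divisible by `p^k` -/
theorem card_norm_dvd {p : ℕ} (hp : p.Prime) {n k M e : ℕ} (hn : finrank ℤ R = n)
    (hk : n * e + 1 ≤ k) (hM : e + 1 ≤ M) :
    Nat.card {z : R ⧸ Ideal.span {((p ^ M : ℕ) : R)} // ∀ x, Ideal.Quotient.mk _ x = z →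
      (p : ℤ) ^ k ∣ Algebra.norm ℤ x} * p ^ (e + 1) ≤ n * (p ^ M) ^ n := by
  classical
  have hq0 : p ^ M ≠ 0 := pow_ne_zero _ hp.ne_zero
  have hcA : Nat.card (R ⧸ Ideal.span {((p ^ M : ℕ) : R)}) = (p ^ M) ^ n := by
    rw [card_nat hq0, hn]
  have hfin : Finite (R ⧸ Ideal.span {((p ^ M : ℕ) : R)}) :=
    Nat.finite_of_card_ne_zero (by rw [hcA]; exact pow_ne_zero _ hq0)
  have := Fintype.ofFinite (R ⧸ Ideal.span {((p ^ M : ℕ) : R)})
  set A := R ⧸ Ideal.span {((p ^ M : ℕ) : R)} with hA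
  set P : A → Prop := fun z => ∀ x, Ideal.Quotient.mk _ x = z → (p : ℤ) ^ k ∣ Algebra.norm ℤ x
    with hP
  rw [Nat.card_eq_fintype_card] at hcA ⊢
  -- double counting
  have h1 : ∀ z : A, ((Finset.range (p ^ M)).filter fun a : ℕ => P (z + a)).card * p ^ (e + 1) ≤
      n * p ^ M := by
    intro z
    obtain ⟨x, rfl⟩ := Ideal.Quotient.mk_surjective z
    set f := LinearMap.charpoly (Algebra.lmul ℤ R (-x)) with hf
    have hfm : f.Monic := LinearMap.charpoly_monic _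
    have hfd : f.natDegree = n := by rw [hf, LinearMap.charpoly_natDegree, hn]
    refine le_trans (Nat.mul_le_mul_right _ (Finset.card_le_card ?_))
      (card_roots_le hp f hfm hfd hk hM)
    intro a ha
    rw [Finset.mem_filter] at ha ⊢
    refine ⟨ha.1, ?_⟩
    have h2 := ha.2 (x + a) (by rw [map_add, map_natCast])
    have h3 : f.eval (a : ℤ) = Algebra.norm ℤ (x + a) := by
      rw [hf, LinearMap.eval_charpoly, Algebra.norm_apply]
      congr 1
      ext y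
      simp only [algebraMap_int_eq, map_natCast, Algebra.coe_lmul_eq_mul, map_neg, sub_neg_eq_add,
        LinearMap.add_apply, End.natCast_apply, nsmul_eq_mul, LinearMap.mul_apply_apply, add_comm,
        map_add]
    rw [h3]
    exact h2
  have h2 : ∀ a : ℕ, (Finset.univ.filter fun z : A => P (z + a)).card =
      Fintype.card {z : A // P z} := by
    intro a
    rw [Fintype.card_subtype]
    refine Finset.card_bij (fun z _ => z + a) ?_ ?_ ?_
    · intro z hz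
      rw [Finset.mem_filter] at hz ⊢
      exact ⟨Finset.mem_univ _, hz.2⟩
    · intro z _ z' _ h
      exact add_right_cancel h
    · intro z hz
      rw [Finset.mem_filter] at hz
      refine ⟨z - a, ?_, sub_add_cancel _ _⟩
      rw [Finset.mem_filter, sub_add_cancel]
      exact ⟨Finset.mem_univ _, hz.2⟩
  have h3 : ∑ z : A, ((Finset.range (p ^ M)).filter fun a : ℕ => P (z + a)).card =
      ∑ a ∈ Finset.range (p ^ M), (Finset.univ.filter fun z : A => P (z + a)).card := by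
    have := Finset.sum_card_bipartiteAbove_eq_sum_card_bipartiteBelow (s := (Finset.univ : Finset A))
      (t := Finset.range (p ^ M)) (fun (z : A) (a : ℕ) => P (z + a))
    exact this
  simp only [h2, Finset.sum_const, Finset.card_range, smul_eq_mul] at h3
  have h4 : (∑ z : A, ((Finset.range (p ^ M)).filter fun a : ℕ => P (z + a)).card) * p ^ (e + 1) ≤
      (p ^ M) ^ n * (n * p ^ M) := by
    rw [Finset.sum_mul]
    refine (Finset.sum_le_sum fun z _ => h1 z).trans ?_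
    rw [Finset.sum_const, Finset.card_univ, hcA, smul_eq_mul]
  rw [h3] at h4
  refine Nat.le_of_mul_le_mul_left ?_ (Nat.pos_of_ne_zero hq0)
  calc p ^ M * (Fintype.card {z : A // P z} * p ^ (e + 1))
      = p ^ M * Fintype.card {z : A // P z} * p ^ (e + 1) := by ring
    _ ≤ (p ^ M) ^ n * (n * p ^ M) := h4
    _ = p ^ M * (n * (p ^ M) ^ n) := by ring

end Vale.Agent.P007.N.Loc
end

section

/-! Real analysis of the model functions and of the weights (task Z2). -/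

set_option autoImplicit false

open NumberField

namespace Vale.Agent.P007.Z

theorem wt_nonneg {ℓ η : ℝ} (hℓ : 1 ≤ ℓ) (hη : 0 < η) (hη1 : η ≤ 1) (p : ℕ) (hp : p.Prime) :
    0 ≤ wt ℓ η p ∧ wt ℓ η p ≤ Real.log p / (p * ℓ) := by
  have hp1 : (1 : ℝ) < p := by exact_mod_cast hp.one_lt
  have hp0 : (0 : ℝ) < p := by linarith
  have hℓ0 : 0 < ℓ := by linarith
  have hlog : 0 < Real.log p := Real.log_pos hp1
  have e : ∀ x : ℝ, (p : ℝ) ^ (-(1 + x)) = (p : ℝ)⁻¹ * Real.exp (-(Real.log p * x)) := by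
    intro x
    rw [neg_add, Real.rpow_add hp0, Real.rpow_neg_one, Real.rpow_def_of_pos hp0]
    congr 2
    ring
  have h1 : η / ℓ ≤ 1 / ℓ := by gcongr
  have h0 : 0 ≤ η / ℓ := by positivity
  rw [wt, e, e, ← mul_sub]
  constructor
  · refine mul_nonneg (by positivity) (sub_nonneg.2 (Real.exp_le_exp.2 ?_))
    rw [neg_le_neg_iff]
    gcongr
  · have h2 : Real.exp (-(Real.log p * (η / ℓ))) ≤ 1 := by
      rw [Real.exp_le_one_iff, neg_nonpos]
      positivity
    have h3 : 1 - Real.log p / ℓ ≤ Real.exp (-(Real.log p * (1 / ℓ))) := by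
      have := Real.add_one_le_exp (-(Real.log p * (1 / ℓ)))
      have h4 : Real.log p * (1 / ℓ) = Real.log p / ℓ := by ring
      rw [h4] at this ⊢
      linarith only [this]
    have h5 : Real.exp (-(Real.log p * (η / ℓ))) - Real.exp (-(Real.log p * (1 / ℓ))) ≤
        Real.log p / ℓ := by linarith only [h2, h3]
    calc (p : ℝ)⁻¹ * (Real.exp (-(Real.log p * (η / ℓ))) - Real.exp (-(Real.log p * (1 / ℓ)))) ≤
        (p : ℝ)⁻¹ * (Real.log p / ℓ) := by gcongr
      _ = Real.log p / (p * ℓ) := by field_simp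

theorem wt_anti {ℓ η η' : ℝ} (hℓ : 1 ≤ ℓ) (hη : 0 < η) (h : η ≤ η') (p : ℕ) (hp : p.Prime) :
    wt ℓ η' p ≤ wt ℓ η p := by
  have hp1 : (1 : ℝ) ≤ p := by exact_mod_cast hp.one_lt.le
  have hℓ0 : 0 < ℓ := by linarith
  unfold wt
  have h1 : (p : ℝ) ^ (-(1 + η' / ℓ)) ≤ (p : ℝ) ^ (-(1 + η / ℓ)) := by
    refine Real.rpow_le_rpow_of_exponent_le hp1 ?_
    have : η / ℓ ≤ η' / ℓ := by gcongr
    linarith only [this]
  linarith

theorem summable_wt {ℓ η : ℝ} (hℓ : 1 ≤ ℓ) (hη : 0 < η) (hη1 : η ≤ 1) :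
    Summable fun p : Nat.Primes => wt ℓ η p := by
  have hℓ0 : 0 < ℓ := by linarith
  have h1 : Summable fun p : Nat.Primes => ((p : ℕ) : ℝ) ^ (-(1 + η / ℓ)) :=
    Nat.Primes.summable_rpow.2 (by
      have : 0 < η / ℓ := by positivity
      linarith)
  have h2 : Summable fun p : Nat.Primes => ((p : ℕ) : ℝ) ^ (-(1 + 1 / ℓ)) :=
    Nat.Primes.summable_rpow.2 (by
      have : 0 < 1 / ℓ := by positivity
      linarith)
  exact h1.sub h2

/-- each term is nonpositive -/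
theorem log_max_nonpos {η x : ℝ} (hη : 0 < η) (hη1 : η ≤ 1) (hx1 : x ≤ 1) :
    Real.log (max η x) ≤ 0 :=
  Real.log_nonpos (hη.le.trans (le_max_left _ _)) (max_le hη1 hx1)

theorem sum_log_max_nonpos {d : List ℝ} (hd : ∀ x ∈ d, x ≤ 1) {η : ℝ} (hη : 0 < η)
    (hη1 : η ≤ 1) : (d.map fun x => Real.log (max η x)).sum ≤ 0 := by
  induction d with
  | nil => simp
  | cons a d ih =>
    rw [List.map_cons, List.sum_cons]
    have h1 := log_max_nonpos hη hη1 (hd a List.mem_cons_self)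
    have h2 := ih (fun x hx => hd x (List.mem_cons_of_mem _ hx))
    linarith

/-- all slopes are at most one -/
theorem model_le {δ : ℕ} {d : List ℝ} (hδ : δ ≤ 1) (hd : ∀ x ∈ d, 0 ≤ x ∧ x ≤ 1) {η : ℝ}
    (hη : 0 < η) (hη1 : η ≤ 1) : model δ d η ≤ -Real.log η := by
  have h1 := sum_log_max_nonpos (fun x hx => (hd x hx).2) hη hη1
  have h2 : (δ : ℝ) ≤ 1 := by exact_mod_cast hδ
  have h3 := Real.log_nonpos hη.le hη1
  unfold model
  nlinarith only [h1, h2, h3]

/-- a particular term -/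
theorem sum_log_max_le {d : List ℝ} (hd : ∀ x ∈ d, x ≤ 1) {η : ℝ} (hη : 0 < η)
    (hη1 : η ≤ 1) {x : ℝ} (hx : x ∈ d) :
    (d.map fun x => Real.log (max η x)).sum ≤ Real.log (max η x) := by
  induction d with
  | nil => simp at hx
  | cons a d ih =>
    rw [List.map_cons, List.sum_cons]
    rcases List.mem_cons.1 hx with rfl | hx
    · have h2 := sum_log_max_nonpos (fun y hy => hd y (List.mem_cons_of_mem _ hy)) hη hη1
      linarith
    · have h1 := log_max_nonpos hη hη1 (hd a List.mem_cons_self)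
      have h2 := ih (fun y hy => hd y (List.mem_cons_of_mem _ hy)) hx
      linarith

/-- for positive entries the sum of logarithms is bounded below -/
theorem sum_log_max_ge {d : List ℝ} (hd : ∀ x ∈ d, 0 < x) :
    ∃ K : ℝ, ∀ η : ℝ, 0 < η → -K ≤ (d.map fun x => Real.log (max η x)).sum := by
  induction d with
  | nil => exact ⟨0, fun η _ => by simp⟩
  | cons a d ih =>
    obtain ⟨K, hK⟩ := ih (fun x hx => hd x (List.mem_cons_of_mem _ hx))
    refine ⟨K - Real.log a, fun η hη => ?_⟩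
    rw [List.map_cons, List.sum_cons]
    have h1 := hK η hη
    have h2 : Real.log a ≤ Real.log (max η a) :=
      Real.log_le_log (hd a List.mem_cons_self) (le_max_right _ _)
    linarith

/-- if the model function grows with asymptotic slope `< 1` (as `η → 0`) it is nonpositive -/
theorem model_nonpos {δ : ℕ} {d : List ℝ} (hδ : δ ≤ 1) (hd : ∀ x ∈ d, 0 ≤ x ∧ x ≤ 1)
    {c C : ℝ} (hc : c < 1) (h : ∀ η : ℝ, 0 < η → η ≤ 1 → model δ d η ≤ c * (-Real.log η) + C)
    {η : ℝ} (hη : 0 < η) (hη1 : η ≤ 1) : model δ d η ≤ 0 := by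
  have hd1 : ∀ x ∈ d, x ≤ 1 := fun x hx => (hd x hx).2
  rcases Nat.le_one_iff_eq_zero_or_eq_one.1 hδ with rfl | rfl
  · have h1 := sum_log_max_nonpos hd1 hη hη1
    unfold model
    simpa only [CharP.cast_eq_zero, zero_mul, neg_zero, zero_add, ge_iff_le] using h1
  · by_cases h0 : (0 : ℝ) ∈ d
    · have h1 := sum_log_max_le hd1 hη hη1 h0
      rw [max_eq_left hη.le] at h1
      unfold model
      push_cast
      linarith only [h1]
    · exfalso
      have hpos : ∀ x ∈ d, 0 < x := fun x hx =>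
        lt_of_le_of_ne (hd x hx).1 (fun h => h0 (h ▸ hx))
      obtain ⟨K, hK⟩ := sum_log_max_ge hpos
      -- choose `η = exp (-t)` with `t` large
      obtain ⟨t, ht⟩ : ∃ t : ℝ, t = (|C| + |K| + 1) / (1 - c) := ⟨_, rfl⟩
      have hc' : 0 < 1 - c := by linarith
      have ht0 : 0 < t := by
        rw [ht]
        (clear * - hc; positivity)
      have h1 := h (Real.exp (-t)) (Real.exp_pos _) (by
        rw [Real.exp_le_one_iff]; linarith only [ht0])
      have h2 := hK (Real.exp (-t)) (Real.exp_pos _)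
      unfold model at h1
      rw [Real.log_exp] at h1
      push_cast at h1
      have h3 : t * (1 - c) = |C| + |K| + 1 := by
        rw [ht]
        (clear * - hc'; field_simp)
      have h4 := le_abs_self C
      have h5 := le_abs_self K
      nlinarith only [h2, h1, h3, h4, h5]

/-- supporting line of a model function at `μ` -/
theorem model_support (δ : ℕ) (d : List ℝ) {μ : ℝ} (hμ : 0 < μ) : ∃ k : ℤ,
    (∀ η : ℝ, 0 < η → η ≤ μ → (k : ℝ) * (Real.log μ - Real.log η) ≤ model δ d η - model δ d μ) ∧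
    (∀ η : ℝ, μ ≤ η → model δ d μ - model δ d η ≤ (k : ℝ) * (Real.log η - Real.log μ)) := by
  induction d with
  | nil =>
    refine ⟨δ, fun η hη h => ?_, fun η h => ?_⟩
    · simp only [model, List.map_nil, List.sum_nil]
      push_cast
      linarith
    · simp only [model, List.map_nil, List.sum_nil]
      push_cast
      linarith
  | cons a d ih =>
    obtain ⟨k, hk1, hk2⟩ := ih
    have hcons : ∀ η, model δ (a :: d) η = model δ d η + Real.log (max η a) := by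
      intro η
      simp only [model, List.map_cons, List.sum_cons]
      ring
    by_cases ha : a < μ
    · refine ⟨k - 1, fun η hη h => ?_, fun η h => ?_⟩
      · rw [hcons, hcons, max_eq_left ha.le]
        have h1 := hk1 η hη h
        have h2 : Real.log η ≤ Real.log (max η a) := Real.log_le_log hη (le_max_left _ _)
        push_cast
        linarith
      · rw [hcons, hcons, max_eq_left ha.le, max_eq_left (ha.le.trans h)]
        have h1 := hk2 η h
        push_cast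
        linarith
    · rw [not_lt] at ha
      refine ⟨k, fun η hη h => ?_, fun η h => ?_⟩
      · rw [hcons, hcons, max_eq_right ha, max_eq_right (h.trans ha)]
        have h1 := hk1 η hη h
        linarith
      · rw [hcons, hcons, max_eq_right ha]
        have h1 := hk2 η h
        have h2 : Real.log a ≤ Real.log (max η a) :=
          Real.log_le_log (hμ.trans_le ha) (le_max_right _ _)
        linarith

theorem sum_support {m : ℕ} (δ : Fin m → ℕ) (d : Fin m → List ℝ) {μ : ℝ} (hμ : 0 < μ) :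
    ∃ k : ℤ, (∀ η : ℝ, 0 < η → η ≤ μ → (k : ℝ) * (Real.log μ - Real.log η) ≤
      (∑ j, model (δ j) (d j) η) - ∑ j, model (δ j) (d j) μ) ∧
    (∀ η : ℝ, μ ≤ η → (∑ j, model (δ j) (d j) μ) - ∑ j, model (δ j) (d j) η ≤
      (k : ℝ) * (Real.log η - Real.log μ)) := by
  choose k hk1 hk2 using fun j => model_support (δ j) (d j) hμ
  refine ⟨∑ j, k j, fun η hη h => ?_, fun η h => ?_⟩
  · rw [← Finset.sum_sub_distrib]
    push_cast
    rw [Finset.sum_mul]
    exact Finset.sum_le_sum (fun j _ => hk1 j η hη h)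
  · rw [← Finset.sum_sub_distrib]
    push_cast
    rw [Finset.sum_mul]
    exact Finset.sum_le_sum (fun j _ => hk2 j η h)

theorem exists_min_entry (d : List ℝ) (hd : ∀ x ∈ d, 0 < x ∧ x ≤ 1) : ∃ x : ℝ, 0 < x ∧ x ≤ 1 ∧
    (∀ y ∈ d, x ≤ y) ∧ (x ∈ d ∨ (d = [] ∧ x = 1)) := by
  induction d with
  | nil => exact ⟨1, one_pos, le_refl _, by simp, Or.inr ⟨rfl, rfl⟩⟩
  | cons a d ih =>
    obtain ⟨x, hx0, hx1, hmin, hx⟩ := ih (fun y hy => hd y (List.mem_cons_of_mem _ hy))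
    have ha := hd a List.mem_cons_self
    rcases le_total a x with h | h
    · refine ⟨a, ha.1, ha.2, fun y hy => ?_, Or.inl List.mem_cons_self⟩
      rcases List.mem_cons.1 hy with rfl | hy
      · exact le_refl _
      · exact h.trans (hmin y hy)
    · rcases hx with hx | ⟨hd0, hx⟩
      · refine ⟨x, hx0, hx1, fun y hy => ?_, Or.inl (List.mem_cons_of_mem _ hx)⟩
        rcases List.mem_cons.1 hy with rfl | hy
        · exact h
        · exact hmin y hy
      · refine ⟨a, ha.1, ha.2, fun y hy => ?_, Or.inl List.mem_cons_self⟩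
        rcases List.mem_cons.1 hy with rfl | hy
        · exact le_refl _
        · rw [hd0] at hy
          simp at hy

/-- below all entries the model function has slope one -/
theorem model_below {d : List ℝ} {x : ℝ} (hmin : ∀ y ∈ d, x ≤ y) {ν : ℝ}
    (hν : ν ≤ x) : model 1 d ν = model 1 d x + (Real.log x - Real.log ν) := by
  have h1 : (d.map fun y => Real.log (max ν y)) = d.map fun y => Real.log (max x y) := by
    refine List.map_congr_left (fun y hy => ?_)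
    rw [max_eq_right (hmin y hy), max_eq_right (hν.trans (hmin y hy))]
  unfold model
  rw [h1]
  push_cast
  ring

/-- above the smallest entry the model function (with slope `1`) is nonpositive -/
theorem model_above {d : List ℝ} (hd : ∀ x ∈ d, 0 < x ∧ x ≤ 1) {x : ℝ}
    (hx : x ∈ d ∨ (d = [] ∧ x = 1)) {η : ℝ} (hη : 0 < η) (hη1 : η ≤ 1) (h : x ≤ η) :
    model 1 d η ≤ 0 := by
  rcases hx with hx | ⟨rfl, rfl⟩
  · have h1 := sum_log_max_le (fun y hy => (hd y hy).2) hη hη1 hx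
    rw [max_eq_left h] at h1
    unfold model
    push_cast
    linarith
  · have h1 : η = 1 := le_antisymm hη1 h
    subst h1
    simp only [model, Nat.cast_one, Real.log_one, mul_zero, neg_zero, List.map_nil, List.sum_nil,
      add_zero, Std.le_refl]

/-- the pairing lemma (Z3) -/
theorem parity (C : ℝ) : ∃ C' : ℝ, ∀ (m : ℕ) (d₀ : List ℝ) (δ : Fin m → ℕ) (d : Fin m → List ℝ),
    (m : ℝ) ≤ C → (d₀.length : ℝ) ≤ C → (∀ x ∈ d₀, 0 < x ∧ x ≤ 1) → (∀ j, δ j ≤ 1) →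
    (∀ j, ((d j).length : ℝ) ≤ C) → (∀ j, ∀ x ∈ d j, 0 ≤ x ∧ x ≤ 1) →
    ∀ η₀ : ℝ, 0 < η₀ → η₀ ≤ 1 →
    (∀ η, η₀ ≤ η → η ≤ 1 → -C ≤ model 1 d₀ η) →
    (∀ η, η₀ ≤ η → η ≤ 1 → |model 1 d₀ η + 2 * ∑ j, model (δ j) (d j) η| ≤ C) →
    ∀ η, η₀ ≤ η → η ≤ 1 → model 1 d₀ η ≤ C' := by
  refine ⟨4 * |C|, fun m d₀ δ d _ _ hd₀ _ _ _ η₀ hη₀ _ _ h η hη hη1 => ?_⟩
  obtain ⟨x, hx0, hx1, hmin, hx⟩ := exists_min_entry d₀ hd₀
  have hη0 : 0 < η := hη₀.trans_le hη
  have hC := le_abs_self C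
  have hC0 := abs_nonneg C
  rcases le_or_gt x η with hxη | hxη
  · have h1 := model_above hd₀ hx hη0 hη1 hxη
    linarith
  · -- `η < x`
    have hxx := model_above hd₀ hx hx0 hx1 le_rfl
    have hsq : Real.log (Real.sqrt (x * η)) = (Real.log x + Real.log η) / 2 := by
      rw [Real.log_sqrt (by positivity), Real.log_mul hx0.ne' hη0.ne']
    have hμ0 : 0 < Real.sqrt (x * η) := Real.sqrt_pos.2 (by positivity)
    have hμ1 : η ≤ Real.sqrt (x * η) := Real.le_sqrt_of_sq_le (by nlinarith only [hη₀, hη, hxη])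
    have hμ2 : Real.sqrt (x * η) ≤ x := by
      rw [Real.sqrt_le_left hx0.le]
      nlinarith only [hx0, hxη]
    obtain ⟨μ, hμ⟩ : ∃ μ, μ = Real.sqrt (x * η) := ⟨_, rfl⟩
    rw [← hμ] at hsq hμ0 hμ1 hμ2
    obtain ⟨k, hk1, hk2⟩ := sum_support δ d hμ0
    have e1 := model_below hmin hxη.le
    have e2 := model_below hmin hμ2
    have b1 := abs_le.1 (h η hη hη1)
    have b2 := abs_le.1 (h μ (hη.trans hμ1) (hμ2.trans hx1))
    have b3 := abs_le.1 (h x (hη.trans hxη.le) hx1)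
    have c1 := hk1 η hη0 hμ1
    have c2 := hk2 x hμ2
    have hl : 0 < Real.log x - Real.log η := sub_pos.2 (Real.log_lt_log hη0 hxη)
    obtain ⟨l, hl'⟩ : ∃ l, l = Real.log x - Real.log η := ⟨_, rfl⟩
    have d1 : Real.log μ - Real.log η = l / 2 := by rw [hsq, hl']; ring
    have d2 : Real.log x - Real.log μ = l / 2 := by rw [hsq, hl']; ring
    rw [d1] at c1
    rw [d2] at c2 e2
    rw [← hl'] at e1 hl
    rcases le_or_gt 0 k with hk | hk
    · have hk' : (0 : ℝ) ≤ k := by exact_mod_cast hk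
      have c3 : 0 ≤ (k : ℝ) * (l / 2) := by (clear * - hl hk; positivity)
      linarith only [b1.2, b2.1, hC, hxx, b1, b2, e1, e2, c1, c3]
    · have hk' : (k : ℝ) ≤ -1 := by exact_mod_cast Int.le_sub_one_of_lt hk
      have c3 : (k : ℝ) * (l / 2) ≤ (-1) * (l / 2) := by
        have : 0 ≤ l / 2 := by linarith only [hl]
        (clear * - hl hk'; gcongr)
      linarith only [b2.1, b3.2, hC, hxx, b2, b3, e1, e2, c2, c3]

/-- `ℚ`: all primes count -/
theorem Sc_rat : ∃ C : ℝ, ∀ ℓ : ℝ, 1 ≤ ℓ → ∀ η : ℝ, 0 < η → η ≤ 1 →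
    -Real.log η - C ≤ ∑' p : Nat.Primes, wt ℓ η p := by
  obtain ⟨C, hC0, hC⟩ := Pz_bound
  refine ⟨2 * C, fun ℓ hℓ η hη hη1 => ?_⟩
  have hℓ0 : 0 < ℓ := by linarith
  have h1 : 0 < η / ℓ := by positivity
  have h2 : 0 < 1 / ℓ := by positivity
  have h3 : 1 / ℓ ≤ 1 := by
    rw [div_le_one hℓ0]
    exact hℓ
  have h4 : η / ℓ ≤ 1 / ℓ := by gcongr
  have a1 := abs_le.1 (hC (1 + η / ℓ) (by linarith only [h1]) (by linarith))
  have a2 := abs_le.1 (hC (1 + 1 / ℓ) (by linarith only [h2]) (by linarith only [h3]))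
  have e : ∑' p : Nat.Primes, wt ℓ η p = Pz (1 + η / ℓ) - Pz (1 + 1 / ℓ) := by
    rw [Pz, Pz, ← (summable_Pz (by linarith only [h1])).tsum_sub (summable_Pz (by linarith only [h2]))]
    rfl
  rw [e]
  rw [add_sub_cancel_left, Real.log_div hη.ne' hℓ0.ne'] at a1
  rw [add_sub_cancel_left, Real.log_div one_ne_zero hℓ0.ne', Real.log_one] at a2
  linarith only [a1.1, a2.2, a1, a2]

end Vale.Agent.P007.Z
end

section

/-!
Part Z3 of P007: degree one primes and arithmetic Frobenius.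
-/

set_option autoImplicit false

open NumberField

namespace Vale.Agent.P007.Z

/-! ### Generalities on ideals of prime norm -/

theorem isMaximal_of_absNorm_prime (E : Type) [Field E] [NumberField E] {p : ℕ} (hp : p.Prime)
    {I : Ideal (𝓞 E)} (h : Ideal.absNorm I = p) : I.IsMaximal := by
  have h1 : I.IsPrime := Ideal.isPrime_of_irreducible_absNorm (by rw [h]; exact hp)
  have h2 : I ≠ ⊥ := by
    rintro rfl
    rw [Ideal.absNorm_bot] at h
    exact hp.ne_zero h.symm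
  exact h1.isMaximal h2

theorem mem_of_absNorm (E : Type) [Field E] [NumberField E] {p : ℕ}
    {I : Ideal (𝓞 E)} (h : Ideal.absNorm I = p) : (p : 𝓞 E) ∈ I := by
  have := Ideal.absNorm_mem I
  rwa [h] at this

theorem finite_aE (E : Type) [Field E] [NumberField E] (m : ℕ) :
    Finite {I : Ideal (𝓞 E) // Ideal.absNorm I = m} :=
  Ideal.finite_setOfPred_absNorm_eq m

theorem aE_pos_iff (E : Type) [Field E] [NumberField E] (m : ℕ) :
    0 < aE E m ↔ ∃ I : Ideal (𝓞 E), Ideal.absNorm I = m := by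
  have := finite_aE E m
  unfold aE
  rw [Nat.card_pos_iff]
  constructor
  · rintro ⟨⟨I⟩, -⟩
    exact ⟨I.1, I.2⟩
  · rintro ⟨I, hI⟩
    exact ⟨⟨⟨I, hI⟩⟩, this⟩

theorem aE_le (E : Type) [Field E] [NumberField E] (p : ℕ) (hp : p.Prime) :
    aE E p ≤ Module.finrank ℚ E := by
  classical
  have := finite_aE E p
  have := Fintype.ofFinite {I : Ideal (𝓞 E) // Ideal.absNorm I = p}
  unfold aE
  rw [Nat.card_eq_fintype_card]
  set s : Finset (Ideal (𝓞 E)) :=
    (Finset.univ : Finset {I : Ideal (𝓞 E) // Ideal.absNorm I = p}).map (Function.Embedding.subtype _)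
    with hs
  have hmem : ∀ I ∈ s, Ideal.absNorm I = p := by
    intro I hI
    simp only [hs, Finset.mem_map, Finset.mem_univ, true_and, Function.Embedding.subtype_apply,
      Subtype.exists, exists_prop, exists_eq_right] at hI
    exact hI
  have hcard : s.card = Fintype.card {I : Ideal (𝓞 E) // Ideal.absNorm I = p} := by
    rw [hs, Finset.card_map, Finset.card_univ]
  have hdvd : ∏ I ∈ s, I ∣ Ideal.span {(p : 𝓞 E)} := by
    apply Finset.prod_primes_dvd
    · intro I hI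
      have h1 := isMaximal_of_absNorm_prime E hp (hmem I hI)
      have h2 : I ≠ ⊥ := by
        rintro rfl
        have := hmem _ hI
        rw [Ideal.absNorm_bot] at this
        exact hp.ne_zero this.symm
      exact Ideal.prime_of_isPrime h2 h1.isPrime
    · intro I hI
      rw [Ideal.dvd_span_singleton]
      exact mem_of_absNorm E (hmem I hI)
  have h3 := map_dvd (Ideal.absNorm (S := 𝓞 E)) hdvd
  rw [map_prod, Ideal.absNorm_span_natCast, Finset.prod_congr rfl hmem, Finset.prod_const,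
    RingOfIntegers.rank] at h3
  rw [← hcard]
  exact (Nat.pow_dvd_pow_iff_le_right hp.one_lt).mp h3

theorem aE_congr (E E' : Type) [Field E] [NumberField E] [Field E'] [NumberField E']
    (e : E ≃+* E') (m : ℕ) : aE E m = aE E' m := by
  unfold aE
  let f : 𝓞 E ≃+* 𝓞 E' := RingOfIntegers.mapRingEquiv e
  have key : ∀ I : Ideal (𝓞 E), Ideal.absNorm (I.map (f : 𝓞 E →+* 𝓞 E')) = Ideal.absNorm I := by
    intro I
    rw [Ideal.absNorm_apply, Ideal.absNorm_apply, Submodule.cardQuot_apply,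
      Submodule.cardQuot_apply]
    exact (Nat.card_congr (Ideal.quotientEquiv I (I.map (f : 𝓞 E →+* 𝓞 E')) f rfl).toEquiv).symm
  refine Nat.card_congr ⟨fun I => ⟨I.1.map (f : 𝓞 E →+* 𝓞 E'), by rw [key, I.2]⟩,
    fun J => ⟨J.1.map (f.symm : 𝓞 E' →+* 𝓞 E), ?_⟩, ?_, ?_⟩
  · have h1 := key (J.1.map (f.symm : 𝓞 E' →+* 𝓞 E))
    rw [Ideal.map_map] at h1
    have : ((f : 𝓞 E →+* 𝓞 E').comp (f.symm : 𝓞 E' →+* 𝓞 E)) = RingHom.id _ := by
      ext x
      simp
    rw [this, Ideal.map_id, J.2] at h1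
    exact h1.symm
  · intro I
    apply Subtype.ext
    simp only [Ideal.map_map]
    have : ((f.symm : 𝓞 E' →+* 𝓞 E).comp (f : 𝓞 E →+* 𝓞 E')) = RingHom.id _ := by
      ext x
      simp
    rw [this, Ideal.map_id]
  · intro J
    apply Subtype.ext
    simp only [Ideal.map_map]
    have : ((f : 𝓞 E →+* 𝓞 E').comp (f.symm : 𝓞 E' →+* 𝓞 E)) = RingHom.id _ := by
      ext x
      simp
    rw [this, Ideal.map_id]

/-- A prime of norm `p` lies over a prime of norm `p`. -/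
theorem absNorm_comap (E M : Type) [Field E] [NumberField E] [Field M] [NumberField M]
    [Algebra E M] (p : ℕ) (hp : p.Prime) (P : Ideal (𝓞 M)) (h : Ideal.absNorm P = p) :
    Ideal.absNorm (P.comap (algebraMap (𝓞 E) (𝓞 M))) = p := by
  have hP := isMaximal_of_absNorm_prime M hp h
  set 𝔭 := P.comap (algebraMap (𝓞 E) (𝓞 M)) with h𝔭
  have hpr : 𝔭.IsPrime := Ideal.comap_isPrime _ _
  have hinj : Function.Injective (Ideal.quotientMap P (algebraMap (𝓞 E) (𝓞 M)) (le_refl 𝔭)) :=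
    Ideal.quotientMap_injective
  have hdvd := AddSubgroup.card_dvd_of_injective
    (Ideal.quotientMap P (algebraMap (𝓞 E) (𝓞 M)) (le_refl 𝔭)).toAddMonoidHom hinj
  have h1 : Nat.card (𝓞 M ⧸ P) = p := by
    rw [← h, Ideal.absNorm_apply, Submodule.cardQuot_apply]
  rw [h1] at hdvd
  have h2 : Nat.card (𝓞 E ⧸ 𝔭) = Ideal.absNorm 𝔭 := by
    rw [Ideal.absNorm_apply, Submodule.cardQuot_apply]
  rw [h2] at hdvd
  rcases (Nat.dvd_prime hp).mp hdvd with h3 | h3
  · exact absurd (Ideal.absNorm_eq_one_iff.mp h3) hpr.ne_top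
  · exact h3

theorem aE_pos_of_algebra (E M : Type) [Field E] [NumberField E] [Field M] [NumberField M]
    [Algebra E M] (p : ℕ) (hp : p.Prime) (h : 0 < aE M p) : 0 < aE E p := by
  rw [aE_pos_iff] at h ⊢
  obtain ⟨P, hP⟩ := h
  exact ⟨_, absNorm_comap E M p hp P hP⟩

theorem smulCommFixed (W : Type) [Field W] [NumberField W] (H : Subgroup (W ≃ₐ[ℚ] W)) :
    SMulCommClass H (𝓞 (IntermediateField.fixedField H)) (𝓞 W) where
  smul_comm h a x := by
    apply RingOfIntegers.ext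
    have h1 : h • (algebraMap (𝓞 (IntermediateField.fixedField H)) (𝓞 W) a) =
        algebraMap (𝓞 (IntermediateField.fixedField H)) (𝓞 W) a := by
      apply RingOfIntegers.ext
      exact (IntermediateField.mem_fixedField_iff H _).mp (a : IntermediateField.fixedField H).2
        h.1 h.2
    rw [Algebra.smul_def, Algebra.smul_def, smul_mul', h1]

theorem invariantFixed (W : Type) [Field W] [NumberField W] (H : Subgroup (W ≃ₐ[ℚ] W)) :
    Algebra.IsInvariant (𝓞 (IntermediateField.fixedField H)) (𝓞 W) H where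
  isInvariant x hx := by
    have h1 : (x : W) ∈ IntermediateField.fixedField H := by
      rw [IntermediateField.mem_fixedField_iff]
      intro f hf
      have := hx ⟨f, hf⟩
      have := congrArg (algebraMap (𝓞 W) W) this
      exact this
    have h2 : IsIntegral ℤ (⟨(x : W), h1⟩ : IntermediateField.fixedField H) := by
      rw [← isIntegral_algebraMap_iff (B := W)
        (algebraMap (IntermediateField.fixedField H) W).injective]
      exact x.2
    refine ⟨⟨⟨(x : W), h1⟩, h2⟩, ?_⟩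
    apply RingOfIntegers.ext
    rfl

/-- existence of an arithmetic Frobenius in `H` for degree one primes of the fixed field -/
theorem exists_frob (W : Type) [Field W] [NumberField W] (H : Subgroup (W ≃ₐ[ℚ] W)) (p : ℕ)
    (hp : p.Prime) (h : 0 < aE (IntermediateField.fixedField H) p) :
    ∃ (Q : Ideal (𝓞 W)) (σ : W ≃ₐ[ℚ] W), Q.IsMaximal ∧ (p : 𝓞 W) ∈ Q ∧ σ ∈ H ∧
      ∀ x : 𝓞 W, RingOfIntegers.mapRingEquiv σ.toRingEquiv x - x ^ p ∈ Q := by
  rw [aE_pos_iff] at h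
  obtain ⟨P, hP⟩ := h
  have hPmax := isMaximal_of_absNorm_prime _ hp hP
  obtain ⟨Q, hQ, hQP⟩ := Ideal.exists_maximal_ideal_liesOver_of_isIntegral (S := 𝓞 W) P
  have hunder : Q.under (𝓞 (IntermediateField.fixedField H)) = P := (Ideal.LiesOver.over).symm
  have hpQ : (p : 𝓞 W) ∈ Q := by
    have h1 := mem_of_absNorm _ hP
    rw [← hunder, Ideal.under_def, Ideal.mem_comap, map_natCast] at h1
    exact h1
  have hQbot : Q ≠ ⊥ := by
    rintro rfl
    rw [Ideal.mem_bot] at hpQ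
    exact hp.ne_zero (by exact_mod_cast hpQ)
  have hfin : Finite (𝓞 W ⧸ Q) := Ideal.finiteQuotientOfFreeOfNeBot Q hQbot
  have := invariantFixed W H
  have := smulCommFixed W H
  obtain ⟨σ, hσ⟩ := IsArithFrobAt.exists_of_isInvariant (𝓞 (IntermediateField.fixedField H))
    H Q
  have hcard : Nat.card (𝓞 (IntermediateField.fixedField H) ⧸
      Q.under (𝓞 (IntermediateField.fixedField H))) = p := by
    rw [hunder, ← hP, Ideal.absNorm_apply, Submodule.cardQuot_apply]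
  refine ⟨Q, σ.1, hQ, hpQ, σ.2, fun x => ?_⟩
  have h2 := hσ x
  rw [hcard] at h2
  exact h2

/-- conversely a Frobenius in `H` gives a degree one prime of the fixed field -/
theorem aE_pos_of_frob (W : Type) [Field W] [NumberField W] (H : Subgroup (W ≃ₐ[ℚ] W)) (p : ℕ)
    (hp : p.Prime) (Q : Ideal (𝓞 W)) (σ : W ≃ₐ[ℚ] W) (hQ : Q.IsMaximal) (hpQ : (p : 𝓞 W) ∈ Q)
    (hfix : ∀ x : W, x ∈ IntermediateField.fixedField H → σ x = x)
    (hσ : ∀ x : 𝓞 W, RingOfIntegers.mapRingEquiv σ.toRingEquiv x - x ^ p ∈ Q) :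
    0 < aE (IntermediateField.fixedField H) p := by
  rw [aE_pos_iff]
  set F := IntermediateField.fixedField H with hF
  set P : Ideal (𝓞 F) := Q.under (𝓞 F) with hPdef
  have hPprime : P.IsPrime := inferInstance
  refine ⟨P, ?_⟩
  have hpP : (p : 𝓞 F) ∈ P := by
    rw [hPdef, Ideal.under_def, Ideal.mem_comap, map_natCast]
    exact hpQ
  have hPbot : P ≠ ⊥ := by
    intro h
    rw [h, Ideal.mem_bot] at hpP
    exact hp.ne_zero (by exact_mod_cast hpP)
  have hPmax : P.IsMaximal := hPprime.isMaximal hPbot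
  have hfin : Finite (𝓞 F ⧸ P) := Ideal.finiteQuotientOfFreeOfNeBot P hPbot
  have hpow : ∀ y : 𝓞 F ⧸ P, y ^ p = y := by
    intro y
    obtain ⟨x, rfl⟩ := Ideal.Quotient.mk_surjective y
    rw [← map_pow, Ideal.Quotient.eq, hPdef, Ideal.under_def, Ideal.mem_comap, map_sub, map_pow]
    have h1 := hσ (algebraMap (𝓞 F) (𝓞 W) x)
    have h2 : RingOfIntegers.mapRingEquiv σ.toRingEquiv (algebraMap (𝓞 F) (𝓞 W) x) =
        algebraMap (𝓞 F) (𝓞 W) x := by
      apply RingOfIntegers.ext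
      exact hfix _ (x : F).2
    rw [h2] at h1
    have h3 := neg_mem h1
    rwa [neg_sub] at h3
  let _ : Field (𝓞 F ⧸ P) := Ideal.Quotient.field P
  have hle : Nat.card (𝓞 F ⧸ P) ≤ p := by
    classical
    have := Fintype.ofFinite (𝓞 F ⧸ P)
    rw [Nat.card_eq_fintype_card, ← Finset.card_univ]
    have h1 : (Polynomial.X ^ p - Polynomial.X : Polynomial (𝓞 F ⧸ P)).natDegree = p :=
      FiniteField.X_pow_card_sub_X_natDegree_eq _ hp.one_lt
    have h2 : (Polynomial.X ^ p - Polynomial.X : Polynomial (𝓞 F ⧸ P)) ≠ 0 := by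
      intro h
      rw [h, Polynomial.natDegree_zero] at h1
      exact hp.ne_zero h1.symm
    have h3 : (Finset.univ : Finset (𝓞 F ⧸ P)).val ⊆
        (Polynomial.X ^ p - Polynomial.X : Polynomial (𝓞 F ⧸ P)).roots := by
      intro y _
      rw [Polynomial.mem_roots h2, Polynomial.IsRoot.def]
      simp [hpow y]
    have h4 := Polynomial.card_le_degree_of_subset_roots h3
    rwa [h1] at h4
  have h5 : Ideal.absNorm P = Nat.card (𝓞 F ⧸ P) := by
    rw [Ideal.absNorm_apply, Submodule.cardQuot_apply]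
  rw [← h5] at hle
  have h6 : Ideal.absNorm P ∣ p ^ Module.finrank ℤ (𝓞 F) := by
    rw [← Ideal.absNorm_span_natCast]
    apply Ideal.absNorm_dvd_absNorm_of_le
    rw [Ideal.span_singleton_le_iff_mem]
    exact hpP
  obtain ⟨k, -, hk⟩ := (Nat.dvd_prime_pow hp).mp h6
  have hk0 : k ≠ 0 := by
    rintro rfl
    rw [pow_zero] at hk
    exact hPprime.ne_top (Ideal.absNorm_eq_one_iff.mp hk)
  have hk1 : k ≤ 1 := by
    rw [hk] at hle
    by_contra hcon
    push Not at hcon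
    have : p ^ 2 ≤ p ^ k := Nat.pow_le_pow_right hp.pos hcon
    have h7 : p ^ 2 ≤ p := this.trans hle
    have h8 := hp.two_le
    nlinarith only [hle, this, h8]
  have : k = 1 := by lia
  rw [hk, this, pow_one]

/-- in a Galois field, unramified primes with a degree one factor split completely -/
theorem aE_galois (W : Type) [Field W] [NumberField W] [IsGalois ℚ W] (p : ℕ) (hp : p.Prime)
    (hd : ¬ (p : ℤ) ∣ discr W) (h : 0 < aE W p) : aE W p = Module.finrank ℚ W := by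
  rw [aE_pos_iff] at h
  obtain ⟨P, hP⟩ := h
  have hpI : Prime (p : ℤ) := Nat.prime_iff_prime_int.mp hp
  have hPmax := isMaximal_of_absNorm_prime _ hp hP
  have hunr := (not_dvd_discr_iff_isUnramifiedIn W (𝓞 W) hpI).mp hd
  set 𝔭 : Ideal ℤ := Ideal.span {(p : ℤ)} with h𝔭
  have hover : ∀ Q : Ideal (𝓞 W), Ideal.absNorm Q = p → Q.LiesOver 𝔭 := by
    intro Q hQ
    have hQmax := isMaximal_of_absNorm_prime _ hp hQ
    rw [h𝔭, Ideal.liesOver_span_iff hQmax.ne_top hpI]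
    have := mem_of_absNorm _ hQ
    exact_mod_cast this
  have hPover := hover P hP
  have h𝔭max : 𝔭.IsMaximal := by
    rw [h𝔭]
    have : Fact p.Prime := ⟨hp⟩
    exact Int.ideal_span_isMaximal_of_prime p
  have hfund := Ideal.ncard_primesOver_mul_ramificationIdxIn_mul_inertiaDegIn 𝔭 (𝓞 W)
    (W ≃ₐ[ℚ] W)
  have he : Ideal.ramificationIdxIn 𝔭 (𝓞 W) = 1 := by
    rw [Ideal.ramificationIdxIn_eq_ramificationIdx 𝔭 P (W ≃ₐ[ℚ] W)]
    exact hunr.ramificationIdx_eq_one hPover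
  have hf : Ideal.inertiaDegIn 𝔭 (𝓞 W) = 1 := by
    rw [Ideal.inertiaDegIn_eq_inertiaDeg 𝔭 P (W ≃ₐ[ℚ] W)]
    have h1 := Ideal.pow_inertiaDeg p P
    rw [hP] at h1
    exact Nat.pow_right_injective hp.two_le (by simpa using h1)
  rw [he, hf, mul_one, mul_one, IsGalois.card_aut_eq_finrank] at hfund
  rw [← hfund]
  unfold aE
  rw [← Nat.card_coe_set_eq]
  apply Nat.card_congr
  apply Equiv.subtypeEquivRight
  intro Q
  constructor
  · intro hQ
    have hQmax := isMaximal_of_absNorm_prime _ hp hQ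
    exact ⟨hQmax.isPrime, hover Q hQ⟩
  · rintro ⟨hQp, hQo⟩
    have h1 := Ideal.pow_inertiaDeg p Q
    have h2 : Q.inertiaDeg ℤ = 1 := by
      rw [← Ideal.inertiaDegIn_eq_inertiaDeg 𝔭 Q (W ≃ₐ[ℚ] W)]
      exact hf
    rw [← h1, h2, pow_one]

end Vale.Agent.P007.Z
end
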