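import Vale.Agent.P007.Bdl.B16
import Vale.Agent.P007.Bdl.B10
import Vale.Agent.P007.Bdl.B3
import Vale.Agent.P007.Bdl.B9
import Vale.Agent.P007.Bdl.B7

section

set_option autoImplicit false

open MeasureTheory Matrix NumberField Filter Topology Module
open scoped ENNReal nonZeroDivisors

namespace Vale.Agent.P007.N

open Vale.Agent.P007 Vale.Agent.P007.R Vale.Agent.P007.Fib

variable {n : ℕ} (D : Datum n)

instance isFractionRing_O : IsFractionRing D.O D.K where
  map_units := by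
    rintro ⟨y, hy⟩
    rw [isUnit_iff_ne_zero]
    intro h
    have h1 : y = 0 := FaithfulSMul.algebraMap_injective D.O D.K (by rw [h, map_zero])
    exact nonZeroDivisors.ne_zero hy h1
  surj := by
    intro z
    obtain ⟨N, hN, y, hy⟩ := D.exists_mul_mem z
    have hN' : (N : D.O) ≠ 0 := by
      intro h
      apply hN
      have h1 : ((N : D.O) : 𝓞 D.K) = 0 := by rw [h]; rfl
      have h2 : (N : 𝓞 D.K) = 0 := by rw [← h1]; push_cast; rfl
      exact_mod_cast h2
    refine ⟨(y, ⟨(N : D.O), mem_nonZeroDivisors_of_ne_zero hN'⟩), ?_⟩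
    have h3 : algebraMap D.O D.K ((N : ℤ) : D.O) = (N : D.K) := map_intCast _ N
    change z * algebraMap D.O D.K ((N : ℤ) : D.O) = algebraMap D.O D.K y
    rw [h3, mul_comm, hy]
    rfl
  exists_of_eq := by
    intro x y h
    exact ⟨1, by rw [FaithfulSMul.algebraMap_injective D.O D.K h]⟩

/-- invertible integral ideals -/
abbrev JJ : Type := {J : Ideal D.O // IsUnit (J : FractionalIdeal D.O⁰ D.K)}

theorem zmod_injective : Function.Injective (fun I : FractionalIdeal D.O⁰ D.K => D.zmod I) := by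
  intro I I' h
  ext x
  have h1 := Submodule.ext_iff.mp h x
  exact h1

theorem one_mem_inv (J : JJ D) :
    (1 : D.K) ∈ ((J.2.unit⁻¹ : (FractionalIdeal D.O⁰ D.K)ˣ) : FractionalIdeal D.O⁰ D.K) := by
  have h1 : (1 : FractionalIdeal D.O⁰ D.K) ≤
      ((J.2.unit⁻¹ : (FractionalIdeal D.O⁰ D.K)ˣ) : FractionalIdeal D.O⁰ D.K) := by
    calc (1 : FractionalIdeal D.O⁰ D.K) = (J.2.unit : FractionalIdeal D.O⁰ D.K) *
        ((J.2.unit⁻¹ : (FractionalIdeal D.O⁰ D.K)ˣ) : FractionalIdeal D.O⁰ D.K) := by simp only [IsUnit.unit_spec,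
                                                                                        IsUnit.mul_val_inv]
      _ ≤ 1 * ((J.2.unit⁻¹ : (FractionalIdeal D.O⁰ D.K)ˣ) : FractionalIdeal D.O⁰ D.K) := by
        gcongr
        rw [IsUnit.unit_spec]
        exact FractionalIdeal.coeIdeal_le_one
      _ = _ := one_mul _
  exact h1 ((FractionalIdeal.mem_one_iff _).mpr ⟨1, map_one _⟩)

/-- the overmodule `J^{-1}` -/
noncomputable def toMM (J : JJ D) : MM D :=
  ⟨sL D (D.zmod ((J.2.unit⁻¹ : (FractionalIdeal D.O⁰ D.K)ˣ) : FractionalIdeal D.O⁰ D.K)),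
    ⟨zmod_stable D _, sL D (D.zmod ((J.2.unit : (FractionalIdeal D.O⁰ D.K)ˣ) :
      FractionalIdeal D.O⁰ D.K)), zmod_stable D _, by
      rw [← sL_mul, ← zmod_mul, ← Units.val_mul, inv_mul_cancel, Units.val_one, sL_zmod_one]⟩,
    (mem_sL D).mpr ⟨1, one_mem_inv D J, (map_one _).symm⟩⟩

theorem toMM_injective : Function.Injective (toMM D) := by
  intro J J' h
  have h1 := congrArg Subtype.val h
  have h2 := zmod_injective D (sL_injective D h1)
  have h3 : J.2.unit⁻¹ = J'.2.unit⁻¹ := Units.ext h2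
  have h4 : J.2.unit = J'.2.unit := inv_injective h3
  have h5 := congrArg Units.val h4
  rw [IsUnit.unit_spec, IsUnit.unit_spec] at h5
  exact Subtype.ext (FractionalIdeal.coeIdeal_injective h5)

theorem toMM_surjective : Function.Surjective (toMM D) := by
  rintro ⟨M, hM, h1⟩
  obtain ⟨t, I, ht, rfl⟩ := exists_of_inv D hM
  obtain ⟨x, hx, hx1⟩ := mem_vmul.mp h1
  obtain ⟨a, ha, rfl⟩ := (mem_sL D).mp hx
  have ha0 : a ≠ 0 := by
    rintro rfl
    have := congrFun hx1 ⟨0, D.pos⟩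
    rw [map_zero, mul_zero] at this
    simp at this
  let P : (FractionalIdeal D.O⁰ D.K)ˣ := ⟨FractionalIdeal.spanSingleton D.O⁰ a⁻¹,
    FractionalIdeal.spanSingleton D.O⁰ a,
    by rw [FractionalIdeal.spanSingleton_mul_spanSingleton, inv_mul_cancel₀ ha0,
      FractionalIdeal.spanSingleton_one],
    by rw [FractionalIdeal.spanSingleton_mul_spanSingleton, mul_inv_cancel₀ ha0,
      FractionalIdeal.spanSingleton_one]⟩
  have hM' : vmul t (sL D (D.zmod (I : FractionalIdeal D.O⁰ D.K))) =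
      sL D (D.zmod ((P * I : (FractionalIdeal D.O⁰ D.K)ˣ) : FractionalIdeal D.O⁰ D.K)) := by
    have ht' : t = sE D a⁻¹ := by
      have h2 : sE D a * sE D a⁻¹ = 1 := by rw [← map_mul, mul_inv_cancel₀ ha0, map_one]
      calc t = t * (sE D a * sE D a⁻¹) := by rw [h2, mul_one]
        _ = (t * sE D a) * sE D a⁻¹ := by ring
        _ = sE D a⁻¹ := by rw [← hx1, one_mul]
    ext v
    rw [mem_vmul, mem_sL]
    constructor
    · rintro ⟨y, hy, rfl⟩
      obtain ⟨c, hc, rfl⟩ := (mem_sL D).mp hy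
      refine ⟨a⁻¹ * c, ?_, by rw [ht', map_mul]⟩
      rw [D.mem_zmod, Units.val_mul]
      change a⁻¹ * c ∈ FractionalIdeal.spanSingleton D.O⁰ a⁻¹ * (I : FractionalIdeal D.O⁰ D.K)
      exact FractionalIdeal.mul_mem_mul (FractionalIdeal.mem_spanSingleton_self _ _) hc
    · rintro ⟨c, hc, rfl⟩
      rw [D.mem_zmod, Units.val_mul] at hc
      change c ∈ FractionalIdeal.spanSingleton D.O⁰ a⁻¹ * (I : FractionalIdeal D.O⁰ D.K) at hc
      obtain ⟨z, hz, rfl⟩ := FractionalIdeal.mem_singleton_mul.mp hc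
      exact ⟨sE D z, (mem_sL D).mpr ⟨z, hz, rfl⟩, by rw [ht', map_mul]⟩
  have h1' : (1 : D.K) ∈ ((P * I : (FractionalIdeal D.O⁰ D.K)ˣ) : FractionalIdeal D.O⁰ D.K) := by
    rw [hM'] at h1
    obtain ⟨c, hc, hc1⟩ := (mem_sL D).mp h1
    have : c = 1 := sE_injective D (by rw [← hc1, map_one])
    rwa [this] at hc
  have hle : (((P * I)⁻¹ : (FractionalIdeal D.O⁰ D.K)ˣ) : FractionalIdeal D.O⁰ D.K) ≤ 1 := by
    have h2 : (1 : FractionalIdeal D.O⁰ D.K) ≤
        ((P * I : (FractionalIdeal D.O⁰ D.K)ˣ) : FractionalIdeal D.O⁰ D.K) :=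
      FractionalIdeal.one_le.mpr h1'
    calc (((P * I)⁻¹ : (FractionalIdeal D.O⁰ D.K)ˣ) : FractionalIdeal D.O⁰ D.K)
        = (((P * I)⁻¹ : (FractionalIdeal D.O⁰ D.K)ˣ) : FractionalIdeal D.O⁰ D.K) * 1 :=
          (mul_one _).symm
      _ ≤ (((P * I)⁻¹ : (FractionalIdeal D.O⁰ D.K)ˣ) : FractionalIdeal D.O⁰ D.K) *
          ((P * I : (FractionalIdeal D.O⁰ D.K)ˣ) : FractionalIdeal D.O⁰ D.K) := by (clear * - h2; gcongr)
      _ = 1 := by rw [← Units.val_mul, inv_mul_cancel, Units.val_one]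
  obtain ⟨J, hJ⟩ := FractionalIdeal.le_one_iff_exists_coeIdeal.mp hle
  have hJu : IsUnit (J : FractionalIdeal D.O⁰ D.K) := by rw [hJ]; exact Units.isUnit _
  refine ⟨⟨J, hJu⟩, Subtype.ext ?_⟩
  change sL D (D.zmod ((hJu.unit⁻¹ : (FractionalIdeal D.O⁰ D.K)ˣ) : FractionalIdeal D.O⁰ D.K)) = _
  have h3 : hJu.unit = (P * I)⁻¹ := Units.ext (by rw [IsUnit.unit_spec, hJ])
  rw [h3, inv_inv]
  exact hM'.symm

theorem idx_ne_zero (M : MM D) : idx D M ≠ 0 := by
  obtain ⟨W⟩ := nonempty_OD D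
  obtain ⟨τ, hτ⟩ := exists_fiber D W (M, 1)
  have h1 := nm_eq D W τ
  rw [hτ] at h1
  have h2 := nm_pos (coord_ne D (W.inv τ.1) τ.2)
  intro h0
  rw [h1, h0] at h2
  simp at h2

theorem idx_smul_mem (M : MM D) {x : Fin n → ℝ} (hx : x ∈ M.1) :
    ((idx D M : ℕ) : Fin n → ℝ) * x ∈ RE D := by
  have h1 := AddSubgroup.nsmul_index_mem ((RM (RE D)).toAddSubgroup.addSubgroupOf
    M.1.toAddSubgroup) ⟨x, hx⟩
  have h2 : (idx D M) • x ∈ (RM (RE D)).toAddSubgroup := AddSubgroup.mem_addSubgroupOf.mp h1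
  rw [nsmul_eq_mul] at h2
  exact h2

theorem idx_toMM (J : JJ D) : idx D (toMM D J) = Nat.card (D.O ⧸ J.1) := by
  set M := toMM D J with hM
  have hf := idx_ne_zero D M
  obtain ⟨v, hv, hvM⟩ := exists_gen (R := RE D) (S := RE D) (f := idx D M) le_rfl
    (fun s hs => (RE D).mul_mem (natCast_mem _ _) hs) M.1 M.2.1 (finite_max hf)
  rw [RM_mul_eq M.2.1.1] at hvM
  obtain ⟨a, ha, hav⟩ := (mem_sL D).mp hv
  -- the map `r ↦ r v`
  let ψ : D.O →+ (M.1.toAddSubgroup ⧸ (RM (RE D)).toAddSubgroup.addSubgroupOf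
      M.1.toAddSubgroup) :=
    (QuotientAddGroup.mk' _).comp
      { toFun := fun r => ⟨sE D ((r : 𝓞 D.K) : D.K) * v,
          M.2.1.1 _ ((mem_RE D).mpr ⟨r, r.2, rfl⟩) v hv⟩
        map_zero' := by
          apply Subtype.ext
          change sE D (((0 : D.O) : 𝓞 D.K) : D.K) * v = 0
          simp only [ZeroMemClass.coe_zero, map_zero, zero_mul]
        map_add' := fun r s => by
          apply Subtype.ext
          change sE D (((r + s : D.O) : 𝓞 D.K) : D.K) * v =
            sE D ((r : 𝓞 D.K) : D.K) * v + sE D ((s : 𝓞 D.K) : D.K) * v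
          push_cast
          rw [map_add, add_mul] }
  have hψ0 : ∀ r : D.O, ψ r = 0 ↔ sE D ((r : 𝓞 D.K) : D.K) * v ∈ RE D := by
    intro r
    change QuotientAddGroup.mk _ = 0 ↔ _
    rw [QuotientAddGroup.eq_zero_iff, AddSubgroup.mem_addSubgroupOf]
    rfl
  have hψs : Function.Surjective ψ := by
    intro y
    obtain ⟨⟨x, hx⟩, rfl⟩ := QuotientAddGroup.mk_surjective y
    have hx' : x ∈ sub (RE D) M.1 (idx D M) v := by rw [← hvM]; exact hx
    obtain ⟨r, hr, z, hz, hxz⟩ := mem_sub.mp hx'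
    obtain ⟨s, hs, rfl⟩ := (mem_RE D).mp hr
    refine ⟨⟨s, hs⟩, ?_⟩
    change QuotientAddGroup.mk _ = QuotientAddGroup.mk _
    rw [QuotientAddGroup.eq, AddSubgroup.mem_addSubgroupOf]
    change -(sE D (s : D.K) * v) + x ∈ RE D
    rw [hxz, neg_add_cancel_left]
    exact idx_smul_mem D M hz
  have hker : ∀ r : D.O, ψ r = 0 ↔ r ∈ J.1 := by
    intro r
    rw [hψ0]
    constructor
    · intro h
      -- `r J^{-1} ⊆ O`
      have h1 : ∀ c ∈ ((J.2.unit⁻¹ : (FractionalIdeal D.O⁰ D.K)ˣ) : FractionalIdeal D.O⁰ D.K),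
          ((r : 𝓞 D.K) : D.K) * c ∈ (1 : FractionalIdeal D.O⁰ D.K) := by
        intro c hc
        have hcM : sE D c ∈ M.1 := (mem_sL D).mpr ⟨c, hc, rfl⟩
        rw [hvM] at hcM
        obtain ⟨r', hr', z, hz, hcz⟩ := mem_sub.mp hcM
        have h2 : sE D (((r : 𝓞 D.K) : D.K) * c) ∈ RE D := by
          rw [map_mul, hcz]
          have h3 : sE D ((r : 𝓞 D.K) : D.K) * (r' * v + (idx D M : Fin n → ℝ) * z) =
              r' * (sE D ((r : 𝓞 D.K) : D.K) * v) +
                sE D ((r : 𝓞 D.K) : D.K) * ((idx D M : Fin n → ℝ) * z) := by ring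
          rw [h3]
          exact (RE D).add_mem ((RE D).mul_mem hr' h) ((RE D).mul_mem
            ((mem_RE D).mpr ⟨r, r.2, rfl⟩) (idx_smul_mem D M hz))
        obtain ⟨s, hs, hs'⟩ := (mem_RE D).mp h2
        rw [sE_injective D hs']
        exact (FractionalIdeal.mem_one_iff _).mpr ⟨⟨s, hs⟩, rfl⟩
      have h2 : FractionalIdeal.spanSingleton D.O⁰ ((r : 𝓞 D.K) : D.K) *
          ((J.2.unit⁻¹ : (FractionalIdeal D.O⁰ D.K)ˣ) : FractionalIdeal D.O⁰ D.K) ≤ 1 := by
        intro y hy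
        obtain ⟨c, hc, rfl⟩ := FractionalIdeal.mem_singleton_mul.mp hy
        exact h1 c hc
      have h3 : FractionalIdeal.spanSingleton D.O⁰ ((r : 𝓞 D.K) : D.K) ≤
          (J.1 : FractionalIdeal D.O⁰ D.K) := by
        calc FractionalIdeal.spanSingleton D.O⁰ ((r : 𝓞 D.K) : D.K)
            = FractionalIdeal.spanSingleton D.O⁰ ((r : 𝓞 D.K) : D.K) *
              ((J.2.unit⁻¹ : (FractionalIdeal D.O⁰ D.K)ˣ) : FractionalIdeal D.O⁰ D.K) *
              (J.2.unit : FractionalIdeal D.O⁰ D.K) := by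
              rw [mul_assoc, ← Units.val_mul, inv_mul_cancel, Units.val_one, mul_one]
          _ ≤ 1 * (J.2.unit : FractionalIdeal D.O⁰ D.K) := by (clear * - h2; gcongr)
          _ = _ := by rw [one_mul, IsUnit.unit_spec]
      have h4 := h3 (FractionalIdeal.mem_spanSingleton_self _ _)
      obtain ⟨s, hs, hs'⟩ := (FractionalIdeal.mem_coeIdeal _).mp h4
      have h5 : s = r := by
        apply Subtype.ext
        exact RingOfIntegers.coe_injective hs'
      rwa [← h5]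
    · intro h
      rw [hav, ← map_mul]
      have h1 : ((r : 𝓞 D.K) : D.K) * a ∈ (1 : FractionalIdeal D.O⁰ D.K) := by
        have h2 : (1 : FractionalIdeal D.O⁰ D.K) = (J.1 : FractionalIdeal D.O⁰ D.K) *
            ((J.2.unit⁻¹ : (FractionalIdeal D.O⁰ D.K)ˣ) : FractionalIdeal D.O⁰ D.K) := by
          have h3 : (J.2.unit : FractionalIdeal D.O⁰ D.K) * ((J.2.unit⁻¹ :
              (FractionalIdeal D.O⁰ D.K)ˣ) : FractionalIdeal D.O⁰ D.K) = 1 := by
            rw [← Units.val_mul, mul_inv_cancel, Units.val_one]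
          exact h3.symm
        rw [h2]
        exact FractionalIdeal.mul_mem_mul ((FractionalIdeal.mem_coeIdeal _).mpr ⟨r, h, rfl⟩) ha
      obtain ⟨s, hs⟩ := (FractionalIdeal.mem_one_iff _).mp h1
      exact (mem_RE D).mpr ⟨s, s.2, by rw [← hs]; rfl⟩
  have h1 : Nat.card (D.O ⧸ ψ.ker) = Nat.card (M.1.toAddSubgroup ⧸
      (RM (RE D)).toAddSubgroup.addSubgroupOf M.1.toAddSubgroup) :=
    Nat.card_congr (QuotientAddGroup.quotientKerEquivOfSurjective ψ hψs).toEquiv
  have h2 : ψ.ker = J.1.toAddSubgroup := by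
    ext r
    rw [AddMonoidHom.mem_ker, hker]
    rfl
  rw [h2] at h1
  change Nat.card _ = _
  rw [← h1]
  rfl

theorem card_ne_zero (J : JJ D) : Nat.card (D.O ⧸ J.1) ≠ 0 := by
  rw [← idx_toMM]; exact idx_ne_zero D _

theorem finite_JJ (m : ℕ) : Finite {J : JJ D // Nat.card (D.O ⧸ J.1) = m} := by
  rcases Nat.eq_zero_or_pos m with rfl | hm
  · have : IsEmpty {J : JJ D // Nat.card (D.O ⧸ J.1) = 0} := ⟨fun J => card_ne_zero D J.1 J.2⟩
    infer_instance
  · have hq := finite_quot (R := D.O) hm.ne'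
    have hfin : Finite (Ideal (D.O ⧸ Ideal.span {(m : D.O)})) :=
      Finite.of_injective (fun I => (I : Set (D.O ⧸ Ideal.span {(m : D.O)})))
        SetLike.coe_injective
    refine Finite.of_injective (fun J : {J : JJ D // Nat.card (D.O ⧸ J.1) = m} =>
      Ideal.map (Ideal.Quotient.mk (Ideal.span {(m : D.O)})) J.1.1) ?_
    intro J J' h
    have hmem : ∀ J : {J : JJ D // Nat.card (D.O ⧸ J.1) = m}, Ideal.span {(m : D.O)} ≤ J.1.1 := by
      intro J
      rw [Ideal.span_singleton_le_iff_mem]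
      have h1 := AddSubgroup.nsmul_index_mem J.1.1.toAddSubgroup (1 : D.O)
      have h2 : J.1.1.toAddSubgroup.index = m := J.2
      rw [h2, nsmul_eq_mul, mul_one] at h1
      exact h1
    have h1 := congrArg (Ideal.comap (Ideal.Quotient.mk (Ideal.span {(m : D.O)}))) h
    simp only at h1
    rw [Ideal.comap_map_of_surjective _ Ideal.Quotient.mk_surjective,
      Ideal.comap_map_of_surjective _ Ideal.Quotient.mk_surjective, ← RingHom.ker_eq_comap_bot,
      Ideal.mk_ker, sup_eq_left.mpr (hmem J), sup_eq_left.mpr (hmem J')] at h1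
    exact Subtype.ext (Subtype.ext h1)

theorem rO_eq (m : ℕ) : rO D m = Nat.card {J : JJ D // Nat.card (D.O ⧸ J.1) = m} := by
  unfold rO
  refine Nat.card_congr
    { toFun := fun J => ⟨⟨J.1, J.2.1⟩, J.2.2⟩
      invFun := fun J => ⟨J.1.1, J.1.2, J.2⟩
      left_inv := fun _ => rfl
      right_inv := fun _ => rfl }

theorem rO_zero' (D : Datum n) : rO D 0 = 0 := by
  rw [rO_eq]
  have : IsEmpty {J : JJ D // Nat.card (D.O ⧸ J.1) = 0} := ⟨fun J => card_ne_zero D J.1 J.2⟩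
  exact Nat.card_of_isEmpty

theorem tsum_MM (f : ℕ → ℝ≥0∞) :
    ∑' M : MM D, f (idx D M) = ∑' m : ℕ, (rO D m : ℝ≥0∞) * f m := by
  have hbij : Function.Bijective (toMM D) := ⟨toMM_injective D, toMM_surjective D⟩
  have h0 : ∑' M : MM D, f (idx D M) = ∑' J : JJ D, f (Nat.card (D.O ⧸ J.1)) := by
    rw [← (Equiv.ofBijective (toMM D) hbij).tsum_eq]
    refine tsum_congr fun J => ?_
    rw [← idx_toMM]
    rfl
  rw [h0, ← (Equiv.sigmaFiberEquiv (fun J : JJ D => Nat.card (D.O ⧸ J.1))).tsum_eq,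
    ENNReal.tsum_sigma']
  refine tsum_congr fun m => ?_
  have h1 : ∀ J : {J : JJ D // Nat.card (D.O ⧸ J.1) = m},
      f (Nat.card (D.O ⧸ ((Equiv.sigmaFiberEquiv (fun J : JJ D => Nat.card (D.O ⧸ J.1)))
        ⟨m, J⟩).1)) = f m := by
    intro J
    have : Nat.card (D.O ⧸ ((Equiv.sigmaFiberEquiv (fun J : JJ D => Nat.card (D.O ⧸ J.1)))
        ⟨m, J⟩).1) = m := J.2
    rw [this]
  simp only [h1]
  have := finite_JJ D m
  have := Fintype.ofFinite {J : JJ D // Nat.card (D.O ⧸ J.1) = m}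
  rw [tsum_fintype, Finset.sum_const, Finset.card_univ, nsmul_eq_mul, rO_eq,
    Nat.card_eq_fintype_card]

/-- **Unfolding formula** -/
theorem unfold (D : Datum n) (φ : (Fin n → ℝ) → ℝ≥0∞) (hφ : Measurable φ) :
    ∑' S : D.packet, ∫⁻ x, (∑' v : {v : Fin n → ℝ // v ∈ latx x ∧ v ≠ 0}, φ v.1) ∂(orbMeas S.1) =
      ∑' m : ℕ, (rO D m : ℝ≥0∞) * ∑ w : Fin n → ℤˣ, ∫⁻ u : Fin (n - 1) → ℝ,
        φ (fun j => ((m : ℝ) / √(D.disc : ℝ)) ^ ((n : ℝ)⁻¹) * ((w j : ℤ) : ℝ) *
          Real.exp (expo u j)) := by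
  obtain ⟨W⟩ := nonempty_OD D
  have h1 := unfold_geom D W φ hφ (fun M => (idx D M : ℝ) / √(D.disc : ℝ)) (nm_eq D W)
  refine h1.trans ?_
  exact tsum_MM D (fun m => ∑ w : Fin n → ℤˣ, ∫⁻ u : Fin (n - 1) → ℝ,
    φ ((fun j => ((m : ℝ) / √(D.disc : ℝ)) ^ ((n : ℝ)⁻¹) * ((w j : ℤ) : ℝ)) * ev u))

end Vale.Agent.P007.N
end

section

/-! # Hall–Tenenbaum bounds (P007, task A3) -/

set_option autoImplicit false

namespace Vale.Agent.P007.N

theorem HT.toHTc {n : ℕ} {B : ℝ} {g U : ℕ → ℝ} (h : HT n B g U) : HTc n B g U :=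
  ⟨h.nonneg, h.one, h.sub, h.pow, h.U1, h.sum⟩

theorem ht_crude (n : ℕ) (hn : 0 < n) (B : ℝ) : ∃ C : ℝ, 0 < C ∧ ∀ g U : ℕ → ℝ, HT n B g U →
    ∀ X : ℝ, 2 ≤ X → ∑ m ∈ Finset.Icc 1 ⌊X⌋₊, g m ≤ C * X / Real.log X * ∏ p ∈ P2 X, U p := by
  obtain ⟨C, hC, h⟩ := htc_crude n hn B
  refine ⟨C, hC, fun g U hg X hX => (h g U hg.toHTc X hX).trans ?_⟩
  have hX0 : 0 < X := by linarith only [hX]
  have hlog : 0 < Real.log X := Real.log_pos (by linarith only [hX])
  apply mul_le_mul_of_nonneg_left _ (by positivity)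
  apply prodU_mono hg.toHTc
  apply Nat.floor_le_floor
  linarith only [hX]

theorem ht_short (n : ℕ) (hn : 0 < n) (B : ℝ) : ∃ C : ℝ, 0 < C ∧ ∀ δ : ℝ, 0 < δ → δ ≤ 1 →
    ∃ X₀ : ℝ, ∀ g U : ℕ → ℝ, HT n B g U → ∀ X : ℝ, X₀ ≤ X →
      ∑ m ∈ Finset.Icc ⌈X⌉₊ ⌊(1 + δ) * X⌋₊, g m ≤ C * δ * X / Real.log X * ∏ p ∈ P2 X, U p := by
  obtain ⟨C, hC, h⟩ := htc_short n hn B
  refine ⟨C, hC, fun δ hδ hδ1 => ?_⟩
  obtain ⟨X₀, h'⟩ := h δ hδ hδ1
  exact ⟨X₀, fun g U hg X hX => h' g U hg.toHTc X hX⟩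

end Vale.Agent.P007.N
end

section

/-! P007 A6, part 3: the inputs `unfold`, `ht_crude`, `ht_short` plugged in; what remains are the
local counts (A2) and the lower bound for the volume (A5). -/

set_option autoImplicit false

open MeasureTheory Matrix NumberField Filter Topology
open scoped ENNReal nonZeroDivisors

namespace Vale.Agent.P007.N

open Vale.Agent.P007 Vale.Agent.P007.R

theorem star_packet_in (n : ℕ) (hn3 : 3 ≤ n)
    (hrHT : ∃ B : ℝ, ∀ D : Datum n, HT n B (fun m => (rO D m : ℝ)) (fun p => (up D p)⁻¹))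
    (hr0 : ∀ D : Datum n, rO D 0 = 0)
    (hvol : ∃ c : ℝ, 0 < c ∧ ∀ (D : Datum n) (X : ℝ), √(D.disc : ℝ) ≤ X →
      c * √(D.disc : ℝ) * HO D X ≤ (vol D).toReal) :
    ∃ C : ℝ, ∀ ε : ℝ, 0 < ε → ε < 1 →
      ∃ D₀ : ℕ, ∀ D : Datum n, D₀ ≤ D.disc → ∀ N0 : ℝ,
      D.packetMeas {x | ∃ v ∈ latx x, v ≠ 0 ∧ (∀ i, |v i| < 3) ∧ |∏ i, v i - N0| < ε} ≤
        ENNReal.ofReal (C * √ε) :=
  star_packet_of n hn3 (fun D φ hφ => unfold D φ hφ) hrHT hr0
    (fun B => ht_crude n (by omega) B) (fun B => ht_short n (by omega) B) hvol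

theorem tight_packet_in (n : ℕ) (hn3 : 3 ≤ n)
    (hrHT : ∃ B : ℝ, ∀ D : Datum n, HT n B (fun m => (rO D m : ℝ)) (fun p => (up D p)⁻¹))
    (hr0 : ∀ D : Datum n, rO D 0 = 0)
    (hvol : ∃ c : ℝ, 0 < c ∧ ∀ (D : Datum n) (X : ℝ), √(D.disc : ℝ) ≤ X →
      c * √(D.disc : ℝ) * HO D X ≤ (vol D).toReal) :
    ∃ C : ℝ, ∀ ε : ℝ, 0 < ε → ε < 1 → ∃ D₀ : ℕ, ∀ D : Datum n, D₀ ≤ D.disc →
      D.packetMeas {x | ∃ v ∈ latx x, v ≠ 0 ∧ ∀ i, |v i| < ε} ≤ ENNReal.ofReal (C * √ε) :=
  tight_packet_of n hn3 (fun D φ hφ => unfold D φ hφ) hrHT hr0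
    (fun B => ht_crude n (by omega) B) hvol

end Vale.Agent.P007.N
end

section

/-! Explicit constants in Mahler's reduction: a lattice of covolume one without nonzero vectors of
norm less than `ε` has a basis of norm at most `C ε^{-n}`. -/

set_option autoImplicit false

open Module Matrix MeasureTheory Topology

namespace Vale.Agent.P007.N.SA

open Vale.Agent.P007 Vale.Agent.P007.Red

/-- the constant of `mahler_aux` -/
noncomputable def MC : ℕ → ℝ → ℝ → ℝ
  | 0, _, D => D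
  | k + 1, ε, D => MC k (ε / 4) (D / ε) + 4 * max 1 D

theorem mahler_explicit (k : ℕ) : ∀ (ε D : ℝ), 0 < ε →
    ∀ A : Matrix (Fin (k + 1)) (Fin (k + 1)) ℝ, A.det ≠ 0 → |A.det| ≤ D → Thick ε A →
      ∃ γ : Matrix (Fin (k + 1)) (Fin (k + 1)) ℤ, IsUnit γ.det ∧
        ∀ i j, |(γ.map (Int.cast : ℤ → ℝ) * A) i j| ≤ MC k ε D := by
  induction k with
  | zero =>
    intro ε D _ A _ hD _
    refine ⟨1, by simp, fun i j => ?_⟩
    have h1 : A.det = A 0 0 := by simp
    rw [h1] at hD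
    have h2 : ((1 : Matrix (Fin (0 + 1)) (Fin (0 + 1)) ℤ).map (Int.cast : ℤ → ℝ) * A) = A := by
      rw [Matrix.map_one _ (by simp) (by simp), one_mul]
    rw [h2]
    have hi : i = 0 := Fin.ext (by omega)
    have hj : j = 0 := Fin.ext (by omega)
    rw [hi, hj]
    exact hD
  | succ k ih =>
    intro ε D hε A hA0 hAD hAT
    obtain ⟨C', hC'def⟩ : ∃ C', C' = MC k (ε / 4) (D / ε) := ⟨_, rfl⟩
    have hC' := ih (ε / 4) (D / ε) (by positivity)
    rw [← hC'def] at hC'
    set M : ℝ := max 1 D with hM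
    have hM1 : 1 ≤ M := le_max_left _ _
    have hMD : D ≤ M := le_max_right _ _
    have hMCeq : MC (k + 1) ε D = C' + 4 * M := by rw [MC, hC'def]
    rw [hMCeq]
    -- an almost shortest vector
    set S : Set ℝ := {r | ∃ z : Fin (k + 1 + 1) → ℤ, z ≠ 0 ∧ r = ‖(fun i => (z i : ℝ)) ᵥ* A‖}
      with hS
    have hSb : BddBelow S := ⟨ε, by rintro r ⟨z, hz, rfl⟩; exact hAT z hz⟩
    obtain ⟨m₀, hm₀, hm₀A⟩ := exists_short (M⁻¹ • A) (by
        rw [det_smul]; exact mul_ne_zero (pow_ne_zero _ (by positivity)) hA0) (by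
        rw [det_smul, abs_mul, abs_of_nonneg (by positivity), Fintype.card_fin]
        have h1 : M⁻¹ ^ (k + 1 + 1) ≤ M⁻¹ := by
          refine pow_le_of_le_one (by positivity) (inv_le_one_of_one_le₀ hM1) (by omega)
        calc M⁻¹ ^ (k + 1 + 1) * |A.det| ≤ M⁻¹ * M := by
              refine mul_le_mul h1 (hAD.trans hMD) (abs_nonneg _) (by positivity)
          _ = 1 := inv_mul_cancel₀ (by positivity))
    have hm₀' : ‖(fun i => (m₀ i : ℝ)) ᵥ* A‖ ≤ 2 * M := by
      rw [vecMul_smul, norm_smul, norm_inv, Real.norm_of_nonneg (by positivity : (0 : ℝ) ≤ M),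
        inv_mul_le_iff₀ (by positivity)] at hm₀A
      linarith only [hm₀A]
    have hSne : S.Nonempty := ⟨_, m₀, hm₀, rfl⟩
    set μ : ℝ := sInf S with hμ
    have hμε : ε ≤ μ := le_csInf hSne (by rintro r ⟨z, hz, rfl⟩; exact hAT z hz)
    have hμ0 : 0 < μ := lt_of_lt_of_le hε hμε
    have hμM : μ ≤ 2 * M := (csInf_le hSb ⟨m₀, hm₀, rfl⟩).trans hm₀'
    obtain ⟨r, ⟨z, hz, rfl⟩, hzμ⟩ := exists_lt_of_csInf_lt hSne (by
      linarith only [hε, hμε] : sInf S < 4 / 3 * μ)
    obtain ⟨γ₁, a, hγ₁, ha, rfl⟩ := exists_unimodular_row z hz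
    set A₁ : Matrix (Fin (k + 1 + 1)) (Fin (k + 1 + 1)) ℝ := γ₁.map (Int.cast : ℤ → ℝ) * A with hA₁
    have hrow : ‖A₁ 0‖ < 4 / 3 * μ := by
      have h2 : A₁ 0 = (fun i => (γ₁ 0 i : ℝ)) ᵥ* A := rfl
      have h3 : (fun i => (((a • γ₁ 0) i : ℤ) : ℝ)) ᵥ* A =
          (a : ℝ) • ((fun i => (γ₁ 0 i : ℝ)) ᵥ* A) := by
        rw [← Matrix.smul_vecMul]
        congr 1
        ext i
        simp
      rw [h3, norm_smul] at hzμ
      rw [h2]
      have h4 : (1 : ℝ) ≤ ‖(a : ℝ)‖ := by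
        rw [Real.norm_eq_abs, ← Int.cast_abs]
        exact_mod_cast Int.one_le_abs ha
      nlinarith only [hε, hμε, hzμ, h4]
    have hA₁T : ∀ z : Fin (k + 1 + 1) → ℤ, z ≠ 0 → μ ≤ ‖(fun i => (z i : ℝ)) ᵥ* A₁‖ := by
      have h5 : Thick μ A := fun z hz => csInf_le hSb ⟨z, hz, rfl⟩
      exact h5.unimod γ₁ hγ₁
    have hd1 : |A₁.det| = |A.det| := by
      rw [hA₁, det_mul, abs_mul, unit_cast_det _ hγ₁, one_mul]
    -- the largest coordinate
    obtain ⟨j, -, hj⟩ := Finset.exists_max_image Finset.univ (fun j => |A₁ 0 j|)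
      Finset.univ_nonempty
    have hjn : ‖A₁ 0‖ = |A₁ 0 j| := by
      refine le_antisymm ?_ ?_
      · rw [pi_norm_le_iff_of_nonneg (abs_nonneg _)]
        intro i
        exact hj i (Finset.mem_univ i)
      · exact norm_le_pi_norm (A₁ 0) j
    let A₂ : Matrix (Fin (k + 1 + 1)) (Fin (k + 1 + 1)) ℝ := A₁.submatrix id (Equiv.swap 0 j)
    have hnorm : ∀ v : Fin (k + 1 + 1) → ℝ, ‖fun i => v (Equiv.swap 0 j i)‖ = ‖v‖ := by
      intro v
      refine le_antisymm ?_ ?_
      · rw [pi_norm_le_iff_of_nonneg (norm_nonneg _)]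
        intro i
        exact norm_le_pi_norm v _
      · rw [pi_norm_le_iff_of_nonneg (norm_nonneg _)]
        intro i
        have := norm_le_pi_norm (fun i => v (Equiv.swap 0 j i)) (Equiv.swap 0 j i)
        simpa only [Real.norm_eq_abs, ge_iff_le, Equiv.swap_apply_self] using this
    have hA₂det : |A₂.det| = |A₁.det| := by
      have := abs_det_submatrix_equiv_equiv (Equiv.refl (Fin (k + 1 + 1))) (Equiv.swap 0 j) A₁
      exact this
    have hA₂T : ∀ z : Fin (k + 1 + 1) → ℤ, z ≠ 0 → μ ≤ ‖(fun i => (z i : ℝ)) ᵥ* A₂‖ := by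
      intro z hz
      have h6 : (fun i => (z i : ℝ)) ᵥ* A₂ =
          fun i => ((fun i => (z i : ℝ)) ᵥ* A₁) (Equiv.swap 0 j i) := rfl
      rw [h6, hnorm]
      exact hA₁T z hz
    have hrow2 : ‖A₂ 0‖ = ‖A₁ 0‖ := hnorm (A₁ 0)
    have h00 : |A₂ 0 0| = ‖A₂ 0‖ := by
      rw [hrow2, hjn]
      change |A₁ 0 (Equiv.swap 0 j 0)| = _
      rw [Equiv.swap_apply_left]
    have hrow3 : μ ≤ ‖A₂ 0‖ := by
      have h7 := hA₂T (Pi.single 0 1) (by
        intro h
        have := congrFun h 0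
        simp at this)
      have h8 : (fun i => (((Pi.single 0 1 : Fin (k + 1 + 1) → ℤ) i : ℤ) : ℝ)) =
          Pi.single 0 1 := by
        funext i
        by_cases hi : i = 0
        · subst hi; simp
        · simp [hi]
      rw [h8, single_one_vecMul] at h7
      exact h7
    have h00' : A₂ 0 0 ≠ 0 := by
      rw [← abs_ne_zero, h00]
      exact (lt_of_lt_of_le hμ0 hrow3).ne'
    -- the rest
    have hdet := det_rest A₂ h00'
    have hrest0 : Matrix.det (Matrix.of (rest A₂)) ≠ 0 := by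
      intro h
      rw [h, mul_zero] at hdet
      have : |A₂.det| = 0 := by rw [hdet, abs_zero]
      rw [hA₂det, hd1, abs_eq_zero] at this
      exact hA0 this
    have hrestD : |Matrix.det (Matrix.of (rest A₂))| ≤ D / ε := by
      rw [le_div_iff₀ hε]
      have h9 : |A₂ 0 0| * |Matrix.det (Matrix.of (rest A₂))| = |A.det| := by
        rw [← abs_mul, ← hdet, hA₂det, hd1]
      have h10 : ε ≤ |A₂ 0 0| := by rw [h00]; linarith only [hμε, hrow3]
      nlinarith only [abs_nonneg (Matrix.det (Matrix.of (rest A₂))), hAD, hμε, h00, hrow3, h9]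
    have hrestT : Thick (ε / 4) (Matrix.of (rest A₂)) := by
      intro z hz
      set t : ℝ := ∑ l, (z l : ℝ) * (A₂ l.succ 0 / A₂ 0 0) with ht
      set z' : Fin (k + 1 + 1) → ℤ := Fin.cons (-round t) z with hz'
      have hz'0 : z' ≠ 0 := by
        intro h
        apply hz
        funext i
        have := congrFun h i.succ
        simpa [hz'] using this
      have h11 := hA₂T z' hz'0
      have htA : t * A₂ 0 0 = ∑ l, (z l : ℝ) * A₂ l.succ 0 := by
        simp only [ht, Finset.sum_mul]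
        refine Finset.sum_congr rfl fun l _ => ?_
        (clear * - h00'; field_simp)
      have h12 : ∀ i, ((fun i => (z' i : ℝ)) ᵥ* A₂) i = (t - round t) * A₂ 0 i +
          (Fin.cons 0 ((fun i => (z i : ℝ)) ᵥ* Matrix.of (rest A₂)) :
            Fin (k + 1 + 1) → ℝ) i := by
        intro i
        rw [vecMul, dotProduct, Fin.sum_univ_succ]
        simp only [hz', Fin.cons_zero, Fin.cons_succ]
        refine Fin.cases ?_ (fun i => ?_) i
        · rw [Fin.cons_zero, ← htA]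
          push_cast
          ring
        · rw [Fin.cons_succ, vecMul, dotProduct]
          have h13 : ∀ l, (z l : ℝ) * (Matrix.of (rest A₂)) l i = (z l : ℝ) * A₂ l.succ i.succ -
              (z l : ℝ) * (A₂ l.succ 0 / A₂ 0 0) * A₂ 0 i.succ := by
            intro l
            simp only [of_apply, rest]
            ring
          rw [Finset.sum_congr rfl fun l _ => h13 l, Finset.sum_sub_distrib, ← Finset.sum_mul,
            ← ht]
          push_cast
          ring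
      have h14 : ‖(fun i => (z' i : ℝ)) ᵥ* A₂‖ ≤ 1 / 2 * ‖A₂ 0‖ +
          ‖(fun i => (z i : ℝ)) ᵥ* Matrix.of (rest A₂)‖ := by
        rw [pi_norm_le_iff_of_nonneg (by (clear * -; positivity))]
        intro i
        rw [h12 i]
        refine (norm_add_le _ _).trans (add_le_add ?_ ?_)
        · rw [norm_mul]
          exact mul_le_mul (abs_sub_round t) (norm_le_pi_norm (A₂ 0) i) (norm_nonneg _)
            (by norm_num)
        · refine Fin.cases ?_ (fun i => ?_) i
          · rw [Fin.cons_zero, norm_zero]; exact norm_nonneg _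
          · rw [Fin.cons_succ]
            exact norm_le_pi_norm ((fun i => (z i : ℝ)) ᵥ* Matrix.of (rest A₂)) i
      rw [hrow2] at h14
      linarith only [hε, hμε, hrow, h11, h14]
    obtain ⟨γ, hγ, hγC⟩ := hC' (Matrix.of (rest A₂)) hrest0 hrestD hrestT
    obtain ⟨δ, hδ, hδ0, hδs⟩ := lift_step A₂ h00' γ hγ
    refine ⟨δ * γ₁, ?_, ?_⟩
    · rw [det_mul]; exact hδ.mul hγ₁
    have hrowM : ‖A₂ 0‖ ≤ 4 * M := by rw [hrow2]; linarith only [hM1, hμM, hrow]
    have hC0 : 0 ≤ C' := (abs_nonneg _).trans (hγC 0 0)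
    have hb : ∀ i j, |(δ.map (Int.cast : ℤ → ℝ) * A₂) i j| ≤ C' + 4 * M := by
      intro i l
      refine Fin.cases ?_ (fun i => ?_) i
      · rw [hδ0 l]
        have := norm_le_pi_norm (A₂ 0) l
        rw [Real.norm_eq_abs] at this
        linarith only [hM1, hμM, hrow, hrow2, hC0, this]
      · obtain ⟨t, ht, ht0, hts⟩ := hδs i
        have h16 : ∀ l, |t * A₂ 0 l| ≤ 4 * M := by
          intro l
          rw [abs_mul]
          have h17 := norm_le_pi_norm (A₂ 0) l
          rw [Real.norm_eq_abs] at h17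
          calc |t| * |A₂ 0 l| ≤ 1 * (4 * M) :=
                mul_le_mul (ht.trans (by norm_num)) (h17.trans hrowM) (abs_nonneg _) zero_le_one
            _ = 4 * M := one_mul _
        refine Fin.cases ?_ (fun l => ?_) l
        · rw [ht0]
          linarith only [h16 0, hC0, h16]
        · rw [hts l]
          refine (abs_add_le _ _).trans ?_
          linarith only [h16 l.succ, hγC i l, hγC, h16]
    intro i l
    rw [map_mul_cast, ← hA₁]
    have h18 : (δ.map (Int.cast : ℤ → ℝ) * A₁) i l =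
        (δ.map (Int.cast : ℤ → ℝ) * A₂) i (Equiv.swap 0 j l) := by
      rw [mul_apply, mul_apply]
      refine Finset.sum_congr rfl fun s _ => ?_
      change _ = _ * A₁ s (Equiv.swap 0 j (Equiv.swap 0 j l))
      rw [Equiv.swap_apply_self]
    rw [h18]
    exact hb i _


theorem MC_le (k : ℕ) : ∃ c : ℝ, 1 ≤ c ∧ ∀ ε D : ℝ, 0 < ε → ε ≤ 1 →
    MC k ε D ≤ c * max 1 D / ε ^ k := by
  induction k with
  | zero =>
    refine ⟨1, le_rfl, fun ε D _ _ => ?_⟩
    rw [MC, pow_zero, div_one, one_mul]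
    exact le_max_right _ _
  | succ k ih =>
    obtain ⟨c, hc1, hc⟩ := ih
    refine ⟨4 ^ k * c + 4, ?_, fun ε D hε hε1 => ?_⟩
    · have : (0 : ℝ) ≤ 4 ^ k * c := by positivity
      linarith
    · rw [MC]
      have h1 := hc (ε / 4) (D / ε) (by positivity) (by linarith)
      have hm : (0 : ℝ) < max 1 D := lt_of_lt_of_le one_pos (le_max_left _ _)
      have h2 : max 1 (D / ε) ≤ max 1 D / ε := by
        apply max_le
        · rw [le_div_iff₀ hε, one_mul]
          exact hε1.trans (le_max_left _ _)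
        · gcongr
          exact le_max_right _ _
      have h3 : c * max 1 (D / ε) / (ε / 4) ^ k ≤ 4 ^ k * c * max 1 D / ε ^ (k + 1) := by
        calc c * max 1 (D / ε) / (ε / 4) ^ k ≤ c * (max 1 D / ε) / (ε / 4) ^ k := by gcongr
          _ = 4 ^ k * c * max 1 D / ε ^ (k + 1) := by
              rw [div_pow, pow_succ]
              field_simp
      have h4 : 4 * max 1 D ≤ 4 * max 1 D / ε ^ (k + 1) := by
        rw [le_div_iff₀ (by positivity)]
        exact mul_le_of_le_one_right (by positivity) (pow_le_one₀ hε.le hε1)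
      calc MC k (ε / 4) (D / ε) + 4 * max 1 D
          ≤ 4 ^ k * c * max 1 D / ε ^ (k + 1) + 4 * max 1 D / ε ^ (k + 1) :=
            add_le_add (h1.trans h3) h4
        _ = (4 ^ k * c + 4) * max 1 D / ε ^ (k + 1) := by ring

/-- reduced bases with an explicit bound -/
theorem exists_reduced (n : ℕ) (hn : 0 < n) : ∃ C : ℝ, 1 ≤ C ∧ ∀ ε : ℝ, 0 < ε → ε ≤ 1 →
    ∀ A : Matrix (Fin n) (Fin n) ℝ, |A.det| = 1 → Thick ε A →
      ∃ γ : Matrix (Fin n) (Fin n) ℤ, IsUnit γ.det ∧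
        ∀ i j, |(γ.map (Int.cast : ℤ → ℝ) * A) i j| ≤ C / ε ^ n := by
  obtain ⟨k, rfl⟩ : ∃ k, n = k + 1 := ⟨n - 1, by omega⟩
  obtain ⟨c, hc1, hc⟩ := MC_le k
  refine ⟨c, hc1, fun ε hε hε1 A hA hT => ?_⟩
  have hA0 : A.det ≠ 0 := by
    intro h
    rw [h, abs_zero] at hA
    exact zero_ne_one hA
  obtain ⟨γ, hγ, hb⟩ := mahler_explicit k ε 1 hε A hA0 hA.le hT
  refine ⟨γ, hγ, fun i j => (hb i j).trans ((hc ε 1 hε hε1).trans ?_)⟩
  rw [max_self, mul_one]
  have h1 : ε ^ (k + 1) ≤ ε ^ k := pow_le_pow_of_le_one hε.le hε1 (Nat.le_succ k)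
  (clear * - hc1 hε h1; gcongr)

end Vale.Agent.P007.N.SA
end

section

/-! Counting lattice points in a cube with weights periodic modulo `q`. -/

set_option autoImplicit false

open MeasureTheory Matrix
open scoped ENNReal

namespace Vale.Agent.P007.N.SA

open Vale.Agent.P007

variable {n : ℕ}

/-- reduction modulo `q` -/
def redq (q : ℕ) (z : Fin n → ℤ) : Fin n → ZMod q := fun i => (z i : ZMod q)

/-- the indicator of `‖z B‖ ≤ T` -/
noncomputable def bnd (B : Matrix (Fin n) (Fin n) ℝ) (T : ℝ) (z : Fin n → ℤ) : ℝ≥0∞ :=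
  open Classical in if ‖(fun i => (z i : ℝ)) ᵥ* B‖ ≤ T then 1 else 0

/-- weighted count of lattice points of norm at most `T` -/
noncomputable def wcount (q : ℕ) (B : Matrix (Fin n) (Fin n) ℝ) (f : (Fin n → ZMod q) → ℝ≥0∞)
    (T : ℝ) : ℝ≥0∞ :=
  ∑' z : Fin n → ℤ, f (redq q z) * bnd B T z

theorem exists_rep (q : ℕ) [NeZero q] (c : ZMod q) (t : ℝ) :
    ∃ z : ℤ, (z : ZMod q) = c ∧ (z : ℝ) ≤ t ∧ t < z + q := by
  have hq : (0 : ℝ) < q := by exact_mod_cast Nat.pos_of_ne_zero (NeZero.ne q)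
  set m : ℤ := ⌊(t - c.val) / q⌋ with hm
  refine ⟨c.val + q * m, ?_, ?_, ?_⟩
  · push_cast
    rw [ZMod.natCast_self, zero_mul, add_zero]
    exact ZMod.natCast_zmod_val c
  · have h1 : (m : ℝ) ≤ (t - c.val) / q := Int.floor_le _
    rw [le_div_iff₀ hq] at h1
    push_cast
    linarith only [h1]
  · have h1 : (t - c.val) / q < m + 1 := Int.lt_floor_add_one _
    rw [div_lt_iff₀ hq] at h1
    push_cast
    linarith

theorem rep_unique (q : ℕ) [NeZero q] {z z' : ℤ} {t : ℝ} (h : (z : ZMod q) = (z' : ZMod q))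
    (h1 : (z : ℝ) ≤ t) (h2 : t < z + q) (h3 : (z' : ℝ) ≤ t) (h4 : t < z' + q) : z = z' := by
  have hd : (q : ℤ) ∣ z - z' := by
    rw [← ZMod.intCast_zmod_eq_zero_iff_dvd, Int.cast_sub, h, sub_self]
  have h5 : |z - z'| < q := by
    rw [abs_lt]
    constructor
    · have : (z' : ℝ) < z + q := lt_of_le_of_lt h3 h2
      have h6 : z' < z + q := by exact_mod_cast this
      linarith only [h6]
    · have : (z : ℝ) < z' + q := lt_of_le_of_lt h1 h4
      have h6 : z < z' + q := by exact_mod_cast this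
      linarith
  have h6 := Int.eq_zero_of_abs_lt_dvd hd h5
  linarith

/-- the cube of side `q` with corner `z` -/
def cube (q : ℕ) (z : Fin n → ℤ) : Set (Fin n → ℝ) :=
  Set.pi Set.univ fun i => Set.Ico (z i : ℝ) (z i + q)

theorem mem_cube {q : ℕ} {z : Fin n → ℤ} {t : Fin n → ℝ} :
    t ∈ cube q z ↔ ∀ i, (z i : ℝ) ≤ t i ∧ t i < z i + q := by
  simp only [cube, Set.mem_pi, Set.mem_univ, Set.mem_Ico, forall_const]

theorem measurableSet_cube (q : ℕ) (z : Fin n → ℤ) : MeasurableSet (cube q z) :=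
  MeasurableSet.univ_pi fun _ => measurableSet_Ico

theorem volume_cube (q : ℕ) (z : Fin n → ℤ) : volume (cube q z) = (q : ℝ≥0∞) ^ n := by
  rw [cube, Real.volume_pi_Ico]
  simp only [add_sub_cancel_left, ENNReal.ofReal_natCast, Finset.prod_const, Finset.card_univ,
    Fintype.card_fin]

theorem norm_vecMul_le {q : ℕ} {B : Matrix (Fin n) (Fin n) ℝ} {M : ℝ} (hM0 : 0 ≤ M)
    (hM : ∀ i j, |B i j| ≤ M) (s : Fin n → ℝ) (hs : ∀ i, |s i| ≤ q) :
    ‖s ᵥ* B‖ ≤ n * q * M := by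
  rw [pi_norm_le_iff_of_nonneg (by positivity)]
  intro j
  rw [vecMul, dotProduct, Real.norm_eq_abs]
  refine (Finset.abs_sum_le_sum_abs _ _).trans ?_
  calc ∑ i, |s i * B i j| ≤ ∑ _i : Fin n, (q : ℝ) * M := by
        refine Finset.sum_le_sum fun i _ => ?_
        rw [abs_mul]
        exact mul_le_mul (hs i) (hM i j) (abs_nonneg _) (by positivity)
    _ = n * q * M := by
        rw [Finset.sum_const, Finset.card_univ, Fintype.card_fin, nsmul_eq_mul]
        ring

theorem volume_preimage {B : Matrix (Fin n) (Fin n) ℝ} (hB : |B.det| = 1) (r : ℝ) (hr : 0 ≤ r) :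
    volume {t : Fin n → ℝ | ‖t ᵥ* B‖ ≤ r} = ENNReal.ofReal ((2 * r) ^ n) := by
  have hdet : LinearMap.det (Matrix.toLin' Bᵀ) = B.det := by
    rw [LinearMap.det_toLin', det_transpose]
  have h0 : B.det ≠ 0 := by
    intro h
    rw [h, abs_zero] at hB
    exact zero_ne_one hB
  have h1 := Measure.addHaar_preimage_linearMap (volume : Measure (Fin n → ℝ))
    (f := Matrix.toLin' Bᵀ) (by rw [hdet]; exact h0) (Metric.closedBall 0 r)
  have h2 : (Matrix.toLin' Bᵀ) ⁻¹' (Metric.closedBall 0 r) = {t : Fin n → ℝ | ‖t ᵥ* B‖ ≤ r} := by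
    ext t
    rw [Set.mem_preimage, mem_closedBall_zero_iff, Matrix.toLin'_apply, Matrix.mulVec_transpose]
    rfl
  rw [h2] at h1
  rw [h1, hdet, abs_inv, hB, inv_one, ENNReal.ofReal_one, one_mul,
    Real.volume_pi_closedBall _ hr, Fintype.card_fin]

/-- the sum over one class, as an integral -/
theorem class_integral (q : ℕ) (B : Matrix (Fin n) (Fin n) ℝ) (T : ℝ) (c : Fin n → ZMod q) :
    (q : ℝ≥0∞) ^ n * ∑' z : Fin n → ℤ, (open Classical in if redq q z = c then 1 else 0) *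
      bnd B T z = ∫⁻ t : Fin n → ℝ, ∑' z : Fin n → ℤ,
        (open Classical in if redq q z = c then 1 else 0) * bnd B T z *
          (cube q z).indicator 1 t := by
  classical
  rw [lintegral_tsum]
  · rw [← ENNReal.tsum_mul_left]
    congr 1
    funext z
    rw [lintegral_const_mul' _ _ (by
      refine ENNReal.mul_ne_top ?_ ?_
      · split_ifs <;> simp
      · rw [bnd]; split_ifs <;> simp), lintegral_indicator_one (measurableSet_cube q z),
      volume_cube, mul_comm]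
  · intro z
    exact (measurable_const.mul ((measurable_const (a := (1 : ℝ≥0∞))).indicator
      (measurableSet_cube q z))).aemeasurable


/-- only one term of the inner sum is nonzero -/
theorem class_tsum (q : ℕ) [NeZero q] (B : Matrix (Fin n) (Fin n) ℝ) (T : ℝ)
    {c : Fin n → ZMod q} {t : Fin n → ℝ} {z0 : Fin n → ℤ} (h0 : redq q z0 = c)
    (ht : t ∈ cube q z0) :
    ∑' z : Fin n → ℤ, (open Classical in if redq q z = c then 1 else 0) * bnd B T z *
      (cube q z).indicator 1 t = bnd B T z0 := by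
  classical
  rw [tsum_eq_single z0]
  · rw [if_pos h0, Set.indicator_of_mem ht, one_mul, Pi.one_apply, mul_one]
  · intro z hz
    by_cases h1 : redq q z = c
    · by_cases h2 : t ∈ cube q z
      · exfalso
        apply hz
        funext i
        rw [mem_cube] at ht h2
        refine rep_unique q ?_ (h2 i).1 (h2 i).2 (ht i).1 (ht i).2
        exact congrFun (h1.trans h0.symm) i
      · rw [Set.indicator_of_notMem h2, mul_zero]
    · rw [if_neg h1, zero_mul, zero_mul]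

theorem norm_sub_le_of_mem_cube {q : ℕ} {B : Matrix (Fin n) (Fin n) ℝ} {M : ℝ}
    (hM0 : 0 ≤ M) (hM : ∀ i j, |B i j| ≤ M) {t : Fin n → ℝ} {z : Fin n → ℤ}
    (ht : t ∈ cube q z) : ‖t ᵥ* B - (fun i => (z i : ℝ)) ᵥ* B‖ ≤ n * q * M := by
  rw [← sub_vecMul]
  refine norm_vecMul_le hM0 hM _ fun i => ?_
  rw [mem_cube] at ht
  rw [Pi.sub_apply, abs_le]
  have hq : (0 : ℝ) ≤ q := Nat.cast_nonneg q
  constructor
  · linarith [(ht i).1]
  · linarith [(ht i).2]

theorem measurableSet_ball (B : Matrix (Fin n) (Fin n) ℝ) (r : ℝ) :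
    MeasurableSet {t : Fin n → ℝ | ‖t ᵥ* B‖ ≤ r} := by
  refine measurableSet_le ?_ measurable_const
  have h := (Matrix.toLin' Bᵀ).continuous_of_finiteDimensional.measurable.norm
  have h2 : (fun t : Fin n → ℝ => ‖(Matrix.toLin' Bᵀ) t‖) = fun t => ‖t ᵥ* B‖ := by
    funext t
    rw [Matrix.toLin'_apply, Matrix.mulVec_transpose]
  rw [← h2]
  exact h

theorem class_upper (q : ℕ) [NeZero q] {B : Matrix (Fin n) (Fin n) ℝ} (hB : |B.det| = 1) {M : ℝ}
    (hM0 : 0 ≤ M) (hM : ∀ i j, |B i j| ≤ M) {T : ℝ} (hT : 0 ≤ T) (c : Fin n → ZMod q) :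
    (q : ℝ≥0∞) ^ n * ∑' z : Fin n → ℤ, (open Classical in if redq q z = c then 1 else 0) *
      bnd B T z ≤ ENNReal.ofReal ((2 * (T + n * q * M)) ^ n) := by
  classical
  rw [class_integral, ← volume_preimage hB _ (by positivity),
    ← lintegral_indicator_one (measurableSet_ball B _)]
  refine lintegral_mono fun t => ?_
  choose z0 hz0 hz0' using fun i => exists_rep q (c i) (t i)
  have ht : t ∈ cube q z0 := mem_cube.mpr hz0'
  rw [class_tsum q B T (funext hz0) ht, bnd]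
  split_ifs with h1
  · have h2 : t ∈ {t : Fin n → ℝ | ‖t ᵥ* B‖ ≤ T + n * q * M} := by
      show ‖t ᵥ* B‖ ≤ T + n * q * M
      have h3 := norm_sub_le_of_mem_cube hM0 hM ht
      have h4 := norm_sub_norm_le (t ᵥ* B) ((fun i => (z0 i : ℝ)) ᵥ* B)
      linarith
    rw [Set.indicator_of_mem h2]
    rfl
  · exact bot_le

theorem class_lower (q : ℕ) [NeZero q] {B : Matrix (Fin n) (Fin n) ℝ} (hB : |B.det| = 1) {M : ℝ}
    (hM0 : 0 ≤ M) (hM : ∀ i j, |B i j| ≤ M) {T : ℝ} (hT : n * q * M ≤ T) (c : Fin n → ZMod q) :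
    ENNReal.ofReal ((2 * (T - n * q * M)) ^ n) ≤ (q : ℝ≥0∞) ^ n * ∑' z : Fin n → ℤ,
      (open Classical in if redq q z = c then 1 else 0) * bnd B T z := by
  classical
  rw [class_integral, ← volume_preimage hB _ (by linarith),
    ← lintegral_indicator_one (measurableSet_ball B _)]
  refine lintegral_mono fun t => ?_
  choose z0 hz0 hz0' using fun i => exists_rep q (c i) (t i)
  have ht : t ∈ cube q z0 := mem_cube.mpr hz0'
  rw [class_tsum q B T (funext hz0) ht]
  by_cases h2 : t ∈ {t : Fin n → ℝ | ‖t ᵥ* B‖ ≤ T - n * q * M}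
  · rw [Set.indicator_of_mem h2, bnd, if_pos]
    · rfl
    · have h2' : ‖t ᵥ* B‖ ≤ T - n * q * M := h2
      have h3 := norm_sub_le_of_mem_cube hM0 hM ht
      rw [norm_sub_rev] at h3
      have h4 := norm_sub_norm_le ((fun i => (z0 i : ℝ)) ᵥ* B) (t ᵥ* B)
      linarith
  · rw [Set.indicator_of_notMem h2]
    exact bot_le

/-- splitting into classes -/
theorem wcount_eq (q : ℕ) [NeZero q] (B : Matrix (Fin n) (Fin n) ℝ)
    (f : (Fin n → ZMod q) → ℝ≥0∞) (T : ℝ) :
    wcount q B f T = ∑ c, f c * ∑' z : Fin n → ℤ,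
      (open Classical in if redq q z = c then 1 else 0) * bnd B T z := by
  classical
  have h1 : ∀ z : Fin n → ℤ, f (redq q z) * bnd B T z =
      ∑ c, f c * ((if redq q z = c then 1 else 0) * bnd B T z) := by
    intro z
    rw [Finset.sum_eq_single (redq q z)]
    · rw [if_pos rfl, one_mul]
    · intro c _ hc
      rw [if_neg (Ne.symm hc), zero_mul, mul_zero]
    · intro h
      exact absurd (Finset.mem_univ _) h
  rw [wcount]
  simp_rw [h1]
  rw [Summable.tsum_finsetSum fun _ _ => ENNReal.summable]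
  simp_rw [ENNReal.tsum_mul_left]

/-- the mean of `f` -/
noncomputable def mn (q : ℕ) [NeZero q] (f : (Fin n → ZMod q) → ℝ≥0∞) : ℝ≥0∞ :=
  (∑ c, f c) / (q : ℝ≥0∞) ^ n

theorem pow_q_ne_zero (q : ℕ) [NeZero q] : (q : ℝ≥0∞) ^ n ≠ 0 :=
  pow_ne_zero _ (by exact_mod_cast NeZero.ne q)

theorem pow_q_ne_top (q : ℕ) : (q : ℝ≥0∞) ^ n ≠ ∞ := ENNReal.pow_ne_top (ENNReal.natCast_ne_top q)

theorem wcount_upper_red (q : ℕ) [NeZero q] {B : Matrix (Fin n) (Fin n) ℝ} (hB : |B.det| = 1)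
    {M : ℝ} (hM0 : 0 ≤ M) (hM : ∀ i j, |B i j| ≤ M) (f : (Fin n → ZMod q) → ℝ≥0∞) {T : ℝ}
    (hT : 0 ≤ T) : wcount q B f T ≤ mn q f * ENNReal.ofReal ((2 * (T + n * q * M)) ^ n) := by
  rw [wcount_eq, mn, ENNReal.div_eq_inv_mul, mul_assoc, Finset.sum_mul, Finset.mul_sum]
  refine Finset.sum_le_sum fun c _ => ?_
  have h1 := class_upper q hB hM0 hM hT c
  rw [mul_comm, ← ENNReal.le_div_iff_mul_le (Or.inl (pow_q_ne_zero q))
    (Or.inl (pow_q_ne_top q))] at h1
  calc _ ≤ f c * (ENNReal.ofReal ((2 * (T + n * q * M)) ^ n) / (q : ℝ≥0∞) ^ n) := by gcongr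
    _ = _ := by rw [ENNReal.div_eq_inv_mul]; ring

theorem wcount_lower_red (q : ℕ) [NeZero q] {B : Matrix (Fin n) (Fin n) ℝ} (hB : |B.det| = 1)
    {M : ℝ} (hM0 : 0 ≤ M) (hM : ∀ i j, |B i j| ≤ M) (f : (Fin n → ZMod q) → ℝ≥0∞) {T : ℝ}
    (hT : n * q * M ≤ T) :
    mn q f * ENNReal.ofReal ((2 * (T - n * q * M)) ^ n) ≤ wcount q B f T := by
  rw [wcount_eq, mn, ENNReal.div_eq_inv_mul, mul_assoc, Finset.sum_mul, Finset.mul_sum]
  refine Finset.sum_le_sum fun c _ => ?_
  have h1 := class_lower q hB hM0 hM hT c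
  calc ((q : ℝ≥0∞) ^ n)⁻¹ * (f c * ENNReal.ofReal ((2 * (T - n * q * M)) ^ n))
      ≤ ((q : ℝ≥0∞) ^ n)⁻¹ * (f c * ((q : ℝ≥0∞) ^ n * ∑' z : Fin n → ℤ,
          (open Classical in if redq q z = c then 1 else 0) * bnd B T z)) := by (clear * - h1; gcongr)
    _ = (((q : ℝ≥0∞) ^ n)⁻¹ * (q : ℝ≥0∞) ^ n) * (f c * ∑' z : Fin n → ℤ,
          (open Classical in if redq q z = c then 1 else 0) * bnd B T z) := by ring
    _ = _ := by rw [ENNReal.inv_mul_cancel (pow_q_ne_zero q) (pow_q_ne_top q), one_mul]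

/-- change of basis by a unimodular matrix -/
noncomputable def umEquiv (γ : Matrix (Fin n) (Fin n) ℤ) (hγ : IsUnit γ.det) :
    (Fin n → ℤ) ≃ (Fin n → ℤ) where
  toFun z := z ᵥ* γ
  invFun z := z ᵥ* γ⁻¹
  left_inv z := by
    simp only [vecMul_vecMul, Matrix.mul_nonsing_inv γ hγ, vecMul_one]
  right_inv z := by
    simp only [vecMul_vecMul, Matrix.nonsing_inv_mul γ hγ, vecMul_one]

theorem redq_vecMul (q : ℕ) (z : Fin n → ℤ) (γ : Matrix (Fin n) (Fin n) ℤ) :
    redq q (z ᵥ* γ) = redq q z ᵥ* γ.map (Int.cast : ℤ → ZMod q) := by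
  funext j
  simp only [redq, vecMul, dotProduct, Int.cast_sum, Int.cast_mul, map_apply]

theorem wcount_unimod (q : ℕ) (B : Matrix (Fin n) (Fin n) ℝ) {γ : Matrix (Fin n) (Fin n) ℤ}
    (hγ : IsUnit γ.det) (f : (Fin n → ZMod q) → ℝ≥0∞) (T : ℝ) :
    wcount q B f T =
      wcount q (castM γ * B) (fun c => f (c ᵥ* γ.map (Int.cast : ℤ → ZMod q))) T := by
  rw [wcount, wcount, ← Equiv.tsum_eq (umEquiv γ hγ)]
  congr 1
  funext z
  have h1 : (umEquiv γ hγ) z = z ᵥ* γ := rfl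
  have h2 : (fun i => (((z ᵥ* γ) i : ℤ) : ℝ)) = (fun i => (z i : ℝ)) ᵥ* castM γ := by
    funext j
    simp only [vecMul, dotProduct, Int.cast_sum, Int.cast_mul, castM, map_apply]
  rw [h1, redq_vecMul, bnd, bnd, h2, vecMul_vecMul]

theorem mn_unimod (q : ℕ) [NeZero q] {γ : Matrix (Fin n) (Fin n) ℤ} (hγ : IsUnit γ.det)
    (f : (Fin n → ZMod q) → ℝ≥0∞) :
    mn q (fun c => f (c ᵥ* γ.map (Int.cast : ℤ → ZMod q))) = mn q f := by
  have h1 : γ.map (Int.cast : ℤ → ZMod q) * (γ⁻¹).map (Int.cast : ℤ → ZMod q) = 1 := by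
    have h := congrArg (fun A : Matrix (Fin n) (Fin n) ℤ => A.map (Int.castRingHom (ZMod q)))
      (Matrix.mul_nonsing_inv γ hγ)
    simp only [Matrix.map_mul] at h
    rw [Matrix.map_one _ (map_zero _) (map_one _)] at h
    exact h
  have h2 : (γ⁻¹).map (Int.cast : ℤ → ZMod q) * γ.map (Int.cast : ℤ → ZMod q) = 1 := by
    have h := congrArg (fun A : Matrix (Fin n) (Fin n) ℤ => A.map (Int.castRingHom (ZMod q)))
      (Matrix.nonsing_inv_mul γ hγ)
    simp only [Matrix.map_mul] at h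
    rw [Matrix.map_one _ (map_zero _) (map_one _)] at h
    exact h
  let e : (Fin n → ZMod q) ≃ (Fin n → ZMod q) :=
    { toFun := fun c => c ᵥ* γ.map (Int.cast : ℤ → ZMod q)
      invFun := fun c => c ᵥ* (γ⁻¹).map (Int.cast : ℤ → ZMod q)
      left_inv := fun c => by simp only [vecMul_vecMul, h1, vecMul_one]
      right_inv := fun c => by simp only [vecMul_vecMul, h2, vecMul_one] }
  rw [mn, mn]
  congr 1
  exact Equiv.sum_comp e f

theorem mn_le_one (q : ℕ) [NeZero q] (f : (Fin n → ZMod q) → ℝ≥0∞) (hf : ∀ c, f c ≤ 1) :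
    mn q f ≤ 1 := by
  rw [mn]
  refine ENNReal.div_le_of_le_mul ?_
  rw [one_mul]
  calc ∑ c, f c ≤ ∑ _c : Fin n → ZMod q, 1 := Finset.sum_le_sum fun c _ => hf c
    _ = (q : ℝ≥0∞) ^ n := by
        rw [Finset.sum_const, Finset.card_univ, Fintype.card_fun, ZMod.card, Fintype.card_fin,
          nsmul_eq_mul, mul_one]
        push_cast
        rfl

theorem mn_one (q : ℕ) [NeZero q] : mn (n := n) q (fun _ => 1) = 1 := by
  rw [mn]
  have : ∑ _c : Fin n → ZMod q, (1 : ℝ≥0∞) = (q : ℝ≥0∞) ^ n := by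
    rw [Finset.sum_const, Finset.card_univ, Fintype.card_fun, ZMod.card, Fintype.card_fin,
          nsmul_eq_mul, mul_one]
    push_cast
    rfl
  rw [this, ENNReal.div_self (pow_q_ne_zero q) (pow_q_ne_top q)]

/-- **the count**, for any basis which can be reduced -/
theorem wcount_bounds (q : ℕ) [NeZero q] {B : Matrix (Fin n) (Fin n) ℝ} (hB : |B.det| = 1)
    {γ : Matrix (Fin n) (Fin n) ℤ} (hγ : IsUnit γ.det)
    {M : ℝ} (hM0 : 0 ≤ M) (hM : ∀ i j, |(castM γ * B) i j| ≤ M)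
    (f : (Fin n → ZMod q) → ℝ≥0∞) {T : ℝ} (hT : 0 ≤ T) :
    wcount q B f T ≤ mn q f * ENNReal.ofReal ((2 * (T + n * q * M)) ^ n) ∧
      (n * q * M ≤ T → mn q f * ENNReal.ofReal ((2 * (T - n * q * M)) ^ n) ≤ wcount q B f T) := by
  have hB' : |(castM γ * B).det| = 1 := by
    have h1 : |(castM γ).det| = 1 := by
      rw [cast_det, ← Int.cast_abs, Int.isUnit_iff_abs_eq.mp hγ, Int.cast_one]
    rw [det_mul, abs_mul, h1, hB, one_mul]
  rw [wcount_unimod q B hγ, ← mn_unimod q hγ f]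
  exact ⟨wcount_upper_red q hB' hM0 hM _ hT, fun h => wcount_lower_red q hB' hM0 hM _ h⟩

end Vale.Agent.P007.N.SA
end

section

/-! The norm form of an invertible lattice: `√disc · N(v)` is the determinant of an integer matrix
which is additive in `v`. -/

set_option autoImplicit false

open MeasureTheory Matrix NumberField Filter Topology Module
open scoped ENNReal nonZeroDivisors

namespace Vale.Agent.P007.N.SA

open Vale.Agent.P007 Vale.Agent.P007.R Vale.Agent.P007.Fib Vale.Agent.P007.Red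

variable {n : ℕ}

theorem finrank_order (D : Datum n) :
    Module.finrank ℤ (AddSubgroup.toIntSubmodule D.O.toAddSubgroup) = n := by
  have hE : Module.finrank ℤ (𝓞 D.K) = n := by rw [RingOfIntegers.rank, D.deg]
  refine le_antisymm ?_ ?_
  · have h1 := Submodule.finrank_le (AddSubgroup.toIntSubmodule D.O.toAddSubgroup)
    rwa [hE] at h1
  · have h1 : Function.Injective (LinearMap.codRestrict
        (AddSubgroup.toIntSubmodule D.O.toAddSubgroup)
        ((D.ind : ℤ) • (LinearMap.id : (𝓞 D.K) →ₗ[ℤ] (𝓞 D.K))) (fun y => by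
          have h2 := D.ind_mul_mem y
          show ((D.ind : ℤ) • y) ∈ D.O.toAddSubgroup
          rw [zsmul_eq_mul]
          push_cast
          exact h2)) := by
      intro x y hxy
      have h2 : (D.ind : ℤ) • x = (D.ind : ℤ) • y := congrArg Subtype.val hxy
      exact smul_right_injective (𝓞 D.K) (by exact_mod_cast D.ind_ne_zero : (D.ind : ℤ) ≠ 0) h2
    have h3 := LinearMap.finrank_le_finrank_of_injective h1
    rwa [hE] at h3

/-- the square of the determinant of the real embeddings -/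
theorem det_sq (D : Datum n) (b : Basis (Fin n) ℤ (𝓞 D.K)) :
    (Matrix.of fun i j => D.σ j (b i : D.K)).det ^ 2 = (discr D.K : ℝ) := by
  let bQ : Basis (Fin n) ℚ D.K := b.localizationLocalization ℚ ℤ⁰ D.K
  let e₀ : Fin n → (D.K →ₐ[ℚ] ℂ) := fun j => ((Complex.ofRealHom).comp (D.σ j)).toRatAlgHom
  have hinj : Function.Injective e₀ := by
    intro i j hij
    apply D.σ.injective
    ext x
    have h1 : ((D.σ i x : ℝ) : ℂ) = ((D.σ j x : ℝ) : ℂ) := DFunLike.congr_fun hij x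
    exact_mod_cast h1
  have hcard : Fintype.card (Fin n) = Fintype.card (D.K →ₐ[ℚ] ℂ) := by
    rw [Fintype.card_fin, AlgHom.card, D.deg]
  let e : Fin n ≃ (D.K →ₐ[ℚ] ℂ) := Equiv.ofBijective e₀
    ((Fintype.bijective_iff_injective_and_card e₀).mpr ⟨hinj, hcard⟩)
  have h1 := Algebra.discr_eq_det_embeddingsMatrixReindex_pow_two ℚ ℂ bQ e
  have h3 : Algebra.embeddingsMatrixReindex ℚ ℂ bQ e =
      (Matrix.of fun i j => D.σ j (b i : D.K)).map (Complex.ofRealHom) := by
    ext i j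
    have h4 : bQ i = (b i : D.K) := Basis.localizationLocalization_apply ℚ ℤ⁰ D.K b i
    show e j (bQ i) = _
    rw [h4]
    rfl
  have h5 : Algebra.discr ℚ bQ = ((discr D.K : ℤ) : ℚ) := by
    have h6 : Algebra.discr ℚ bQ = algebraMap ℤ ℚ (Algebra.discr ℤ b) :=
      Algebra.discr_localizationLocalization ℤ ℤ⁰ D.K b
    rw [NumberField.discr_eq_discr D.K b] at h6
    exact h6
  rw [h3, h5] at h1
  have h7 := (RingHom.map_det Complex.ofRealHom (Matrix.of fun i j => D.σ j (b i : D.K)))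
  have h8 : ((Matrix.of fun i j => D.σ j (b i : D.K)).map Complex.ofRealHom).det =
      (((Matrix.of fun i j => D.σ j (b i : D.K)).det : ℝ) : ℂ) := h7.symm
  rw [h8] at h1
  have h9 : ((discr D.K : ℤ) : ℂ) = (((Matrix.of fun i j => D.σ j (b i : D.K)).det : ℝ) : ℂ) ^ 2 := by
    rw [← h1]
    simp
  have h10 : (((discr D.K : ℤ) : ℝ) : ℂ) =
      ((((Matrix.of fun i j => D.σ j (b i : D.K)).det) ^ 2 : ℝ) : ℂ) := by
    push_cast
    exact h9
  exact (Complex.ofReal_injective h10).symm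

/-- a basis of the order in `ℝ^n` -/
theorem exists_ringBasis (D : Datum n) : ∃ b : Matrix (Fin n) (Fin n) ℝ,
    latM b = (RE D : Set (Fin n → ℝ)) ∧ |b.det| = √(D.disc : ℝ) := by
  have hE : Module.finrank ℤ (𝓞 D.K) = n := by rw [RingOfIntegers.rank, D.deg]
  let bE : Basis (Fin n) ℤ (𝓞 D.K) := Module.finBasisOfFinrankEq ℤ (𝓞 D.K) hE
  let bN : Basis (Fin n) ℤ (AddSubgroup.toIntSubmodule D.O.toAddSubgroup) :=
    Module.finBasisOfFinrankEq ℤ _ (finrank_order D)
  have hidx : D.O.toAddSubgroup.index = (bE.det fun i => (bN i : 𝓞 D.K)).natAbs :=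
    AddSubgroup.index_eq_natAbs_det bE D.O.toAddSubgroup bN
  let P : Matrix (Fin n) (Fin n) ℤ := Matrix.of fun i k => bE.repr (bN i : 𝓞 D.K) k
  have hPdet : bE.det (fun i => (bN i : 𝓞 D.K)) = P.det := by
    rw [Basis.det_apply, ← Matrix.det_transpose]
    rfl
  let E0 : Matrix (Fin n) (Fin n) ℝ := Matrix.of fun i j => D.σ j (bE i : D.K)
  let b : Matrix (Fin n) (Fin n) ℝ := Matrix.of fun i j => D.σ j ((bN i : 𝓞 D.K) : D.K)
  have hb : b = castM P * E0 := by
    ext i j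
    have h1 : (bN i : 𝓞 D.K) = ∑ k, P i k • bE k := (bE.sum_repr (bN i : 𝓞 D.K)).symm
    show D.σ j ((bN i : 𝓞 D.K) : D.K) = _
    rw [h1, mul_apply]
    simp only [map_sum, map_zsmul]
    refine Finset.sum_congr rfl fun k _ => ?_
    rw [zsmul_eq_mul]
    rfl
  refine ⟨b, ?_, ?_⟩
  · have key : ∀ z : Fin n → ℤ, (fun i => (z i : ℝ)) ᵥ* b =
        sE D (((∑ i, z i • bN i : AddSubgroup.toIntSubmodule D.O.toAddSubgroup) : 𝓞 D.K) : D.K) := by
      intro z
      funext j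
      rw [sE_apply, Submodule.coe_sum]
      simp only [map_sum, Submodule.coe_smul, zsmul_eq_mul, map_mul, map_intCast]
      rfl
    ext v
    constructor
    · rintro ⟨z, rfl⟩
      simp only [key]
      exact (mem_RE D).mpr ⟨_, (∑ i, z i • bN i : AddSubgroup.toIntSubmodule D.O.toAddSubgroup).2,
        rfl⟩
    · intro hv
      obtain ⟨r, hr, rfl⟩ := (mem_RE D).mp hv
      refine ⟨fun i => bN.repr ⟨r, hr⟩ i, ?_⟩
      simp only [key]
      rw [bN.sum_repr ⟨r, hr⟩]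
  · have h1 : |b.det| ^ 2 = (D.disc : ℝ) := by
      rw [hb, det_mul, cast_det, sq_abs, mul_pow, det_sq D bE, Datum.disc, hidx, hPdet]
      have h2 : (0 : ℝ) ≤ (discr D.K : ℝ) := by
        rw [← det_sq D bE]
        positivity
      have h3 : (((discr D.K).natAbs : ℕ) : ℝ) = (discr D.K : ℝ) := by
        rw [Nat.cast_natAbs, Int.cast_abs, abs_of_nonneg h2]
      rw [Nat.cast_mul, Nat.cast_pow, h3, Nat.cast_natAbs, Int.cast_abs, sq_abs, mul_comm]
    rw [← h1, Real.sqrt_sq (abs_nonneg _)]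

/-- the integral norm form -/
def hz (P : Fin n → Matrix (Fin n) (Fin n) ℤ) (z : Fin n → ℤ) : ℤ := (∑ i, z i • P i).det

/-- the norm form modulo `q` -/
def hq (P : Fin n → Matrix (Fin n) (Fin n) ℤ) (q : ℕ) (c : Fin n → ZMod q) : ZMod q :=
  (∑ i, c i • (P i).map (Int.cast : ℤ → ZMod q)).det

theorem hq_redq (P : Fin n → Matrix (Fin n) (Fin n) ℤ) (q : ℕ) (z : Fin n → ℤ) :
    hq P q (redq q z) = ((hz P z : ℤ) : ZMod q) := by
  rw [hq, hz, Int.cast_det]
  congr 1
  ext i j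
  rw [Matrix.sum_apply, Matrix.map_apply, Matrix.sum_apply, Int.cast_sum]
  refine Finset.sum_congr rfl fun k _ => ?_
  rw [Matrix.smul_apply, Matrix.smul_apply, Matrix.map_apply, smul_eq_mul, smul_eq_mul,
    Int.cast_mul]
  rfl

theorem row_mem_lat (g : G n) (i : Fin n) : (g : Matrix (Fin n) (Fin n) ℝ) i ∈ lat g :=
  row_mem_latM _ i

/-- the norm form of a stable lattice -/
theorem exists_normForm (D : Datum n) {g : G n} (h : Stable (RE D) (latS g)) :
    ∃ P : Fin n → Matrix (Fin n) (Fin n) ℤ, ∀ z : Fin n → ℤ,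
      |(hz P z : ℝ)| = √(D.disc : ℝ) *
        |∏ j, ((fun i => (z i : ℝ)) ᵥ* (g : Matrix (Fin n) (Fin n) ℝ)) j| := by
  obtain ⟨b, hb, hbdet⟩ := exists_ringBasis D
  have hrow : ∀ i k, (Matrix.of fun k j => b k j * (g : Matrix (Fin n) (Fin n) ℝ) i j) k ∈
      latM (g : Matrix (Fin n) (Fin n) ℝ) := by
    intro i k
    have h1 : b k ∈ RE D := by
      have : b k ∈ (RE D : Set (Fin n → ℝ)) := by
        rw [← hb]
        exact row_mem_latM b k
      exact this
    exact h _ h1 _ (row_mem_lat g i)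
  choose P hP using fun i => exists_int_mul (hrow i)
  refine ⟨P, fun z => ?_⟩
  set v : Fin n → ℝ := (fun i => (z i : ℝ)) ᵥ* (g : Matrix (Fin n) (Fin n) ℝ) with hv
  have h1 : b * diagonal v = castM (∑ i, z i • P i) * (g : Matrix (Fin n) (Fin n) ℝ) := by
    have h2 : castM (∑ i, z i • P i) = ∑ i, (z i : ℝ) • castM (P i) := by
      ext k l
      rw [castM, Matrix.map_apply, Matrix.sum_apply, Matrix.sum_apply, Int.cast_sum]
      refine Finset.sum_congr rfl fun i _ => ?_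
      rw [Matrix.smul_apply, Matrix.smul_apply, castM, Matrix.map_apply, smul_eq_mul, smul_eq_mul,
        Int.cast_mul]
    rw [h2, Finset.sum_mul]
    ext k j
    rw [mul_diagonal, Matrix.sum_apply, hv, vecMul, dotProduct, Finset.mul_sum]
    refine Finset.sum_congr rfl fun i _ => ?_
    rw [smul_mul, Matrix.smul_apply, ← hP i, Matrix.of_apply, smul_eq_mul]
    ring
  have h3 := congrArg Matrix.det h1
  rw [det_mul, det_mul, det_G, mul_one, cast_det, det_diagonal] at h3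
  rw [hz, ← h3, abs_mul, hbdet]

theorem RE_coord (D : Datum n) : ∀ s ∈ RE D, s ≠ 0 → ∀ j, s j ≠ 0 := by
  intro s hs hs0 j
  obtain ⟨r, hr, rfl⟩ := (mem_RE D).mp hs
  refine sE_ne_zero D ?_ j
  intro h0
  apply hs0
  rw [h0, map_zero]

theorem vecMul_ne_zero (g : G n) {z : Fin n → ℤ} (hz0 : z ≠ 0) :
    (fun i => (z i : ℝ)) ᵥ* (g : Matrix (Fin n) (Fin n) ℝ) ≠ 0 := by
  intro h0
  apply hz0
  have h3 : (fun i => (z i : ℝ)) = 0 := by
    have h4 := congrArg (fun v => v ᵥ* (g⁻¹ : G n).1) h0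
    simp only [vecMul_vecMul, zero_vecMul] at h4
    have h5 : (g : Matrix (Fin n) (Fin n) ℝ) * (g⁻¹ : G n).1 = 1 :=
      congrArg Subtype.val (mul_inv_cancel g)
    rwa [h5, vecMul_one] at h4
  funext i
  have h6 : (z i : ℝ) = 0 := congrFun h3 i
  exact_mod_cast h6

theorem disc_pos (D : Datum n) : 1 ≤ D.disc := by
  rw [Datum.disc]
  have h1 : (discr D.K).natAbs ≠ 0 := Int.natAbs_ne_zero.mpr (discr_ne_zero D.K)
  have h2 : D.O.toAddSubgroup.index ≠ 0 := D.ind_ne_zero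
  exact Nat.one_le_iff_ne_zero.mpr (mul_ne_zero h1 (pow_ne_zero 2 h2))

/-- the minimal norm of the packet lattices -/
noncomputable def eps (D : Datum n) : ℝ := (√(D.disc : ℝ)) ^ (-(1 / (n : ℝ)))

theorem one_le_sqrt_disc (D : Datum n) : 1 ≤ √(D.disc : ℝ) := by
  rw [Real.one_le_sqrt]
  exact_mod_cast disc_pos D

theorem eps_pos (D : Datum n) : 0 < eps D :=
  Real.rpow_pos_of_pos (lt_of_lt_of_le one_pos (one_le_sqrt_disc D)) _

theorem eps_le_one (D : Datum n) : eps D ≤ 1 :=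
  Real.rpow_le_one_of_one_le_of_nonpos (one_le_sqrt_disc D) (by
    rw [neg_nonpos]
    positivity)

theorem eps_pow (D : Datum n) : eps D ^ n = (√(D.disc : ℝ))⁻¹ := by
  have hn : (n : ℝ) ≠ 0 := by exact_mod_cast D.pos.ne'
  rw [eps, ← Real.rpow_natCast, ← Real.rpow_mul (Real.sqrt_nonneg _), neg_mul, one_div,
    inv_mul_cancel₀ hn, Real.rpow_neg_one]

theorem thick_of_inv (D : Datum n) {g : G n} (h : Inv (RE D) (latS g)) :
    Thick (eps D) (g : Matrix (Fin n) (Fin n) ℝ) := by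
  intro z hz0
  obtain ⟨P, hP⟩ := exists_normForm D h.1
  set v : Fin n → ℝ := (fun i => (z i : ℝ)) ᵥ* (g : Matrix (Fin n) (Fin n) ℝ) with hv
  have hvL : v ∈ latS g := ⟨z, rfl⟩
  have hv0 : v ≠ 0 := vecMul_ne_zero g hz0
  have hcoord := coord_ne_zero (RE_coord D) h hvL hv0
  have h1 := hP z
  have hprod : ∏ j, v j ≠ 0 := Finset.prod_ne_zero_iff.mpr fun j _ => hcoord j
  have hd : 0 < √(D.disc : ℝ) := lt_of_lt_of_le one_pos (one_le_sqrt_disc D)
  have h2 : (1 : ℝ) ≤ |(hz P z : ℝ)| := by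
    have h3 : hz P z ≠ 0 := by
      intro h0
      rw [h0, Int.cast_zero, abs_zero] at h1
      have := mul_pos hd (abs_pos.mpr hprod)
      rw [← h1] at this
      exact lt_irrefl _ this
    have := Int.one_le_abs h3
    exact_mod_cast this
  rw [h1] at h2
  have h3 : |∏ j, v j| ≤ ‖v‖ ^ n := by
    rw [Finset.abs_prod]
    exact prod_abs_le v
  have h4 : eps D ^ n ≤ ‖v‖ ^ n := by
    rw [eps_pow, inv_le_iff_one_le_mul₀' hd]
    exact h2.trans (mul_le_mul_of_nonneg_left h3 hd.le)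
  exact le_of_pow_le_pow_left₀ D.pos.ne' (norm_nonneg _) h4

/-- packet lattices have bases of norm at most `C √disc` -/
theorem exists_basis_bound (n : ℕ) (hn : 0 < n) : ∃ C : ℝ, 1 ≤ C ∧ ∀ D : Datum n, ∀ g : G n,
    Inv (RE D) (latS g) → ∃ γ : Matrix (Fin n) (Fin n) ℤ, IsUnit γ.det ∧
      ∀ i j, |(castM γ * (g : Matrix (Fin n) (Fin n) ℝ)) i j| ≤ C * √(D.disc : ℝ) := by
  obtain ⟨C, hC1, hC⟩ := exists_reduced n hn
  refine ⟨C, hC1, fun D g hg => ?_⟩
  obtain ⟨γ, hγ, hb⟩ := hC (eps D) (eps_pos D) (eps_le_one D) g (by rw [det_G, abs_one])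
    (thick_of_inv D hg)
  refine ⟨γ, hγ, fun i j => (hb i j).trans (le_of_eq ?_)⟩
  rw [eps_pow, div_inv_eq_mul]

end Vale.Agent.P007.N.SA
end

section

/-! The lattice point count along a packet orbit. -/

set_option autoImplicit false

open MeasureTheory Matrix NumberField Filter Topology Module
open scoped ENNReal nonZeroDivisors

namespace Vale.Agent.P007.N.SA

open Vale.Agent.P007 Vale.Agent.P007.R Vale.Agent.P007.Fib Vale.Agent.P007.Red

variable {n : ℕ}

theorem latx_pt (g : G n) : latx (pt g) = lat g := by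
  ext v
  constructor
  · rintro ⟨g', hg', hv⟩
    have h1 := pt_eq_pt.mp hg'
    have h2 := latS_Gam (g := g') h1
    rw [inv_mul_cancel_right] at h2
    rw [← mem_latS, h2]
    exact hv
  · intro hv
    exact ⟨g, rfl, hv⟩

/-- the test function `f(√disc |N v|) 1_{‖v‖ ≤ T}` -/
noncomputable def phi (D : Datum n) {q : ℕ} (f : ZMod q → ℝ≥0∞) (T : ℝ) (v : Fin n → ℝ) : ℝ≥0∞ :=
  f ((⌊√(D.disc : ℝ) * |∏ j, v j|⌋₊ : ℕ) : ZMod q) * (open Classical in if ‖v‖ ≤ T then 1 else 0)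

theorem measurable_phi (D : Datum n) {q : ℕ} (f : ZMod q → ℝ≥0∞) (T : ℝ) :
    Measurable (phi D f T) := by
  classical
  refine Measurable.mul ?_ ?_
  · have h1 : Measurable fun v : Fin n → ℝ => ⌊√(D.disc : ℝ) * |∏ j, v j|⌋₊ := by
      refine Nat.measurable_floor.comp ?_
      exact (Continuous.measurable (by fun_prop))
    exact (measurable_from_nat (f := fun m : ℕ => f (m : ZMod q))).comp h1
  · exact Measurable.ite (measurableSet_le measurable_norm measurable_const) measurable_const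
      measurable_const

/-- even functions on `ZMod q` -/
def EvenF {q : ℕ} (f : ZMod q → ℝ≥0∞) : Prop := ∀ a, f (-a) = f a

theorem EvenF.natAbs {q : ℕ} {f : ZMod q → ℝ≥0∞} (hf : EvenF f) (m : ℤ) :
    f ((m.natAbs : ℕ) : ZMod q) = f (m : ZMod q) := by
  rcases Int.natAbs_eq m with h | h
  · conv_rhs => rw [h]
    rw [Int.cast_natCast]
  · conv_rhs => rw [h]
    rw [Int.cast_neg, Int.cast_natCast, hf]

/-- the value of `phi` on the lattice -/
theorem phi_lattice (D : Datum n) {q : ℕ} {f : ZMod q → ℝ≥0∞} (hf : EvenF f) (T : ℝ)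
    {B : Matrix (Fin n) (Fin n) ℝ} {P : Fin n → Matrix (Fin n) (Fin n) ℤ} {z : Fin n → ℤ}
    (hP : |(hz P z : ℝ)| = √(D.disc : ℝ) * |∏ j, ((fun i => (z i : ℝ)) ᵥ* B) j|) :
    phi D f T ((fun i => (z i : ℝ)) ᵥ* B) = f (hq P q (redq q z)) * bnd B T z := by
  rw [phi, ← hP, hq_redq, bnd]
  congr 1
  have h1 : |(hz P z : ℝ)| = ((hz P z).natAbs : ℝ) := by
    rw [Nat.cast_natAbs, Int.cast_abs]
  rw [h1, Nat.floor_natCast, hf.natAbs]

theorem hz_zero (hn : 0 < n) (P : Fin n → Matrix (Fin n) (Fin n) ℤ) : hz P 0 = 0 := by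
  rw [hz]
  have : ∑ i, (0 : Fin n → ℤ) i • P i = 0 := by simp only [Pi.zero_apply, zero_smul,
                                                  Finset.sum_const_zero]
  rw [this]
  have : Nonempty (Fin n) := ⟨⟨0, hn⟩⟩
  exact Matrix.det_zero

/-- the sum over the nonzero vectors of a lattice -/
theorem tsum_lattice (D : Datum n) {q : ℕ} {f : ZMod q → ℝ≥0∞} (hf : EvenF f) {T : ℝ} (hT : 0 ≤ T)
    (g : G n) {P : Fin n → Matrix (Fin n) (Fin n) ℤ}
    (hP : ∀ z : Fin n → ℤ, |(hz P z : ℝ)| = √(D.disc : ℝ) *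
        |∏ j, ((fun i => (z i : ℝ)) ᵥ* (g : Matrix (Fin n) (Fin n) ℝ)) j|) :
    f 0 + ∑' v : {v : Fin n → ℝ // v ∈ latx (pt g) ∧ v ≠ 0}, phi D f T v.1 =
      wcount q (g : Matrix (Fin n) (Fin n) ℝ) (fun c => f (hq P q c)) T := by
  classical
  let e : {z : Fin n → ℤ // z ≠ 0} ≃ {v : Fin n → ℝ // v ∈ latx (pt g) ∧ v ≠ 0} :=
    Equiv.ofBijective (fun z => ⟨(fun i => (z.1 i : ℝ)) ᵥ* (g : Matrix (Fin n) (Fin n) ℝ),
      by rw [latx_pt]; exact ⟨z.1, rfl⟩, vecMul_ne_zero g z.2⟩) (by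
      constructor
      · rintro ⟨z, hz⟩ ⟨z', hz'⟩ h
        have h1 : (fun i => (z i : ℝ)) ᵥ* (g : Matrix (Fin n) (Fin n) ℝ) =
          (fun i => (z' i : ℝ)) ᵥ* (g : Matrix (Fin n) (Fin n) ℝ) := congrArg Subtype.val h
        apply Subtype.ext
        by_contra hne
        have h2 : (fun i => (((z - z') i : ℤ) : ℝ)) ᵥ* (g : Matrix (Fin n) (Fin n) ℝ) = 0 := by
          have h3 : (fun i => (((z - z') i : ℤ) : ℝ)) = (fun i => (z i : ℝ)) - fun i => (z' i : ℝ)
              := by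
            funext i
            simp
          rw [h3, sub_vecMul, h1, sub_self]
        exact vecMul_ne_zero g (sub_ne_zero.mpr hne) h2
      · rintro ⟨v, hv, hv0⟩
        rw [latx_pt] at hv
        obtain ⟨z, rfl⟩ := hv
        refine ⟨⟨z, ?_⟩, rfl⟩
        rintro rfl
        apply hv0
        have h3 : (fun i => (((0 : Fin n → ℤ) i : ℤ) : ℝ)) = 0 := by
          funext i
          simp
        simp only [h3, zero_vecMul])
  have h1 : ∑' v : {v : Fin n → ℝ // v ∈ latx (pt g) ∧ v ≠ 0}, phi D f T v.1 =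
      ∑' z : {z : Fin n → ℤ // z ≠ 0}, f (hq P q (redq q z.1)) *
        bnd (g : Matrix (Fin n) (Fin n) ℝ) T z.1 := by
    rw [← Equiv.tsum_eq e]
    congr 1
    funext z
    exact phi_lattice D hf T (hP z.1)
  have h0 : f (hq P q (redq q 0)) * bnd (g : Matrix (Fin n) (Fin n) ℝ) T 0 = f 0 := by
    rw [hq_redq, hz_zero D.pos, Int.cast_zero, bnd, if_pos, mul_one]
    have h3 : (fun i => (((0 : Fin n → ℤ) i : ℤ) : ℝ)) = 0 := by
      funext i
      simp
    rw [h3, zero_vecMul, norm_zero]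
    exact hT
  rw [h1, wcount, ENNReal.tsum_eq_add_tsum_ite (0 : Fin n → ℤ), h0]
  congr 1
  have h4 : ∑' z : {z : Fin n → ℤ // z ≠ 0}, f (hq P q (redq q z.1)) *
        bnd (g : Matrix (Fin n) (Fin n) ℝ) T z.1 = ∑' z : Fin n → ℤ, ({z | z ≠ 0} : Set _).indicator
          (fun z => f (hq P q (redq q z)) * bnd (g : Matrix (Fin n) (Fin n) ℝ) T z) z := by
    have h5 := tsum_subtype ({z | z ≠ 0} : Set (Fin n → ℤ)) (fun z => f (hq P q (redq q z)) *
      bnd (g : Matrix (Fin n) (Fin n) ℝ) T z)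
    exact h5
  rw [h4]
  congr 1
  funext z
  by_cases hz : z = 0
  · rw [if_pos hz, Set.indicator_of_notMem]
    simpa using hz
  · rw [if_neg hz, Set.indicator_of_mem]
    simpa using hz

/-- the norm form is constant along the orbit -/
theorem normForm_aexp (D : Datum n) {g : G n} {P : Fin n → Matrix (Fin n) (Fin n) ℤ}
    (hP : ∀ z : Fin n → ℤ, |(hz P z : ℝ)| = √(D.disc : ℝ) *
        |∏ j, ((fun i => (z i : ℝ)) ᵥ* (g : Matrix (Fin n) (Fin n) ℝ)) j|)
    (u : Fin (n - 1) → ℝ) (z : Fin n → ℤ) :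
    |(hz P z : ℝ)| = √(D.disc : ℝ) * |∏ j, ((fun i => (z i : ℝ)) ᵥ*
      ((g * aexp u : G n) : Matrix (Fin n) (Fin n) ℝ)) j| := by
  rw [hP z]
  congr 2
  rw [coe_mul_G, coe_aexp, ← vecMul_vecMul]
  simp_rw [vecMul_diagonal]
  rw [Finset.prod_mul_distrib, ← Real.exp_sum, sum_expo, Real.exp_zero, mul_one]

/-- the count at a point of a packet orbit -/
theorem point_bounds {C : ℝ} (hC1 : 1 ≤ C) (D : Datum n)
    (hC : ∀ g : G n, Inv (RE D) (latS g) → ∃ γ : Matrix (Fin n) (Fin n) ℤ, IsUnit γ.det ∧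
      ∀ i j, |(castM γ * (g : Matrix (Fin n) (Fin n) ℝ)) i j| ≤ C * √(D.disc : ℝ))
    {q : ℕ} [NeZero q] {f : ZMod q → ℝ≥0∞} (hf : EvenF f)
    {g : G n} (hg : Inv (RE D) (latS g)) {P : Fin n → Matrix (Fin n) (Fin n) ℤ}
    (hP : ∀ z : Fin n → ℤ, |(hz P z : ℝ)| = √(D.disc : ℝ) *
        |∏ j, ((fun i => (z i : ℝ)) ᵥ* (g : Matrix (Fin n) (Fin n) ℝ)) j|)
    {T : ℝ} (hT : 0 ≤ T) {x : X n} (hx : x ∈ orb (pt g)) :
    f 0 + ∑' v : {v : Fin n → ℝ // v ∈ latx x ∧ v ≠ 0}, phi D f T v.1 ≤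
      mn q (fun c => f (hq P q c)) *
        ENNReal.ofReal ((2 * (T + n * q * (C * √(D.disc : ℝ)))) ^ n) ∧
      (n * q * (C * √(D.disc : ℝ)) ≤ T → mn q (fun c => f (hq P q c)) *
        ENNReal.ofReal ((2 * (T - n * q * (C * √(D.disc : ℝ)))) ^ n) ≤
          f 0 + ∑' v : {v : Fin n → ℝ // v ∈ latx x ∧ v ≠ 0}, phi D f T v.1) := by
  obtain ⟨u, hu⟩ := hx
  have h1 : x = pt (g * aexp u) := hu.symm
  subst h1
  have hinv : Inv (RE D) (latS (g * aexp u)) := by
    rw [latS_mul_aexp]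
    exact hg.vmul (ev_mul_neg u)
  rw [tsum_lattice D hf hT (g * aexp u) (normForm_aexp D hP u)]
  obtain ⟨γ, hγ, hb⟩ := hC (g * aexp u) hinv
  exact wcount_bounds q (by rw [det_G, abs_one]) hγ (by (clear * - hC1; positivity)) hb _ hT

theorem measurableSet_orb (x : X n) : MeasurableSet (orb x) := by
  have h1 : IsSigmaCompact (orb x) := isSigmaCompact_range (continuous_orbMap x)
  obtain ⟨K, hK, hKu⟩ := h1
  rw [← hKu]
  exact MeasurableSet.iUnion fun m => (hK m).isClosed.measurableSet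

theorem ae_mem_orb {x : X n} {b : Basis (Fin (n - 1)) ℝ (Fin (n - 1) → ℝ)}
    (hb : StabBasis x b) : ∀ᵐ y ∂(orbMeas (orb x)), y ∈ orb x := by
  rw [orbMeas_eq hb hb.isSection_fundamentalDomain]
  exact ae_map_mem_range _ (measurableSet_orb x) _

/-- data attached to an orbit of the packet -/
structure OD (D : Datum n) (S : Set (X n)) where
  g : G n
  orb : S = Vale.Agent.P007.orb (pt g)
  inv : Inv (RE D) (latS g)
  P : Fin n → Matrix (Fin n) (Fin n) ℤ
  hP : ∀ z : Fin n → ℤ, |(hz P z : ℝ)| = √(D.disc : ℝ) *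
        |∏ j, ((fun i => (z i : ℝ)) ᵥ* (g : Matrix (Fin n) (Fin n) ℝ)) j|
  ae : ∀ᵐ y ∂(orbMeas S), y ∈ S
  ne_zero : orbMeas S Set.univ ≠ 0
  ne_top : orbMeas S Set.univ ≠ ∞

theorem exists_OD (D : Datum n) {g : G n} (hg : D.IsPacketPt (pt g)) : ∃ o : OD D (orb (pt g)),
    o.g = g := by
  have hinv : Inv (RE D) (latS g) := (isPacketPt_invPt D hg).inv D.pos
  obtain ⟨P, hP⟩ := exists_normForm D hinv.1
  obtain ⟨b, hb⟩ := exists_stabBasis D hg
  exact ⟨⟨g, rfl, hinv, P, hP, ae_mem_orb hb, orbMeas_univ_ne_zero hb, orbMeas_univ_ne_top hb⟩,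
    rfl⟩

theorem nonempty_OD (D : Datum n) (S : D.packet) : Nonempty (OD D S.1) := by
  obtain ⟨x, hx, hS⟩ := S.2
  obtain ⟨g, rfl⟩ := pt_surjective x
  obtain ⟨o, -⟩ := exists_OD D hx
  rw [hS]
  exact ⟨o⟩

/-- the integral of the count over an orbit -/
theorem orbit_bounds {C : ℝ} (hC1 : 1 ≤ C) (D : Datum n)
    (hC : ∀ g : G n, Inv (RE D) (latS g) → ∃ γ : Matrix (Fin n) (Fin n) ℤ, IsUnit γ.det ∧
      ∀ i j, |(castM γ * (g : Matrix (Fin n) (Fin n) ℝ)) i j| ≤ C * √(D.disc : ℝ))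
    {q : ℕ} [NeZero q] {f : ZMod q → ℝ≥0∞} (hf : EvenF f) {S : Set (X n)} (o : OD D S)
    {T : ℝ} (hT : 0 ≤ T) :
    (∫⁻ x, (∑' v : {v : Fin n → ℝ // v ∈ latx x ∧ v ≠ 0}, phi D f T v.1) ∂(orbMeas S) ≤
      mn q (fun c => f (hq o.P q c)) *
        ENNReal.ofReal ((2 * (T + n * q * (C * √(D.disc : ℝ)))) ^ n) * orbMeas S Set.univ) ∧
      (n * q * (C * √(D.disc : ℝ)) ≤ T → mn q (fun c => f (hq o.P q c)) *
        ENNReal.ofReal ((2 * (T - n * q * (C * √(D.disc : ℝ)))) ^ n) * orbMeas S Set.univ ≤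
          f 0 * orbMeas S Set.univ +
          ∫⁻ x, (∑' v : {v : Fin n → ℝ // v ∈ latx x ∧ v ≠ 0}, phi D f T v.1) ∂(orbMeas S)) := by
  constructor
  · rw [← lintegral_const]
    refine lintegral_mono_ae ?_
    filter_upwards [o.ae] with x hx
    rw [o.orb] at hx
    exact le_add_self.trans (point_bounds hC1 D hC hf o.inv o.hP hT hx).1
  · intro hRT
    rw [← lintegral_const, ← lintegral_const, ← lintegral_add_left measurable_const]
    refine lintegral_mono_ae ?_
    filter_upwards [o.ae] with x hx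
    rw [o.orb] at hx
    exact (point_bounds hC1 D hC hf o.inv o.hP hT hx).2 hRT

end Vale.Agent.P007.N.SA
end

section

/-! The arithmetic side of the unfolding identity for the test functions `phi`. -/

set_option autoImplicit false

open MeasureTheory Matrix NumberField Filter Topology Module
open scoped ENNReal NNReal nonZeroDivisors Pointwise

namespace Vale.Agent.P007.N.SA

open Vale.Agent.P007 Vale.Agent.P007.R Vale.Agent.P007.Fib Vale.Agent.P007.Red

variable {n : ℕ}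

/-- the simplex `expo u ≤ t` -/
def sim (n : ℕ) (t : ℝ) : Set (Fin (n - 1) → ℝ) := {u | ∀ j : Fin n, expo u j ≤ t}

theorem expo_smul (t : ℝ) (u : Fin (n - 1) → ℝ) (j : Fin n) : expo (t • u) j = t * expo u j := by
  unfold expo
  split_ifs
  · rfl
  · simp only [Pi.smul_apply, smul_eq_mul, ← Finset.mul_sum, mul_neg]

theorem measurableSet_sim (n : ℕ) (t : ℝ) : MeasurableSet (sim n t) := by
  have h : sim n t = ⋂ j : Fin n, {u | expo u j ≤ t} := by
    ext u
    simp only [sim, Set.mem_ofPred_eq, Set.mem_iInter]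
  rw [h]
  exact MeasurableSet.iInter fun j =>
    measurableSet_le (continuous_expo j).measurable measurable_const

theorem expo_castSucc {k : ℕ} (u : Fin (k + 1 - 1) → ℝ) (i : Fin k) :
    expo (n := k + 1) u i.castSucc = u i := by
  rw [expo, dif_pos (show (i.castSucc : Fin (k + 1)).1 < k + 1 - 1 from i.2)]
  rfl

theorem sim_neg (hn : 0 < n) {t : ℝ} (ht : t < 0) : sim n t = ∅ := by
  rw [Set.eq_empty_iff_forall_notMem]
  intro u hu
  have h1 : ∑ j : Fin n, expo u j ≤ ∑ _j : Fin n, t := Finset.sum_le_sum fun j _ => hu j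
  rw [sum_expo, Finset.sum_const, Finset.card_univ, Fintype.card_fin, nsmul_eq_mul] at h1
  have : (0 : ℝ) < n := by exact_mod_cast hn
  nlinarith only [ht, h1, this]

theorem sim_smul {t : ℝ} (ht : 0 < t) : sim n t = t • sim n 1 := by
  ext u
  rw [Set.mem_smul_set_iff_inv_smul_mem₀ ht.ne']
  constructor
  · intro h j
    rw [expo_smul, inv_mul_le_iff₀ ht, mul_one]
    exact h j
  · intro h j
    have := h j
    rwa [expo_smul, inv_mul_le_iff₀ ht, mul_one] at this

theorem sim_subset (hn : 2 ≤ n) {t : ℝ} (ht : 0 ≤ t) :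
    sim n t ⊆ Metric.closedBall 0 (n * t) := by
  obtain ⟨k, rfl⟩ : ∃ k, n = k + 1 := ⟨n - 1, by omega⟩
  intro u hu
  rw [mem_closedBall_zero_iff, pi_norm_le_iff_of_nonneg (by positivity)]
  intro i
  obtain ⟨i', hi⟩ : ∃ i' : Fin (k + 1), u i = expo (n := k + 1) u i' :=
    ⟨Fin.castSucc (n := k) i, (expo_castSucc u i).symm⟩
  rw [Real.norm_eq_abs, abs_le]
  constructor
  · have h1 := sum_expo (n := k + 1) u
    rw [← Finset.add_sum_erase _ _ (Finset.mem_univ i'), ← hi] at h1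
    have h2 : ∑ j ∈ Finset.univ.erase i', expo (n := k + 1) u j ≤
        ∑ _j ∈ Finset.univ.erase i', t :=
      Finset.sum_le_sum fun j _ => hu j
    rw [Finset.sum_const, nsmul_eq_mul] at h2
    have h3 : ((Finset.univ.erase i').card : ℝ) ≤ (k + 1 : ℕ) := by
      have h4 := Finset.card_erase_le (s := (Finset.univ : Finset (Fin (k + 1)))) (a := i')
      rw [Finset.card_univ, Fintype.card_fin] at h4
      exact_mod_cast h4
    have h5 := mul_le_mul_of_nonneg_right h3 ht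
    linarith only [h1, h2, h5]
  · rw [hi]
    have h1 := hu i'
    have h2 : (1 : ℝ) ≤ ((k + 1 : ℕ) : ℝ) := by exact_mod_cast Nat.le_add_left 1 k
    nlinarith only [ht, h1, h2]

/-- volume of the unit simplex -/
noncomputable def V1 (n : ℕ) : ℝ≥0∞ := volume (sim n 1)

theorem V1_ne_top (hn : 2 ≤ n) : V1 n ≠ ∞ := by
  have h1 := measure_mono (μ := volume) (sim_subset hn zero_le_one)
  exact (lt_of_le_of_lt h1 measure_closedBall_lt_top).ne

theorem V1_pos (n : ℕ) : 0 < V1 n := by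
  have hopen : IsOpen {u : Fin (n - 1) → ℝ | ∀ j : Fin n, expo u j < 1} := by
    have h : {u : Fin (n - 1) → ℝ | ∀ j : Fin n, expo u j < 1} =
        ⋂ j : Fin n, {u | expo u j < 1} := by
      ext u
      simp only [Set.mem_ofPred_eq, Set.mem_iInter]
    rw [h]
    exact isOpen_iInter_of_finite fun j => isOpen_lt (continuous_expo j) continuous_const
  have hne : {u : Fin (n - 1) → ℝ | ∀ j : Fin n, expo u j < 1}.Nonempty :=
    ⟨0, fun j => by rw [expo_zero]; exact one_pos⟩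
  refine lt_of_lt_of_le (hopen.measure_pos volume hne) (measure_mono ?_)
  intro u hu j
  exact (hu j).le

theorem volume_sim (hn : 2 ≤ n) {t : ℝ} (ht : 0 ≤ t) :
    volume (sim n t) = ENNReal.ofReal (t ^ (n - 1)) * V1 n := by
  rcases ht.eq_or_lt with rfl | ht
  · rw [zero_pow (by omega), ENNReal.ofReal_zero, zero_mul]
    have h1 := sim_subset hn (le_refl (0 : ℝ))
    rw [mul_zero, Metric.closedBall_zero] at h1
    have : Nonempty (Fin (n - 1)) := ⟨⟨0, by omega⟩⟩
    exact measure_mono_null h1 (measure_singleton _)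
  · rw [sim_smul ht, Measure.addHaar_smul, Module.finrank_pi, Fintype.card_fin,
      abs_of_nonneg (by positivity)]
    rfl

/-- the value of the test function along the unfolded orbit -/
theorem phi_unfold (D : Datum n) {q : ℕ} (f : ZMod q → ℝ≥0∞) {T : ℝ} (hT : 0 < T) {m : ℕ}
    (hm : 0 < m) (w : Fin n → ℤˣ) (u : Fin (n - 1) → ℝ) :
    phi D f T (fun j => ((m : ℝ) / √(D.disc : ℝ)) ^ ((n : ℝ)⁻¹) * ((w j : ℤ) : ℝ) *
      Real.exp (expo u j)) =
      (sim n ((n : ℝ)⁻¹ * Real.log (T ^ n * √(D.disc : ℝ) / m))).indicator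
        (fun _ => f (m : ZMod q)) u := by
  classical
  have hd : 0 < √(D.disc : ℝ) := lt_of_lt_of_le one_pos (one_le_sqrt_disc D)
  have hm' : (0 : ℝ) < m := by exact_mod_cast hm
  have hn : (0 : ℝ) < n := by exact_mod_cast D.pos
  have hc : 0 < (m : ℝ) / √(D.disc : ℝ) := div_pos hm' hd
  set c : ℝ := ((m : ℝ) / √(D.disc : ℝ)) ^ ((n : ℝ)⁻¹) with hcdef
  have hcpos : 0 < c := Real.rpow_pos_of_pos hc _
  have hcn : c ^ n = (m : ℝ) / √(D.disc : ℝ) := by
    rw [hcdef, ← Real.rpow_natCast, ← Real.rpow_mul hc.le, inv_mul_cancel₀ hn.ne', Real.rpow_one]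
  have habs : ∀ j, |c * ((w j : ℤ) : ℝ) * Real.exp (expo u j)| = c * Real.exp (expo u j) := by
    intro j
    have h1 : |((w j : ℤ) : ℝ)| = 1 := by
      rw [← Int.cast_abs, Int.isUnit_iff_abs_eq.mp (w j).isUnit, Int.cast_one]
    rw [abs_mul, abs_mul, h1, mul_one, abs_of_pos hcpos, abs_of_pos (Real.exp_pos _)]
  have hprod : √(D.disc : ℝ) * |∏ j, (c * ((w j : ℤ) : ℝ) * Real.exp (expo u j))| = m := by
    rw [Finset.abs_prod]
    simp_rw [habs]
    rw [Finset.prod_mul_distrib, ← Real.exp_sum, sum_expo, Real.exp_zero, mul_one,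
      Finset.prod_const, Finset.card_univ, Fintype.card_fin, hcn, mul_div_cancel₀ _ hd.ne']
  have hlog : ∀ j, c * Real.exp (expo u j) ≤ T ↔
      expo u j ≤ (n : ℝ)⁻¹ * Real.log (T ^ n * √(D.disc : ℝ) / m) := by
    intro j
    have h1 : (n : ℝ)⁻¹ * Real.log (T ^ n * √(D.disc : ℝ) / m) = Real.log T - Real.log c := by
      have h2 : T ^ n * √(D.disc : ℝ) / m = (T / c) ^ n := by
        rw [div_pow, hcn]
        field_simp
      rw [h2, Real.log_pow, Real.log_div hT.ne' hcpos.ne']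
      (clear * - hn; field_simp)
    rw [h1, le_sub_iff_add_le, ← Real.log_exp (expo u j), ← Real.log_mul (Real.exp_pos _).ne'
      hcpos.ne', mul_comm, Real.log_le_log_iff (by positivity) hT, Real.log_exp]
  rw [phi, hprod, Nat.floor_natCast]
  by_cases hu : u ∈ sim n ((n : ℝ)⁻¹ * Real.log (T ^ n * √(D.disc : ℝ) / m))
  · rw [Set.indicator_of_mem hu, if_pos, mul_one]
    rw [pi_norm_le_iff_of_nonneg hT.le]
    intro j
    rw [Real.norm_eq_abs, habs, hlog]
    exact hu j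
  · rw [Set.indicator_of_notMem hu, if_neg, mul_zero]
    intro h
    apply hu
    intro j
    rw [← hlog, ← habs]
    rw [pi_norm_le_iff_of_nonneg hT.le] at h
    exact h j

/-- the weighted Riesz sum -/
noncomputable def SF (D : Datum n) {q : ℕ} (F : ZMod q → ℝ≥0) (Y : ℝ) : ℝ :=
  ∑ m ∈ Finset.Icc 1 ⌊Y⌋₊, (F (m : ZMod q) : ℝ) * (rO D m : ℝ) * Real.log (Y / m) ^ (n - 1)

/-- the constant -/
noncomputable def cn (n : ℕ) : ℝ := 2 ^ n * (V1 n).toReal / (n : ℝ) ^ (n - 1)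

theorem cn_pos (hn : 2 ≤ n) : 0 < cn n := by
  have h1 : 0 < (V1 n).toReal := ENNReal.toReal_pos (V1_pos n).ne' (V1_ne_top hn)
  have h2 : (0 : ℝ) < n := by exact_mod_cast (by omega : 0 < n)
  rw [cn]
  positivity

theorem SF_nonneg (D : Datum n) {q : ℕ} (F : ZMod q → ℝ≥0) {Y : ℝ} (hY : 0 ≤ Y) :
    0 ≤ SF D F Y := by
  refine Finset.sum_nonneg fun m hm => ?_
  rw [Finset.mem_Icc] at hm
  have hm1 : (0 : ℝ) < m := by exact_mod_cast hm.1
  have h1 : (m : ℝ) ≤ Y := (Nat.le_floor_iff hY).mp hm.2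
  have h2 : 0 ≤ Real.log (Y / m) := Real.log_nonneg ((one_le_div hm1).mpr h1)
  positivity

/-- **the arithmetic side** -/
theorem rhs_eq (hn : 2 ≤ n) (D : Datum n) (h0 : rO D 0 = 0) {q : ℕ} (F : ZMod q → ℝ≥0) {T : ℝ}
    (hT : 0 < T) :
    ∑' m : ℕ, (rO D m : ℝ≥0∞) * ∑ w : Fin n → ℤˣ, ∫⁻ u : Fin (n - 1) → ℝ,
        phi D (fun a => (F a : ℝ≥0∞)) T (fun j => ((m : ℝ) / √(D.disc : ℝ)) ^ ((n : ℝ)⁻¹) *
          ((w j : ℤ) : ℝ) * Real.exp (expo u j)) =
      ENNReal.ofReal (cn n * SF D F (T ^ n * √(D.disc : ℝ))) := by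
  have hd : 0 < √(D.disc : ℝ) := lt_of_lt_of_le one_pos (one_le_sqrt_disc D)
  set Y : ℝ := T ^ n * √(D.disc : ℝ) with hY
  have hY0 : 0 < Y := by positivity
  have hnn : (0 : ℝ) < n := by exact_mod_cast (by omega : 0 < n)
  have hterm : ∀ m : ℕ, (rO D m : ℝ≥0∞) * ∑ w : Fin n → ℤˣ, ∫⁻ u : Fin (n - 1) → ℝ,
        phi D (fun a => (F a : ℝ≥0∞)) T (fun j => ((m : ℝ) / √(D.disc : ℝ)) ^ ((n : ℝ)⁻¹) *
          ((w j : ℤ) : ℝ) * Real.exp (expo u j)) =
      if m ∈ Finset.Icc 1 ⌊Y⌋₊ then ENNReal.ofReal (cn n * ((F (m : ZMod q) : ℝ) * (rO D m : ℝ) *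
        Real.log (Y / m) ^ (n - 1))) else 0 := by
    intro m
    rcases Nat.eq_zero_or_pos m with rfl | hm
    · rw [h0, Nat.cast_zero, zero_mul, if_neg (by simp only [Finset.mem_Icc, nonpos_iff_eq_zero,
                                                    one_ne_zero, zero_le, and_true,
                                                    not_false_eq_true])]
    · have hm' : (0 : ℝ) < m := by exact_mod_cast hm
      have h1 : ∀ w : Fin n → ℤˣ, ∫⁻ u : Fin (n - 1) → ℝ,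
          phi D (fun a => (F a : ℝ≥0∞)) T (fun j => ((m : ℝ) / √(D.disc : ℝ)) ^ ((n : ℝ)⁻¹) *
          ((w j : ℤ) : ℝ) * Real.exp (expo u j)) =
          (F (m : ZMod q) : ℝ≥0∞) * volume (sim n ((n : ℝ)⁻¹ * Real.log (Y / m))) := by
        intro w
        simp_rw [phi_unfold D (fun a => (F a : ℝ≥0∞)) hT hm w]
        rw [lintegral_indicator_const (measurableSet_sim _ _)]
      simp_rw [h1]
      rw [Finset.sum_const, Finset.card_univ, Fintype.card_fun, Fintype.card_fin,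
        Fintype.card_units_int, nsmul_eq_mul]
      by_cases hmY : m ∈ Finset.Icc 1 ⌊Y⌋₊
      · rw [if_pos hmY]
        rw [Finset.mem_Icc] at hmY
        have h2 : (m : ℝ) ≤ Y := (Nat.le_floor_iff hY0.le).mp hmY.2
        have h3 : 0 ≤ Real.log (Y / m) := Real.log_nonneg ((one_le_div hm').mpr h2)
        rw [volume_sim hn (by positivity), mul_pow, cn]
        have h4 : V1 n = ENNReal.ofReal (V1 n).toReal :=
          (ENNReal.ofReal_toReal (V1_ne_top hn)).symm
        rw [h4]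
        have h5 : (F (m : ZMod q) : ℝ≥0∞) = ENNReal.ofReal (F (m : ZMod q) : ℝ) := by
          rw [ENNReal.ofReal_coe_nnreal]
        have h6 : (rO D m : ℝ≥0∞) = ENNReal.ofReal (rO D m : ℝ) := by
          rw [ENNReal.ofReal_natCast]
        have h7 : ((2 ^ n : ℕ) : ℝ≥0∞) = ENNReal.ofReal ((2 : ℝ) ^ n) := by
          rw [ENNReal.ofReal_pow zero_le_two]
          push_cast
          norm_num
        rw [h5, h6, h7, ← ENNReal.ofReal_mul (by (clear * - hn h3; positivity)), ← ENNReal.ofReal_mul (by positivity),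
          ← ENNReal.ofReal_mul (by positivity), ← ENNReal.ofReal_mul (by positivity),
          ENNReal.toReal_ofReal ENNReal.toReal_nonneg]
        congr 1
        rw [inv_pow]
        (clear * - hn; field_simp)
      · rw [if_neg hmY]
        rw [Finset.mem_Icc, not_and, not_le] at hmY
        have h2 : Y < m := (Nat.floor_lt hY0.le).mp (hmY hm)
        have h3 : Real.log (Y / m) < 0 :=
          Real.log_neg (by positivity) ((div_lt_one hm').mpr h2)
        rw [sim_neg (by omega) (mul_neg_of_pos_of_neg (by positivity) h3), measure_empty, mul_zero,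
          mul_zero, mul_zero]
  simp_rw [hterm]
  rw [tsum_eq_sum (s := Finset.Icc 1 ⌊Y⌋₊) (fun m hm => if_neg hm), SF, Finset.mul_sum,
    ENNReal.ofReal_sum_of_nonneg]
  · exact Finset.sum_congr rfl fun m hm => if_pos hm
  · intro m hm
    rw [Finset.mem_Icc] at hm
    have hm1 : (0 : ℝ) < m := by exact_mod_cast hm.1
    have h1 : (m : ℝ) ≤ Y := (Nat.le_floor_iff hY0.le).mp hm.2
    have h2 : 0 ≤ Real.log (Y / m) := Real.log_nonneg ((one_le_div hm1).mpr h1)
    have h3 := cn_pos hn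
    (clear * - h2 h3; positivity)

end Vale.Agent.P007.N.SA
end

section

/-! A crude bound for the number of ideals of given index. -/

set_option autoImplicit false

open MeasureTheory Matrix NumberField Filter Topology Module
open scoped ENNReal NNReal nonZeroDivisors Pointwise

namespace Vale.Agent.P007.N.SA

open Vale.Agent.P007 Vale.Agent.P007.R Vale.Agent.P007.Fib Vale.Agent.P007.Red

variable {n : ℕ}

theorem finrank_subgroup {m : ℕ} (hm : 0 < m) (N : AddSubgroup (Fin n → ℤ)) (hN : N.index = m) :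
    Module.finrank ℤ (AddSubgroup.toIntSubmodule N) = n := by
  refine le_antisymm ?_ ?_
  · have h1 := Submodule.finrank_le (AddSubgroup.toIntSubmodule N)
    rwa [Module.finrank_fin_fun] at h1
  · have h1 : Function.Injective (LinearMap.codRestrict (AddSubgroup.toIntSubmodule N)
        ((m : ℤ) • (LinearMap.id : (Fin n → ℤ) →ₗ[ℤ] (Fin n → ℤ))) (fun y => by
          have h2 := AddSubgroup.nsmul_index_mem N y
          rw [hN] at h2
          show ((m : ℤ) • y) ∈ N
          rwa [natCast_zsmul])) := by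
      intro x y hxy
      have h2 : (m : ℤ) • x = (m : ℤ) • y := congrArg Subtype.val hxy
      exact smul_right_injective (Fin n → ℤ) (by exact_mod_cast hm.ne' : (m : ℤ) ≠ 0) h2
    have h3 := LinearMap.finrank_le_finrank_of_injective h1
    rwa [Module.finrank_fin_fun] at h3

/-- a choice of generators of a subgroup of finite index -/
noncomputable def gens {m : ℕ} (hm : 0 < m) (N : {N : AddSubgroup (Fin n → ℤ) // N.index = m}) :
    Basis (Fin n) ℤ (AddSubgroup.toIntSubmodule N.1) :=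
  Module.finBasisOfFinrankEq ℤ _ (finrank_subgroup hm N.1 N.2)

theorem mem_iff_gens {m : ℕ} (hm : 0 < m) (N : {N : AddSubgroup (Fin n → ℤ) // N.index = m})
    (x : Fin n → ℤ) : x ∈ N.1 ↔ ∃ c : Fin n → ℤ,
      redq m x = ∑ i, (c i : ZMod m) • redq m ((gens hm N i : Fin n → ℤ)) := by
  constructor
  · intro hx
    refine ⟨fun i => (gens hm N).repr ⟨x, hx⟩ i, ?_⟩
    have h1 : ((∑ i, (gens hm N).repr ⟨x, hx⟩ i • gens hm N i :
        AddSubgroup.toIntSubmodule N.1) : Fin n → ℤ) = x :=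
      congrArg Subtype.val ((gens hm N).sum_repr ⟨x, hx⟩)
    conv_lhs => rw [← h1]
    funext j
    rw [redq, Submodule.coe_sum, Finset.sum_apply, Finset.sum_apply, Int.cast_sum]
    refine Finset.sum_congr rfl fun i _ => ?_
    rw [Submodule.coe_smul, Pi.smul_apply, Pi.smul_apply, smul_eq_mul, smul_eq_mul, Int.cast_mul]
    rfl
  · rintro ⟨c, hc⟩
    set y : Fin n → ℤ := ((∑ i, c i • gens hm N i : AddSubgroup.toIntSubmodule N.1) : Fin n → ℤ)
      with hy
    have hyN : y ∈ N.1 := (∑ i, c i • gens hm N i : AddSubgroup.toIntSubmodule N.1).2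
    have h1 : redq m x = redq m y := by
      rw [hc, hy]
      funext j
      rw [redq, Submodule.coe_sum, Finset.sum_apply, Finset.sum_apply, Int.cast_sum]
      refine Finset.sum_congr rfl fun i _ => ?_
      rw [Submodule.coe_smul, Pi.smul_apply, Pi.smul_apply, smul_eq_mul, smul_eq_mul, Int.cast_mul]
      rfl
    have h2 : ∀ j, (m : ℤ) ∣ x j - y j := by
      intro j
      have h3 := congrFun h1 j
      rw [redq, redq] at h3
      rw [← ZMod.intCast_zmod_eq_zero_iff_dvd, Int.cast_sub, h3, sub_self]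
    choose w hw using h2
    have h3 : x = y + m • w := by
      funext j
      rw [Pi.add_apply, Pi.smul_apply, nsmul_eq_mul]
      have := hw j
      linarith only [this]
    rw [h3]
    refine N.1.add_mem hyN ?_
    have h4 := AddSubgroup.nsmul_index_mem N.1 w
    rwa [N.2] at h4

theorem gens_injective {m : ℕ} (hm : 0 < m) : Function.Injective
    (fun (N : {N : AddSubgroup (Fin n → ℤ) // N.index = m}) (i : Fin n) =>
      redq m ((gens hm N i : Fin n → ℤ))) := by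
  intro N N' h
  apply Subtype.ext
  ext x
  rw [mem_iff_gens hm N, mem_iff_gens hm N']
  have h1 : ∀ i, redq m ((gens hm N i : Fin n → ℤ)) = redq m ((gens hm N' i : Fin n → ℤ)) :=
    fun i => congrFun h i
  simp_rw [h1]

theorem finite_subgroups {m : ℕ} (hm : 0 < m) :
    Finite {N : AddSubgroup (Fin n → ℤ) // N.index = m} := by
  have : NeZero m := ⟨hm.ne'⟩
  exact Finite.of_injective _ (gens_injective hm)

theorem card_subgroups {m : ℕ} (hm : 0 < m) :
    Nat.card {N : AddSubgroup (Fin n → ℤ) // N.index = m} ≤ m ^ (n * n) := by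
  have : NeZero m := ⟨hm.ne'⟩
  have h1 := Nat.card_le_card_of_injective _ (gens_injective (n := n) hm)
  refine h1.trans (le_of_eq ?_)
  rw [Nat.card_fun, Nat.card_fun, Nat.card_zmod, Nat.card_fin, pow_mul]

/-- crude bound for the number of ideals -/
theorem rO_le (D : Datum n) {m : ℕ} (hm : 0 < m) : rO D m ≤ m ^ (n * n) := by
  let b : Basis (Fin n) ℤ (AddSubgroup.toIntSubmodule D.O.toAddSubgroup) :=
    Module.finBasisOfFinrankEq ℤ _ (finrank_order D)
  let e : (Fin n → ℤ) ≃+ D.O := b.equivFun.symm.toAddEquiv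
  have hfin := finite_subgroups (n := n) hm
  refine (Nat.card_le_card_of_injective (fun J : {J : Ideal D.O //
    IsUnit (J : FractionalIdeal D.O⁰ D.K) ∧ Nat.card (D.O ⧸ J) = m} =>
      (⟨(Submodule.toAddSubgroup J.1).comap e.toAddMonoidHom, ?_⟩ :
        {N : AddSubgroup (Fin n → ℤ) // N.index = m})) ?_).trans (card_subgroups hm)
  · rw [AddSubgroup.index_comap_of_surjective _ e.surjective]
    exact J.2.2
  · intro J J' h
    apply Subtype.ext
    have h1 : (Submodule.toAddSubgroup J.1).comap e.toAddMonoidHom =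
      (Submodule.toAddSubgroup J'.1).comap e.toAddMonoidHom := congrArg Subtype.val h
    have h2 := AddSubgroup.comap_injective e.surjective h1
    exact Submodule.toAddSubgroup_injective h2

end Vale.Agent.P007.N.SA
end
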