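import Vale.Agent.P007.Bdl.B17
import Vale.Agent.P007.Bdl.B16
import Vale.Agent.P007.Bdl.B9
import Vale.Agent.P007.Bdl.B3

section

/-! Comparison of the two sides of the unfolding identity; polynomial bound for the volume. -/

set_option autoImplicit false

open MeasureTheory Matrix NumberField Filter Topology Module
open scoped ENNReal NNReal nonZeroDivisors Pointwise

namespace Vale.Agent.P007.N.SA

open Vale.Agent.P007 Vale.Agent.P007.R Vale.Agent.P007.Fib Vale.Agent.P007.Red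

variable {n : ℕ}

/-- the unfolding identity for `D` -/
def UnfoldAt (D : Datum n) : Prop :=
  ∀ φ : (Fin n → ℝ) → ℝ≥0∞, Measurable φ →
    ∑' S : D.packet, ∫⁻ x, (∑' v : {v : Fin n → ℝ // v ∈ latx x ∧ v ≠ 0}, φ v.1) ∂(orbMeas S.1) =
      ∑' m : ℕ, (rO D m : ℝ≥0∞) * ∑ w : Fin n → ℤˣ, ∫⁻ u : Fin (n - 1) → ℝ,
        φ (fun j => ((m : ℝ) / √(D.disc : ℝ)) ^ ((n : ℝ)⁻¹) * ((w j : ℤ) : ℝ) *
          Real.exp (expo u j))

/-- the chosen orbit data -/
noncomputable def od (D : Datum n) (S : D.packet) : OD D S.1 := (nonempty_OD D S).some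

/-- the main coefficient -/
noncomputable def AF (D : Datum n) {q : ℕ} [NeZero q] (F : ZMod q → ℝ≥0) : ℝ≥0∞ :=
  ∑' S : D.packet, mn q (fun c => (F (hq (od D S).P q c) : ℝ≥0∞)) * orbMeas S.1 Set.univ

theorem AF_le (D : Datum n) {q : ℕ} [NeZero q] (F : ZMod q → ℝ≥0) (hF1 : ∀ a, F a ≤ 1) :
    AF D F ≤ vol D := by
  rw [AF, vol]
  refine ENNReal.tsum_le_tsum fun S => ?_
  calc _ ≤ 1 * orbMeas S.1 Set.univ := by
        gcongr
        exact mn_le_one q _ fun c => by exact_mod_cast hF1 _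
    _ = _ := one_mul _

theorem AF_one (D : Datum n) {q : ℕ} [NeZero q] : AF D (fun _ : ZMod q => 1) = vol D := by
  rw [AF, vol]
  congr 1
  funext S
  have h1 : mn q (fun c => (((fun _ : ZMod q => (1 : ℝ≥0)) (hq (od D S).P q c) : ℝ≥0) : ℝ≥0∞)) = 1 :=
    by
    simp only [ENNReal.coe_one]
    exact mn_one q
  rw [h1, one_mul]

theorem AF_zero (D : Datum n) {q : ℕ} [NeZero q] : AF D (fun _ : ZMod q => 0) = 0 := by
  rw [AF, ENNReal.tsum_eq_zero]
  intro S
  rw [mn]
  simp only [ENNReal.coe_zero, Finset.sum_const_zero, ENNReal.zero_div, zero_mul]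

theorem exists_short_vec (hn : 0 < n) (g : G n) : ∃ v ∈ lat g, v ≠ 0 ∧ ‖v‖ ≤ 2 := by
  obtain ⟨k, rfl⟩ : ∃ k, n = k + 1 := ⟨n - 1, by omega⟩
  obtain ⟨m, hm, hm2⟩ := exists_short (g : Matrix (Fin (k + 1)) (Fin (k + 1)) ℝ)
    (by rw [det_G]; exact one_ne_zero) (by rw [det_G, abs_one])
  exact ⟨_, ⟨m, rfl⟩, vecMul_ne_zero g hm, hm2⟩

theorem vol_le_SF (hn : 2 ≤ n) (D : Datum n) (hU : UnfoldAt D) (h0 : rO D 0 = 0) :
    vol D ≤ ENNReal.ofReal (cn n * SF D (fun _ : ZMod 1 => 1) (2 ^ n * √(D.disc : ℝ))) := by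
  classical
  rw [← rhs_eq hn D h0 (fun _ : ZMod 1 => 1) two_pos, ← hU _ (measurable_phi D _ _), vol]
  refine ENNReal.tsum_le_tsum fun S => ?_
  have o := od D S
  have h1 : orbMeas S.1 Set.univ = ∫⁻ _x, 1 ∂(orbMeas S.1) := by
    rw [lintegral_const, one_mul]
  rw [h1]
  refine lintegral_mono_ae ?_
  filter_upwards [o.ae] with x hx
  obtain ⟨g, rfl⟩ := pt_surjective x
  obtain ⟨v, hv, hv0, hv2⟩ := exists_short_vec (by omega) g
  have hv' : v ∈ latx (pt g) := by rw [latx_pt]; exact hv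
  refine le_trans ?_ (ENNReal.le_tsum (⟨v, hv', hv0⟩ :
    {v : Fin n → ℝ // v ∈ latx (pt g) ∧ v ≠ 0}))
  rw [phi, if_pos hv2, mul_one, ENNReal.coe_one]

theorem SF_le (D : Datum n) {q : ℕ} (F : ZMod q → ℝ≥0) (hF1 : ∀ a, F a ≤ 1) {Y : ℝ}
    (hY : 1 ≤ Y) : SF D F Y ≤ Y ^ (n * n + n) := by
  have hY0 : (0 : ℝ) ≤ Y := zero_le_one.trans hY
  have hn := D.pos
  have hterm : ∀ m ∈ Finset.Icc 1 ⌊Y⌋₊,
      (F (m : ZMod q) : ℝ) * (rO D m : ℝ) * Real.log (Y / m) ^ (n - 1) ≤
        Y ^ (n * n) * Y ^ (n - 1) := by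
    intro m hm
    rw [Finset.mem_Icc] at hm
    have hm1 : (0 : ℝ) < m := by exact_mod_cast hm.1
    have hm1' : (1 : ℝ) ≤ m := by exact_mod_cast hm.1
    have h1 : (m : ℝ) ≤ Y := (Nat.le_floor_iff hY0).mp hm.2
    have h2 : 0 ≤ Real.log (Y / m) := Real.log_nonneg ((one_le_div hm1).mpr h1)
    have h3 : Real.log (Y / m) ≤ Y := by
      have h4 := Real.log_le_sub_one_of_pos (div_pos (lt_of_lt_of_le one_pos hY) hm1)
      have h5 : Y / m ≤ Y := div_le_self hY0 hm1'
      linarith only [h4, h5]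
    have h6 : (F (m : ZMod q) : ℝ) ≤ 1 := by exact_mod_cast hF1 _
    have h7 : (rO D m : ℝ) ≤ Y ^ (n * n) := by
      calc (rO D m : ℝ) ≤ ((m ^ (n * n) : ℕ) : ℝ) := by exact_mod_cast rO_le D hm.1
        _ = (m : ℝ) ^ (n * n) := by push_cast; ring
        _ ≤ Y ^ (n * n) := by (clear * - hm1 h1; gcongr)
    calc (F (m : ZMod q) : ℝ) * (rO D m : ℝ) * Real.log (Y / m) ^ (n - 1)
        ≤ 1 * Y ^ (n * n) * Y ^ (n - 1) := by (clear * - hY h2 h3 h6 h7; gcongr)
      _ = _ := by rw [one_mul]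
  calc SF D F Y ≤ ∑ _m ∈ Finset.Icc 1 ⌊Y⌋₊, Y ^ (n * n) * Y ^ (n - 1) :=
        Finset.sum_le_sum hterm
    _ = ⌊Y⌋₊ * (Y ^ (n * n) * Y ^ (n - 1)) := by
        rw [Finset.sum_const, Nat.card_Icc, nsmul_eq_mul, Nat.add_sub_cancel]
    _ ≤ Y * (Y ^ (n * n) * Y ^ (n - 1)) := by
        gcongr
        exact Nat.floor_le hY0
    _ = Y ^ (n * n + n) := by
        obtain ⟨k, rfl⟩ : ∃ k, n = k + 1 := ⟨n - 1, by omega⟩
        rw [Nat.add_sub_cancel, pow_add, pow_succ Y k]
        ring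

/-- the volume of the packet is polynomially bounded -/
theorem vol_bound (n : ℕ) (hn : 2 ≤ n) : ∃ C : ℝ, 1 ≤ C ∧ ∀ D : Datum n, UnfoldAt D →
    rO D 0 = 0 → vol D ≠ ∞ ∧ (vol D).toReal ≤ C * (D.disc : ℝ) ^ (n * n + n) := by
  refine ⟨cn n * (2 ^ n) ^ (n * n + n) + 1, ?_, fun D hU h0 => ?_⟩
  · have := cn_pos hn
    have h1 : 0 ≤ cn n * (2 ^ n) ^ (n * n + n) := by positivity
    linarith only [h1]
  · have h1 := vol_le_SF hn D hU h0
    have hne : vol D ≠ ∞ := (lt_of_le_of_lt h1 ENNReal.ofReal_lt_top).ne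
    refine ⟨hne, ?_⟩
    have hd : 1 ≤ √(D.disc : ℝ) := one_le_sqrt_disc D
    have hd1 : (1 : ℝ) ≤ D.disc := by exact_mod_cast disc_pos D
    have hd2 : √(D.disc : ℝ) ≤ D.disc := by
      rw [Real.sqrt_le_left (by linarith only [hd1])]
      nlinarith only [hd1]
    have hY : (1 : ℝ) ≤ 2 ^ n * √(D.disc : ℝ) := by
      have : (1 : ℝ) ≤ 2 ^ n := one_le_pow₀ one_le_two
      nlinarith only [hd, this]
    have h2 := SF_le D (fun _ : ZMod 1 => 1) (fun _ => le_rfl) hY
    have hcn := cn_pos hn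
    have h3 : (vol D).toReal ≤ cn n * SF D (fun _ : ZMod 1 => 1) (2 ^ n * √(D.disc : ℝ)) := by
      refine ENNReal.toReal_le_of_le_ofReal ?_ h1
      exact mul_nonneg hcn.le (SF_nonneg D _ (by positivity))
    calc (vol D).toReal ≤ cn n * (2 ^ n * √(D.disc : ℝ)) ^ (n * n + n) := by
          exact h3.trans (mul_le_mul_of_nonneg_left h2 hcn.le)
      _ ≤ cn n * (2 ^ n * (D.disc : ℝ)) ^ (n * n + n) := by (clear * - hd1 hd2 hcn; gcongr)
      _ = cn n * (2 ^ n) ^ (n * n + n) * (D.disc : ℝ) ^ (n * n + n) := by rw [mul_pow]; ring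
      _ ≤ (cn n * (2 ^ n) ^ (n * n + n) + 1) * (D.disc : ℝ) ^ (n * n + n) := by
          gcongr
          linarith only []

/-- **comparison of the two sides** -/
theorem main_bounds (hn : 2 ≤ n) {C : ℝ} (hC1 : 1 ≤ C) (D : Datum n)
    (hC : ∀ g : G n, Inv (RE D) (latS g) → ∃ γ : Matrix (Fin n) (Fin n) ℤ, IsUnit γ.det ∧
      ∀ i j, |(castM γ * (g : Matrix (Fin n) (Fin n) ℝ)) i j| ≤ C * √(D.disc : ℝ))
    (hU : UnfoldAt D) (h0 : rO D 0 = 0)
    {q : ℕ} [NeZero q] {F : ZMod q → ℝ≥0} (hF : ∀ a, F (-a) = F a) (hF1 : ∀ a, F a ≤ 1)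
    {T : ℝ} (hT : 0 < T) :
    ENNReal.ofReal (cn n * SF D F (T ^ n * √(D.disc : ℝ))) ≤
      AF D F * ENNReal.ofReal ((2 * (T + n * q * (C * √(D.disc : ℝ)))) ^ n) ∧
    (n * q * (C * √(D.disc : ℝ)) ≤ T →
      AF D F * ENNReal.ofReal ((2 * (T - n * q * (C * √(D.disc : ℝ)))) ^ n) ≤
        vol D + ENNReal.ofReal (cn n * SF D F (T ^ n * √(D.disc : ℝ)))) := by
  have hev : EvenF (fun a => (F a : ℝ≥0∞)) := fun a => by
    show ((F (-a) : ℝ≥0) : ℝ≥0∞) = F a
    rw [hF]
  rw [← rhs_eq hn D h0 F hT, ← hU _ (measurable_phi D _ _), AF, ← ENNReal.tsum_mul_right,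
    ← ENNReal.tsum_mul_right]
  constructor
  · refine ENNReal.tsum_le_tsum fun S => ?_
    refine (orbit_bounds hC1 D hC hev (od D S) hT.le).1.trans (le_of_eq ?_)
    ring
  · intro hRT
    rw [vol, ← ENNReal.tsum_add]
    refine ENNReal.tsum_le_tsum fun S => ?_
    have h1 := (orbit_bounds hC1 D hC hev (od D S) hT.le).2 hRT
    refine le_trans (le_of_eq (by ring)) (h1.trans ?_)
    gcongr
    have h2 : ((F 0 : ℝ≥0) : ℝ≥0∞) ≤ 1 := by exact_mod_cast hF1 0
    calc ((F 0 : ℝ≥0) : ℝ≥0∞) * orbMeas S.1 Set.univ ≤ 1 * orbMeas S.1 Set.univ := by gcongr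
      _ = _ := one_mul _

theorem pow_sub_pow_le (n : ℕ) {x y : ℝ} (hy : 0 ≤ y) (hyx : y ≤ x) :
    x ^ n - y ^ n ≤ n * (x - y) * x ^ (n - 1) := by
  have hx : 0 ≤ x := hy.trans hyx
  induction n with
  | zero => simp
  | succ k ih =>
    rcases Nat.eq_zero_or_pos k with rfl | hk
    · simp
    · have h1 : x ^ (k + 1) - y ^ (k + 1) = x * (x ^ k - y ^ k) + (x - y) * y ^ k := by ring
      have h2 : x * (x ^ k - y ^ k) ≤ x * (k * (x - y) * x ^ (k - 1)) :=
        mul_le_mul_of_nonneg_left ih hx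
      have h3 : (x - y) * y ^ k ≤ (x - y) * x ^ k := by
        have := sub_nonneg.mpr hyx
        gcongr
      have h4 : x * (k * (x - y) * x ^ (k - 1)) = k * (x - y) * x ^ k := by
        obtain ⟨j, rfl⟩ : ∃ j, k = j + 1 := ⟨k - 1, by omega⟩
        rw [Nat.add_sub_cancel]
        ring
      rw [h1, Nat.add_sub_cancel]
      push_cast
      rw [h4] at h2
      linarith only [h2, h3]

/-- the real form of the comparison -/
theorem real_bounds (hn : 2 ≤ n) {C : ℝ} (hC1 : 1 ≤ C) (D : Datum n)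
    (hC : ∀ g : G n, Inv (RE D) (latS g) → ∃ γ : Matrix (Fin n) (Fin n) ℤ, IsUnit γ.det ∧
      ∀ i j, |(castM γ * (g : Matrix (Fin n) (Fin n) ℝ)) i j| ≤ C * √(D.disc : ℝ))
    (hU : UnfoldAt D) (h0 : rO D 0 = 0) (hv : vol D ≠ ∞)
    {q : ℕ} [NeZero q] {F : ZMod q → ℝ≥0} (hF : ∀ a, F (-a) = F a) (hF1 : ∀ a, F a ≤ 1)
    {T : ℝ} (hT : 0 < T) :
    |cn n * SF D F (T ^ n * √(D.disc : ℝ)) - (AF D F).toReal * (2 * T) ^ n| ≤
      (vol D).toReal * 2 ^ n * (1 + n * (n * q * (C * √(D.disc : ℝ))) *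
        (T + n * q * (C * √(D.disc : ℝ))) ^ (n - 1)) := by
  obtain ⟨h1, h2⟩ := main_bounds hn hC1 D hC hU h0 hF hF1 hT
  set R : ℝ := n * q * (C * √(D.disc : ℝ)) with hR
  have hR0 : 0 ≤ R := by (clear * - hn hC1; positivity)
  have hAv : AF D F ≤ vol D := AF_le D F hF1
  have hA : AF D F ≠ ∞ := ne_top_of_le_ne_top hv hAv
  set a : ℝ := (AF D F).toReal with ha
  set v : ℝ := (vol D).toReal with hvdef
  have ha0 : 0 ≤ a := ENNReal.toReal_nonneg
  have hav : a ≤ v := ENNReal.toReal_mono hv hAv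
  have hv0 : 0 ≤ v := ENNReal.toReal_nonneg
  have hS0 : 0 ≤ cn n * SF D F (T ^ n * √(D.disc : ℝ)) :=
    mul_nonneg (cn_pos hn).le (SF_nonneg D F (by (clear * - hT; positivity)))
  set s : ℝ := cn n * SF D F (T ^ n * √(D.disc : ℝ)) with hs
  have hAa : AF D F = ENNReal.ofReal a := (ENNReal.ofReal_toReal hA).symm
  have hVv : vol D = ENNReal.ofReal v := (ENNReal.ofReal_toReal hv).symm
  have h1' : s ≤ a * (2 * (T + R)) ^ n := by
    rw [hAa, ← ENNReal.ofReal_mul ha0] at h1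
    exact (ENNReal.ofReal_le_ofReal_iff (by positivity)).mp h1
  have h2' : R ≤ T → a * (2 * (T - R)) ^ n ≤ v + s := by
    intro hRT
    have h3 := h2 hRT
    rw [hAa, hVv, ← ENNReal.ofReal_mul ha0, ← ENNReal.ofReal_add hv0 hS0] at h3
    exact (ENNReal.ofReal_le_ofReal_iff (by (clear * - hS0; positivity))).mp h3
  have hTR : 0 ≤ T + R := by (clear * - hn hC1 hT; positivity)
  have hE0 : 0 ≤ n * R * (T + R) ^ (n - 1) := by (clear * - hn hC1 hT; positivity)
  rw [abs_le]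
  constructor
  · -- lower bound
    rcases le_or_gt R T with hRT | hRT
    · have h3 := h2' hRT
      have h4 := pow_sub_pow_le n (x := T) (y := T - R) (by linarith only [hRT]) (by linarith only [hR0])
      have h5 : T ^ (n - 1) ≤ (T + R) ^ (n - 1) := by gcongr; linarith only [hR0]
      have h6 : T ^ n - (T - R) ^ n ≤ n * R * (T + R) ^ (n - 1) := by
        refine h4.trans ?_
        rw [sub_sub_cancel]
        (clear * - hn hC1 h5; gcongr)
      have h7 : a * (2 ^ n * (T ^ n - (T - R) ^ n)) ≤ v * (2 ^ n * (n * R * (T + R) ^ (n - 1))) := by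
        refine mul_le_mul hav ?_ ?_ hv0
        · (clear * - h6; gcongr)
        · refine mul_nonneg (by positivity) ?_
          rw [sub_nonneg]
          have : 0 ≤ T - R := by linarith only [hRT]
          gcongr
          linarith only [hR0]
      have h8 : (1 : ℝ) ≤ 2 ^ n := one_le_pow₀ one_le_two
      have h9 : v ≤ v * 2 ^ n := le_mul_of_one_le_right hv0 h8
      rw [mul_pow] at h3 ⊢
      nlinarith only [h3, h7, h9]
    · have h4 : T ^ n ≤ n * R * (T + R) ^ (n - 1) := by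
        obtain ⟨k, rfl⟩ : ∃ k, n = k + 1 := ⟨n - 1, by omega⟩
        rw [Nat.add_sub_cancel, pow_succ]
        have h5 : T ^ k ≤ (T + R) ^ k := by gcongr; linarith only [hT, hRT]
        have h6 : (1 : ℝ) ≤ ((k + 1 : ℕ) : ℝ) := by exact_mod_cast Nat.le_add_left 1 k
        have h7 : T ≤ ((k + 1 : ℕ) : ℝ) * R := by nlinarith only [hT, hRT, h6]
        calc T ^ k * T ≤ (T + R) ^ k * (((k + 1 : ℕ) : ℝ) * R) := by (clear * - hC1 hT h5 h7; gcongr)
          _ = _ := by ring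
      have h7 : a * (2 ^ n * T ^ n) ≤ v * (2 ^ n * (n * R * (T + R) ^ (n - 1))) := by
        refine mul_le_mul hav ?_ (by positivity) hv0
        (clear * - h4; gcongr)
      have h9 : 0 ≤ v * 2 ^ n := by (clear * -; positivity)
      rw [mul_pow]
      nlinarith only [hS0, h7, h9]
  · -- upper bound
    have h4 := pow_sub_pow_le n (x := T + R) (y := T) hT.le (by linarith only [hR0])
    have h6 : (T + R) ^ n - T ^ n ≤ n * R * (T + R) ^ (n - 1) := by
      refine h4.trans (le_of_eq ?_)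
      ring
    have h7 : a * (2 ^ n * ((T + R) ^ n - T ^ n)) ≤ v * (2 ^ n * (n * R * (T + R) ^ (n - 1))) := by
      refine mul_le_mul hav ?_ ?_ hv0
      · (clear * - h6; gcongr)
      · refine mul_nonneg (by positivity) ?_
        rw [sub_nonneg]
        gcongr
        linarith only [hR0]
    have h9 : 0 ≤ v * 2 ^ n := by (clear * -; positivity)
    rw [mul_pow] at h1' ⊢
    nlinarith only [h1', h7, h9]

end Vale.Agent.P007.N.SA
end

section

/-! Riesz means of ideal counts with characters: final estimates. -/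

set_option autoImplicit false

open MeasureTheory Matrix NumberField Filter Topology Module
open scoped ENNReal NNReal nonZeroDivisors Pointwise

namespace Vale.Agent.P007.N.SA

open Vale.Agent.P007 Vale.Agent.P007.R Vale.Agent.P007.Fib Vale.Agent.P007.Red

variable {n : ℕ}

/-- the leading coefficient -/
noncomputable def alp (D : Datum n) {q : ℕ} [NeZero q] (F : ZMod q → ℝ≥0) : ℝ :=
  2 ^ n / cn n * (AF D F).toReal / √(D.disc : ℝ)

theorem alp_nonneg (hn : 2 ≤ n) (D : Datum n) {q : ℕ} [NeZero q] (F : ZMod q → ℝ≥0) :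
    0 ≤ alp D F := by
  have := cn_pos hn
  rw [alp]
  positivity

theorem sqrt_disc_le (D : Datum n) : √(D.disc : ℝ) ≤ D.disc := by
  have hd1 : (1 : ℝ) ≤ D.disc := by exact_mod_cast disc_pos D
  rw [Real.sqrt_le_left (by linarith)]
  nlinarith only [hd1]

/-- **the Riesz mean with an even nonnegative weight** -/
theorem riesz_bound (n : ℕ) (hn : 2 ≤ n) : ∃ K : ℝ, 0 ≤ K ∧ ∀ D : Datum n, UnfoldAt D →
    rO D 0 = 0 → ∀ (q : ℕ) [NeZero q] (F : ZMod q → ℝ≥0), (∀ a, F (-a) = F a) →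
    (∀ a, F a ≤ 1) → alp D F ≤ K * ((D.disc : ℝ) * q) ^ (n * n + n + n) ∧
    ∀ Y : ℝ, 1 ≤ Y → |SF D F Y - alp D F * Y| ≤
      K * ((D.disc : ℝ) * q) ^ (n * n + n + n) * Y ^ (1 - 1 / (n : ℝ)) := by
  obtain ⟨C, hC1, hC⟩ := exists_basis_bound n (by omega)
  obtain ⟨Cv, hCv1, hCv⟩ := vol_bound n hn
  have hcn := cn_pos hn
  have hn1 : (1 : ℝ) ≤ n := by exact_mod_cast (by omega : 1 ≤ n)
  refine ⟨Cv * 2 ^ n * (1 + n) * (1 + n * C) ^ n / cn n, by positivity,
    fun D hU h0 q _ F hF hF1 => ?_⟩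
  obtain ⟨hv, hvb⟩ := hCv D hU h0
  have hd : 1 ≤ √(D.disc : ℝ) := one_le_sqrt_disc D
  have hd1 : (1 : ℝ) ≤ D.disc := by exact_mod_cast disc_pos D
  have hd2 := sqrt_disc_le D
  have hq1 : (1 : ℝ) ≤ q := by exact_mod_cast Nat.one_le_iff_ne_zero.mpr (NeZero.ne q)
  set Δ : ℝ := (D.disc : ℝ) * q with hΔ
  have hΔ1 : 1 ≤ Δ := by nlinarith only [hd1, hq1]
  have hdΔ : (D.disc : ℝ) ≤ Δ := by nlinarith only [hq1]
  set v : ℝ := (vol D).toReal with hvdef
  have hv0 : 0 ≤ v := ENNReal.toReal_nonneg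
  have hvΔ : v ≤ Cv * Δ ^ (n * n + n) := hvb.trans (by (clear * - hCv1 hd1 hdΔ; gcongr))
  have hAv : (AF D F).toReal ≤ v := ENNReal.toReal_mono hv (AF_le D F hF1)
  constructor
  · rw [alp]
    have h1 : 2 ^ n / cn n * (AF D F).toReal / √(D.disc : ℝ) ≤ 2 ^ n / cn n * v := by
      refine (div_le_self (by positivity) hd).trans ?_
      gcongr
    refine h1.trans ?_
    have h2 : (1 : ℝ) ≤ (1 + n) * (1 + n * C) ^ n := by
      have h3 : (1 : ℝ) ≤ (1 + n * C) ^ n := one_le_pow₀ (by nlinarith only [hC1, hn1])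
      nlinarith only [hn1, h3]
    have h4 : Δ ^ (n * n + n) ≤ Δ ^ (n * n + n + n) := pow_le_pow_right₀ hΔ1 (by omega)
    calc 2 ^ n / cn n * v ≤ 2 ^ n / cn n * (Cv * Δ ^ (n * n + n + n)) := by
          gcongr
          exact hvΔ.trans (by (clear * - hCv1 h4; gcongr))
      _ = Cv * 2 ^ n * 1 / cn n * Δ ^ (n * n + n + n) := by ring
      _ ≤ Cv * 2 ^ n * ((1 + n) * (1 + n * C) ^ n) / cn n * Δ ^ (n * n + n + n) := by (clear * - hCv1 hcn hd1 hq1 h2; gcongr)
      _ = _ := by ring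
  · intro Y hY
    have hY0 : (0 : ℝ) < Y := lt_of_lt_of_le one_pos hY
    have hnn : (n : ℝ) ≠ 0 := by positivity
    set T : ℝ := (Y / √(D.disc : ℝ)) ^ ((1 : ℝ) / n) with hT
    have hYd : 0 < Y / √(D.disc : ℝ) := by (clear * - hd1 hY; positivity)
    have hT0 : 0 < T := Real.rpow_pos_of_pos hYd _
    have hTn : T ^ n * √(D.disc : ℝ) = Y := by
      rw [hT, ← Real.rpow_natCast, ← Real.rpow_mul hYd.le, one_div, inv_mul_cancel₀ hnn,
        Real.rpow_one, div_mul_cancel₀ _ (by positivity)]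
    have hb := real_bounds hn hC1 D (hC D) hU h0 hv hF hF1 hT0
    rw [hTn] at hb
    set R : ℝ := n * q * (C * √(D.disc : ℝ)) with hR
    have hR0 : 0 ≤ R := by (clear * - hn hC1 hd1 hq1; positivity)
    have hRΔ : R ≤ n * C * Δ := by
      rw [hR, hΔ]
      calc n * q * (C * √(D.disc : ℝ)) ≤ n * q * (C * D.disc) := by (clear * - hn hC1 hd2 hq1; gcongr)
        _ = _ := by ring
    set y : ℝ := Y ^ ((1 : ℝ) / n) with hy
    have hy1 : 1 ≤ y := Real.one_le_rpow hY (by positivity)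
    have hTy : T ≤ y := by
      refine Real.rpow_le_rpow hYd.le (div_le_self hY0.le hd) (by positivity)
    have hyn : y ^ (n - 1) = Y ^ (1 - 1 / (n : ℝ)) := by
      rw [hy, ← Real.rpow_natCast, ← Real.rpow_mul hY0.le]
      congr 1
      rw [Nat.cast_sub (by omega)]
      field_simp
      ring
    have hy2 : 1 ≤ Y ^ (1 - 1 / (n : ℝ)) := by
      rw [← hyn]
      exact one_le_pow₀ hy1
    have hW : 1 ≤ 1 + n * C * Δ := by
      have : 0 ≤ n * C * Δ := by (clear * - hn hC1 hd1 hq1; positivity)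
      linarith only [hR0, hRΔ]
    have hTR : (T + R) ^ (n - 1) ≤ (1 + n * C * Δ) ^ (n - 1) * Y ^ (1 - 1 / (n : ℝ)) := by
      rw [← hyn, ← mul_pow]
      have : T + R ≤ (1 + n * C * Δ) * y := by
        have h5 : R ≤ n * C * Δ * y := by
          refine hRΔ.trans (le_mul_of_one_le_right (by (clear * - hn hC1 hd1 hq1; positivity)) hy1)
        linarith only [hTy, h5]
      (clear * - hn hC1 hd1 hq1 hY this; gcongr)
    have hmain : 1 + n * R * (T + R) ^ (n - 1) ≤
        (1 + n) * ((1 + n * C) * Δ) ^ n * Y ^ (1 - 1 / (n : ℝ)) := by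
      have h6 : n * R * (T + R) ^ (n - 1) ≤
          n * (1 + n * C * Δ) ^ n * Y ^ (1 - 1 / (n : ℝ)) := by
        calc n * R * (T + R) ^ (n - 1) ≤ n * (1 + n * C * Δ) *
              ((1 + n * C * Δ) ^ (n - 1) * Y ^ (1 - 1 / (n : ℝ))) := by
              gcongr
              linarith only [hRΔ]
          _ = n * ((1 + n * C * Δ) ^ (n - 1) * (1 + n * C * Δ)) * Y ^ (1 - 1 / (n : ℝ)) := by ring
          _ = n * (1 + n * C * Δ) ^ n * Y ^ (1 - 1 / (n : ℝ)) := by
              rw [← pow_succ, Nat.sub_add_cancel (by omega)]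
      have h7 : (1 : ℝ) ≤ (1 + n * C * Δ) ^ n * Y ^ (1 - 1 / (n : ℝ)) := by
        have h8 : (1 : ℝ) ≤ (1 + n * C * Δ) ^ n := one_le_pow₀ hW
        nlinarith only [hy2, h8]
      have h9 : (1 + n * C * Δ) ^ n ≤ ((1 + n * C) * Δ) ^ n := by
        have : 1 + n * C * Δ ≤ (1 + n * C) * Δ := by nlinarith only [hΔ1]
        (clear * - hn hC1 hd1 hq1 this; gcongr)
      calc 1 + n * R * (T + R) ^ (n - 1)
          ≤ (1 + n * C * Δ) ^ n * Y ^ (1 - 1 / (n : ℝ)) +
            n * (1 + n * C * Δ) ^ n * Y ^ (1 - 1 / (n : ℝ)) := add_le_add h7 h6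
        _ = (1 + n) * (1 + n * C * Δ) ^ n * Y ^ (1 - 1 / (n : ℝ)) := by ring
        _ ≤ _ := by (clear * - hn hY h9; gcongr)
    have hid : SF D F Y - alp D F * Y =
        (cn n * SF D F Y - (AF D F).toReal * (2 * T) ^ n) / cn n := by
      rw [alp, mul_pow]
      have h10 : T ^ n = Y / √(D.disc : ℝ) := by
        rw [eq_div_iff (by (clear * - hd1; positivity)), hTn]
      rw [h10]
      field_simp
    rw [hid, abs_div, abs_of_pos hcn, div_le_iff₀ hcn]
    refine hb.trans ?_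
    calc v * 2 ^ n * (1 + n * R * (T + R) ^ (n - 1))
        ≤ (Cv * Δ ^ (n * n + n)) * 2 ^ n *
          ((1 + n) * ((1 + n * C) * Δ) ^ n * Y ^ (1 - 1 / (n : ℝ))) := by (clear * - hn hC1 hCv1 hd1 hq1 hvΔ hY hmain; gcongr)
      _ = Cv * 2 ^ n * (1 + n) * (1 + n * C) ^ n / cn n * Δ ^ (n * n + n + n) *
          Y ^ (1 - 1 / (n : ℝ)) * cn n := by
          rw [mul_pow (1 + (n : ℝ) * C) Δ n, pow_add Δ (n * n + n) n]
          (clear * - hn hC1 hCv1 hcn hΔ1 hY hnn; field_simp)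

/-- the packet contains a lattice with a vector of norm `±1 / √disc` -/
theorem exists_unit_orbit (D : Datum n) : ∃ S : D.packet, ∀ o : OD D S.1, ∃ z : Fin n → ℤ,
    |(hz o.P z : ℝ)| = 1 := by
  obtain ⟨c, g, hc, hlat⟩ := D.exists_packetPt 1 1
  refine ⟨⟨orb (pt g), pt g, ⟨1, 1, c, g, hc, rfl, hlat⟩, rfl⟩, fun o => ?_⟩
  obtain ⟨b, hb, hbdet⟩ := exists_ringBasis D
  have hlat' : latM (g : Matrix (Fin n) (Fin n) ℝ) = latM (c • b) := by
    rw [← lat_eq_latM, hlat, latM_smul, hb]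
    ext v
    constructor
    · rintro ⟨a, ha, rfl⟩
      refine ⟨sE D a, ?_, ?_⟩
      · have h1 : sE D a ∈ sL D (D.zmod 1) := (mem_sL D).mpr ⟨a, ha, rfl⟩
        rw [sL_zmod_one] at h1
        exact h1
      · funext j
        rw [sE_apply]
        simp
    · rintro ⟨u, hu, rfl⟩
      have h1 : u ∈ sL D (D.zmod 1) := by
        rw [sL_zmod_one]
        exact hu
      obtain ⟨a, ha, rfl⟩ := (mem_sL D).mp h1
      refine ⟨a, ha, ?_⟩
      funext j
      rw [sE_apply]
      simp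
  obtain ⟨P, hP, hPu⟩ := exists_unimodular (by rw [det_G]; exact one_ne_zero) hlat'
  have hcd : c ^ n * √(D.disc : ℝ) = 1 := by
    have h1 := congrArg (fun A : Matrix (Fin n) (Fin n) ℝ => |A.det|) hP
    simp only [det_G, abs_one, det_mul, abs_mul, cast_det, det_smul, Fintype.card_fin] at h1
    rw [hbdet, ← Int.cast_abs, Int.isUnit_iff_abs_eq.mp hPu, Int.cast_one, one_mul,
      abs_of_pos (pow_pos hc n)] at h1
    exact h1.symm
  have h2 : pt o.g ∈ orb (pt g) := (Set.ext_iff.mp o.orb _).mpr (mem_orb_self _)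
  obtain ⟨u, hu⟩ := h2
  have hu' : pt (g * aexp u) = pt o.g := hu
  have h4 : latS (g * aexp u) = latS o.g := (pt_eq_iff_latS D.pos).mp hu'
  have h5 : ev u * (fun _ : Fin n => c) ∈ latS o.g := by
    rw [← h4, latS_mul_aexp, mem_vmul]
    refine ⟨fun _ => c, ?_, rfl⟩
    rw [mem_latS, hlat]
    refine ⟨1, FractionalIdeal.one_mem_one _, ?_⟩
    funext j
    rw [map_one]
    simp
  obtain ⟨z, hzv⟩ := h5
  refine ⟨z, ?_⟩
  rw [o.hP z]
  have h6 : (fun i => (z i : ℝ)) ᵥ* (o.g : Matrix (Fin n) (Fin n) ℝ) =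
    ev u * (fun _ : Fin n => c) := hzv
  rw [h6]
  have h7 : ∏ j, (ev u * (fun _ : Fin n => c)) j = c ^ n := by
    have h8 : ∀ j, (ev u * (fun _ : Fin n => c)) j = Real.exp (expo u j) * c := fun j => rfl
    simp_rw [h8]
    rw [Finset.prod_mul_distrib, ← Real.exp_sum, sum_expo, Real.exp_zero, one_mul,
      Finset.prod_const, Finset.card_univ, Fintype.card_fin]
  rw [h7, abs_of_pos (pow_pos hc n), mul_comm]
  exact hcd

theorem alp_pos (hn : 2 ≤ n) (D : Datum n) (hv : vol D ≠ ∞) {q : ℕ} [NeZero q]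
    (F : ZMod q → ℝ≥0) (hF1 : ∀ a, F a ≤ 1) (hFu : ∀ a, IsUnit a → F a ≠ 0) : 0 < alp D F := by
  have hA : AF D F ≠ ∞ := ne_top_of_le_ne_top hv (AF_le D F hF1)
  have hA0 : AF D F ≠ 0 := by
    obtain ⟨S, hS⟩ := exists_unit_orbit D
    obtain ⟨z, hz1⟩ := hS (od D S)
    intro h0
    rw [AF, ENNReal.tsum_eq_zero] at h0
    have h1 := h0 S
    rw [mul_eq_zero] at h1
    rcases h1 with h1 | h1
    · rw [mn, ENNReal.div_eq_zero_iff] at h1
      rcases h1 with h1 | h1
      · rw [Finset.sum_eq_zero_iff] at h1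
        have h2 := h1 (redq q z) (Finset.mem_univ _)
        rw [hq_redq, ENNReal.coe_eq_zero] at h2
        refine hFu _ ?_ h2
        have h3 : hz (od D S).P z = 1 ∨ hz (od D S).P z = -1 := by
          have h4 : |hz (od D S).P z| = 1 := by exact_mod_cast hz1
          exact (abs_eq zero_le_one).mp h4
        rcases h3 with h3 | h3
        · rw [h3, Int.cast_one]
          exact isUnit_one
        · rw [h3, Int.cast_neg, Int.cast_one]
          exact isUnit_one.neg
      · exact pow_q_ne_top q h1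
    · exact (od D S).ne_zero h1
  have h1 : 0 < (AF D F).toReal := ENNReal.toReal_pos hA0 hA
  have h2 := cn_pos hn
  have h3 : 0 < √(D.disc : ℝ) := lt_of_lt_of_le one_pos (one_le_sqrt_disc D)
  rw [alp]
  positivity

/-- characters of odd order are even -/
theorem char_even {q : ℕ} (χ : DirichletCharacter ℂ q) (h : Odd (orderOf χ)) (a : ZMod q) :
    χ (-a) = χ a := by
  have h1 : χ (-1) = 1 := by
    rcases DirichletCharacter.even_or_odd χ with h2 | h2
    · exact h2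
    · exfalso
      have h3 : (χ ^ orderOf χ) (-1) = 1 := by
        rw [pow_orderOf_eq_one]
        have h4 : (-1 : ZMod q) = ((-1 : (ZMod q)ˣ) : ZMod q) := by simp
        rw [h4, MulChar.one_apply_coe]
      have h5 : (χ ^ orderOf χ) (-1) = (χ (-1)) ^ orderOf χ := by
        have h4 : (-1 : ZMod q) = ((-1 : (ZMod q)ˣ) : ZMod q) := by simp
        rw [h4, MulChar.pow_apply_coe]
      rw [h5, h2, h.neg_one_pow] at h3
      norm_num at h3
  rw [← neg_one_mul, map_mul, h1, one_mul]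

/-- the four nonnegative parts of a character -/
noncomputable def part {q : ℕ} (χ : DirichletCharacter ℂ q) (l : Fin 4) (a : ZMod q) : ℝ≥0 :=
  ![Real.toNNReal (χ a).re, Real.toNNReal (-(χ a).re), Real.toNNReal (χ a).im,
    Real.toNNReal (-(χ a).im)] l

theorem part_even {q : ℕ} {χ : DirichletCharacter ℂ q} (h : Odd (orderOf χ)) (l : Fin 4)
    (a : ZMod q) : part χ l (-a) = part χ l a := by
  rw [part, part, char_even χ h]

theorem part_le_one {q : ℕ} [NeZero q] (χ : DirichletCharacter ℂ q) (l : Fin 4) (a : ZMod q) :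
    part χ l a ≤ 1 := by
  have h1 : ‖χ a‖ ≤ 1 := DirichletCharacter.norm_le_one χ a
  have h2 := Complex.abs_re_le_norm (χ a)
  have h3 := Complex.abs_im_le_norm (χ a)
  rw [abs_le] at h2 h3
  fin_cases l
  all_goals
    refine Real.toNNReal_le_one.mpr ?_
    linarith [h2.1, h2.2, h3.1, h3.2]

theorem toNNReal_sub (x : ℝ) : ((Real.toNNReal x : ℝ≥0) : ℝ) - (Real.toNNReal (-x) : ℝ≥0) = x := by
  rw [Real.coe_toNNReal', Real.coe_toNNReal']
  rcases le_total 0 x with h | h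
  · rw [max_eq_left h, max_eq_right (by linarith)]
    ring
  · rw [max_eq_right h, max_eq_left (by linarith)]
    ring

theorem char_eq_parts {q : ℕ} (χ : DirichletCharacter ℂ q) (a : ZMod q) :
    χ a = ((part χ 0 a : ℝ) - (part χ 1 a : ℝ) : ℝ) +
      ((part χ 2 a : ℝ) - (part χ 3 a : ℝ) : ℝ) * Complex.I := by
  have h1 : ((part χ 0 a : ℝ≥0) : ℝ) - (part χ 1 a : ℝ≥0) = (χ a).re := toNNReal_sub _
  have h2 : ((part χ 2 a : ℝ≥0) : ℝ) - (part χ 3 a : ℝ≥0) = (χ a).im := toNNReal_sub _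
  rw [h1, h2, Complex.re_add_im]

/-- **Riesz means with characters**, given the unfolding identity. -/
theorem S_asymp_of (n : ℕ) (hn : 2 ≤ n) : ∃ κ C : ℝ, 0 < κ ∧ ∀ D : Datum n, UnfoldAt D →
    rO D 0 = 0 → ∀ (q : ℕ) [NeZero q]
    (χ : DirichletCharacter ℂ q), Odd (orderOf χ) → ∃ α : ℂ,
      (q = 1 → α = κ * (vol D).toReal / √(D.disc : ℝ)) ∧
      (χ = 1 → α ≠ 0) ∧
      ‖α‖ ≤ (D.disc * q : ℝ) ^ C * C ∧
      ∀ Y : ℝ, 1 ≤ Y →
        ‖∑ m ∈ Finset.Icc 1 ⌊Y⌋₊, χ (m : ZMod q) * (rO D m : ℂ) * (Real.log (Y / m) : ℂ) ^ (n - 1) -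
          α * Y‖ ≤ C * (D.disc * q : ℝ) ^ C * Y ^ (1 - 1 / (n : ℝ)) := by
  obtain ⟨K, hK0, hK⟩ := riesz_bound n hn
  obtain ⟨Cv, hCv1, hCv⟩ := vol_bound n hn
  have hcn := cn_pos hn
  refine ⟨2 ^ n / cn n, 4 * K + (n * n + n + n : ℕ) + 1, by positivity,
    fun D hU h0 q _ χ hχ => ?_⟩
  set C : ℝ := 4 * K + (n * n + n + n : ℕ) + 1 with hCdef
  obtain ⟨hv, -⟩ := hCv D hU h0
  have hparts := fun l => hK D hU h0 q (part χ l) (part_even hχ l) (part_le_one χ l)
  set Δ : ℝ := (D.disc : ℝ) * q with hΔ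
  have hd1 : (1 : ℝ) ≤ D.disc := by exact_mod_cast disc_pos D
  have hq1 : (1 : ℝ) ≤ q := by exact_mod_cast Nat.one_le_iff_ne_zero.mpr (NeZero.ne q)
  have hΔ1 : 1 ≤ Δ := by nlinarith
  have hCK : 4 * K ≤ C := by
    rw [hCdef]
    have : (0 : ℝ) ≤ (n * n + n + n : ℕ) := Nat.cast_nonneg _
    linarith
  have hpow : 4 * (K * Δ ^ (n * n + n + n)) ≤ C * Δ ^ C := by
    have h1 : Δ ^ (n * n + n + n) ≤ Δ ^ C := by
      rw [← Real.rpow_natCast]
      refine Real.rpow_le_rpow_of_exponent_le hΔ1 ?_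
      rw [hCdef]
      linarith
    have h2 : (0 : ℝ) ≤ Δ ^ (n * n + n + n) := by positivity
    calc 4 * (K * Δ ^ (n * n + n + n)) = 4 * K * Δ ^ (n * n + n + n) := by ring
      _ ≤ C * Δ ^ C := by gcongr
  set α : ℂ := ((alp D (part χ 0) - alp D (part χ 1) : ℝ) : ℂ) +
    ((alp D (part χ 2) - alp D (part χ 3) : ℝ) : ℂ) * Complex.I with hα
  have hnorm : ∀ x y : ℝ, ‖(x : ℂ) + (y : ℂ) * Complex.I‖ ≤ |x| + |y| := by
    intro x y
    refine (norm_add_le _ _).trans (le_of_eq ?_)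
    rw [norm_mul, Complex.norm_I, mul_one, Complex.norm_real, Complex.norm_real]
    rfl
  refine ⟨α, ?_, ?_, ?_, ?_⟩
  · intro hq
    subst hq
    have hone : ∀ a : ZMod 1, χ a = 1 := by
      intro a
      have : a = 1 := Subsingleton.elim _ _
      rw [this, map_one]
    have e0 : part χ 0 = fun _ => 1 := by
      funext a
      show Real.toNNReal (χ a).re = 1
      rw [hone, Complex.one_re, Real.toNNReal_one]
    have e1 : part χ 1 = fun _ => 0 := by
      funext a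
      show Real.toNNReal (-(χ a).re) = 0
      rw [hone, Complex.one_re]
      exact Real.toNNReal_of_nonpos (by norm_num)
    have e2 : part χ 2 = fun _ => 0 := by
      funext a
      show Real.toNNReal (χ a).im = 0
      rw [hone, Complex.one_im, Real.toNNReal_zero]
    have e3 : part χ 3 = fun _ => 0 := by
      funext a
      show Real.toNNReal (-(χ a).im) = 0
      rw [hone, Complex.one_im, neg_zero, Real.toNNReal_zero]
    have hz : alp D (fun _ : ZMod 1 => 0) = 0 := by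
      rw [alp, AF_zero]
      simp
    rw [hα, e0, e1, e2, e3, hz, alp, AF_one]
    push_cast
    ring
  · intro h1
    subst h1
    have hval : ∀ a : ZMod q, (1 : DirichletCharacter ℂ q) a = if IsUnit a then 1 else 0 := by
      intro a
      split_ifs with h
      · exact MulChar.one_apply h
      · exact MulChar.map_nonunit _ h
    have hp : 0 < alp D (part (1 : DirichletCharacter ℂ q) 0) := by
      refine alp_pos hn D hv _ (part_le_one _ 0) ?_
      intro a ha
      show Real.toNNReal ((1 : DirichletCharacter ℂ q) a).re ≠ 0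
      rw [hval, if_pos ha, Complex.one_re, Real.toNNReal_one]
      exact one_ne_zero
    have e1 : part (1 : DirichletCharacter ℂ q) 1 = fun _ => 0 := by
      funext a
      show Real.toNNReal (-((1 : DirichletCharacter ℂ q) a).re) = 0
      rw [hval]
      refine Real.toNNReal_of_nonpos ?_
      split_ifs <;> simp
    have hz : alp D (fun _ : ZMod q => 0) = 0 := by
      rw [alp, AF_zero]
      simp
    intro hα0
    have h2 := congrArg Complex.re hα0
    rw [hα, e1, hz] at h2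
    simp at h2
    exact hp.ne' h2
  · rw [hα]
    refine (hnorm _ _).trans ?_
    have hb : ∀ l, |alp D (part χ l)| ≤ K * Δ ^ (n * n + n + n) := by
      intro l
      rw [abs_of_nonneg (alp_nonneg hn D _)]
      exact (hparts l).1
    have h1 := abs_sub (alp D (part χ 0)) (alp D (part χ 1))
    have h2 := abs_sub (alp D (part χ 2)) (alp D (part χ 3))
    have h3 : Δ ^ C * C = C * Δ ^ C := mul_comm _ _
    rw [h3]
    refine le_trans ?_ hpow
    linarith [hb 0, hb 1, hb 2, hb 3]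
  · intro Y hY
    have hsum : ∑ m ∈ Finset.Icc 1 ⌊Y⌋₊, χ (m : ZMod q) * (rO D m : ℂ) *
          (Real.log (Y / m) : ℂ) ^ (n - 1) =
        ((SF D (part χ 0) Y - SF D (part χ 1) Y : ℝ) : ℂ) +
          ((SF D (part χ 2) Y - SF D (part χ 3) Y : ℝ) : ℂ) * Complex.I := by
      simp only [SF]
      rw [← Finset.sum_sub_distrib, ← Finset.sum_sub_distrib, Complex.ofReal_sum,
        Complex.ofReal_sum, Finset.sum_mul, ← Finset.sum_add_distrib]
      refine Finset.sum_congr rfl fun m _ => ?_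
      rw [char_eq_parts χ (m : ZMod q)]
      push_cast
      ring
    have hid : ∑ m ∈ Finset.Icc 1 ⌊Y⌋₊, χ (m : ZMod q) * (rO D m : ℂ) *
          (Real.log (Y / m) : ℂ) ^ (n - 1) - α * Y =
        (((SF D (part χ 0) Y - alp D (part χ 0) * Y) -
          (SF D (part χ 1) Y - alp D (part χ 1) * Y) : ℝ) : ℂ) +
        (((SF D (part χ 2) Y - alp D (part χ 2) * Y) -
          (SF D (part χ 3) Y - alp D (part χ 3) * Y) : ℝ) : ℂ) * Complex.I := by
      rw [hsum, hα]
      push_cast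
      ring
    rw [hid]
    refine (hnorm _ _).trans ?_
    have hb := fun l => (hparts l).2 Y hY
    have h1 := abs_sub (SF D (part χ 0) Y - alp D (part χ 0) * Y)
      (SF D (part χ 1) Y - alp D (part χ 1) * Y)
    have h2 := abs_sub (SF D (part χ 2) Y - alp D (part χ 2) * Y)
      (SF D (part χ 3) Y - alp D (part χ 3) * Y)
    have hY0 : 0 ≤ Y ^ (1 - 1 / (n : ℝ)) := Real.rpow_nonneg (by linarith) _
    calc |SF D (part χ 0) Y - alp D (part χ 0) * Y - (SF D (part χ 1) Y - alp D (part χ 1) * Y)| +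
          |SF D (part χ 2) Y - alp D (part χ 2) * Y - (SF D (part χ 3) Y - alp D (part χ 3) * Y)|
        ≤ 4 * (K * Δ ^ (n * n + n + n)) * Y ^ (1 - 1 / (n : ℝ)) := by
          linarith [hb 0, hb 1, hb 2, hb 3]
      _ ≤ C * Δ ^ C * Y ^ (1 - 1 / (n : ℝ)) := by gcongr

end Vale.Agent.P007.N.SA
end

section

/-! Riesz means of the ideal counts of an order with Dirichlet characters, with uniform error. -/

set_option autoImplicit false

open MeasureTheory Matrix NumberField Filter Topology Module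
open scoped ENNReal NNReal nonZeroDivisors

namespace Vale.Agent.P007.N

open Vale.Agent.P007 Vale.Agent.P007.R

/-- `κ n * vol / √disc` is the leading coefficient. -/
theorem S_asymp (n : ℕ) (hn : 2 ≤ n) : ∃ κ C : ℝ, 0 < κ ∧ ∀ D : Datum n, ∀ (q : ℕ) [NeZero q]
    (χ : DirichletCharacter ℂ q), Odd (orderOf χ) → ∃ α : ℂ,
      (q = 1 → α = κ * (vol D).toReal / √(D.disc : ℝ)) ∧
      (χ = 1 → α ≠ 0) ∧
      ‖α‖ ≤ (D.disc * q : ℝ) ^ C * C ∧
      ∀ Y : ℝ, 1 ≤ Y →
        ‖∑ m ∈ Finset.Icc 1 ⌊Y⌋₊, χ (m : ZMod q) * (rO D m : ℂ) * (Real.log (Y / m) : ℂ) ^ (n - 1) -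
          α * Y‖ ≤ C * (D.disc * q : ℝ) ^ C * Y ^ (1 - 1 / (n : ℝ)) := by
  obtain ⟨κ, C, hκ, h⟩ := SA.S_asymp_of n hn
  exact ⟨κ, C, hκ, fun D => h D (fun φ hφ => unfold D φ hφ) (rO_zero' D)⟩

end Vale.Agent.P007.N
end

section

set_option autoImplicit false

open MeasureTheory Matrix NumberField Filter Topology Module
open scoped nonZeroDivisors ENNReal CompactlySupported Pointwise

namespace Vale.Agent.P007.Fib

open Vale.Agent.P007

variable {n : ℕ}

variable {S : Subring (Fin n → ℝ)} {f : ℕ}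

end Vale.Agent.P007.Fib
end

section

set_option autoImplicit false

open MeasureTheory Matrix NumberField Filter Topology Module
open scoped nonZeroDivisors ENNReal CompactlySupported Pointwise

namespace Vale.Agent.P007.Fib

open Vale.Agent.P007

variable {n : ℕ} {S : Subring (Fin n → ℝ)} {f : ℕ}

end Vale.Agent.P007.Fib
end

section

set_option autoImplicit false

open MeasureTheory Matrix NumberField Filter Topology Module
open scoped nonZeroDivisors ENNReal CompactlySupported Pointwise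

namespace Vale.Agent.P007.Fib

open Vale.Agent.P007

variable {n : ℕ} {R S : Subring (Fin n → ℝ)} {f : ℕ}

end Vale.Agent.P007.Fib
end

section

set_option autoImplicit false

open MeasureTheory Matrix NumberField Filter Topology Module
open scoped nonZeroDivisors ENNReal CompactlySupported Pointwise

namespace Vale.Agent.P007.Fib

open Vale.Agent.P007

theorem card_preimage {A C : Type*} [AddCommGroup A] [AddCommGroup C] (φ : A →+ C)
    (hφ : Function.Surjective φ) (P : C → Prop) :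
    Nat.card {a // P (φ a)} = Nat.card φ.ker * Nat.card {c // P c} := by
  choose σ hσ using hφ
  rw [← Nat.card_prod]
  refine Nat.card_congr
    { toFun := fun a => (⟨a.1 - σ (φ a.1), by
          rw [AddMonoidHom.mem_ker, map_sub, hσ, sub_self]⟩, ⟨φ a.1, a.2⟩)
      invFun := fun x => ⟨x.1.1 + σ x.2.1, by
          have h1 : φ x.1.1 = 0 := x.1.2
          have h2 : φ (x.1.1 + σ x.2.1) = x.2.1 := by rw [map_add, h1, hσ, zero_add]
          rw [h2]
          exact x.2.2⟩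
      left_inv := ?_
      right_inv := ?_ }
  · rintro ⟨a, ha⟩
    apply Subtype.ext
    simp
  · rintro ⟨⟨k, hk⟩, ⟨c, hc⟩⟩
    have h1 : φ k = 0 := hk
    have h2 : φ (k + σ c) = c := by rw [map_add, h1, hσ, zero_add]
    refine Prod.ext (Subtype.ext ?_) (Subtype.ext h2)
    change k + σ c - σ (φ (k + σ c)) = k
    rw [h2]
    abel

theorem finite_quotient {B : Type*} [CommRing B] [Finite B] (I : Ideal B) : Finite (B ⧸ I) :=
  Finite.of_surjective _ Ideal.Quotient.mk_surjective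

theorem pi_surj {B : Type*} [CommRing B] [Finite B] : Function.Surjective
    (RingHom.pi fun M : MaximalSpectrum B => Ideal.Quotient.mk M.asIdeal) := by
  have hfin : Finite (MaximalSpectrum B) := by
    refine Finite.of_injective (fun M : MaximalSpectrum B => M.asIdeal) ?_
    intro M M' h
    exact MaximalSpectrum.ext h
  intro t
  obtain ⟨r, hr⟩ := Ideal.pi_quotient_surjective (I := fun M : MaximalSpectrum B => M.asIdeal) (by
    intro M M' hne
    refine Ideal.isCoprime_iff_sup_eq.mpr ?_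
    refine Ideal.IsMaximal.coprime_of_ne M.isMaximal M'.isMaximal ?_
    intro h
    exact hne (MaximalSpectrum.ext h)) t
  exact ⟨r, funext hr⟩

theorem card_units {B : Type*} [CommRing B] [Finite B] [Fintype (MaximalSpectrum B)] :
    Nat.card Bˣ * ∏ M : MaximalSpectrum B, Nat.card (B ⧸ M.asIdeal) =
      Nat.card B * ∏ M : MaximalSpectrum B, (Nat.card (B ⧸ M.asIdeal) - 1) := by
  classical
  let Φ : B →+ (∀ M : MaximalSpectrum B, B ⧸ M.asIdeal) :=
    (RingHom.pi fun M : MaximalSpectrum B => Ideal.Quotient.mk M.asIdeal).toAddMonoidHom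
  have hΦ : Function.Surjective Φ := pi_surj
  have hΦa : ∀ b M, Φ b M = Ideal.Quotient.mk M.asIdeal b := fun _ _ => rfl
  have h1 : Nat.card Bˣ = Nat.card Φ.ker *
      Nat.card {t : ∀ M : MaximalSpectrum B, B ⧸ M.asIdeal // ∀ M, t M ≠ 0} := by
    rw [← card_preimage Φ hΦ]
    refine Nat.card_congr ⟨fun u => ⟨u, ?_⟩, fun b => IsUnit.unit (a := b.1) ?_, ?_, ?_⟩
    · intro M h0
      rw [hΦa, Ideal.Quotient.eq_zero_iff_mem] at h0
      exact M.isMaximal.ne_top (Ideal.eq_top_of_isUnit_mem _ h0 u.isUnit)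
    · by_contra hnu
      obtain ⟨M, hM, hb⟩ := exists_max_ideal_of_mem_nonunits hnu
      exact b.2 ⟨M, hM⟩ (Ideal.Quotient.eq_zero_iff_mem.mpr hb)
    · intro u; exact Units.ext rfl
    · rintro ⟨b, hb⟩; rfl
  have h2 : Nat.card B = Nat.card Φ.ker * ∏ M : MaximalSpectrum B, Nat.card (B ⧸ M.asIdeal) := by
    have h3 := card_preimage Φ hΦ (fun _ => True)
    rw [Nat.card_congr (Equiv.subtypeUnivEquiv fun _ => trivial),
      Nat.card_congr (Equiv.subtypeUnivEquiv fun _ => trivial), Nat.card_pi] at h3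
    exact h3
  have h4 : Nat.card {t : ∀ M : MaximalSpectrum B, B ⧸ M.asIdeal // ∀ M, t M ≠ 0} =
      ∏ M : MaximalSpectrum B, (Nat.card (B ⧸ M.asIdeal) - 1) := by
    rw [Nat.card_congr (Equiv.subtypePiEquivPi (p := fun {M : MaximalSpectrum B}
      (x : B ⧸ M.asIdeal) => x ≠ 0)), Nat.card_pi]
    refine Finset.prod_congr rfl fun M _ => ?_
    have := finite_quotient M.asIdeal
    have := Fintype.ofFinite (B ⧸ M.asIdeal)
    rw [Nat.card_eq_fintype_card, Nat.card_eq_fintype_card, Fintype.card_subtype_compl]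
    simp only [Fintype.card_unique]
  rw [h1, h4]
  conv_rhs => rw [h2]
  ring

theorem units_ge {B : Type*} [CommRing B] [Finite B] {p n : ℕ} (hp : p.Prime)
    (h1 : ∀ M : Ideal B, M.IsMaximal → (p : B) ∈ M)
    (h2 : Nat.card (B ⧸ Ideal.span {(p : B)}) ≤ p ^ n) :
    (p - 1) ^ n * Nat.card B ≤ p ^ n * Nat.card Bˣ := by
  classical
  have hfin : Finite (MaximalSpectrum B) := by
    refine Finite.of_injective (fun M : MaximalSpectrum B => M.asIdeal) ?_
    intro M M' h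
    exact MaximalSpectrum.ext h
  have := Fintype.ofFinite (MaximalSpectrum B)
  have hp1 : 1 ≤ p := hp.one_lt.le
  have hq : ∀ I : Ideal B, Finite (B ⧸ I) := finite_quotient
  -- residue fields
  have h3 : ∀ M : MaximalSpectrum B, p ≤ Nat.card (B ⧸ M.asIdeal) := by
    intro M
    have hM := M.isMaximal
    have hdom : IsDomain (B ⧸ M.asIdeal) := Ideal.Quotient.isDomain _
    have h4 : addOrderOf (1 : B ⧸ M.asIdeal) = p := by
      refine addOrderOf_eq_prime ?_ one_ne_zero (hp := ⟨hp⟩)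
      rw [nsmul_eq_mul, mul_one, ← map_natCast (Ideal.Quotient.mk M.asIdeal),
        Ideal.Quotient.eq_zero_iff_mem]
      exact h1 _ hM
    have h5 := addOrderOf_dvd_natCard (1 : B ⧸ M.asIdeal)
    rw [h4] at h5
    exact Nat.le_of_dvd Nat.card_pos h5
  -- their number
  have h4 : ∏ M : MaximalSpectrum B, Nat.card (B ⧸ M.asIdeal) ≤ p ^ n := by
    refine le_trans ?_ h2
    rw [← Nat.card_pi]
    refine Nat.card_le_card_of_surjective (Ideal.Quotient.lift (Ideal.span {(p : B)})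
      (RingHom.pi fun M : MaximalSpectrum B => Ideal.Quotient.mk M.asIdeal) ?_) ?_
    · intro a ha
      obtain ⟨c, rfl⟩ := Ideal.mem_span_singleton'.mp ha
      funext M
      change Ideal.Quotient.mk M.asIdeal (c * p) = 0
      rw [Ideal.Quotient.eq_zero_iff_mem]
      exact M.asIdeal.mul_mem_left _ (h1 _ M.isMaximal)
    · intro t
      obtain ⟨b, hb⟩ := pi_surj t
      exact ⟨Ideal.Quotient.mk _ b, by rw [Ideal.Quotient.lift_mk]; exact hb⟩
  have h5 : Fintype.card (MaximalSpectrum B) ≤ n := by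
    have h6 : p ^ Fintype.card (MaximalSpectrum B) ≤ p ^ n := by
      refine le_trans ?_ h4
      rw [← Finset.card_univ, ← Finset.prod_const]
      exact Finset.prod_le_prod' fun M _ => h3 M
    exact (Nat.pow_le_pow_iff_right hp.one_lt).mp h6
  -- conclusion
  have h6 := card_units (B := B)
  set t := Fintype.card (MaximalSpectrum B) with ht
  have h7 : (p - 1) ^ t * ∏ M : MaximalSpectrum B, Nat.card (B ⧸ M.asIdeal) ≤
      p ^ t * ∏ M : MaximalSpectrum B, (Nat.card (B ⧸ M.asIdeal) - 1) := by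
    rw [ht, ← Finset.card_univ, ← Finset.prod_const, ← Finset.prod_const,
      ← Finset.prod_mul_distrib, ← Finset.prod_mul_distrib]
    refine Finset.prod_le_prod' fun M _ => ?_
    obtain ⟨a, ha⟩ := Nat.exists_eq_add_of_le (h3 M)
    obtain ⟨p', hp'⟩ := Nat.exists_eq_add_of_le hp1
    rw [ha, hp']
    have e1 : 1 + p' - 1 = p' := by omega
    have e2 : 1 + p' + a - 1 = p' + a := by (clear * - hp1 ha hp' e1; omega)
    rw [e1, e2]
    nlinarith only []
  have hprod : 0 < ∏ M : MaximalSpectrum B, Nat.card (B ⧸ M.asIdeal) :=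
    Finset.prod_pos fun M _ => Nat.card_pos
  have h8 : (p - 1) ^ t * Nat.card B ≤ p ^ t * Nat.card Bˣ := by
    refine Nat.le_of_mul_le_mul_right ?_ hprod
    calc (p - 1) ^ t * Nat.card B * ∏ M : MaximalSpectrum B, Nat.card (B ⧸ M.asIdeal)
        = Nat.card B * ((p - 1) ^ t * ∏ M : MaximalSpectrum B, Nat.card (B ⧸ M.asIdeal)) := by ring
      _ ≤ Nat.card B * (p ^ t * ∏ M : MaximalSpectrum B, (Nat.card (B ⧸ M.asIdeal) - 1)) :=
          Nat.mul_le_mul_left _ h7
      _ = p ^ t * (Nat.card B * ∏ M : MaximalSpectrum B, (Nat.card (B ⧸ M.asIdeal) - 1)) := by ring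
      _ = p ^ t * (Nat.card Bˣ * ∏ M : MaximalSpectrum B, Nat.card (B ⧸ M.asIdeal)) := by rw [h6]
      _ = _ := by ring
  obtain ⟨s, hs⟩ := Nat.exists_eq_add_of_le h5
  rw [hs, pow_add, pow_add]
  calc (p - 1) ^ t * (p - 1) ^ s * Nat.card B = (p - 1) ^ s * ((p - 1) ^ t * Nat.card B) := by ring
    _ ≤ p ^ s * (p ^ t * Nat.card Bˣ) := by
        refine Nat.mul_le_mul ?_ h8
        exact Nat.pow_le_pow_left (Nat.sub_le _ _) _
    _ = _ := by ring

end Vale.Agent.P007.Fib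
end

section

/-!
Local counts, part 2: generators of invertible ideals modulo `p^M`.
-/

set_option autoImplicit false

open Module
open scoped nonZeroDivisors

namespace Vale.Agent.P007.N.Loc

variable {R : Type*} [CommRing R]

theorem comm_functional {J : Ideal R} (V : J →ₗ[R] R) (x y : J) : (x : R) * V y = (y : R) * V x := by
  rw [← smul_eq_mul, ← smul_eq_mul, ← map_smul, ← map_smul]
  congr 1
  apply Subtype.ext
  change (x : R) * y = y * x
  exact mul_comm _ _

/-- an invertible ideal has a functional which is not zero modulo a given maximal ideal -/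
theorem exists_functional_max [IsDomain R] {K : Type*} [Field K] [Algebra R K]
    [IsFractionRing R K] (J : Ideal R) (hJ : IsUnit (J : FractionalIdeal R⁰ K)) (M : Ideal R)
    (hM : M ≠ ⊤) : ∃ V : J →ₗ[R] R, ∃ x : J, V x ∉ M := by
  set J' : FractionalIdeal R⁰ K := ((hJ.unit⁻¹ : (FractionalIdeal R⁰ K)ˣ) : FractionalIdeal R⁰ K)
    with hJ'
  have hmul : (J : FractionalIdeal R⁰ K) * J' = 1 := by
    have h3 : (hJ.unit : FractionalIdeal R⁰ K) * ((hJ.unit⁻¹ : (FractionalIdeal R⁰ K)ˣ) :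
        FractionalIdeal R⁰ K) = 1 := by
      rw [← Units.val_mul, mul_inv_cancel, Units.val_one]
    exact h3
  have hinj : Function.Injective (algebraMap R K) := IsFractionRing.injective R K
  -- functionals from elements of the inverse
  have hV : ∀ v ∈ J', ∃ V : J →ₗ[R] R, ∀ x : J, algebraMap R K (V x) = algebraMap R K x * v := by
    intro v hv
    have h1 : ∀ x : J, ∃ s : R, algebraMap R K s = algebraMap R K x * v := by
      intro x
      have h2 : algebraMap R K x * v ∈ (1 : FractionalIdeal R⁰ K) := by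
        rw [← hmul]
        exact FractionalIdeal.mul_mem_mul ((FractionalIdeal.mem_coeIdeal _).mpr ⟨x, x.2, rfl⟩) hv
      exact (FractionalIdeal.mem_one_iff _).mp h2
    choose F hF using h1
    refine ⟨{ toFun := F, map_add' := ?_, map_smul' := ?_ }, hF⟩
    · intro x y
      apply hinj
      rw [map_add, hF, hF, hF, Submodule.coe_add, map_add, add_mul]
    · intro r x
      apply hinj
      rw [RingHom.id_apply, smul_eq_mul, map_mul, hF, hF, Submodule.coe_smul, smul_eq_mul, map_mul,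
        mul_assoc]
  by_contra! hcon
  apply hM
  rw [Ideal.eq_top_iff_one]
  have h1 : (1 : K) ∈ (J : FractionalIdeal R⁰ K) * J' := by
    rw [hmul]
    exact FractionalIdeal.one_mem_one R⁰
  have h2 : ∀ z ∈ (J : FractionalIdeal R⁰ K) * J', ∃ s ∈ M, algebraMap R K s = z := by
    intro z hz
    refine FractionalIdeal.mul_induction_on hz ?_ ?_
    · intro a ha b hb
      obtain ⟨x, hx, rfl⟩ := (FractionalIdeal.mem_coeIdeal _).mp ha
      obtain ⟨V, hV'⟩ := hV b hb
      exact ⟨V ⟨x, hx⟩, hcon V _, hV' ⟨x, hx⟩⟩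
    · rintro _ _ ⟨s, hs, rfl⟩ ⟨t, ht, rfl⟩
      exact ⟨s + t, M.add_mem hs ht, map_add _ _ _⟩
  obtain ⟨s, hs, hs1⟩ := h2 1 h1
  have h3 : s = 1 := hinj (by rw [hs1, map_one])
  rwa [← h3]

/-- local principality, in terms of functionals -/
theorem exists_functional [IsDomain R] {K : Type*} [Field K] [Algebra R K] [IsFractionRing R K]
    (J : Ideal R) (hJ : IsUnit (J : FractionalIdeal R⁰ K)) {p : ℕ}
    (hfin : {M : Ideal R | M.IsMaximal ∧ (p : R) ∈ M}.Finite) :
    ∃ V : J →ₗ[R] R, ∃ x : J, ∃ r : R, V x = 1 + p * r := by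
  classical
  set s := hfin.toFinset with hs
  have hmax : ∀ M ∈ s, M.IsMaximal := fun M hM => (hfin.mem_toFinset.mp hM).1
  have coprime : ∀ M ∈ s, ∀ M' ∈ s.erase M, M ⊔ M' = ⊤ := by
    intro M hM M' hM'
    rw [Finset.mem_erase] at hM'
    exact Ideal.IsMaximal.coprime_of_ne (hmax M hM) (hmax M' hM'.2) hM'.1.symm
  have nle : ∀ M ∈ s, ¬⨅ M' ∈ s.erase M, M' ≤ M := fun M hM =>
    left_lt_sup.1
      ((hmax M hM).lt_top.trans_eq (Ideal.sup_iInf_eq_top <| coprime M hM).symm)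
  have hu : ∀ M ∈ s, ∃ u : R, u ∉ M ∧ ∀ M' ∈ s, M' ≠ M → u ∈ M' := by
    intro M hM
    obtain ⟨u, hu, huM⟩ := SetLike.not_le_iff_exists.mp (nle M hM)
    refine ⟨u, huM, fun M' hM' hne => ?_⟩
    simp only [Ideal.mem_iInf] at hu
    exact hu M' (Finset.mem_erase.mpr ⟨hne, hM'⟩)
  choose! u hu1 hu2 using hu
  have hV : ∀ M ∈ s, ∃ V : J →ₗ[R] R, ∃ x : J, V x ∉ M := fun M hM =>
    exists_functional_max J hJ M (hmax M hM).ne_top
  choose! V x hVx using hV
  set W : J →ₗ[R] R := ∑ M ∈ s, u M • V M with hW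
  have hWx : ∀ M ∈ s, W (x M) ∉ M := by
    intro M hM h
    have h1 : W (x M) = u M * V M (x M) + ∑ M' ∈ s.erase M, u M' * V M' (x M) := by
      rw [hW, LinearMap.sum_apply, ← Finset.add_sum_erase s _ hM]
      rfl
    have h2 : ∑ M' ∈ s.erase M, u M' * V M' (x M) ∈ M := by
      refine Ideal.sum_mem _ fun M' hM' => ?_
      rw [Finset.mem_erase] at hM'
      exact M.mul_mem_right _ (hu2 M' hM'.2 M hM hM'.1.symm)
    have h3 : u M * V M (x M) ∈ M := by
      have h4 : u M * V M (x M) = W (x M) - ∑ M' ∈ s.erase M, u M' * V M' (x M) := by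
        rw [h1]; ring
      rw [h4]
      exact M.sub_mem h h2
    rcases (hmax M hM).isPrime.mem_or_mem h3 with h5 | h5
    · exact hu1 M hM h5
    · exact hVx M hM h5
  have htop : LinearMap.range W ⊔ Ideal.span {(p : R)} = ⊤ := by
    by_contra hne
    obtain ⟨M, hM, hle⟩ := Ideal.exists_le_maximal _ hne
    have hpM : (p : R) ∈ M := hle (Ideal.mem_sup_right (Ideal.mem_span_singleton_self _))
    have hMs : M ∈ s := hfin.mem_toFinset.mpr ⟨hM, hpM⟩
    exact hWx M hMs (hle (Ideal.mem_sup_left (LinearMap.mem_range_self _ _)))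
  have h1 : (1 : R) ∈ LinearMap.range W ⊔ Ideal.span {(p : R)} := by
    rw [htop]; exact Submodule.mem_top
  obtain ⟨a, ⟨y, rfl⟩, b, hb, hab⟩ := Submodule.mem_sup.mp h1
  obtain ⟨r, rfl⟩ := Ideal.mem_span_singleton'.mp hb
  exact ⟨W, y, -r, by rw [← hab]; ring⟩

section count

variable {p : ℕ} {J : Ideal R} (V : J →ₗ[R] R)

/-- `J = xR + p^i J` -/
theorem gen_pow {x : J} {w s : R} (h : w * V x = 1 + p * s) (i : ℕ) :
    ∀ y : J, ∃ a : R, ∃ y' : J, (y : R) = a * x + p ^ i * y' := by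
  induction i with
  | zero =>
    intro y
    exact ⟨0, y, by ring⟩
  | succ i ih =>
    intro y
    obtain ⟨a, y', hy⟩ := ih y
    have h1 := comm_functional V y' x
    refine ⟨a + p ^ i * (w * V y'), ⟨-(s * y'), J.neg_mem (J.mul_mem_left _ y'.2)⟩, ?_⟩
    rw [hy]
    push_cast
    have h2 : (y' : R) = w * V y' * x - p * s * y' := by
      have h3 : (y' : R) * (w * V x) = w * (x * V y') := by rw [← h1]; ring
      rw [h] at h3
      linear_combination h3
    linear_combination (p : R) ^ i * h2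

/-- The number of generators of `J` modulo `p^M`. -/
theorem card_gen (hp : p.Prime) {k M n : ℕ} (hkM : k < M)
    (hcard : ∀ m : ℕ, m ≠ 0 → Nat.card (R ⧸ Ideal.span {(m : R)}) = m ^ n)
    (hJ : Nat.card (R ⧸ J) = p ^ k) {x₀ : J} {r : R} (hx₀ : V x₀ = 1 + p * r) :
    (p ^ M) ^ n * Nat.card (R ⧸ Ideal.span {(p : R)})ˣ ≤
      Nat.card {z : R ⧸ Ideal.span {((p ^ M : ℕ) : R)} // Ideal.span {z} =
        J.map (Ideal.Quotient.mk (Ideal.span {((p ^ M : ℕ) : R)}))} * p ^ n * p ^ k := by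
  classical
  set H : Ideal R := Ideal.span {((p ^ M : ℕ) : R)} with hH
  have hpk : ((p ^ k : ℕ) : R) ∈ J := by
    have h1 := AddSubgroup.nsmul_index_mem J.toAddSubgroup (1 : R)
    have h2 : J.toAddSubgroup.index = p ^ k := hJ
    rw [h2, nsmul_eq_mul, mul_one] at h1
    exact h1
  have hHJ : H ≤ J := by
    rw [hH, Ideal.span_singleton_le_iff_mem]
    have h1 : p ^ M = p ^ (M - k) * p ^ k := by
      rw [← pow_add]; congr 1; omega
    rw [h1, Nat.cast_mul]
    exact J.mul_mem_left _ hpk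
  have hVH : ∀ y : J, (y : R) ∈ H → V y ∈ Ideal.span {(p : R)} := by
    intro y hy
    obtain ⟨c, hc⟩ := Ideal.mem_span_singleton'.mp hy
    have h1 : p ^ M = p * (p ^ (M - 1 - k) * p ^ k) := by
      rw [← pow_add, ← pow_succ']; congr 1; omega
    have h2 : c * (((p ^ (M - 1 - k) : ℕ) : R) * ((p ^ k : ℕ) : R)) ∈ J :=
      J.mul_mem_left _ (J.mul_mem_left _ hpk)
    have h3 : y = (p : R) • (⟨_, h2⟩ : J) := by
      apply Subtype.ext
      rw [← hc, h1]
      change _ = (p : R) * (c * (((p ^ (M - 1 - k) : ℕ) : R) * ((p ^ k : ℕ) : R)))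
      push_cast
      ring
    rw [h3, map_smul, smul_eq_mul]
    exact Ideal.mul_mem_right _ _ (Ideal.mem_span_singleton_self _)
  -- the finite group `J / p^M R`
  let Ja : AddSubgroup R := J.toAddSubgroup
  let Ha : AddSubgroup R := H.toAddSubgroup
  let N : AddSubgroup Ja := Ha.addSubgroupOf Ja
  let V₀ : Ja →+ R ⧸ Ideal.span {(p : R)} :=
    ((Ideal.Quotient.mk (Ideal.span {(p : R)})).toAddMonoidHom).comp V.toAddMonoidHom
  have hV₀ : ∀ y : J, V₀ y = Ideal.Quotient.mk (Ideal.span {(p : R)}) (V y) := fun _ => rfl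
  let f : Ja ⧸ N →+ R ⧸ Ideal.span {(p : R)} := QuotientAddGroup.lift N V₀ (by
    intro y hy
    have h1 : (y : R) ∈ H := AddSubgroup.mem_addSubgroupOf.mp hy
    have h2 := hVH y h1
    change Ideal.Quotient.mk (Ideal.span {(p : R)}) (V y) = 0
    rw [Ideal.Quotient.eq_zero_iff_mem]
    exact h2)
  have hf : ∀ y : J, f (QuotientAddGroup.mk (s := N) y) =
      Ideal.Quotient.mk (Ideal.span {(p : R)}) (V y) := fun _ => rfl
  have hfs : Function.Surjective f := by
    intro c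
    obtain ⟨c, rfl⟩ := Ideal.Quotient.mk_surjective c
    refine ⟨QuotientAddGroup.mk (s := N) (c • x₀ : J), ?_⟩
    rw [hf, map_smul, smul_eq_mul, hx₀, Ideal.Quotient.eq, Ideal.mem_span_singleton']
    exact ⟨c * r, by ring⟩
  have hc1 : Nat.card (Ja ⧸ N) * p ^ k = (p ^ M) ^ n := by
    have h1 := AddSubgroup.relIndex_mul_index (H := Ha) (K := Ja) hHJ
    have h2 : Ha.relIndex Ja = Nat.card (Ja ⧸ N) := rfl
    have h3 : Ja.index = p ^ k := hJ
    have h4 : Ha.index = (p ^ M) ^ n := hcard (p ^ M) (pow_ne_zero _ hp.ne_zero)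
    rw [h2, h3, h4] at h1
    exact h1
  have hc2 : Nat.card (Ja ⧸ N) = Nat.card f.ker * p ^ n := by
    have h3 := Fib.card_preimage f hfs (fun _ => True)
    rw [Nat.card_congr (Equiv.subtypeUnivEquiv fun _ => trivial),
      Nat.card_congr (Equiv.subtypeUnivEquiv fun _ => trivial), hcard p hp.ne_zero] at h3
    exact h3
  have hc3 : Nat.card {g : Ja ⧸ N // IsUnit (f g)} =
      Nat.card f.ker * Nat.card (R ⧸ Ideal.span {(p : R)})ˣ := by
    rw [Fib.card_preimage f hfs (fun c => IsUnit c)]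
    congr 1
    exact Nat.card_congr ⟨fun c => c.2.unit, fun u => ⟨u, u.isUnit⟩, fun c => rfl,
      fun u => Units.ext rfl⟩
  -- the injection
  have hAfin : Finite (R ⧸ H) := by
    refine Nat.finite_of_card_ne_zero ?_
    rw [hH, hcard _ (pow_ne_zero _ hp.ne_zero)]
    exact pow_ne_zero _ (pow_ne_zero _ hp.ne_zero)
  let ι : Ja ⧸ N →+ R ⧸ H := QuotientAddGroup.lift N
    ((Ideal.Quotient.mk H).toAddMonoidHom.comp Ja.subtype) (by
      intro y hy
      have h1 : (y : R) ∈ H := AddSubgroup.mem_addSubgroupOf.mp hy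
      exact Ideal.Quotient.eq_zero_iff_mem.mpr h1)
  have hι : ∀ y : J, ι (QuotientAddGroup.mk (s := N) y) = Ideal.Quotient.mk H (y : R) := fun _ => rfl
  have hιi : Function.Injective ι := by
    rw [injective_iff_map_eq_zero]
    intro g hg
    obtain ⟨y, rfl⟩ := QuotientAddGroup.mk_surjective g
    rw [QuotientAddGroup.eq_zero_iff, AddSubgroup.mem_addSubgroupOf]
    exact Ideal.Quotient.eq_zero_iff_mem.mp hg
  have hgen : ∀ g : Ja ⧸ N, IsUnit (f g) → Ideal.span {ι g} = J.map (Ideal.Quotient.mk H) := by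
    intro g hg
    obtain ⟨y, rfl⟩ := QuotientAddGroup.mk_surjective g
    change IsUnit (Ideal.Quotient.mk (Ideal.span {(p : R)}) (V y)) at hg
    change Ideal.span {Ideal.Quotient.mk H (y : R)} = _
    obtain ⟨w, hw⟩ := hg.exists_left_inv
    obtain ⟨w, rfl⟩ := Ideal.Quotient.mk_surjective w
    rw [← map_mul, ← map_one (Ideal.Quotient.mk (Ideal.span {(p : R)})), Ideal.Quotient.eq,
      Ideal.mem_span_singleton'] at hw
    obtain ⟨s, hs⟩ := hw
    have hws : w * V y = 1 + p * s := by rw [mul_comm (p : R), hs]; ring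
    refine le_antisymm ?_ ?_
    · rw [Ideal.span_singleton_le_iff_mem]
      exact Ideal.mem_map_of_mem _ y.2
    · rw [Ideal.map_le_iff_le_comap]
      intro z hz
      obtain ⟨a, z', hzz⟩ := gen_pow V hws M ⟨z, hz⟩
      rw [Ideal.mem_comap, Ideal.mem_span_singleton']
      refine ⟨Ideal.Quotient.mk H a, ?_⟩
      rw [← map_mul, Ideal.Quotient.eq, hH, Ideal.mem_span_singleton']
      refine ⟨-z', ?_⟩
      change z = a * y + p ^ M * z' at hzz
      rw [hzz]
      push_cast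
      ring
  have hc4 : Nat.card {g : Ja ⧸ N // IsUnit (f g)} ≤ Nat.card {z : R ⧸ H // Ideal.span {z} =
      J.map (Ideal.Quotient.mk H)} := by
    refine Nat.card_le_card_of_injective (fun g => ⟨ι g.1, hgen g.1 g.2⟩) ?_
    intro g g' h
    exact Subtype.ext (hιi (congrArg Subtype.val h))
  rw [hc3] at hc4
  calc (p ^ M) ^ n * Nat.card (R ⧸ Ideal.span {(p : R)})ˣ
      = Nat.card f.ker * p ^ n * p ^ k * Nat.card (R ⧸ Ideal.span {(p : R)})ˣ := by
        rw [← hc1, hc2]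
    _ = (Nat.card f.ker * Nat.card (R ⧸ Ideal.span {(p : R)})ˣ) * p ^ n * p ^ k := by ring
    _ ≤ _ := by (clear * - hc4; gcongr)

end count

/-- ideals with distinct generators -/
theorem sum_card_gen_le {ι : Type*} [Fintype ι] (J : ι → Ideal R) (hJ : Function.Injective J)
    {q : ℕ} (hfin : Finite (R ⧸ Ideal.span {(q : R)})) (hq : ∀ i, (q : R) ∈ J i)
    (P : R ⧸ Ideal.span {(q : R)} → Prop)
    (hP : ∀ i, ∀ z, Ideal.span {z} = (J i).map (Ideal.Quotient.mk (Ideal.span {(q : R)})) → P z) :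
    ∑ i, Nat.card {z : R ⧸ Ideal.span {(q : R)} // Ideal.span {z} =
      (J i).map (Ideal.Quotient.mk (Ideal.span {(q : R)}))} ≤ Nat.card {z // P z} := by
  rw [← Nat.card_sigma]
  refine Nat.card_le_card_of_injective (fun x => ⟨x.2.1, hP x.1 x.2.1 x.2.2⟩) ?_
  rintro ⟨i, z, hz⟩ ⟨i', z', hz'⟩ h
  have h1 : z = z' := congrArg Subtype.val h
  subst h1
  have h2 : i = i' := by
    apply hJ
    have h3 := congrArg (Ideal.comap (Ideal.Quotient.mk (Ideal.span {(q : R)}))) (hz.symm.trans hz')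
    rw [Ideal.comap_map_of_surjective _ Ideal.Quotient.mk_surjective,
      Ideal.comap_map_of_surjective _ Ideal.Quotient.mk_surjective, ← RingHom.ker_eq_comap_bot,
      Ideal.mk_ker, sup_eq_left.mpr ((Ideal.span_singleton_le_iff_mem _).mpr (hq i)),
      sup_eq_left.mpr ((Ideal.span_singleton_le_iff_mem _).mpr (hq i'))] at h3
    exact h3
  subst h2
  rfl

end Vale.Agent.P007.N.Loc
end

section

/-!
Local counts, part 3: `rO` satisfies the Hall–Tenenbaum hypotheses.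
-/

set_option autoImplicit false

open MeasureTheory Matrix NumberField Filter Topology Module
open scoped ENNReal nonZeroDivisors

namespace Vale.Agent.P007.N

open Vale.Agent.P007 Vale.Agent.P007.R

variable {n : ℕ}

theorem rO_zero (D : Datum n) : rO D 0 = 0 := rO_zero' D

namespace Loc

theorem finrank_O (D : Datum n) : finrank ℤ D.O = n := by
  have h1 : finrank ℤ (𝓞 D.K) = n := by rw [RingOfIntegers.rank, D.deg]
  have h2 : D.O.toAddSubgroup.FiniteIndex := D.full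
  exact (AddSubgroup.finrank_eq_of_finiteIndex D.O.toAddSubgroup).trans h1

theorem card_O (D : Datum n) (m : ℕ) (hm : m ≠ 0) :
    Nat.card (D.O ⧸ Ideal.span {(m : D.O)}) = m ^ n := by
  rw [card_nat hm, finrank_O]

theorem finite_O (D : Datum n) {m : ℕ} (hm : m ≠ 0) : Finite (D.O ⧸ Ideal.span {(m : D.O)}) :=
  Nat.finite_of_card_ne_zero (by rw [card_O D m hm]; exact pow_ne_zero _ hm)

/-- invertible ideals of index `m` -/
abbrev JT (D : Datum n) (m : ℕ) : Type :=
  {J : Ideal D.O // IsUnit (J : FractionalIdeal D.O⁰ D.K) ∧ Nat.card (D.O ⧸ J) = m}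

theorem finite_JT (D : Datum n) (m : ℕ) : Finite (JT D m) := by
  have := finite_JJ D m
  refine Finite.of_injective (fun J : JT D m =>
    (⟨⟨J.1, J.2.1⟩, J.2.2⟩ : {J : JJ D // Nat.card (D.O ⧸ J.1) = m})) ?_
  intro J J' h
  have h1 := congrArg (fun x => x.1.1) h
  exact Subtype.ext h1

theorem rO_def (D : Datum n) (m : ℕ) : rO D m = Nat.card (JT D m) := rfl

theorem mem_of_card {R : Type*} [CommRing R] {J : Ideal R} {m : ℕ} (h : Nat.card (R ⧸ J) = m) :
    (m : R) ∈ J := by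
  have h1 := AddSubgroup.nsmul_index_mem J.toAddSubgroup (1 : R)
  have h2 : J.toAddSubgroup.index = m := h
  rw [h2, nsmul_eq_mul, mul_one] at h1
  exact h1

theorem up_card (D : Datum n) {p : ℕ} (hp : p.Prime) :
    (Nat.card (D.O ⧸ Ideal.span {(p : D.O)})ˣ : ℝ) = up D p * (p : ℝ) ^ n := by
  unfold up
  have : (p : ℝ) ^ n ≠ 0 := pow_ne_zero _ (by exact_mod_cast hp.ne_zero)
  rw [div_mul_cancel₀ _ this]

/-- number of generators of an invertible ideal of index `p^k` modulo `p^M`, `k < M` -/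
theorem gen_count (D : Datum n) {p : ℕ} (hp : p.Prime) {k M : ℕ} (hkM : k < M)
    (J : JT D (p ^ k)) : up D p * ((p : ℝ) ^ M) ^ n / (p : ℝ) ^ k ≤
      Nat.card {z : D.O ⧸ Ideal.span {((p ^ M : ℕ) : D.O)} // Ideal.span {z} =
        J.1.map (Ideal.Quotient.mk (Ideal.span {((p ^ M : ℕ) : D.O)}))} := by
  obtain ⟨V, x₀, r, hx₀⟩ := exists_functional (K := D.K) J.1 J.2.1
    (p := p) (Fib.finite_max hp.ne_zero)
  have h1 := card_gen V hp hkM (card_O D) J.2.2 hx₀
  have h2 : (((p ^ M) ^ n * Nat.card (D.O ⧸ Ideal.span {(p : D.O)})ˣ : ℕ) : ℝ) ≤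
      ((Nat.card {z : D.O ⧸ Ideal.span {((p ^ M : ℕ) : D.O)} // Ideal.span {z} =
        J.1.map (Ideal.Quotient.mk (Ideal.span {((p ^ M : ℕ) : D.O)}))} * p ^ n * p ^ k : ℕ) : ℝ) := by
    exact_mod_cast h1
  have hp0 : (0 : ℝ) < p := by exact_mod_cast hp.pos
  rw [div_le_iff₀ (by positivity)]
  rw [Nat.cast_mul, up_card D hp] at h2
  push_cast at h2 ⊢
  have hpn : (0 : ℝ) < (p : ℝ) ^ n := by positivity
  nlinarith only [h2, hpn]

theorem sum_inv_le (D : Datum n) {p : ℕ} (hp : p.Prime) (M : ℕ) :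
    (∑ k ∈ Finset.range M, (rO D (p ^ k) : ℝ) / (p : ℝ) ^ k) * up D p ≤ 1 := by
  classical
  have hp0 : (0 : ℝ) < p := by exact_mod_cast hp.pos
  have hq : p ^ M ≠ 0 := pow_ne_zero _ hp.ne_zero
  have hJf : ∀ m, Finite (JT D m) := finite_JT D
  have hJF : ∀ m, Fintype (JT D m) := fun m => Fintype.ofFinite _
  let ι : Type := Σ k : Fin M, JT D (p ^ (k : ℕ))
  let Jf : ι → Ideal D.O := fun x => x.2.1
  have hinj : Function.Injective Jf := by
    rintro ⟨k, J, hJ⟩ ⟨k', J', hJ'⟩ h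
    have h1 : J = J' := h
    subst h1
    have h2 : k = k' := by
      have h3 : p ^ (k : ℕ) = p ^ (k' : ℕ) := by rw [← hJ.2, ← hJ'.2]
      exact Fin.ext (Nat.pow_right_injective hp.two_le h3)
    subst h2
    rfl
  have hmem : ∀ x : ι, ((p ^ M : ℕ) : D.O) ∈ Jf x := by
    rintro ⟨k, J, hJ⟩
    have h1 := mem_of_card hJ.2
    have h2 : p ^ M = p ^ (M - k) * p ^ (k : ℕ) := by
      rw [← pow_add]; congr 1; omega
    change ((p ^ M : ℕ) : D.O) ∈ J
    rw [h2, Nat.cast_mul]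
    exact J.mul_mem_left _ h1
  have h1 := sum_card_gen_le Jf hinj (finite_O D hq) hmem (fun _ => True)
    (fun _ _ _ => trivial)
  rw [Nat.card_congr (Equiv.subtypeUnivEquiv fun _ => trivial), card_O D _ hq] at h1
  have h2 : (∑ x : ι, (Nat.card {z : D.O ⧸ Ideal.span {((p ^ M : ℕ) : D.O)} // Ideal.span {z} =
      (Jf x).map (Ideal.Quotient.mk (Ideal.span {((p ^ M : ℕ) : D.O)}))} : ℝ)) ≤
      ((p : ℝ) ^ M) ^ n := by
    exact_mod_cast h1
  have h3 : (∑ k ∈ Finset.range M, (rO D (p ^ k) : ℝ) / (p : ℝ) ^ k) * up D p *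
      ((p : ℝ) ^ M) ^ n ≤ ((p : ℝ) ^ M) ^ n := by
    refine le_trans ?_ h2
    rw [Fintype.sum_sigma, Finset.sum_mul, Finset.sum_mul, ← Fin.sum_univ_eq_sum_range
      (fun k => (rO D (p ^ k) : ℝ) / (p : ℝ) ^ k * up D p * ((p : ℝ) ^ M) ^ n)]
    refine Finset.sum_le_sum fun k _ => ?_
    have h4 : (rO D (p ^ (k : ℕ)) : ℝ) / (p : ℝ) ^ (k : ℕ) * up D p * ((p : ℝ) ^ M) ^ n =
        ∑ _J : JT D (p ^ (k : ℕ)), up D p * ((p : ℝ) ^ M) ^ n / (p : ℝ) ^ (k : ℕ) := by
      rw [Finset.sum_const, Finset.card_univ, ← Nat.card_eq_fintype_card, ← rO_def, nsmul_eq_mul]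
      ring
    rw [h4]
    exact Finset.sum_le_sum fun J _ => gen_count D hp k.2 J
  have h5 : (0 : ℝ) < ((p : ℝ) ^ M) ^ n := by positivity
  exact le_of_mul_le_mul_right (by rw [one_mul]; exact h3) h5

theorem pow_le (D : Datum n) {p : ℕ} (hp : p.Prime) {k e : ℕ} (hk : n * e + 1 ≤ k) :
    (rO D (p ^ k) : ℝ) * up D p * (p : ℝ) ^ (e + 1) ≤ n * (p : ℝ) ^ k := by
  classical
  have hp0 : (0 : ℝ) < p := by exact_mod_cast hp.pos
  have hn := D.pos
  have hek : e + 1 ≤ k := by nlinarith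
  set M := k + 1 with hM
  have hq : p ^ M ≠ 0 := pow_ne_zero _ hp.ne_zero
  have hJf : Finite (JT D (p ^ k)) := finite_JT D _
  have hJF : Fintype (JT D (p ^ k)) := Fintype.ofFinite _
  have h1 := sum_card_gen_le (fun J : JT D (p ^ k) => J.1) Subtype.val_injective (finite_O D hq)
    (fun J => by
      have h1 := mem_of_card J.2.2
      have h2 : p ^ M = p * p ^ k := by rw [hM, pow_succ']
      rw [h2, Nat.cast_mul]
      exact J.1.mul_mem_left _ h1)
    (fun z => ∀ x, Ideal.Quotient.mk _ x = z → (p : ℤ) ^ k ∣ Algebra.norm ℤ x) (by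
      intro J z hz x hx
      have hxJ : x ∈ J.1 := by
        have h2 : z ∈ J.1.map (Ideal.Quotient.mk (Ideal.span {((p ^ M : ℕ) : D.O)})) := by
          rw [← hz]; exact Ideal.mem_span_singleton_self _
        have h3 : x ∈ Ideal.comap (Ideal.Quotient.mk (Ideal.span {((p ^ M : ℕ) : D.O)}))
            (J.1.map (Ideal.Quotient.mk (Ideal.span {((p ^ M : ℕ) : D.O)}))) := by
          rw [Ideal.mem_comap, hx]; exact h2
        have hmem : ((p ^ M : ℕ) : D.O) ∈ J.1 := by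
          have h1 := mem_of_card J.2.2
          have h2 : p ^ M = p * p ^ k := by rw [hM, pow_succ']
          rw [h2, Nat.cast_mul]
          exact J.1.mul_mem_left _ h1
        rw [Ideal.comap_map_of_surjective _ Ideal.Quotient.mk_surjective,
          ← RingHom.ker_eq_comap_bot, Ideal.mk_ker,
          sup_eq_left.mpr ((Ideal.span_singleton_le_iff_mem _).mpr hmem)] at h3
        exact h3
      have h4 := dvd_norm hxJ
      rw [J.2.2] at h4
      exact_mod_cast h4)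
  have h2 := card_norm_dvd (R := D.O) hp (finrank_O D) hk (M := M) (by omega)
  have h3 : (rO D (p ^ k) : ℝ) * (up D p * ((p : ℝ) ^ M) ^ n / (p : ℝ) ^ k) ≤
      (Nat.card {z : D.O ⧸ Ideal.span {((p ^ M : ℕ) : D.O)} // ∀ x, Ideal.Quotient.mk _ x = z →
        (p : ℤ) ^ k ∣ Algebra.norm ℤ x} : ℝ) := by
    calc (rO D (p ^ k) : ℝ) * (up D p * ((p : ℝ) ^ M) ^ n / (p : ℝ) ^ k)
        = ∑ _J : JT D (p ^ k), up D p * ((p : ℝ) ^ M) ^ n / (p : ℝ) ^ k := by
          rw [Finset.sum_const, Finset.card_univ, ← Nat.card_eq_fintype_card, ← rO_def,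
            nsmul_eq_mul]
      _ ≤ ∑ J : JT D (p ^ k), (Nat.card {z : D.O ⧸ Ideal.span {((p ^ M : ℕ) : D.O)} //
          Ideal.span {z} =
            J.1.map (Ideal.Quotient.mk (Ideal.span {((p ^ M : ℕ) : D.O)}))} : ℝ) :=
          Finset.sum_le_sum fun J _ => gen_count D hp (by (clear * -; omega)) J
      _ ≤ _ := by exact_mod_cast h1
  have h4 : (Nat.card {z : D.O ⧸ Ideal.span {((p ^ M : ℕ) : D.O)} // ∀ x,
      Ideal.Quotient.mk _ x = z → (p : ℤ) ^ k ∣ Algebra.norm ℤ x} : ℝ) * (p : ℝ) ^ (e + 1) ≤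
      n * ((p : ℝ) ^ M) ^ n := by
    exact_mod_cast h2
  have h5 : (0 : ℝ) < ((p : ℝ) ^ M) ^ n := by positivity
  have h6 : (0 : ℝ) < (p : ℝ) ^ k := by positivity
  have h7 : (rO D (p ^ k) : ℝ) * (up D p * ((p : ℝ) ^ M) ^ n / (p : ℝ) ^ k) * (p : ℝ) ^ (e + 1) ≤
      n * ((p : ℝ) ^ M) ^ n :=
    (mul_le_mul_of_nonneg_right h3 (by positivity)).trans h4
  have h8 : (rO D (p ^ k) : ℝ) * (up D p * ((p : ℝ) ^ M) ^ n / (p : ℝ) ^ k) * (p : ℝ) ^ (e + 1) =
      ((rO D (p ^ k) : ℝ) * up D p * (p : ℝ) ^ (e + 1) / (p : ℝ) ^ k) * ((p : ℝ) ^ M) ^ n := by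
    (clear * - hp0; field_simp)
  rw [h8] at h7
  have h9 := le_of_mul_le_mul_right h7 h5
  rwa [div_le_iff₀ h6] at h9

theorem up_bounds (D : Datum n) {p : ℕ} (hp : p.Prime) : (1 / 2 : ℝ) ^ n ≤ up D p ∧ up D p ≤ 1 := by
  have hp0 : (0 : ℝ) < p := by exact_mod_cast hp.pos
  have hc := card_O D p hp.ne_zero
  have hfin : Finite (D.O ⧸ Ideal.span {(p : D.O)}) := finite_O D hp.ne_zero
  have hpn : (0 : ℝ) < (p : ℝ) ^ n := by positivity
  constructor
  · have hpz : ((p : ℕ) : D.O ⧸ Ideal.span {(p : D.O)}) = 0 := by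
      rw [← map_natCast (Ideal.Quotient.mk (Ideal.span {(p : D.O)})), Ideal.Quotient.eq_zero_iff_mem]
      exact Ideal.mem_span_singleton_self _
    have h1 := Fib.units_ge (B := D.O ⧸ Ideal.span {(p : D.O)}) (n := n) hp (by
      intro M _
      rw [hpz]
      exact M.zero_mem) (by
      rw [← hc]
      exact Nat.card_le_card_of_surjective _ Ideal.Quotient.mk_surjective)
    rw [hc] at h1
    have h2 : (p - 1) ^ n ≤ Nat.card (D.O ⧸ Ideal.span {(p : D.O)})ˣ := by
      refine Nat.le_of_mul_le_mul_left ?_ (pow_pos hp.pos n)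
      rw [mul_comm]
      exact h1
    have h3 : ((p : ℝ) / 2) ^ n ≤ (Nat.card (D.O ⧸ Ideal.span {(p : D.O)})ˣ : ℝ) := by
      have h4 : (((p - 1) ^ n : ℕ) : ℝ) ≤ (Nat.card (D.O ⧸ Ideal.span {(p : D.O)})ˣ : ℝ) := by
        exact_mod_cast h2
      refine le_trans ?_ h4
      rw [Nat.cast_pow, Nat.cast_sub hp.one_lt.le, Nat.cast_one]
      refine pow_le_pow_left₀ (by positivity) ?_ n
      have : (2 : ℝ) ≤ p := by exact_mod_cast hp.two_le
      linarith only [this]
    rw [up, le_div_iff₀ hpn, ← mul_pow]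
    calc (1 / 2 * (p : ℝ)) ^ n = ((p : ℝ) / 2) ^ n := by ring
      _ ≤ _ := h3
  · rw [up, div_le_one hpn]
    have h1 : Nat.card (D.O ⧸ Ideal.span {(p : D.O)})ˣ ≤ p ^ n := by
      rw [← hc]
      exact Nat.card_le_card_of_injective Units.val Units.val_injective
    exact_mod_cast h1

/-! ### submultiplicativity -/

theorem isCoprime_of {D : Datum n} {a b : ℕ} (h : a.Coprime b) {I J : Ideal D.O}
    (ha : (a : D.O) ∈ I) (hb : (b : D.O) ∈ J) : IsCoprime I J := by
  rw [Ideal.isCoprime_iff_exists]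
  have h1 : IsCoprime (a : ℤ) (b : ℤ) := Nat.isCoprime_iff_coprime.mpr h
  obtain ⟨u, v, huv⟩ := h1
  refine ⟨u * a, I.mul_mem_left _ ha, v * b, J.mul_mem_left _ hb, ?_⟩
  have h2 := congrArg (Int.cast : ℤ → D.O) huv
  push_cast at h2
  exact h2

theorem split (D : Datum n) {a b : ℕ} (h : a.Coprime b) {J : Ideal D.O}
    (hJ : Nat.card (D.O ⧸ J) = a * b) :
    (J ⊔ Ideal.span {(a : D.O)}) * (J ⊔ Ideal.span {(b : D.O)}) = J := by
  have hab := mem_of_card hJ
  refine le_antisymm ?_ ?_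
  · rw [Ideal.sup_mul, Ideal.mul_sup, Ideal.mul_sup]
    refine sup_le (sup_le Ideal.mul_le_left Ideal.mul_le_left) (sup_le Ideal.mul_le_right ?_)
    rw [Ideal.span_singleton_mul_span_singleton, Ideal.span_singleton_le_iff_mem]
    push_cast at hab
    exact hab
  · have hcop : IsCoprime (J ⊔ Ideal.span {(a : D.O)}) (J ⊔ Ideal.span {(b : D.O)}) :=
      isCoprime_of h (Ideal.mem_sup_right (Ideal.mem_span_singleton_self _))
        (Ideal.mem_sup_right (Ideal.mem_span_singleton_self _))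
    rw [Ideal.mul_eq_inf_of_isCoprime hcop]
    exact le_inf le_sup_left le_sup_left

theorem coprime_card {R : Type*} [CommRing R] {I : Ideal R} (hfin : Finite (R ⧸ I)) {a b : ℕ}
    (h : a.Coprime b) (ha : (a : R) ∈ I) : (Nat.card (R ⧸ I)).Coprime b := by
  refine Nat.Coprime.symm (Nat.coprime_of_dvd fun q hq hqb hqx => ?_)
  have := Fact.mk hq
  obtain ⟨x, hx⟩ := exists_prime_addOrderOf_dvd_card' q hqx
  have h1 : a • x = 0 := by
    obtain ⟨y, rfl⟩ := Ideal.Quotient.mk_surjective x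
    rw [nsmul_eq_mul, ← map_natCast (Ideal.Quotient.mk I), ← map_mul,
      Ideal.Quotient.eq_zero_iff_mem]
    exact I.mul_mem_right _ ha
  have h2 : q ∣ a := by
    rw [← hx]
    exact addOrderOf_dvd_of_nsmul_eq_zero h1
  exact Nat.not_coprime_of_dvd_of_dvd hq.one_lt h2 hqb h

theorem card_sup (D : Datum n) {a b : ℕ} (ha : a ≠ 0) (hb : b ≠ 0) (h : a.Coprime b)
    {J : Ideal D.O} (hJ : Nat.card (D.O ⧸ J) = a * b) :
    Nat.card (D.O ⧸ (J ⊔ Ideal.span {(a : D.O)})) = a ∧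
      Nat.card (D.O ⧸ (J ⊔ Ideal.span {(b : D.O)})) = b := by
  set I₁ := J ⊔ Ideal.span {(a : D.O)} with hI₁
  set I₂ := J ⊔ Ideal.span {(b : D.O)} with hI₂
  have ha1 : (a : D.O) ∈ I₁ := Ideal.mem_sup_right (Ideal.mem_span_singleton_self _)
  have hb1 : (b : D.O) ∈ I₂ := Ideal.mem_sup_right (Ideal.mem_span_singleton_self _)
  have hfinJ : Finite (D.O ⧸ J) := Nat.finite_of_card_ne_zero (by rw [hJ]; exact mul_ne_zero ha hb)
  have hfin1 : Finite (D.O ⧸ I₁) := by
    have := finite_O D ha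
    exact Finite.of_surjective (Ideal.Quotient.factor (Ideal.span_singleton_le_iff_mem _ |>.mpr ha1))
      (Ideal.Quotient.factor_surjective _)
  have hfin2 : Finite (D.O ⧸ I₂) := by
    have := finite_O D hb
    exact Finite.of_surjective (Ideal.Quotient.factor (Ideal.span_singleton_le_iff_mem _ |>.mpr hb1))
      (Ideal.Quotient.factor_surjective _)
  have hcop := isCoprime_of h ha1 hb1
  have h1 : Nat.card (D.O ⧸ I₁) * Nat.card (D.O ⧸ I₂) = a * b := by
    have h2 := Nat.card_congr (Ideal.quotientMulEquivQuotientProd I₁ I₂ hcop).toEquiv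
    rw [split D h hJ, hJ, Nat.card_prod] at h2
    exact h2.symm
  have h2 := coprime_card hfin1 h ha1
  have h3 := coprime_card hfin2 h.symm hb1
  have h4 : Nat.card (D.O ⧸ I₁) ∣ a := h2.dvd_of_dvd_mul_right (Dvd.intro _ h1)
  have h5 : Nat.card (D.O ⧸ I₂) ∣ b := h3.dvd_of_dvd_mul_left (Dvd.intro_left _ h1)
  have h6 := Nat.le_of_dvd (Nat.pos_of_ne_zero ha) h4
  have h7 := Nat.le_of_dvd (Nat.pos_of_ne_zero hb) h5
  constructor
  · by_contra hne
    have h8 : Nat.card (D.O ⧸ I₁) < a := lt_of_le_of_ne h6 hne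
    have h9 : Nat.card (D.O ⧸ I₁) * Nat.card (D.O ⧸ I₂) < a * b :=
      Nat.mul_lt_mul_of_lt_of_le h8 h7 (Nat.pos_of_ne_zero hb)
    omega
  · by_contra hne
    have h8 : Nat.card (D.O ⧸ I₂) < b := lt_of_le_of_ne h7 hne
    have h9 : Nat.card (D.O ⧸ I₁) * Nat.card (D.O ⧸ I₂) < a * b :=
      Nat.mul_lt_mul_of_le_of_lt h6 h8 (Nat.pos_of_ne_zero ha)
    omega

theorem rO_sub (D : Datum n) (a b : ℕ) (h : a.Coprime b) : rO D (a * b) ≤ rO D a * rO D b := by
  rcases Nat.eq_zero_or_pos a with rfl | ha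
  · rw [zero_mul, rO_zero]; exact Nat.zero_le _
  rcases Nat.eq_zero_or_pos b with rfl | hb
  · rw [mul_zero, rO_zero]; exact Nat.zero_le _
  have hfa := finite_JT D a
  have hfb := finite_JT D b
  rw [rO_def, rO_def, rO_def, ← Nat.card_prod]
  have hu : ∀ J : JT D (a * b),
      IsUnit ((J.1 ⊔ Ideal.span {(a : D.O)} : Ideal D.O) : FractionalIdeal D.O⁰ D.K) ∧
      IsUnit ((J.1 ⊔ Ideal.span {(b : D.O)} : Ideal D.O) : FractionalIdeal D.O⁰ D.K) := by
    intro J
    have h1 := J.2.1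
    rw [← split D h J.2.2, FractionalIdeal.coeIdeal_mul] at h1
    exact IsUnit.mul_iff.mp h1
  refine Nat.card_le_card_of_injective (fun J =>
    ((⟨J.1 ⊔ Ideal.span {(a : D.O)}, (hu J).1, (card_sup D ha.ne' hb.ne' h J.2.2).1⟩ : JT D a),
     (⟨J.1 ⊔ Ideal.span {(b : D.O)}, (hu J).2, (card_sup D ha.ne' hb.ne' h J.2.2).2⟩ : JT D b))) ?_
  intro J J' hJJ
  have h1 : J.1 ⊔ Ideal.span {(a : D.O)} = J'.1 ⊔ Ideal.span {(a : D.O)} :=
    congrArg (fun x => x.1.1) hJJ
  have h2 : J.1 ⊔ Ideal.span {(b : D.O)} = J'.1 ⊔ Ideal.span {(b : D.O)} :=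
    congrArg (fun x => x.2.1) hJJ
  apply Subtype.ext
  rw [← split D h J.2.2, ← split D h J'.2.2, h1, h2]

theorem rO_one (D : Datum n) : rO D 1 = 1 := by
  rw [rO_def, Nat.card_eq_one_iff_unique]
  constructor
  · constructor
    rintro ⟨J, hJ⟩ ⟨J', hJ'⟩
    apply Subtype.ext
    have key : ∀ I : Ideal D.O, Nat.card (D.O ⧸ I) = 1 → I = ⊤ := by
      intro I hI
      have h1 := mem_of_card hI
      rw [Ideal.eq_top_iff_one]
      simpa only [Nat.cast_one] using h1
    exact (key J hJ.2).trans (key J' hJ'.2).symm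
  · refine ⟨⊤, ?_, ?_⟩
    · rw [FractionalIdeal.coeIdeal_top]
      exact isUnit_one
    · have : Subsingleton (D.O ⧸ (⊤ : Ideal D.O)) := Ideal.Quotient.subsingleton_iff.mpr rfl
      exact Nat.card_of_subsingleton 0

end Loc

/-- packaged local counts: `rO` satisfies the Hall–Tenenbaum hypotheses -/
theorem rO_HT (n : ℕ) (hn : 0 < n) : ∃ B : ℝ, ∀ D : Datum n,
    HT n B (fun m => (rO D m : ℝ)) (fun p => (up D p)⁻¹) := by
  refine ⟨n * 2 ^ n, fun D => ?_⟩
  refine ⟨fun m => Nat.cast_nonneg _, ?_, ?_, ?_, ?_, ?_⟩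
  · simp only [Loc.rO_one, Nat.cast_one]
  · intro a b hab
    exact_mod_cast Loc.rO_sub D a b hab
  · intro p k hp hk
    obtain ⟨h1, -⟩ := Loc.up_bounds D hp
    have hp0 : (0 : ℝ) < p := by exact_mod_cast hp.pos
    have he : (k + n - 1) / n = (k - 1) / n + 1 := by
      have : k + n - 1 = k - 1 + n := by omega
      rw [this, Nat.add_div_right _ hn]
    have h2 : n * ((k - 1) / n) + 1 ≤ k := by
      have := Nat.mul_div_le (k - 1) n
      omega
    have h3 := Loc.pow_le D hp h2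
    rw [← he] at h3
    have h4 : (0 : ℝ) ≤ rO D (p ^ k) * (p : ℝ) ^ ((k + n - 1) / n) := by (clear * - hp0; positivity)
    have h5 : (1 / 2 : ℝ) ^ n * 2 ^ n = 1 := by rw [← mul_pow]; norm_num
    calc (rO D (p ^ k) : ℝ) * (p : ℝ) ^ ((k + n - 1) / n)
        = rO D (p ^ k) * (p : ℝ) ^ ((k + n - 1) / n) * ((1 / 2 : ℝ) ^ n) * 2 ^ n := by
          rw [mul_assoc, h5, mul_one]
      _ ≤ rO D (p ^ k) * (p : ℝ) ^ ((k + n - 1) / n) * up D p * 2 ^ n := by gcongr
      _ = (rO D (p ^ k) * up D p * (p : ℝ) ^ ((k + n - 1) / n)) * 2 ^ n := by ring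
      _ ≤ (n * (p : ℝ) ^ k) * 2 ^ n := by gcongr
      _ = n * 2 ^ n * (p : ℝ) ^ k := by ring
  · intro p hp
    obtain ⟨h1, h2⟩ := Loc.up_bounds D hp
    have h3 : 0 < up D p := lt_of_lt_of_le (by positivity) h1
    exact (one_le_inv₀ h3).mpr h2
  · intro p M hp
    obtain ⟨h1, h2⟩ := Loc.up_bounds D hp
    have h3 : 0 < up D p := lt_of_lt_of_le (by positivity) h1
    have h4 := Loc.sum_inv_le D hp M
    rw [← one_div, le_div_iff₀ h3]
    exact h4

end Vale.Agent.P007.N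
end
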