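import Vale.Agent.P007.Bdl.B2
import Vale.Agent.P007.Bdl.B3

section

/-!
# P007-Z4: Galois closures with bounded discriminant
-/

set_option autoImplicit false

open NumberField Polynomial
open scoped Pointwise

namespace Vale.Agent.P007.Z

/-- the Minkowski bound in terms of the discriminant -/
theorem zc_minkowski (K : Type) [Field K] [NumberField K] :
    mixedEmbedding.minkowskiBound K 1 ≤
      ((NNReal.sqrt ‖discr K‖₊ * 2 ^ Module.finrank ℚ K : NNReal) : ENNReal) := by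
  rw [mixedEmbedding.minkowskiBound, mixedEmbedding.volume_fundamentalDomain_fractionalIdealLatticeBasis,
    Units.val_one, FractionalIdeal.absNorm_one, Rat.cast_one,
    ENNReal.ofReal_one, one_mul, mixedEmbedding.finrank,
    mixedEmbedding.volume_fundamentalDomain_latticeBasis,
    ENNReal.coe_mul, ENNReal.coe_pow, ENNReal.coe_ofNat]
  gcongr
  calc (2⁻¹ : ENNReal) ^ InfinitePlace.nrComplexPlaces K * ↑(NNReal.sqrt ‖discr K‖₊)
      ≤ 1 * ↑(NNReal.sqrt ‖discr K‖₊) := by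
        gcongr
        exact pow_le_one₀ (by positivity) (by simp only [ENNReal.inv_le_one, Nat.one_le_ofNat])
    _ = ↑(NNReal.sqrt ‖discr K‖₊) := one_mul _

theorem zc_isReal {K : Type} [Field K] [NumberField K] [IsTotallyReal K] (φ : K →+* ℂ) (x : K) :
    starRingEnd ℂ (φ x) = φ x := by
  have h2 : ComplexEmbedding.IsReal φ := IsTotallyReal.complexEmbedding_isReal φ
  have h3 := congrArg (fun f : K →+* ℂ => f x) (ComplexEmbedding.isReal_iff.1 h2)
  exact h3

/-- a primitive integral element with small conjugates -/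
theorem zc_theta (K : Type) [Field K] [NumberField K] [IsTotallyReal K] :
    ∃ θ : 𝓞 K, IntermediateField.adjoin ℚ {(θ : K)} = ⊤ ∧
      ∀ φ : K →+* ℂ, ‖φ θ‖ ≤ Real.sqrt |(discr K : ℝ)| * 2 ^ Module.finrank ℚ K + 1 := by
  obtain ⟨w₀⟩ : Nonempty (InfinitePlace K) := inferInstance
  have hw₀ : w₀.IsReal := IsTotallyReal.isReal w₀
  set B₀ : NNReal := NNReal.sqrt ‖discr K‖₊ * 2 ^ Module.finrank ℚ K with hB₀
  have h1 : mixedEmbedding.minkowskiBound K 1 <
      ↑(mixedEmbedding.convexBodyLTFactor K) * ((B₀ + 1 : NNReal) : ENNReal) := by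
    calc mixedEmbedding.minkowskiBound K 1 ≤ ((B₀ : NNReal) : ENNReal) := zc_minkowski K
      _ < ((B₀ + 1 : NNReal) : ENNReal) := by
        rw [ENNReal.coe_lt_coe]
        exact lt_add_of_pos_right _ one_pos
      _ = 1 * ((B₀ + 1 : NNReal) : ENNReal) := (one_mul _).symm
      _ ≤ _ := by
        gcongr
        exact_mod_cast mixedEmbedding.one_le_convexBodyLTFactor K
  obtain ⟨θ, hθ, hw⟩ := mixedEmbedding.exists_primitive_element_lt_of_isReal K hw₀ h1
  refine ⟨θ, hθ, fun φ => ?_⟩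
  have h2 := (hw (InfinitePlace.mk φ)).le
  have h3 : (1 : NNReal) ≤ B₀ + 1 := le_add_of_nonneg_left bot_le
  rw [InfinitePlace.apply, max_eq_left h3] at h2
  refine h2.trans (le_of_eq ?_)
  rw [hB₀]
  push_cast
  rw [Int.norm_eq_abs]

section Span

variable {L : Type} [Field L] [NumberField L]

/-- powers of a generating subspace -/
theorem zc_span_pow (T : Set L) (hadj : Algebra.adjoin ℚ T = ⊤) :
    Submodule.span ℚ (insert 1 T) ^ Module.finrank ℚ L = ⊤ := by
  set P : Submodule ℚ L := Submodule.span ℚ (insert 1 T) with hP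
  set m := Module.finrank ℚ L with hm
  have hm0 : 0 < m := Module.finrank_pos
  have h1P : (1 : Submodule ℚ L) ≤ P := by
    rw [Submodule.one_le]
    exact Submodule.subset_span (Set.mem_insert _ _)
  have hmono : Monotone fun k : ℕ => P ^ k := monotone_nat_of_le_succ fun k => by
    change P ^ k ≤ P ^ (k + 1)
    rw [pow_succ]
    calc P ^ k = P ^ k * 1 := (mul_one _).symm
      _ ≤ P ^ k * P := mul_le_mul' le_rfl h1P
  -- stabilisation
  have hstab : ∃ k < m, P ^ k = P ^ (k + 1) := by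
    by_contra hcon
    push Not at hcon
    have h : ∀ k ≤ m, k + 1 ≤ Module.finrank ℚ ↥(P ^ k) := by
      intro k hk
      induction k with
      | zero =>
        rw [pow_zero, zero_add, Nat.one_le_iff_ne_zero]
        intro h0
        have h2 := Submodule.finrank_eq_zero.1 h0
        have h3 : (1 : L) ∈ (⊥ : Submodule ℚ L) := h2 ▸ Submodule.one_le.1 le_rfl
        exact one_ne_zero ((Submodule.mem_bot ℚ).1 h3)
      | succ k ih =>
        have h2 := ih (by omega)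
        have h3 : P ^ k < P ^ (k + 1) := lt_of_le_of_ne (hmono (Nat.le_succ k)) (hcon k (by omega))
        have h4 := Submodule.finrank_lt_finrank_of_lt h3
        omega
    have h2 := h m le_rfl
    have h3 := Submodule.finrank_le (P ^ m)
    omega
  obtain ⟨k, hk, hk2⟩ := hstab
  have hst : ∀ j, k ≤ j → P ^ j = P ^ k := by
    intro j hj
    induction j, hj using Nat.le_induction with
    | base => rfl
    | succ j _ ih => rw [pow_succ, ih, ← pow_succ, ← hk2]
  have hmul : P ^ m * P ^ m ≤ P ^ m := by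
    rw [← pow_add, hst (m + m) (by omega), hst m hk.le]
  have hPm : P ≤ P ^ m := by
    calc P = P ^ 1 := (pow_one P).symm
      _ ≤ P ^ m := hmono hm0
  have h1m : (1 : L) ∈ P ^ m := hPm (Submodule.subset_span (Set.mem_insert _ _))
  rw [eq_top_iff]
  intro x _
  have hx : x ∈ Algebra.adjoin ℚ T := by rw [hadj]; exact Algebra.mem_top
  induction hx using Algebra.adjoin_induction with
  | mem y hy => exact hPm (Submodule.subset_span (Set.mem_insert_of_mem _ hy))
  | algebraMap r =>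
    rw [Algebra.algebraMap_eq_smul_one]
    exact Submodule.smul_mem _ _ h1m
  | add y z _ _ h1 h2 => exact Submodule.add_mem _ (h1 trivial) (h2 trivial)
  | mul y z _ _ h1 h2 => exact hmul (Submodule.mul_mem_mul (h1 trivial) (h2 trivial))

theorem zc_pow_prop (T : Set L) (hT : ∀ x ∈ T, IsIntegral ℤ x) {B : ℝ} (hB : 1 ≤ B)
    (hTB : ∀ x ∈ T, ∀ φ : L →+* ℂ, ‖φ x‖ ≤ B) (k : ℕ) :
    ∀ x ∈ (insert 1 T : Set L) ^ k, IsIntegral ℤ x ∧ ∀ φ : L →+* ℂ, ‖φ x‖ ≤ B ^ k := by
  induction k with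
  | zero =>
    intro x hx
    rw [pow_zero, Set.mem_one] at hx
    subst hx
    exact ⟨isIntegral_one, fun φ => by simp⟩
  | succ k ih =>
    intro x hx
    rw [pow_succ, Set.mem_mul] at hx
    obtain ⟨y, hy, z, hz, rfl⟩ := hx
    obtain ⟨h1, h2⟩ := ih y hy
    have h3 : IsIntegral ℤ z ∧ ∀ φ : L →+* ℂ, ‖φ z‖ ≤ B := by
      rcases hz with rfl | hz
      · exact ⟨isIntegral_one, fun φ => by simpa only [map_one, norm_one] using hB⟩
      · exact ⟨hT z hz, hTB z hz⟩
    refine ⟨h1.mul h3.1, fun φ => ?_⟩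
    rw [map_mul, norm_mul, pow_succ]
    exact mul_le_mul (h2 φ) (h3.2 φ) (norm_nonneg _) (by positivity)

/-- the discriminant is bounded by that of any integral basis of the vector space -/
theorem zc_discr_le {m : ℕ} (b : Module.Basis (Fin m) ℚ L) (hb : ∀ i, IsIntegral ℤ (b i)) :
    |(discr L : ℝ)| ≤ |((Algebra.discr ℚ b : ℚ) : ℝ)| := by
  classical
  set B₀ := (integralBasis L).reindex ((integralBasis L).indexEquiv b) with hB₀
  have hint : ∀ i j, ∃ a : ℤ, B₀.repr (b j) i = a := by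
    intro i j
    obtain ⟨y, hy⟩ : ∃ y : 𝓞 L, algebraMap (𝓞 L) L y = b j := ⟨⟨b j, hb j⟩, rfl⟩
    refine ⟨(RingOfIntegers.basis L).repr y (((integralBasis L).indexEquiv b).symm i), ?_⟩
    rw [hB₀, Module.Basis.repr_reindex_apply, ← hy, integralBasis_repr_apply]
    rfl
  choose a ha using hint
  have h1 : Matrix.vecMul (⇑B₀) ((Matrix.of fun i j => (a i j : ℚ)).map (algebraMap ℚ L)) = b := by
    funext j
    rw [Matrix.vecMul, dotProduct]
    conv_rhs => rw [← B₀.sum_repr (b j)]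
    refine Finset.sum_congr rfl fun i _ => ?_
    rw [ha i j, Matrix.map_apply, Matrix.of_apply, mul_comm, Algebra.smul_def]
  have h2 := Algebra.discr_of_matrix_vecMul (⇑B₀) (Matrix.of fun i j => (a i j : ℚ))
  rw [h1] at h2
  have h3 : Algebra.discr ℚ (⇑B₀) = discr L := by
    rw [coe_discr, hB₀, Module.Basis.coe_reindex, Algebra.discr_reindex]
  have h4 : (Matrix.of fun i j => (a i j : ℚ)).det = ((Matrix.of a).det : ℤ) := by
    have := Int.cast_det (R := ℚ) (Matrix.of a)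
    rw [this]
    rfl
  have h5 : Algebra.discr ℚ b ≠ 0 := Algebra.discr_not_zero_of_basis ℚ b
  have h6 : (Matrix.of a).det ≠ 0 := by
    intro h0
    rw [h4, h0] at h2
    apply h5
    rw [h2]
    simp
  rw [h2, h3, h4]
  simp only [Rat.cast_mul, Rat.cast_pow, Rat.cast_intCast]
  rw [abs_mul, abs_pow]
  have h7 : (1 : ℝ) ≤ |((Matrix.of a).det : ℝ)| := by
    exact_mod_cast Int.one_le_abs h6
  calc |(discr L : ℝ)| = 1 ^ 2 * |(discr L : ℝ)| := by ring
    _ ≤ |((Matrix.of a).det : ℝ)| ^ 2 * |(discr L : ℝ)| := by gcongr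

/-- bound for the discriminant of a basis with bounded conjugates -/
theorem zc_discr_basis {m : ℕ} (b : Module.Basis (Fin m) ℚ L) {H : ℝ}
    (hb : ∀ i, ∀ φ : L →+* ℂ, ‖φ (b i)‖ ≤ H) :
    |((Algebra.discr ℚ b : ℚ) : ℝ)| ≤ (m.factorial * H ^ m) ^ 2 := by
  classical
  have hcard : Fintype.card (Fin m) = Fintype.card (L →ₐ[ℚ] ℂ) := by
    rw [AlgHom.card, Fintype.card_fin, Module.finrank_eq_card_basis b, Fintype.card_fin]
  have e : Fin m ≃ (L →ₐ[ℚ] ℂ) := Fintype.equivOfCardEq hcard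
  have h1 := Algebra.discr_eq_det_embeddingsMatrixReindex_pow_two ℚ ℂ (b := ⇑b) e
  have h2 : ‖(Algebra.embeddingsMatrixReindex ℚ ℂ (⇑b) e).det‖ ≤ m.factorial * H ^ m := by
    have := Matrix.det_le (A := Algebra.embeddingsMatrixReindex ℚ ℂ (⇑b) e)
      (abv := NormedField.toAbsoluteValue ℂ) (x := H) (fun i j => hb i (e j).toRingHom)
    rw [Fintype.card_fin, nsmul_eq_mul] at this
    exact this
  have h3 : |((Algebra.discr ℚ b : ℚ) : ℝ)| = ‖(algebraMap ℚ ℂ) (Algebra.discr ℚ b)‖ := by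
    rw [eq_ratCast, Complex.norm_ratCast]
  rw [h3, h1, norm_pow]
  gcongr

theorem zc_discr (T : Set L) (hT : ∀ x ∈ T, IsIntegral ℤ x) {B : ℝ} (hB : 1 ≤ B)
    (hTB : ∀ x ∈ T, ∀ φ : L →+* ℂ, ‖φ x‖ ≤ B) (hadj : Algebra.adjoin ℚ T = ⊤) :
    |(discr L : ℝ)| ≤ ((Module.finrank ℚ L).factorial *
      (B ^ Module.finrank ℚ L) ^ Module.finrank ℚ L) ^ 2 := by
  have h1 := zc_span_pow T hadj
  rw [Submodule.span_pow] at h1
  obtain ⟨f, hf1, hf2, hf3⟩ := Submodule.exists_fun_fin_finrank_span_eq ℚ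
    ((insert 1 T : Set L) ^ Module.finrank ℚ L)
  have hfr : Module.finrank ℚ (Submodule.span ℚ ((insert 1 T : Set L) ^ Module.finrank ℚ L)) =
      Module.finrank ℚ L := by
    rw [h1, finrank_top]
  have h2 : ⊤ ≤ Submodule.span ℚ (Set.range f) := by rw [hf2, h1]
  set b := Module.Basis.mk hf3 h2 with hbdef
  have hb : ∀ i, b i = f i := fun i => by rw [hbdef, Module.Basis.mk_apply]
  have h3 := zc_discr_le b (fun i => by
    rw [hb]
    exact (zc_pow_prop T hT hB hTB _ _ (hf1 i)).1)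
  have h4 := zc_discr_basis b (H := B ^ Module.finrank ℚ L) (fun i φ => by
    rw [hb]
    exact (zc_pow_prop T hT hB hTB _ _ (hf1 i)).2 φ)
  have h5 := h3.trans h4
  rw [hfr] at h5
  exact h5

end Span

section Closure

variable {K : Type} [Field K] [NumberField K]

theorem zc_root_integral {L : Type} [Field L] [NumberField L] (θ : 𝓞 K) {x : L}
    (hx : x ∈ (minpoly ℚ (θ : K)).rootSet L) : IsIntegral ℤ x := by
  have h1 := θ.isIntegral_coe
  rw [minpoly.isIntegrallyClosed_eq_field_fractions' ℚ h1] at hx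
  refine ⟨minpoly ℤ (θ : K), minpoly.monic h1, ?_⟩
  have h2 := (mem_rootSet.1 hx).2
  rw [aeval_map_algebraMap] at h2
  exact h2

theorem zc_root_embedding {L : Type} [Field L] [NumberField L] (θ : K) {x : L}
    (hx : x ∈ (minpoly ℚ θ).rootSet L) (φ : L →+* ℂ) : ∃ ψ : K →+* ℂ, φ x = ψ θ := by
  have h1 : φ x ∈ (minpoly ℚ θ).rootSet ℂ := by
    rw [mem_rootSet] at hx ⊢
    refine ⟨hx.1, ?_⟩
    have h2 := congrArg φ hx.2
    rw [map_zero] at h2
    rw [← h2]
    exact (Polynomial.aeval_algHom_apply φ.toRatAlgHom x (minpoly ℚ θ))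
  rw [← Embeddings.range_eval_eq_rootSet_minpoly] at h1
  obtain ⟨ψ, hψ⟩ := h1
  exact ⟨ψ, hψ.symm⟩

theorem zc_totallyReal [IsTotallyReal K] {L : Type} [Field L] [NumberField L] (θ : K)
    (hadj : Algebra.adjoin ℚ ((minpoly ℚ θ).rootSet L) = ⊤) : IsTotallyReal L := by
  rw [isTotallyReal_iff]
  intro w
  rw [InfinitePlace.isReal_iff, ComplexEmbedding.isReal_iff]
  apply RingHom.ext
  intro x
  have hx : x ∈ Algebra.adjoin ℚ ((minpoly ℚ θ).rootSet L) := by
    rw [hadj]; exact Algebra.mem_top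
  rw [ComplexEmbedding.conjugate_coe_eq]
  induction hx using Algebra.adjoin_induction with
  | mem y hy =>
    obtain ⟨ψ, hψ⟩ := zc_root_embedding θ hy w.embedding
    rw [hψ]
    exact zc_isReal ψ θ
  | algebraMap r => simp
  | add y z _ _ h1 h2 => rw [map_add, map_add, h1, h2]
  | mul y z _ _ h1 h2 => rw [map_mul, map_mul, h1, h2]

end Closure

/-- For totally real `K` of degree `n` there is a totally real Galois `L ⊇ K` of bounded degree
and discriminant. -/
theorem exists_closure (n : ℕ) : ∃ (N : ℕ) (C : ℝ), ∀ (K : Type) [Field K] [NumberField K]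
    [IsTotallyReal K], Module.finrank ℚ K = n →
    ∃ (L : Type) (_ : Field L) (_ : NumberField L) (_ : Algebra K L), IsTotallyReal L ∧
      IsGalois ℚ L ∧ Module.finrank ℚ L ≤ N ∧
      Real.log |(discr L : ℝ)| ≤ C * (1 + Real.log |(discr K : ℝ)|) := by
  refine ⟨n.factorial, 2 * (n.factorial.factorial + (n.factorial ^ 2 : ℝ) * (n + 2)), ?_⟩
  intro K _ _ _ hn
  obtain ⟨θ, hθ, hbound⟩ := zc_theta K
  set p := minpoly ℚ (θ : K) with hp
  have hirr : Irreducible p := minpoly.irreducible (Algebra.IsIntegral.isIntegral _)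
  have hsep : p.Separable := hirr.separable
  have hdeg : p.natDegree = n := by
    rw [hp, (Field.primitive_element_iff_minpoly_natDegree_eq ℚ (θ : K)).1 hθ, hn]
  let i1 : Field p.SplittingField := inferInstance
  let i2 : NumberField p.SplittingField :=
    { to_charZero := inferInstance, to_finiteDimensional := inferInstance }
  have hadj : Algebra.adjoin ℚ (p.rootSet p.SplittingField) = ⊤ :=
    Polynomial.SplittingField.adjoin_rootSet p
  -- the degree
  have hfin : Module.finrank ℚ p.SplittingField ≤ n.factorial := by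
    have : Fact (map (algebraMap ℚ p.SplittingField) p).Splits := ⟨SplittingField.splits p⟩
    rw [← Polynomial.Gal.card_of_separable hsep]
    have h1 := Nat.card_le_card_of_injective _ (Polynomial.Gal.galActionHom_injective p p.SplittingField)
    refine h1.trans ?_
    rw [Nat.card_perm]
    apply Nat.factorial_le
    rw [Nat.card_eq_fintype_card, ← hdeg]
    exact (Polynomial.card_rootSet_eq_natDegree hsep (SplittingField.splits p)).le
  -- the embedding
  obtain ⟨r, hr⟩ : ∃ r : p.SplittingField, aeval r p = 0 := by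
    obtain ⟨r, hr⟩ := (Polynomial.SplittingField.splits p).exists_eval_eq_zero (by
      rw [Polynomial.degree_map]
      exact (Polynomial.degree_pos_of_irreducible hirr).ne')
    exact ⟨r, by rwa [aeval_def, ← eval_map]⟩
  have hint : IsIntegral ℚ (θ : K) := Algebra.IsIntegral.isIntegral _
  let e : K ≃ₐ[ℚ] (IntermediateField.adjoin ℚ {(θ : K)} : IntermediateField ℚ K) :=
    IntermediateField.topEquiv.symm.trans (IntermediateField.equivOfEq hθ.symm)
  let g : (IntermediateField.adjoin ℚ {(θ : K)} : IntermediateField ℚ K) →ₐ[ℚ] p.SplittingField :=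
    (IntermediateField.algHomAdjoinIntegralEquiv ℚ hint).symm
      ⟨r, by rw [mem_aroots]; exact ⟨hirr.ne_zero, hr⟩⟩
  let i3 : Algebra K p.SplittingField := (g.toRingHom.comp e.toAlgHom.toRingHom).toAlgebra
  refine ⟨p.SplittingField, i1, i2, i3, ?_, ?_, hfin, ?_⟩
  · exact zc_totallyReal (θ : K) hadj
  · have : IsSplittingField ℚ p.SplittingField p := IsSplittingField.splittingField p
    exact IsGalois.of_separable_splitting_field hsep
  · set B : ℝ := Real.sqrt |(discr K : ℝ)| * 2 ^ Module.finrank ℚ K + 1 with hB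
    have hB1 : 1 ≤ B := le_add_of_nonneg_left (by positivity)
    have hd := zc_discr (L := p.SplittingField) (p.rootSet p.SplittingField)
      (fun x hx => zc_root_integral θ hx) hB1 (fun x hx φ => by
        obtain ⟨ψ, hψ⟩ := zc_root_embedding (θ : K) hx φ
        rw [hψ]
        exact hbound ψ) hadj
    set m := Module.finrank ℚ p.SplittingField with hm
    set d : ℝ := |(discr K : ℝ)| with hd0
    have hd1 : 1 ≤ d := by
      rw [hd0]
      exact_mod_cast Int.one_le_abs (discr_ne_zero K)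
    have hlogd : 0 ≤ Real.log d := Real.log_nonneg hd1
    have hB0 : 0 < B := by linarith
    have hlogB0 : 0 ≤ Real.log B := Real.log_nonneg hB1
    have hlogB : Real.log B ≤ (n + 2) * (1 + Real.log d) := by
      have h1 : B ≤ d * 2 ^ (n + 1) := by
        have h2 : Real.sqrt d ≤ d := by
          rw [Real.sqrt_le_left (by linarith only [hd1])]
          nlinarith only [hd1]
        have h3 : (1 : ℝ) ≤ d * 2 ^ n := one_le_mul_of_one_le_of_one_le hd1 (one_le_pow₀ one_le_two)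
        rw [hB, hn, pow_succ]
        have h4 : Real.sqrt d * 2 ^ n ≤ d * 2 ^ n := by gcongr
        linarith only [h3, h4]
      calc Real.log B ≤ Real.log (d * 2 ^ (n + 1)) := Real.log_le_log hB0 h1
        _ = Real.log d + (n + 1) * Real.log 2 := by
          rw [Real.log_mul (by (clear * - hd1; positivity)) (by positivity), Real.log_pow]
          push_cast
          ring
        _ ≤ Real.log d + (n + 1) * 1 := by
          gcongr
          have := Real.log_two_lt_d9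
          linarith only [this]
        _ ≤ (n + 2) * (1 + Real.log d) := by
          have : (0 : ℝ) ≤ (n : ℝ) * Real.log d := by (clear * - hlogd; positivity)
          nlinarith only [hlogd, this]
    have hdL : 0 < |(discr p.SplittingField : ℝ)| := by
      rw [abs_pos]
      exact_mod_cast discr_ne_zero p.SplittingField
    have hmN : (m : ℝ) ≤ (n.factorial : ℝ) := by exact_mod_cast hfin
    calc Real.log |(discr p.SplittingField : ℝ)|
        ≤ Real.log ((m.factorial * (B ^ m) ^ m) ^ 2) := Real.log_le_log hdL hd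
      _ = 2 * (Real.log m.factorial + (m : ℝ) ^ 2 * Real.log B) := by
        rw [Real.log_pow, Real.log_mul (by positivity) (by positivity), Real.log_pow, Real.log_pow]
        push_cast
        ring
      _ ≤ 2 * (n.factorial.factorial + (n.factorial : ℝ) ^ 2 * ((n + 2) * (1 + Real.log d))) := by
        have h5 : Real.log m.factorial ≤ (n.factorial.factorial : ℝ) := by
          have h6 : Real.log m.factorial ≤ (m.factorial : ℝ) := Real.log_le_self (by positivity)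
          refine h6.trans ?_
          exact_mod_cast Nat.factorial_le hfin
        (clear * - hlogB0 hlogB hmN h5; gcongr)
      _ ≤ 2 * (n.factorial.factorial + (n.factorial ^ 2 : ℝ) * (n + 2)) * (1 + Real.log d) := by
        have h7 : (0 : ℝ) ≤ (n.factorial.factorial : ℝ) * Real.log d := by positivity
        nlinarith only [h7]

end Vale.Agent.P007.Z
end

section

/-!
Z7: the final induction of part I.5 (no exceptional zero in odd degree), from the cyclic step and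
the zero quantisation `ZForm` (taken as hypotheses here; `Z/Final.lean` removes them).
-/

set_option autoImplicit false

open NumberField

namespace Vale.Agent.P007.Z.FinalAux

open Vale.Agent.P007.Z

/-! ### Lists -/

theorem model_at_min (d : List ℝ) (hd : ∀ x ∈ d, 0 < x ∧ x ≤ 1) (m : ℝ) (hm : m ∈ d)
    (hmin : ∀ x ∈ d, m ≤ x) : model 1 d m ≤ 0 := by
  unfold model
  have h1 : (d.map fun x => Real.log (max m x)) = d.map fun x => Real.log x := by
    apply List.map_congr_left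
    intro x hx
    rw [max_eq_right (hmin x hx)]
  rw [h1]
  have h2 : (-Real.log m) ≤ (d.map fun x => -Real.log x).sum := by
    apply List.single_le_sum
    · intro y hy
      rw [List.mem_map] at hy
      obtain ⟨x, hx, rfl⟩ := hy
      have := Real.log_nonpos (hd x hx).1.le (hd x hx).2
      linarith
    · rw [List.mem_map]
      exact ⟨m, hm, rfl⟩
  have h3 : (d.map fun x => -Real.log x).sum = -(d.map fun x => Real.log x).sum := by
    induction d with
    | nil => simp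
    | cons a l ih => 
      simp only [List.map_cons, List.sum_cons]
      have := List.sum_neg (l.map fun x => Real.log x)
      simp only [List.map_map] at this
      have h4 : ((fun x => -x) ∘ fun x => Real.log x) = fun x => -Real.log x := rfl
      rw [h4] at this
      linarith only [this]
  push_cast
  linarith

theorem model_ge (d : List ℝ) (m η : ℝ) (hm0 : 0 < m)
    (hmin : ∀ x ∈ d, m ≤ x) :
    -Real.log η + (d.length : ℝ) * Real.log m ≤ model 1 d η := by
  unfold model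
  have h : (d.length : ℝ) * Real.log m ≤ (d.map fun x => Real.log (max η x)).sum := by
    induction d with
    | nil => simp only [List.length_nil, CharP.cast_eq_zero, zero_mul, List.map_nil, List.sum_nil,
               Std.le_refl]
    | cons a l ih =>
      simp only [List.map_cons, List.sum_cons, List.length_cons]
      have h1 := ih (fun x hx => hmin x (List.mem_cons_of_mem _ hx))
      have h2 : Real.log m ≤ Real.log (max η a) :=
        Real.log_le_log hm0 (le_trans (hmin a List.mem_cons_self) (le_max_right _ _))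
      push_cast
      linarith
  push_cast
  linarith

/-! ### Sums over primes -/

section Sums

/-- the terms of `Sc` -/
noncomputable def tm (E : Type) [Field E] [NumberField E] (ℓ η : ℝ) (p : Nat.Primes) : ℝ :=
  if 0 < aE E p then wt ℓ η p else 0

theorem Sc_eq (E : Type) [Field E] [NumberField E] (ℓ η : ℝ) :
    Sc E (fun _ => True) ℓ η = ∑' p : Nat.Primes, tm E ℓ η p := by
  unfold Sc tm
  congr 1
  funext p
  by_cases h : 0 < aE E p
  · simp [h]
  · simp [h]

theorem tm_nonneg (E : Type) [Field E] [NumberField E] {ℓ η : ℝ} (hℓ : 1 ≤ ℓ)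
    (hη : 0 < η) (hη1 : η ≤ 1) (p : Nat.Primes) : 0 ≤ tm E ℓ η p := by
  unfold tm
  split_ifs
  · exact (wt_nonneg hℓ hη hη1 p p.2).1
  · exact le_refl _

theorem tm_summable (E : Type) [Field E] [NumberField E] {ℓ η : ℝ} (hℓ : 1 ≤ ℓ)
    (hη : 0 < η) (hη1 : η ≤ 1) : Summable fun p : Nat.Primes => tm E ℓ η p := by
  apply Summable.of_nonneg_of_le (fun p => tm_nonneg E hℓ hη hη1 p) _ (summable_wt hℓ hη hη1)
  intro p
  unfold tm
  split_ifs
  · exact le_refl _
  · exact (wt_nonneg hℓ hη hη1 p p.2).1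

theorem Sc_mono (E E' : Type) [Field E] [NumberField E] [Field E'] [NumberField E'] {ℓ η : ℝ}
    (hℓ : 1 ≤ ℓ) (hη : 0 < η) (hη1 : η ≤ 1)
    (h : ∀ p : ℕ, p.Prime → 0 < aE E p → 0 < aE E' p) :
    Sc E (fun _ => True) ℓ η ≤ Sc E' (fun _ => True) ℓ η := by
  rw [Sc_eq, Sc_eq]
  refine Summable.tsum_le_tsum ?_ (tm_summable E hℓ hη hη1) (tm_summable E' hℓ hη hη1)
  intro p
  by_cases h1 : 0 < aE E p
  · have h2 := h p p.2 h1
    simp [tm, h1, h2]
  · have h3 := tm_nonneg E' hℓ hη hη1 p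
    have h4 : tm E ℓ η p = 0 := by simp only [tm, h1, if_false]
    rw [h4]
    exact h3

theorem Sc_le_Del (K : Type) [Field K] [NumberField K] {ℓ η : ℝ} (hℓ : 1 ≤ ℓ) (hη : 0 < η)
    (hη1 : η ≤ 1) :
    Sc K (fun _ => True) ℓ η ≤ Del K (1 : DirichletCharacter ℂ 1) ℓ η := by
  have hχ : ∀ p : Nat.Primes, ((1 : DirichletCharacter ℂ 1) ((p : ℕ) : ZMod 1)).re = 1 := by
    intro p
    have : ((p : ℕ) : ZMod 1) = 1 := Subsingleton.elim _ _
    rw [this]
    simp
  rw [Sc_eq]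
  unfold Del
  have hs : Summable fun p : Nat.Primes =>
      ((1 : DirichletCharacter ℂ 1) ((p : ℕ) : ZMod 1)).re * (aE K p : ℝ) * wt ℓ η p := by
    apply Summable.of_nonneg_of_le _ _
      ((summable_wt hℓ hη hη1).mul_left (Module.finrank ℚ K : ℝ))
    · intro p
      rw [hχ p, one_mul]
      exact mul_nonneg (Nat.cast_nonneg _) (wt_nonneg hℓ hη hη1 p p.2).1
    · intro p
      rw [hχ p, one_mul]
      apply mul_le_mul_of_nonneg_right _ (wt_nonneg hℓ hη hη1 p p.2).1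
      exact_mod_cast aE_le K p p.2
  refine Summable.tsum_le_tsum ?_ (tm_summable K hℓ hη hη1) hs
  intro p
  have h3 := (wt_nonneg hℓ hη hη1 p p.2).1
  rw [hχ p, one_mul]
  unfold tm
  split_ifs with h
  · have h1 : (1 : ℝ) ≤ (aE K p : ℝ) := by exact_mod_cast h
    nlinarith
  · exact mul_nonneg (Nat.cast_nonneg _) h3

end Sums

/-! ### Galois groups -/

section Gal

/-- action of a group of automorphisms on the embeddings -/
@[instance_reducible] noncomputable def embAction (K L : Type) [Field K] [NumberField K] [Field L] [NumberField L]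
    (H : Subgroup (L ≃ₐ[ℚ] L)) : MulAction H (K →ₐ[ℚ] L) where
  smul σ φ := (σ : L ≃ₐ[ℚ] L).toAlgHom.comp φ
  one_smul φ := by
    ext x
    rfl
  mul_smul σ τ φ := by
    ext x
    rfl

theorem exists_emb_fixed (K L : Type) [Field K] [NumberField K] [Field L] [NumberField L]
    [Algebra K L] [IsGalois ℚ L] (hodd : Odd (Module.finrank ℚ K)) (H : Subgroup (L ≃ₐ[ℚ] L))
    (hH : IsPGroup 2 H) :
    ∃ φ : K →ₐ[ℚ] L, ∀ σ ∈ H, ∀ x, σ (φ x) = φ x := by
  let _ := embAction K L H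
  have : Fact (Nat.Prime 2) := ⟨Nat.prime_two⟩
  have hcard : Nat.card (K →ₐ[ℚ] L) = Module.finrank ℚ K := by
    apply AlgHom.natCard_of_splits
    intro x
    have h1 := (IsGalois.to_normal (F := ℚ) (E := L)).splits (algebraMap K L x)
    rwa [minpoly.algebraMap_eq (algebraMap K L).injective x] at h1
  have : Finite (K →ₐ[ℚ] L) := by
    apply Nat.finite_of_card_ne_zero
    rw [hcard]
    exact (Module.finrank_pos (R := ℚ) (M := K)).ne'
  have h2 := hH.card_modEq_card_fixedPoints (K →ₐ[ℚ] L)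
  rw [hcard] at h2
  have h3 : Nat.card (MulAction.fixedPoints H (K →ₐ[ℚ] L)) ≠ 0 := by
    intro h0
    rw [h0] at h2
    have : 2 ∣ Module.finrank ℚ K := (Nat.modEq_zero_iff_dvd).mp h2
    exact (Nat.not_even_iff_odd.mpr hodd) (even_iff_two_dvd.mpr this)
  have h4 : (MulAction.fixedPoints H (K →ₐ[ℚ] L)).Nonempty := by
    by_contra hne
    rw [Set.not_nonempty_iff_eq_empty] at hne
    apply h3
    rw [hne]
    simp
  obtain ⟨φ, hφ⟩ := h4
  refine ⟨φ, fun σ hσ x => ?_⟩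
  have h5 := hφ ⟨σ, hσ⟩
  exact DFunLike.congr_fun h5 x

theorem aE_pos_two_group (K L : Type) [Field K] [NumberField K] [Field L] [NumberField L]
    [Algebra K L] [IsGalois ℚ L] (hodd : Odd (Module.finrank ℚ K)) (H : Subgroup (L ≃ₐ[ℚ] L))
    (hH : IsPGroup 2 H) (p : ℕ) (hp : p.Prime)
    (h : 0 < aE (IntermediateField.fixedField H) p) : 0 < aE K p := by
  obtain ⟨φ, hφ⟩ := exists_emb_fixed K L hodd H hH
  let _ : Algebra K (IntermediateField.fixedField H) :=
    RingHom.toAlgebra (RingHom.codRestrict (φ : K →+* L)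
      (IntermediateField.fixedField H).toSubfield.toSubring.toSubsemiring (by
        intro x
        show φ x ∈ IntermediateField.fixedField H
        rw [IntermediateField.mem_fixedField_iff]
        intro f hf
        exact hφ f hf x))
  exact aE_pos_of_algebra K (IntermediateField.fixedField H) p hp h

theorem exists_index_sub {G : Type} [Group G] [Finite G] (H : Subgroup G) (hH : IsCyclic H)
    (d : ℕ) (hd : d.Prime) (hdvd : d ∣ Nat.card H) :
    ∃ H' : Subgroup G, H' ≤ H ∧ H'.relIndex H = d ∧ Nat.card H' < Nat.card H := by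
  obtain ⟨g, hg⟩ := hH.exists_generator
  have hord : orderOf (g : G) = Nat.card H := by
    rw [Subgroup.orderOf_coe, orderOf_eq_card_of_forall_mem_zpowers hg]
  have hpos : 0 < Nat.card H := Nat.card_pos
  obtain ⟨m, hm⟩ := hdvd
  have hmpos : 0 < m := by
    rcases Nat.eq_zero_or_pos m with h | h
    · rw [h] at hm
      omega
    · exact h
  have hle : Subgroup.zpowers ((g : G) ^ d) ≤ H := by
    rw [Subgroup.zpowers_le]
    exact H.pow_mem g.2 d
  have hcard : Nat.card (Subgroup.zpowers ((g : G) ^ d)) = m := by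
    rw [Nat.card_zpowers, orderOf_pow, hord, hm, Nat.gcd_eq_right (Dvd.intro m rfl),
      Nat.mul_div_cancel_left m hd.pos]
  have h1 := Subgroup.relIndex_mul_relIndex ⊥ (Subgroup.zpowers ((g : G) ^ d)) H bot_le hle
  rw [Subgroup.relIndex_bot_left, Subgroup.relIndex_bot_left, hcard] at h1
  have h2 : (Subgroup.zpowers ((g : G) ^ d)).relIndex H = d := by
    have h3 : m * (Subgroup.zpowers ((g : G) ^ d)).relIndex H = m * d := by
      rw [h1, hm, Nat.mul_comm]
    exact Nat.eq_of_mul_eq_mul_left hmpos h3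
  refine ⟨_, hle, h2, ?_⟩
  rw [hcard, hm]
  have := hd.two_le
  nlinarith only [hm, hmpos, this]

/-- the primes of the fixed field of a noncyclic group come from proper cyclic subgroups -/
theorem exists_cyclic_frob (L : Type) [Field L] [NumberField L] (H : Subgroup (L ≃ₐ[ℚ] L))
    (p : ℕ) (hp : p.Prime) (h : 0 < aE (IntermediateField.fixedField H) p) :
    ∃ σ ∈ H, 0 < aE (IntermediateField.fixedField (Subgroup.zpowers σ)) p := by
  obtain ⟨Q, σ, hQ, hpQ, hσH, hσ⟩ := exists_frob L H p hp h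
  refine ⟨σ, hσH, aE_pos_of_frob L (Subgroup.zpowers σ) p hp Q σ hQ hpQ ?_ hσ⟩
  intro x hx
  rw [IntermediateField.mem_fixedField_iff] at hx
  exact hx σ (Subgroup.mem_zpowers σ)

theorem card_gal_le (L : Type) [Field L] [NumberField L] (N : ℕ)
    (hN : Module.finrank ℚ L ≤ N) : Nat.card (L ≃ₐ[ℚ] L) ≤ N := by
  rw [Nat.card_eq_fintype_card]
  exact le_trans (AlgEquiv.card_le) hN

/-- non-cyclic step -/
theorem noncyclic_step (L : Type) [Field L] [NumberField L] (N : ℕ)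
    (hN : Module.finrank ℚ L ≤ N) {ℓ η : ℝ} (hℓ : 1 ≤ ℓ)
    (hη : 0 < η) (hη1 : η ≤ 1) (H : Subgroup (L ≃ₐ[ℚ] L)) (hH : ¬ IsCyclic H) (C : ℝ)
    (hC : 0 ≤ C)
    (hsub : ∀ H' : Subgroup (L ≃ₐ[ℚ] L), Nat.card H' < Nat.card H →
      Sc (IntermediateField.fixedField H') (fun _ => True) ℓ η ≤ C) :
    Sc (IntermediateField.fixedField H) (fun _ => True) ℓ η ≤ N * C := by
  classical
  -- proper cyclic subgroups
  have hproper : ∀ σ ∈ H, Nat.card (Subgroup.zpowers σ) < Nat.card H := by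
    intro σ hσ
    have hle : Subgroup.zpowers σ ≤ H := (Subgroup.zpowers_le).mpr hσ
    rcases lt_or_eq_of_le (Nat.card_le_card_of_injective _ (Subgroup.inclusion_injective hle))
      with h | h
    · exact h
    · exfalso
      apply hH
      have : Subgroup.zpowers σ = H := Subgroup.eq_of_le_of_card_ge hle h.ge
      rw [← this]
      infer_instance
  let f : (L ≃ₐ[ℚ] L) → Nat.Primes → ℝ := fun σ p =>
    if σ ∈ H then tm (IntermediateField.fixedField (Subgroup.zpowers σ)) ℓ η p else 0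
  have hfs : ∀ σ, Summable (f σ) := by
    intro σ
    by_cases h : σ ∈ H
    · simp only [f, h, if_true]
      exact tm_summable _ hℓ hη hη1
    · simp only [f, h, if_false]
      exact summable_zero
  have hfle : ∀ σ, ∑' p, f σ p ≤ C := by
    intro σ
    by_cases h : σ ∈ H
    · have h1 := hsub (Subgroup.zpowers σ) (hproper σ h)
      rw [Sc_eq] at h1
      simp only [f, h, if_true]
      exact h1
    · simp only [f, h, if_false, tsum_zero]
      exact hC
  have h1 : Sc (IntermediateField.fixedField H) (fun _ => True) ℓ η ≤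
      ∑' p, ∑ σ : (L ≃ₐ[ℚ] L), f σ p := by
    rw [Sc_eq]
    refine Summable.tsum_le_tsum ?_ (tm_summable _ hℓ hη hη1)
      (summable_sum fun σ _ => hfs σ)
    intro p
    have hfnn : ∀ σ, 0 ≤ f σ p := by
      intro σ
      simp only [f]
      split_ifs
      · exact tm_nonneg _ hℓ hη hη1 p
      · exact le_refl _
    by_cases h : 0 < aE (IntermediateField.fixedField H) p
    · obtain ⟨σ, hσ, hpos⟩ := exists_cyclic_frob L H p p.2 h
      have h4 : tm (IntermediateField.fixedField H) ℓ η p = f σ p := by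
        simp only [f, hσ, if_true, tm, h, hpos]
      rw [h4]
      exact Finset.single_le_sum (fun σ _ => hfnn σ) (Finset.mem_univ σ)
    · have h4 : tm (IntermediateField.fixedField H) ℓ η p = 0 := by
        simp only [tm, h, if_false]
      rw [h4]
      exact Finset.sum_nonneg (fun σ _ => hfnn σ)
  have h2 : ∑' p, ∑ σ : (L ≃ₐ[ℚ] L), f σ p = ∑ σ : (L ≃ₐ[ℚ] L), ∑' p, f σ p :=
    Summable.tsum_finsetSum fun σ _ => hfs σ
  have h3 : ∑ σ : (L ≃ₐ[ℚ] L), ∑' p, f σ p ≤ ∑ _σ : (L ≃ₐ[ℚ] L), C :=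
    Finset.sum_le_sum fun σ _ => hfle σ
  have h4 : ∑ _σ : (L ≃ₐ[ℚ] L), C = (Nat.card (L ≃ₐ[ℚ] L) : ℝ) * C := by
    rw [Finset.sum_const, nsmul_eq_mul, Nat.card_eq_fintype_card, Finset.card_univ]
  have h5 : (Nat.card (L ≃ₐ[ℚ] L) : ℝ) ≤ N := by exact_mod_cast card_gal_le L N hN
  nlinarith

/-- the statement of the cyclic step (`Z/Step.lean`) -/
def StepStmt : Prop :=
  ∀ (N : ℕ) (C₁ : ℝ), ∃ C₂ ℓ₁ : ℝ, ∀ (L : Type) [Field L] [NumberField L]
    [IsTotallyReal L] [IsGalois ℚ L], Module.finrank ℚ L ≤ N →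
    ∀ (H' H : Subgroup (L ≃ₐ[ℚ] L)) (d : ℕ), H' ≤ H → IsCyclic H → d.Prime → Odd d →
    H'.relIndex H = d → ∀ ℓ : ℝ, ℓ₁ ≤ ℓ → Real.log |(discr L : ℝ)| ≤ C₁ * ℓ →
    ∀ η : ℝ, 0 < η → η ≤ 1 →
      Sc (IntermediateField.fixedField H') (fun _ => True) ℓ η ≤ C₁ →
      Sc (IntermediateField.fixedField H) (fun _ => True) ℓ η ≤ C₂

/-- the induction over subgroups -/
theorem subgroup_induction (hstep : StepStmt) (N : ℕ) (C₀ C₁ : ℝ) (k : ℕ) : ∃ C ℓ₁ : ℝ, 0 ≤ C ∧ 1 ≤ ℓ₁ ∧
    ∀ (L : Type) [Field L] [NumberField L] [IsTotallyReal L] [IsGalois ℚ L],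
    Module.finrank ℚ L ≤ N → ∀ ℓ : ℝ, ℓ₁ ≤ ℓ → Real.log |(discr L : ℝ)| ≤ C₁ * ℓ →
    ∀ η : ℝ, 0 < η → η ≤ 1 →
    (∀ H : Subgroup (L ≃ₐ[ℚ] L), IsPGroup 2 H →
      Sc (IntermediateField.fixedField H) (fun _ => True) ℓ η ≤ C₀) →
    ∀ H : Subgroup (L ≃ₐ[ℚ] L), Nat.card H ≤ k →
      Sc (IntermediateField.fixedField H) (fun _ => True) ℓ η ≤ C := by
  induction k with
  | zero =>
    refine ⟨0, 1, le_refl _, le_refl _, ?_⟩
    intro L _ _ _ _ _ ℓ _ _ η _ _ _ H hH
    have : 0 < Nat.card H := Nat.card_pos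
    omega
  | succ k ih =>
    obtain ⟨C, ℓ₁, hC0, hℓ₁, hC⟩ := ih
    obtain ⟨C₂, ℓ₂, hC₂⟩ := hstep N (max C₁ C)
    refine ⟨max (max C₀ C₂) (max C (N * C)), max ℓ₁ ℓ₂, ?_, le_trans hℓ₁ (le_max_left _ _), ?_⟩
    · exact le_trans hC0 (le_trans (le_max_left _ _) (le_max_right _ _))
    intro L _ _ _ _ hN ℓ hℓ hdisc η hη hη1 h2 H hH
    have hℓ1 : ℓ₁ ≤ ℓ := le_trans (le_max_left _ _) hℓ
    have hℓ2 : ℓ₂ ≤ ℓ := le_trans (le_max_right _ _) hℓ
    have hℓ0 : 1 ≤ ℓ := le_trans hℓ₁ hℓ1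
    have hIH := hC L hN ℓ hℓ1 hdisc η hη hη1 h2
    by_cases hcy : IsCyclic H
    · rcases Nat.eq_two_pow_or_exists_odd_prime_and_dvd (Nat.card H) with hp | hp
      · obtain ⟨e, he⟩ := hp
        have : IsPGroup 2 H := IsPGroup.of_card he
        exact le_trans (h2 H this) (le_trans (le_max_left _ _) (le_max_left _ _))
      · obtain ⟨d, hd, hdvd, hodd⟩ := hp
        obtain ⟨H', hle, hidx, hcard⟩ := exists_index_sub H hcy d hd hdvd
        have h3 := hIH H' (by omega)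
        have h4 : Real.log |(discr L : ℝ)| ≤ max C₁ C * ℓ :=
          le_trans hdisc (mul_le_mul_of_nonneg_right (le_max_left _ _) (by linarith only [hℓ₁, hℓ1]))
        have h5 := hC₂ L hN H' H d hle hcy hd hodd hidx ℓ hℓ2 h4 η hη hη1
          (le_trans h3 (le_max_right _ _))
        exact le_trans h5 (le_trans (le_max_right _ _) (le_max_left _ _))
    · have h3 := noncyclic_step L N hN hℓ0 hη hη1 H hcy C hC0 (fun H' hH' => hIH H' (by omega))
      exact le_trans h3 (le_trans (le_max_right _ _) (le_max_right _ _))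

theorem aE_top_pos (L : Type) [Field L] [NumberField L] [IsGalois ℚ L] (p : ℕ) (hp : p.Prime) :
    0 < aE (IntermediateField.fixedField (⊤ : Subgroup (L ≃ₐ[ℚ] L))) p := by
  have hfr : Module.finrank ℚ (IntermediateField.fixedField (⊤ : Subgroup (L ≃ₐ[ℚ] L))) = 1 := by
    rw [IntermediateField.finrank_eq_one_iff]
    have ht := (IsGalois.tfae (F := ℚ) (E := L)).out 0 1
    exact ht.mp inferInstance
  unfold aE
  have hfin : Finite {I : Ideal (𝓞 (IntermediateField.fixedField (⊤ : Subgroup (L ≃ₐ[ℚ] L)))) //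
      Ideal.absNorm I = p} := (Ideal.finite_setOfPred_absNorm_eq p).to_subtype
  rw [Nat.card_pos_iff]
  refine ⟨⟨⟨Ideal.span {(p : 𝓞 _)}, ?_⟩⟩, hfin⟩
  rw [Ideal.absNorm_span_natCast]
  rw [RingOfIntegers.rank, hfr, pow_one]

end Gal

/-- Part I.5: no exceptional zero in odd degree. -/
theorem not_exceptional_of (hstep : StepStmt)
    (hZF : ∀ (N : ℕ) (C₀ : ℝ), ∃ C ℓ₀ : ℝ, 1 ≤ ℓ₀ ∧ ZForm N C₀ C ℓ₀) (n : ℕ) (hn : Odd n) :
    ∃ C ℓ₀ : ℝ, ∀ (K : Type) [Field K] [NumberField K]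
    [IsTotallyReal K], Module.finrank ℚ K = n → ∀ ℓ : ℝ, ℓ₀ ≤ ℓ →
    Real.log |(discr K : ℝ)| ≤ ℓ → ∀ η : ℝ, 0 < η → η ≤ 1 →
      -Real.log η - C ≤ Del K (1 : DirichletCharacter ℂ 1) ℓ η := by
  obtain ⟨N, Ccl, hcl⟩ := exists_closure n
  obtain ⟨CZ, ℓZ, hℓZ, hZ⟩ := hZF n 1
  obtain ⟨CQ, hQ⟩ := Sc_rat
  obtain ⟨C, ℓ₁, hC0, hℓ₁, hC⟩ := subgroup_induction hstep N CZ (2 * |Ccl|) N
  -- the final constant
  refine ⟨|CZ| + |CZ| * (|C| + |CQ|), max ℓZ ℓ₁, ?_⟩
  intro K _ _ _ hK ℓ hℓ hdisc η hη hη1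
  have hℓ1 : 1 ≤ ℓ := le_trans hℓZ (le_trans (le_max_left _ _) hℓ)
  obtain ⟨δ, d, hδ, hlen, hd, hχ, hmod⟩ := hZ K (le_of_eq hK) 1 1 (by simp) ℓ
    (le_trans (le_max_left _ _) hℓ) (by linarith) (by simp; linarith only [hℓ1])
  obtain ⟨rfl, hdpos⟩ := hχ rfl
  have hlen0 : (0 : ℝ) ≤ (d.length : ℝ) := Nat.cast_nonneg _
  have hCZ0 : 0 ≤ CZ := le_trans hlen0 hlen
  have hDel := hmod η hη hη1
  rw [abs_le] at hDel
  by_cases hne : d = []
  · subst hne
    have h1 : model 1 [] η = -Real.log η := by simp only [model, Nat.cast_one, one_mul,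
                                                 List.map_nil, List.sum_nil, add_zero]
    rw [h1] at hDel
    have h2 : 0 ≤ |CZ| * (|C| + |CQ|) := by (clear * -; positivity)
    have h3 := le_abs_self CZ
    linarith [hDel.1]
  -- the smallest element
  obtain ⟨m, hm, hmin⟩ := Finset.exists_min_image d.toFinset id
    (by rwa [List.toFinset_nonempty_iff])
  rw [List.mem_toFinset] at hm
  have hmin' : ∀ x ∈ d, m ≤ x := fun x hx => hmin x (List.mem_toFinset.mpr hx)
  have hm0 : 0 < m := hdpos m hm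
  have hm1 : m ≤ 1 := (hd m hm).2
  have hmodel := model_at_min d (fun x hx => ⟨hdpos x hx, (hd x hx).2⟩) m hm hmin'
  have hDelm := hmod m hm0 hm1
  rw [abs_le] at hDelm
  have hScK : Sc K (fun _ => True) ℓ m ≤ CZ := by
    have := Sc_le_Del K hℓ1 hm0 hm1
    linarith [hDelm.2]
  -- Galois closure
  obtain ⟨L, iF, iN, iA, iR, iG, hLN, hLd⟩ := hcl K hK
  have hdK : 0 ≤ Real.log |(discr K : ℝ)| := by
    apply Real.log_nonneg
    have h1 : discr K ≠ 0 := discr_ne_zero K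
    have h2 : (1 : ℤ) ≤ |discr K| := Int.one_le_abs h1
    have h3 : ((1 : ℤ) : ℝ) ≤ ((|discr K| : ℤ) : ℝ) := by exact_mod_cast h2
    rw [Int.cast_abs] at h3
    simpa only [ge_iff_le, Int.cast_one] using h3
  have hLd' : Real.log |(discr L : ℝ)| ≤ 2 * |Ccl| * ℓ := by
    have h1 : Ccl * (1 + Real.log |(discr K : ℝ)|) ≤ |Ccl| * (1 + Real.log |(discr K : ℝ)|) :=
      mul_le_mul_of_nonneg_right (le_abs_self _) (by linarith)
    have h2 : |Ccl| * (1 + Real.log |(discr K : ℝ)|) ≤ |Ccl| * (2 * ℓ) :=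
      mul_le_mul_of_nonneg_left (by linarith) (abs_nonneg _)
    linarith
  have hodd : Odd (Module.finrank ℚ K) := by rw [hK]; exact hn
  have hall := hC L hLN ℓ (le_trans (le_max_right _ _) hℓ) hLd' m hm0 hm1
    (by
      intro H hH
      refine le_trans (Sc_mono _ K hℓ1 hm0 hm1 ?_) hScK
      intro p hp hpos
      exact aE_pos_two_group K L hodd H hH p hp hpos)
    ⊤ (by
      rw [Subgroup.card_top]
      exact card_gal_le L N hLN)
  have htop : ∑' p : Nat.Primes, wt ℓ m p ≤ C := by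
    refine le_trans (le_of_eq ?_) hall
    rw [Sc_eq]
    congr 1
    funext p
    simp only [tm, aE_top_pos L p p.2, if_true]
  have hQm := hQ ℓ hℓ1 m hm0 hm1
  have hlogm : -(|C| + |CQ|) ≤ Real.log m := by
    have h1 := le_abs_self C
    have h2 := le_abs_self CQ
    linarith only [htop, hQm, h1, h2]
  have hge := model_ge d m η hm0 hmin'
  have h5 : -(|CZ| * (|C| + |CQ|)) ≤ (d.length : ℝ) * Real.log m := by
    have h6 : (d.length : ℝ) * (-(|C| + |CQ|)) ≤ (d.length : ℝ) * Real.log m :=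
      mul_le_mul_of_nonneg_left hlogm hlen0
    have h7 : (d.length : ℝ) * (|C| + |CQ|) ≤ |CZ| * (|C| + |CQ|) :=
      mul_le_mul_of_nonneg_right (le_trans hlen (le_abs_self _)) (by (clear * -; positivity))
    linarith only [h6, h7]
  have h3 := le_abs_self CZ
  linarith [hDel.1]

end Vale.Agent.P007.Z.FinalAux
end

section

/-!
One cyclic step (Z6), for given auxiliary data.  All auxiliary names are in the namespace
`Vale.Agent.P007.Z.CStep`.
-/

set_option autoImplicit false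

open NumberField

namespace Vale.Agent.P007.Z.CStep

/-! ### Analytic preliminaries -/

section PartA

/-- bounded coefficient functions -/
def BddC (c : Nat.Primes → ℝ) : Prop := ∃ B : ℝ, ∀ p, |c p| ≤ B

theorem BddC.add {c c' : Nat.Primes → ℝ} (h : BddC c) (h' : BddC c') :
    BddC fun p => c p + c' p := by
  obtain ⟨B, hB⟩ := h
  obtain ⟨B', hB'⟩ := h'
  exact ⟨B + B', fun p => (abs_add_le _ _).trans (add_le_add (hB p) (hB' p))⟩

theorem BddC.sub {c c' : Nat.Primes → ℝ} (h : BddC c) (h' : BddC c') :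
    BddC fun p => c p - c' p := by
  obtain ⟨B, hB⟩ := h
  obtain ⟨B', hB'⟩ := h'
  exact ⟨B + B', fun p => (abs_sub _ _).trans (add_le_add (hB p) (hB' p))⟩

theorem BddC.const_mul {c : Nat.Primes → ℝ} (h : BddC c) (x : ℝ) : BddC fun p => x * c p := by
  obtain ⟨B, hB⟩ := h
  exact ⟨|x| * B, fun p => by rw [abs_mul]; exact mul_le_mul_of_nonneg_left (hB p) (abs_nonneg _)⟩

theorem BddC.mul {c c' : Nat.Primes → ℝ} (h : BddC c) (h' : BddC c') :
    BddC fun p => c p * c' p := by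
  obtain ⟨B, hB⟩ := h
  obtain ⟨B', hB'⟩ := h'
  refine ⟨B * B', fun p => ?_⟩
  rw [abs_mul]
  exact mul_le_mul (hB p) (hB' p) (abs_nonneg _) ((abs_nonneg _).trans (hB p))

theorem BddC.sum {ι : Type*} {s : Finset ι} {c : ι → Nat.Primes → ℝ}
    (h : ∀ i ∈ s, BddC (c i)) : BddC fun p => ∑ i ∈ s, c i p := by
  classical
  induction s using Finset.induction_on with
  | empty => exact ⟨0, fun p => by simp⟩
  | insert i s hi ih =>
    have h1 := (h i (Finset.mem_insert_self _ _)).add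
      (ih fun j hj => h j (Finset.mem_insert_of_mem hj))
    obtain ⟨B, hB⟩ := h1
    exact ⟨B, fun p => by beta_reduce; rw [Finset.sum_insert hi]; exact hB p⟩

variable {ℓ η : ℝ}

theorem BddC.summable {c : Nat.Primes → ℝ} (h : BddC c) (hℓ : 1 ≤ ℓ) (hη : 0 < η)
    (hη1 : η ≤ 1) : Summable fun p : Nat.Primes => c p * wt ℓ η p := by
  obtain ⟨B, hB⟩ := h
  refine Summable.of_norm_bounded (g := fun p : Nat.Primes => B * wt ℓ η p)
    ((summable_wt hℓ hη hη1).mul_left B) fun p => ?_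
  have h1 := (wt_nonneg hℓ hη hη1 p p.2).1
  rw [Real.norm_eq_abs, abs_mul, abs_of_nonneg h1]
  exact mul_le_mul_of_nonneg_right (hB p) h1

/-- weighted sums over primes -/
noncomputable def TSm (ℓ η : ℝ) (c : Nat.Primes → ℝ) : ℝ := ∑' p : Nat.Primes, c p * wt ℓ η p

theorem TSm_mono {c c' : Nat.Primes → ℝ} (h : BddC c) (h' : BddC c') (hℓ : 1 ≤ ℓ) (hη : 0 < η)
    (hη1 : η ≤ 1) (hle : ∀ p, c p ≤ c' p) : TSm ℓ η c ≤ TSm ℓ η c' :=
  (h.summable hℓ hη hη1).tsum_le_tsum
    (fun p => mul_le_mul_of_nonneg_right (hle p) (wt_nonneg hℓ hη hη1 p p.2).1)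
    (h'.summable hℓ hη hη1)

theorem TSm_nonneg {c : Nat.Primes → ℝ} (hℓ : 1 ≤ ℓ) (hη : 0 < η)
    (hη1 : η ≤ 1) (hle : ∀ p, 0 ≤ c p) : 0 ≤ TSm ℓ η c :=
  tsum_nonneg fun p => mul_nonneg (hle p) (wt_nonneg hℓ hη hη1 p p.2).1

theorem TSm_add {c c' : Nat.Primes → ℝ} (h : BddC c) (h' : BddC c') (hℓ : 1 ≤ ℓ) (hη : 0 < η)
    (hη1 : η ≤ 1) : TSm ℓ η (fun p => c p + c' p) = TSm ℓ η c + TSm ℓ η c' := by
  unfold TSm
  rw [← (h.summable hℓ hη hη1).tsum_add (h'.summable hℓ hη hη1)]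
  exact tsum_congr fun p => by ring

theorem TSm_sub {c c' : Nat.Primes → ℝ} (h : BddC c) (h' : BddC c') (hℓ : 1 ≤ ℓ) (hη : 0 < η)
    (hη1 : η ≤ 1) : TSm ℓ η (fun p => c p - c' p) = TSm ℓ η c - TSm ℓ η c' := by
  unfold TSm
  rw [← (h.summable hℓ hη hη1).tsum_sub (h'.summable hℓ hη hη1)]
  exact tsum_congr fun p => by ring

theorem TSm_const_mul {c : Nat.Primes → ℝ} (x : ℝ) :
    TSm ℓ η (fun p => x * c p) = x * TSm ℓ η c := by
  unfold TSm
  rw [← tsum_mul_left]
  exact tsum_congr fun p => by ring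

theorem TSm_sum {ι : Type*} {s : Finset ι} {c : ι → Nat.Primes → ℝ}
    (h : ∀ i ∈ s, BddC (c i)) (hℓ : 1 ≤ ℓ) (hη : 0 < η) (hη1 : η ≤ 1) :
    TSm ℓ η (fun p => ∑ i ∈ s, c i p) = ∑ i ∈ s, TSm ℓ η (c i) := by
  unfold TSm
  rw [← Summable.tsum_finsetSum fun i hi => (h i hi).summable hℓ hη hη1]
  exact tsum_congr fun p => by rw [Finset.sum_mul]

/-- the weight of one prime is at most one -/
theorem wt_le_one (hℓ : 1 ≤ ℓ) (hη : 0 < η) (hη1 : η ≤ 1) (p : ℕ) (hp : p.Prime) :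
    wt ℓ η p ≤ 1 := by
  refine (wt_nonneg hℓ hη hη1 p hp).2.trans ?_
  have hp0 : (0 : ℝ) < p := by exact_mod_cast hp.pos
  rw [div_le_one (by positivity)]
  have h1 : Real.log p ≤ p := (Real.log_le_sub_one_of_pos hp0).trans (by linarith)
  nlinarith only [hℓ, h1]

open Classical in
/-- the weight of one prime -/
theorem TSm_single (hℓ : 1 ≤ ℓ) (hη : 0 < η) (hη1 : η ≤ 1) (q : ℕ) :
    TSm ℓ η (fun p => if (p : ℕ) = q then 1 else 0) ≤ 1 := by
  by_cases hq : q.Prime
  · have h1 : TSm ℓ η (fun p => if (p : ℕ) = q then 1 else 0) =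
        (if ((⟨q, hq⟩ : Nat.Primes) : ℕ) = q then (1 : ℝ) else 0) *
          wt ℓ η ((⟨q, hq⟩ : Nat.Primes) : ℕ) := by
      unfold TSm
      have h3 : ∀ p : Nat.Primes, p ≠ ⟨q, hq⟩ →
          (if (p : ℕ) = q then (1 : ℝ) else 0) * wt ℓ η p = 0 := fun p hp => by
        have : (p : ℕ) ≠ q := fun h => hp (Subtype.ext h)
        rw [if_neg this, zero_mul]
      have h4 : ∑' p : Nat.Primes, (if (p : ℕ) = q then (1 : ℝ) else 0) * wt ℓ η p =
          ∑ p ∈ {(⟨q, hq⟩ : Nat.Primes)}, (if (p : ℕ) = q then (1 : ℝ) else 0) * wt ℓ η p :=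
        tsum_eq_sum fun p hp => h3 p fun h => hp (Finset.mem_singleton.2 h)
      rw [Finset.sum_singleton] at h4
      exact h4
    have h2 : ((⟨q, hq⟩ : Nat.Primes) : ℕ) = q := rfl
    rw [h1, if_pos h2, one_mul, h2]
    exact wt_le_one hℓ hη hη1 q hq
  · have : TSm ℓ η (fun p => if (p : ℕ) = q then 1 else 0) = 0 := by
      unfold TSm
      have h1 : ∀ p : Nat.Primes, (if (p : ℕ) = q then (1 : ℝ) else 0) * wt ℓ η p = 0 := by
        intro p
        have : (p : ℕ) ≠ q := fun h => hq (h ▸ p.2)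
        rw [if_neg this, zero_mul]
      rw [tsum_congr h1, tsum_zero]
    rw [this]
    exact zero_le_one

open Classical in
/-- the weight of the primes dividing a nonzero integer, non-uniform bound -/
theorem TSm_dvd (hℓ : 1 ≤ ℓ) {D : ℤ} (hD : D ≠ 0) : ∃ C : ℝ, ∀ η : ℝ, 0 < η → η ≤ 1 →
    TSm ℓ η (fun p => if ((p : ℕ) : ℤ) ∣ D then 1 else 0) ≤ C := by
  have hfin : {p : Nat.Primes | ((p : ℕ) : ℤ) ∣ D}.Finite := by
    refine Set.Finite.of_finite_image (f := fun p : Nat.Primes => (p : ℕ)) ?_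
      (fun p _ p' _ h => Subtype.ext h)
    refine (Set.finite_Iic D.natAbs).subset ?_
    rintro _ ⟨p, hp, rfl⟩
    exact Nat.le_of_dvd (Int.natAbs_pos.2 hD) (Int.natCast_dvd.1 hp)
  refine ⟨hfin.toFinset.card, fun η hη hη1 => ?_⟩
  have h1 : TSm ℓ η (fun p => if ((p : ℕ) : ℤ) ∣ D then 1 else 0) =
      ∑ p ∈ hfin.toFinset, (if ((p : ℕ) : ℤ) ∣ D then (1 : ℝ) else 0) * wt ℓ η p := by
    refine tsum_eq_sum fun p hp => ?_
    have hp' : ¬ ((p : ℕ) : ℤ) ∣ D := by simpa only [Set.Finite.mem_toFinset,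
                                           Set.mem_ofPred_eq] using hp
    beta_reduce
    rw [if_neg hp', zero_mul]
  rw [h1]
  refine (Finset.sum_le_card_nsmul _ _ 1 fun p hp => ?_).trans (by simp only [nsmul_eq_mul,
                                                                     mul_one, Std.le_refl])
  have hp' : ((p : ℕ) : ℤ) ∣ D := by simpa only [Set.Finite.mem_toFinset,
                                       Set.mem_ofPred_eq] using hp
  rw [if_pos hp', one_mul]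
  exact wt_le_one hℓ hη hη1 p p.2

section Char

variable {q d : ℕ} {χ : DirichletCharacter ℂ q}

/-- values of a character of order `d` -/
theorem chi_pow_eq (hord : orderOf χ = d) (a : ZMod q) (ha : χ a ≠ 0) : χ a ^ d = 1 := by
  have hu : IsUnit a := by
    by_contra h
    exact ha (χ.map_nonunit h)
  have h1 : χ ^ d = 1 := by rw [← hord]; exact pow_orderOf_eq_one χ
  obtain ⟨u, rfl⟩ := hu
  have h2 : (χ ^ d) (u : ZMod q) = (1 : DirichletCharacter ℂ q) (u : ZMod q) := by rw [h1]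
  rwa [MulChar.pow_apply_coe, MulChar.one_apply_coe] at h2

theorem one_apply_re (a : ZMod q) : ((1 : DirichletCharacter ℂ q) a).re =
    if χ a = 0 then 0 else 1 := by
  by_cases h : IsUnit a
  · obtain ⟨u, rfl⟩ := h
    have h1 : χ (u : ZMod q) ≠ 0 := (u.isUnit.map χ).ne_zero
    rw [MulChar.one_apply_coe, if_neg h1, Complex.one_re]
  · rw [MulChar.map_nonunit _ h, if_pos (χ.map_nonunit h), Complex.zero_re]

/-- the sum over the powers of the character detects `χ(p) = 1` -/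
theorem sum_char (hd : Odd d) (hord : orderOf χ = d) (a : ZMod q) :
    ((1 : DirichletCharacter ℂ q) a).re +
      2 * ∑ j : Fin ((d - 1) / 2), ((χ ^ ((j : ℕ) + 1) : DirichletCharacter ℂ q) a).re =
      if χ a = 1 then (d : ℝ) else 0 := by
  obtain ⟨m, hm⟩ := hd
  have hm' : (d - 1) / 2 = m := by omega
  rw [hm', one_apply_re (χ := χ)]
  have hpow : ∀ j : ℕ, ((χ ^ (j + 1) : DirichletCharacter ℂ q) a) = χ a ^ (j + 1) := fun j =>
    MulChar.pow_apply' χ (Nat.succ_ne_zero j) a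
  simp only [hpow]
  rw [Fin.sum_univ_eq_sum_range (fun j => (χ a ^ (j + 1)).re) m]
  by_cases h0 : χ a = 0
  · rw [if_pos h0, h0]
    simp
  · rw [if_neg h0]
    set z := χ a with hz
    have hzd : z ^ d = 1 := chi_pow_eq hord a h0
    by_cases h1 : z = 1
    · rw [if_pos h1, h1]
      simp only [one_pow, Complex.one_re, Finset.sum_const, Finset.card_range, nsmul_eq_mul,
        mul_one, hm]
      push_cast
      ring
    · rw [if_neg h1]
      have hgeom : ∑ j ∈ Finset.range d, z ^ j = 0 := by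
        have h2 := mul_geom_sum z d
        rw [hzd, sub_self] at h2
        exact (mul_eq_zero.1 h2).resolve_left (sub_ne_zero.2 h1)
      have hnorm : ‖z‖ = 1 := Complex.norm_eq_one_of_pow_eq_one hzd (by omega)
      have hconj : ∀ j ≤ d, (z ^ (d - j)).re = (z ^ j).re := by
        intro j hj
        have h2 : z ^ (d - j) * z ^ j = 1 := by rw [← pow_add, Nat.sub_add_cancel hj, hzd]
        have h3 : z ^ (d - j) = (starRingEnd ℂ) (z ^ j) := by
          have h4 : (starRingEnd ℂ) (z ^ j) * z ^ j = 1 := by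
            rw [Complex.conj_mul', norm_pow, hnorm]
            simp
          have h5 : z ^ j ≠ 0 := pow_ne_zero _ h0
          exact mul_right_cancel₀ h5 (h2.trans h4.symm)
        rw [h3, Complex.conj_re]
      have hre : ∑ j ∈ Finset.range d, (z ^ j).re = 0 := by
        rw [← Complex.re_sum, hgeom, Complex.zero_re]
      rw [hm, show 2 * m + 1 = (m + m) + 1 from by ring, Finset.sum_range_succ', pow_zero,
        Complex.one_re, Finset.sum_range_add] at hre
      have h2 : ∑ j ∈ Finset.range m, (z ^ (m + j + 1)).re =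
          ∑ j ∈ Finset.range m, (z ^ (j + 1)).re := by
        rw [← Finset.sum_range_reflect]
        refine Finset.sum_congr rfl fun j hj => ?_
        have hj' := Finset.mem_range.1 hj
        rw [← hconj (j + 1) (by omega)]
        congr 2
        omega
      rw [h2] at hre
      linarith only [hre]

end Char

end PartA

/-! ### Algebraic preliminaries -/

section PartB

section Group

/-- a character of a cyclic group with prescribed kernel -/
theorem exists_psi {G : Type*} [Group G] {H' H : Subgroup G} {d : ℕ} (hd : d ≠ 0)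
    (hc : IsCyclic H) (hidx : H'.relIndex H = d) :
    ∃ ψ : H →* ℂˣ, (∀ h : H, ψ h = 1 ↔ (h : G) ∈ H') ∧ ∀ h : H, ψ h ^ d = 1 := by
  haveI : NeZero d := ⟨hd⟩
  obtain ⟨g, hg⟩ := hc.exists_generator
  have hcomm : ∀ a b : H, a * b = b * a := by
    intro a b
    obtain ⟨i, rfl⟩ := Subgroup.mem_zpowers_iff.1 (hg a)
    obtain ⟨j, rfl⟩ := Subgroup.mem_zpowers_iff.1 (hg b)
    exact ((Commute.refl g).zpow_zpow i j).eq
  set N : Subgroup H := H'.subgroupOf H with hN
  haveI : N.Normal := ⟨fun n hn h => by rw [hcomm h n, mul_inv_cancel_right]; exact hn⟩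
  haveI : IsCyclic (H ⧸ N) :=
    isCyclic_of_surjective (QuotientGroup.mk' N) (QuotientGroup.mk'_surjective N)
  have hcard : Nat.card (H ⧸ N) = Nat.card (rootsOfUnity d ℂ) := by
    rw [Complex.card_rootsOfUnity]
    exact hidx
  let e : H ⧸ N ≃* rootsOfUnity d ℂ := mulEquivOfCyclicCardEq hcard
  refine ⟨(rootsOfUnity d ℂ).subtype.comp (e.toMonoidHom.comp (QuotientGroup.mk' N)), ?_, ?_⟩
  · intro h
    have h1 : ((rootsOfUnity d ℂ).subtype.comp (e.toMonoidHom.comp (QuotientGroup.mk' N))) h =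
        ((e (h : H ⧸ N) : rootsOfUnity d ℂ) : ℂˣ) := rfl
    rw [h1]
    constructor
    · intro h2
      have h3 : e (h : H ⧸ N) = 1 := Subtype.ext h2
      have h4 : (h : H ⧸ N) = 1 := by
        rw [← e.map_one] at h3
        exact e.injective h3
      exact (QuotientGroup.eq_one_iff h).1 h4
    · intro h2
      have h4 : (h : H ⧸ N) = 1 := (QuotientGroup.eq_one_iff h).2 h2
      rw [h4, map_one]
      rfl
  · intro h
    exact (mem_rootsOfUnity d _).1 (e (h : H ⧸ N)).2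

/-- the subgroups `H_s` -/
def Hs {G' G : Type*} [Group G'] [Group G] (ρ : G' →* G) (H : Subgroup G) (ψ : H →* ℂˣ)
    (κ : G' →* ℂˣ) (s : ℕ) : Subgroup G' where
  carrier := {σ | ∃ h : ρ σ ∈ H, ψ ⟨ρ σ, h⟩ * κ σ ^ s = 1}
  mul_mem' := by
    rintro a b ⟨ha, ha'⟩ ⟨hb, hb'⟩
    refine ⟨by rw [map_mul]; exact H.mul_mem ha hb, ?_⟩
    have h1 : (⟨ρ (a * b), by rw [map_mul]; exact H.mul_mem ha hb⟩ : H) =
        ⟨ρ a, ha⟩ * ⟨ρ b, hb⟩ := Subtype.ext (map_mul ρ a b)
    rw [h1, map_mul, map_mul, mul_pow]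
    calc ψ ⟨ρ a, ha⟩ * ψ ⟨ρ b, hb⟩ * (κ a ^ s * κ b ^ s) =
        (ψ ⟨ρ a, ha⟩ * κ a ^ s) * (ψ ⟨ρ b, hb⟩ * κ b ^ s) := by
          rw [mul_mul_mul_comm]
      _ = 1 := by rw [ha', hb', one_mul]
  one_mem' := by
    refine ⟨by rw [map_one]; exact H.one_mem, ?_⟩
    have h1 : (⟨ρ 1, by rw [map_one]; exact H.one_mem⟩ : H) = 1 := Subtype.ext (map_one ρ)
    rw [h1, map_one, map_one, one_pow, one_mul]
  inv_mem' := by
    rintro a ⟨ha, ha'⟩
    refine ⟨by rw [map_inv]; exact H.inv_mem ha, ?_⟩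
    have h1 : (⟨ρ a⁻¹, by rw [map_inv]; exact H.inv_mem ha⟩ : H) = (⟨ρ a, ha⟩ : H)⁻¹ :=
      Subtype.ext (map_inv ρ a)
    rw [h1, map_inv, map_inv, inv_pow, ← mul_inv, ha', inv_one]

end Group

section Frob

/-- a Frobenius at a prime above `p` lies in `K` -/
def FrobIn (W : Type) [Field W] [NumberField W] (K : Subgroup (W ≃ₐ[ℚ] W)) (p : ℕ) : Prop :=
  ∃ (Q : Ideal (𝓞 W)) (σ : W ≃ₐ[ℚ] W), Q.IsMaximal ∧ (p : 𝓞 W) ∈ Q ∧ σ ∈ K ∧
      ∀ x : 𝓞 W, RingOfIntegers.mapRingEquiv σ.toRingEquiv x - x ^ p ∈ Q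

theorem frobIn_iff {W : Type} [Field W] [NumberField W] {K : Subgroup (W ≃ₐ[ℚ] W)} {p : ℕ}
    (hp : p.Prime) : 0 < aE (IntermediateField.fixedField K) p ↔ FrobIn W K p := by
  constructor
  · exact exists_frob W K p hp
  · rintro ⟨Q, σ, hQ, hpQ, hσ, hfr⟩
    exact aE_pos_of_frob W K p hp Q σ hQ hpQ (fun x hx => hx ⟨σ, hσ⟩) hfr

theorem FrobIn.mono {W : Type} [Field W] [NumberField W] {K K' : Subgroup (W ≃ₐ[ℚ] W)} {p : ℕ}
    (h : FrobIn W K p) (hK : K ≤ K') : FrobIn W K' p := by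
  obtain ⟨Q, σ, hQ, hpQ, hσ, hfr⟩ := h
  exact ⟨Q, σ, hQ, hpQ, hK hσ, hfr⟩

end Frob

section Fixed

variable {L W : Type} [Field L] [NumberField L] [Field W] [NumberField W] [Algebra L W]
  [IsGalois ℚ L] [IsGalois ℚ W]

/-- the fixed field of the preimage -/
theorem exists_fixed_equiv (K : Subgroup (L ≃ₐ[ℚ] L)) :
    Nonempty (IntermediateField.fixedField K ≃+*
      IntermediateField.fixedField (K.comap (AlgEquiv.restrictNormalHom (F := ℚ) (K₁ := W) L))) := by
  set ρ := AlgEquiv.restrictNormalHom (F := ℚ) (K₁ := W) L with hρ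
  have hρc : ∀ (σ : W ≃ₐ[ℚ] W) (x : L), algebraMap L W (ρ σ x) = σ (algebraMap L W x) :=
    fun σ x => AlgEquiv.restrictNormal_commutes σ L x
  have hsurj : Function.Surjective ρ := AlgEquiv.restrictNormalHom_surjective W
  have hmem : ∀ x ∈ IntermediateField.fixedField K,
      algebraMap L W x ∈ IntermediateField.fixedField (K.comap ρ) := by
    rintro x hx ⟨σ, hσ⟩
    change σ (algebraMap L W x) = algebraMap L W x
    rw [← hρc]
    congr 1
    exact hx ⟨ρ σ, hσ⟩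
  let f : IntermediateField.fixedField K →+* IntermediateField.fixedField (K.comap ρ) :=
    { toFun := fun x => ⟨algebraMap L W x, hmem x x.2⟩
      map_one' := Subtype.ext (map_one _)
      map_mul' := fun x y => Subtype.ext (map_mul _ _ _)
      map_zero' := Subtype.ext (map_zero _)
      map_add' := fun x y => Subtype.ext (map_add _ _ _) }
  refine ⟨RingEquiv.ofBijective f ⟨f.injective, ?_⟩⟩
  rintro ⟨y, hy⟩
  haveI : IsGalois L W := IsGalois.tower_top_of_isGalois ℚ L W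
  have h1 : y ∈ (⊥ : IntermediateField L W) := by
    rw [IsGalois.mem_bot_iff_fixed]
    intro g
    have hg : g.restrictScalars ℚ ∈ K.comap ρ := by
      change ρ (g.restrictScalars ℚ) ∈ K
      have h2 : ρ (g.restrictScalars ℚ) = 1 := by
        ext x
        apply (algebraMap L W).injective
        rw [hρc]
        exact g.commutes x
      rw [h2]
      exact K.one_mem
    exact hy ⟨g.restrictScalars ℚ, hg⟩
  rw [IntermediateField.mem_bot] at h1
  obtain ⟨x, rfl⟩ := h1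
  refine ⟨⟨x, ?_⟩, Subtype.ext rfl⟩
  rintro ⟨h, hh⟩
  change h x = x
  obtain ⟨σ, rfl⟩ := hsurj h
  apply (algebraMap L W).injective
  rw [hρc]
  exact hy ⟨σ, hh⟩

theorem aE_fixed_comap (K : Subgroup (L ≃ₐ[ℚ] L)) (m : ℕ) :
    aE (IntermediateField.fixedField K) m =
      aE (IntermediateField.fixedField
        (K.comap (AlgEquiv.restrictNormalHom (F := ℚ) (K₁ := W) L))) m := by
  obtain ⟨e⟩ := exists_fixed_equiv (W := W) K
  exact aE_congr _ _ e m

end Fixed

end PartB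

/-! ### The three coefficient comparisons -/

section PartC

section

variable {q : ℕ}

/-- coefficients of `Del` -/
noncomputable def cf (E : Type) [Field E] [NumberField E] (χ : DirichletCharacter ℂ q)
    (p : Nat.Primes) : ℝ := (χ ((p : ℕ) : ZMod q)).re * (aE E p : ℝ)

theorem Del_eq (E : Type) [Field E] [NumberField E] (χ : DirichletCharacter ℂ q) (ℓ η : ℝ) :
    Del E χ ℓ η = TSm ℓ η (cf E χ) := rfl

theorem bddC_aE (E : Type) [Field E] [NumberField E] :
    BddC fun p : Nat.Primes => (aE E p : ℝ) :=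
  ⟨Module.finrank ℚ E, fun p => by
    beta_reduce
    rw [abs_of_nonneg (Nat.cast_nonneg _)]
    exact_mod_cast aE_le E p p.2⟩

theorem bddC_cf (E : Type) [Field E] [NumberField E] (χ : DirichletCharacter ℂ q) :
    BddC (cf E χ) := by
  have h1 : BddC fun p : Nat.Primes => (χ ((p : ℕ) : ZMod q)).re :=
    ⟨1, fun p => (Complex.abs_re_le_norm _).trans (χ.norm_le_one _)⟩
  exact h1.mul (bddC_aE E)

theorem chi_self (hq : q.Prime) (χ : DirichletCharacter ℂ q) : χ ((q : ℕ) : ZMod q) = 0 := by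
  haveI : Fact q.Prime := ⟨hq⟩
  rw [ZMod.natCast_self]
  exact χ.map_nonunit not_isUnit_zero

theorem chi_ne (hq : q.Prime) (χ : DirichletCharacter ℂ q) {p : ℕ} (hp : p.Prime) (h : p ≠ q) :
    χ ((p : ℕ) : ZMod q) ≠ 0 := by
  have h1 : IsUnit ((p : ℕ) : ZMod q) :=
    (ZMod.isUnit_iff_coprime p q).2 ((Nat.coprime_primes hp hq).2 h)
  exact (h1.map χ).ne_zero

theorem cf_one_ne (hq : q.Prime) (E : Type) [Field E] [NumberField E] {p : Nat.Primes}
    (h : (p : ℕ) ≠ q) : cf E (1 : DirichletCharacter ℂ q) p = aE E p := by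
  unfold cf
  rw [one_apply_re (χ := (1 : DirichletCharacter ℂ q)), if_neg (chi_ne hq _ p.2 h), one_mul]

theorem cf_self (hq : q.Prime) (E : Type) [Field E] [NumberField E]
    (χ : DirichletCharacter ℂ q) {p : Nat.Primes}
    (h : (p : ℕ) = q) : cf E χ p = 0 := by
  unfold cf
  rw [h, chi_self hq, Complex.zero_re, zero_mul]

theorem cf_one_nonneg (hq : q.Prime) (E : Type) [Field E] [NumberField E] (p : Nat.Primes) :
    0 ≤ cf E (1 : DirichletCharacter ℂ q) p := by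
  by_cases h : (p : ℕ) = q
  · rw [cf_self hq E _ h]
  · rw [cf_one_ne hq E h]
    exact Nat.cast_nonneg _

theorem Del_one_nonneg (hq : q.Prime) (E : Type) [Field E] [NumberField E] {ℓ η : ℝ}
    (hℓ : 1 ≤ ℓ) (hη : 0 < η) (hη1 : η ≤ 1) :
    0 ≤ Del E (1 : DirichletCharacter ℂ q) ℓ η :=
  TSm_nonneg hℓ hη hη1 (cf_one_nonneg hq E)

open Classical in
theorem Sc_eq (E : Type) [Field E] [NumberField E] (ℓ η : ℝ) :
    Sc E (fun _ => True) ℓ η = TSm ℓ η (fun p => if 0 < aE E p then 1 else 0) := by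
  unfold Sc TSm
  refine tsum_congr fun p => ?_
  beta_reduce
  by_cases h : 0 < aE E p
  · rw [if_pos ⟨h, trivial⟩, if_pos h, one_mul]
  · rw [if_neg (fun h' => h h'.1), if_neg h, zero_mul]

theorem bddC_ind (P : Nat.Primes → Prop) [∀ p, Decidable (P p)] :
    BddC fun p => if P p then (1 : ℝ) else 0 :=
  ⟨1, fun p => by
    beta_reduce
    split_ifs
    · rw [abs_one]
    · rw [abs_zero]; exact zero_le_one⟩

theorem Sc_anti (E : Type) [Field E] [NumberField E] {ℓ η η' : ℝ} (hℓ : 1 ≤ ℓ) (hη : 0 < η)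
    (h : η ≤ η') (hη1 : η' ≤ 1) :
    Sc E (fun _ => True) ℓ η' ≤ Sc E (fun _ => True) ℓ η := by
  classical
  rw [Sc_eq, Sc_eq]
  unfold TSm
  refine ((bddC_ind _).summable hℓ (hη.trans_le h) hη1).tsum_le_tsum (fun p => ?_)
    ((bddC_ind _).summable hℓ hη (h.trans hη1))
  refine mul_le_mul_of_nonneg_left (wt_anti hℓ hη h p p.2) ?_
  beta_reduce
  split_ifs
  · exact zero_le_one
  · exact le_rfl

/-- comparison (ii) -/
theorem sumA {E M : Type} [Field E] [NumberField E] [Field M] [NumberField M]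
    {d : ℕ} {χ : DirichletCharacter ℂ q} (hq : q.Prime) (hd : Odd d) (hord : orderOf χ = d)
    (n : ℕ) (haE : ∀ p : ℕ, p.Prime → aE E p ≤ n)
    (himp : ∀ p : ℕ, p.Prime → p ≠ q → 0 < aE E p → χ (p : ZMod q) = 1 → 0 < aE M p)
    {ℓ η : ℝ} (hℓ : 1 ≤ ℓ) (hη : 0 < η) (hη1 : η ≤ 1) :
    0 ≤ Del E (1 : DirichletCharacter ℂ q) ℓ η +
        2 * ∑ j : Fin ((d - 1) / 2), Del E (χ ^ ((j : ℕ) + 1)) ℓ η ∧
      Del E (1 : DirichletCharacter ℂ q) ℓ η +
        2 * ∑ j : Fin ((d - 1) / 2), Del E (χ ^ ((j : ℕ) + 1)) ℓ η ≤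
      (d * n : ℝ) * Sc M (fun _ => True) ℓ η := by
  classical
  have hb1 := bddC_cf E (1 : DirichletCharacter ℂ q)
  have hb2 : ∀ j : Fin ((d - 1) / 2), BddC (cf E (χ ^ ((j : ℕ) + 1))) := fun j => bddC_cf E _
  have hb3 : BddC fun p => ∑ j : Fin ((d - 1) / 2), cf E (χ ^ ((j : ℕ) + 1)) p :=
    BddC.sum fun j _ => hb2 j
  have key : Del E (1 : DirichletCharacter ℂ q) ℓ η +
        2 * ∑ j : Fin ((d - 1) / 2), Del E (χ ^ ((j : ℕ) + 1)) ℓ η =
      TSm ℓ η (fun p => cf E (1 : DirichletCharacter ℂ q) p +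
        2 * ∑ j : Fin ((d - 1) / 2), cf E (χ ^ ((j : ℕ) + 1)) p) := by
    rw [TSm_add hb1 (hb3.const_mul 2) hℓ hη hη1, TSm_const_mul,
      TSm_sum (fun j _ => hb2 j) hℓ hη hη1]
    rfl
  have hc : ∀ p : Nat.Primes, cf E (1 : DirichletCharacter ℂ q) p +
        2 * ∑ j : Fin ((d - 1) / 2), cf E (χ ^ ((j : ℕ) + 1)) p =
      (if χ ((p : ℕ) : ZMod q) = 1 then (d : ℝ) else 0) * (aE E p : ℝ) := by
    intro p
    rw [← sum_char hd hord]
    unfold cf
    rw [← Finset.sum_mul]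
    ring
  rw [key, Sc_eq, ← TSm_const_mul]
  have hnn : ∀ p : Nat.Primes, 0 ≤ (if χ ((p : ℕ) : ZMod q) = 1 then (d : ℝ) else 0) *
      (aE E p : ℝ) := fun p => by
    refine mul_nonneg ?_ (Nat.cast_nonneg _)
    split_ifs
    · exact Nat.cast_nonneg _
    · exact le_rfl
  refine ⟨TSm_nonneg hℓ hη hη1 fun p => by rw [hc]; exact hnn p,
    TSm_mono (hb1.add (hb3.const_mul 2)) ((bddC_ind _).const_mul _) hℓ hη hη1 fun p => ?_⟩
  rw [hc]
  beta_reduce
  by_cases h1 : χ ((p : ℕ) : ZMod q) = 1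
  · rw [if_pos h1]
    by_cases h0 : 0 < aE E p
    · have hpq : (p : ℕ) ≠ q := by
        intro h
        rw [h, chi_self hq] at h1
        exact zero_ne_one h1
      rw [if_pos (himp p p.2 hpq h0 h1), mul_one]
      exact mul_le_mul_of_nonneg_left (by exact_mod_cast haE p p.2) (Nat.cast_nonneg _)
    · rw [Nat.eq_zero_of_not_pos h0, Nat.cast_zero, mul_zero]
      refine mul_nonneg (by (clear * -; positivity)) ?_
      split_ifs
      · exact zero_le_one
      · exact le_rfl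
  · rw [if_neg h1, zero_mul]
    refine mul_nonneg (by (clear * -; positivity)) ?_
    split_ifs
    · exact zero_le_one
    · exact le_rfl

/-- comparison (iii) -/
theorem sumB {F : Type} [Field F] [NumberField F] {ι : Type} (s : Finset ι) (E : ι → Type)
    [∀ i, Field (E i)] [∀ i, NumberField (E i)] {χ : DirichletCharacter ℂ q} (hq : q.Prime)
    (n : ℕ) (haF : ∀ p : ℕ, p.Prime → aE F p ≤ n)
    (himp : ∀ p : ℕ, p.Prime → p ≠ q → 0 < aE F p → χ (p : ZMod q) ≠ 1 →
      ∃ i ∈ s, 0 < aE (E i) p)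
    {ℓ η : ℝ} (hℓ : 1 ≤ ℓ) (hη : 0 < η) (hη1 : η ≤ 1) :
    Del F (1 : DirichletCharacter ℂ q) ℓ η - Del F χ ℓ η ≤
      (2 * n : ℝ) * ∑ i ∈ s, Del (E i) (1 : DirichletCharacter ℂ q) ℓ η := by
  have hb : ∀ i ∈ s, BddC (cf (E i) (1 : DirichletCharacter ℂ q)) := fun i _ => bddC_cf _ _
  rw [Del_eq, Del_eq, ← TSm_sub (bddC_cf F _) (bddC_cf F _) hℓ hη hη1]
  have h1 : (2 * n : ℝ) * ∑ i ∈ s, Del (E i) (1 : DirichletCharacter ℂ q) ℓ η =
      TSm ℓ η (fun p => (2 * n : ℝ) * ∑ i ∈ s, cf (E i) (1 : DirichletCharacter ℂ q) p) := by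
    rw [TSm_const_mul, TSm_sum hb hℓ hη hη1]
    rfl
  rw [h1]
  refine TSm_mono ((bddC_cf F _).sub (bddC_cf F _)) ((BddC.sum hb).const_mul _) hℓ hη hη1
    fun p => ?_
  beta_reduce
  have hnn : 0 ≤ ∑ i ∈ s, cf (E i) (1 : DirichletCharacter ℂ q) p :=
    Finset.sum_nonneg fun i _ => cf_one_nonneg hq _ p
  by_cases hpq : (p : ℕ) = q
  · rw [cf_self hq F _ hpq, cf_self hq F _ hpq, sub_zero]
    exact mul_nonneg (by (clear * -; positivity)) hnn
  · rw [cf_one_ne hq F hpq]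
    by_cases h1 : χ ((p : ℕ) : ZMod q) = 1
    · have : cf F χ p = aE F p := by
        unfold cf
        rw [h1, Complex.one_re, one_mul]
      rw [this, sub_self]
      exact mul_nonneg (by (clear * -; positivity)) hnn
    · by_cases h0 : 0 < aE F p
      · obtain ⟨i, hi, hi0⟩ := himp p p.2 hpq h0 h1
        have h2 : (1 : ℝ) ≤ ∑ i ∈ s, cf (E i) (1 : DirichletCharacter ℂ q) p := by
          refine le_trans ?_ (Finset.single_le_sum
            (f := fun i => cf (E i) (1 : DirichletCharacter ℂ q) p)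
            (fun j _ => cf_one_nonneg hq _ p) hi)
          beta_reduce
          rw [cf_one_ne hq (E i) hpq]
          exact_mod_cast hi0
        have h3 : -(aE F p : ℝ) ≤ cf F χ p := by
          unfold cf
          have h4 := abs_le.1 ((Complex.abs_re_le_norm (χ ((p : ℕ) : ZMod q))).trans
            (χ.norm_le_one _))
          have h5 : (0 : ℝ) ≤ aE F p := Nat.cast_nonneg _
          nlinarith [h4.1]
        have h4 : (aE F p : ℝ) ≤ n := by exact_mod_cast haF p p.2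
        have h5 : (0 : ℝ) ≤ 2 * n := by (clear * -; positivity)
        nlinarith
      · have h2 : cf F χ p = 0 := by
          unfold cf
          rw [Nat.eq_zero_of_not_pos h0, Nat.cast_zero, mul_zero]
        rw [h2, Nat.eq_zero_of_not_pos h0, Nat.cast_zero, sub_zero]
        exact mul_nonneg (by (clear * -; positivity)) hnn

/-- the gap of the nontrivial roots of unity -/
theorem exists_gap (d : ℕ) (hd : 0 < d) : ∃ c : ℝ, 0 < c ∧ ∀ z : ℂ, z ^ d = 1 → z ≠ 1 →
    z.re ≤ 1 - c := by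
  have h1 : ∀ z : ℂ, z ^ d = 1 → z ≠ 1 → z.re < 1 := by
    intro z hz hz1
    have hnorm : ‖z‖ = 1 := Complex.norm_eq_one_of_pow_eq_one hz hd.ne'
    refine lt_of_le_of_ne ((Complex.re_le_norm z).trans hnorm.le) fun h => hz1 ?_
    have h2 : z.re ^ 2 + z.im ^ 2 = 1 := by
      have h3 := Complex.sq_norm_sub_sq_re z
      rw [hnorm] at h3
      linarith only [h3]
    rw [h] at h2
    have h3 : z.im = 0 := by
      have : z.im ^ 2 = 0 := by linarith only [h2]
      exact pow_eq_zero_iff (two_ne_zero) |>.1 this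
    exact Complex.ext (by rw [h, Complex.one_re]) (by rw [h3, Complex.one_im])
  have h2 : ∀ S : Finset ℂ, (∀ z ∈ S, z.re < 1) → ∃ c : ℝ, 0 < c ∧ ∀ z ∈ S, z.re ≤ 1 - c := by
    intro S
    classical
    induction S using Finset.induction_on with
    | empty => exact fun _ => ⟨1, one_pos, fun z hz => absurd hz (Finset.notMem_empty z)⟩
    | insert a S ha ih =>
      intro h
      obtain ⟨c, hc, hcS⟩ := ih fun z hz => h z (Finset.mem_insert_of_mem hz)
      refine ⟨min c (1 - a.re), lt_min hc (by linarith only [h a (Finset.mem_insert_self _ _), h]), ?_⟩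
      intro z hz
      rcases Finset.mem_insert.1 hz with rfl | hz
      · linarith [min_le_right c (1 - z.re)]
      · linarith [hcS z hz, min_le_left c (1 - a.re)]
  classical
  obtain ⟨c, hc, hcS⟩ := h2 ((Polynomial.nthRootsFinset d (1 : ℂ)).filter (· ≠ 1))
    (fun z hz => by
      obtain ⟨hz1, hz2⟩ := Finset.mem_filter.1 hz
      exact h1 z ((Polynomial.mem_nthRootsFinset hd (1 : ℂ)).1 hz1) hz2)
  exact ⟨c, hc, fun z hz hz1 => hcS z
    (Finset.mem_filter.2 ⟨(Polynomial.mem_nthRootsFinset hd (1 : ℂ)).2 hz, hz1⟩)⟩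

open Classical in
/-- comparison (iv) -/
theorem sumC {F L W : Type} [Field F] [NumberField F] [Field L] [NumberField L] [Field W]
    [NumberField W] {d : ℕ} {χ : DirichletCharacter ℂ q} (hq : q.Prime)
    (hord : orderOf χ = d) {c : ℝ} (hc : 0 < c)
    (hgap : ∀ z : ℂ, z ^ d = 1 → z ≠ 1 → z.re ≤ 1 - c) (nL nW : ℕ) (hnL : 0 < nL)
    (hnW : 0 < nW) (D : ℤ) (haL : ∀ p : ℕ, p.Prime → aE L p ≤ nL)
    (h1 : ∀ p : ℕ, p.Prime → p ≠ q → 0 < aE L p → 0 < aE F p)
    (h2 : ∀ p : ℕ, p.Prime → p ≠ q → 0 < aE L p → χ (p : ZMod q) = 1 → 0 < aE W p)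
    (h3 : ∀ p : ℕ, p.Prime → ¬ (p : ℤ) ∣ D → 0 < aE W p → aE W p = nW)
    {ℓ η : ℝ} (hℓ : 1 ≤ ℓ) (hη : 0 < η) (hη1 : η ≤ 1) :
    Del F χ ℓ η ≤ Del F (1 : DirichletCharacter ℂ q) ℓ η -
      c * ((nL : ℝ)⁻¹ * Del L (1 : DirichletCharacter ℂ q) ℓ η -
        (nW : ℝ)⁻¹ * Del W (1 : DirichletCharacter ℂ q) ℓ η -
        TSm ℓ η (fun p => if ((p : ℕ) : ℤ) ∣ D then 1 else 0)) := by
  have hbL := (bddC_cf L (1 : DirichletCharacter ℂ q)).const_mul ((nL : ℝ)⁻¹)
  have hbW := (bddC_cf W (1 : DirichletCharacter ℂ q)).const_mul ((nW : ℝ)⁻¹)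
  have hbD := bddC_ind (fun p : Nat.Primes => ((p : ℕ) : ℤ) ∣ D)
  have hbF := bddC_cf F (1 : DirichletCharacter ℂ q)
  have key : Del F (1 : DirichletCharacter ℂ q) ℓ η -
      c * ((nL : ℝ)⁻¹ * Del L (1 : DirichletCharacter ℂ q) ℓ η -
        (nW : ℝ)⁻¹ * Del W (1 : DirichletCharacter ℂ q) ℓ η -
        TSm ℓ η (fun p => if ((p : ℕ) : ℤ) ∣ D then 1 else 0)) =
      TSm ℓ η (fun p => cf F (1 : DirichletCharacter ℂ q) p -
        c * ((nL : ℝ)⁻¹ * cf L (1 : DirichletCharacter ℂ q) p -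
          (nW : ℝ)⁻¹ * cf W (1 : DirichletCharacter ℂ q) p -
          (if ((p : ℕ) : ℤ) ∣ D then 1 else 0))) := by
    rw [TSm_sub hbF (((hbL.sub hbW).sub hbD).const_mul c) hℓ hη hη1, TSm_const_mul,
      TSm_sub (hbL.sub hbW) hbD hℓ hη hη1, TSm_sub hbL hbW hℓ hη hη1, TSm_const_mul,
      TSm_const_mul]
    rfl
  rw [key, Del_eq]
  refine TSm_mono (bddC_cf F χ) (hbF.sub (((hbL.sub hbW).sub hbD).const_mul c)) hℓ hη hη1
    fun p => ?_
  beta_reduce
  by_cases hpq : (p : ℕ) = q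
  · rw [cf_self hq F _ hpq, cf_self hq F _ hpq, cf_self hq L _ hpq, cf_self hq W _ hpq]
    have h4 : (0 : ℝ) ≤ if ((p : ℕ) : ℤ) ∣ D then 1 else 0 := by
      split_ifs
      · exact zero_le_one
      · exact le_rfl
    have := mul_nonneg hc.le h4
    linarith only [this]
  · rw [cf_one_ne hq F hpq, cf_one_ne hq L hpq, cf_one_ne hq W hpq]
    have hnL' : (0 : ℝ) < nL := by exact_mod_cast hnL
    have hnW' : (0 : ℝ) < nW := by exact_mod_cast hnW
    have hL1 : (nL : ℝ)⁻¹ * (aE L p : ℝ) ≤ 1 := by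
      rw [inv_mul_le_iff₀ hnL', mul_one]
      exact_mod_cast haL p p.2
    have hW0 : 0 ≤ (nW : ℝ)⁻¹ * (aE W p : ℝ) := by positivity
    have hD0 : (0 : ℝ) ≤ if ((p : ℕ) : ℤ) ∣ D then 1 else 0 := by
      split_ifs
      · exact zero_le_one
      · exact le_rfl
    by_cases hχ : χ ((p : ℕ) : ZMod q) = 1
    · have h4 : cf F χ p = aE F p := by
        unfold cf
        rw [hχ, Complex.one_re, one_mul]
      rw [h4]
      have h5 : (nL : ℝ)⁻¹ * (aE L p : ℝ) - (nW : ℝ)⁻¹ * (aE W p : ℝ) -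
          (if ((p : ℕ) : ℤ) ∣ D then 1 else 0) ≤ 0 := by
        by_cases hL0 : 0 < aE L p
        · have hW := h2 p p.2 hpq hL0 hχ
          by_cases hD : ((p : ℕ) : ℤ) ∣ D
          · rw [if_pos hD]
            linarith
          · rw [if_neg hD, h3 p p.2 hD hW, inv_mul_cancel₀ hnW'.ne']
            linarith
        · rw [Nat.eq_zero_of_not_pos hL0, Nat.cast_zero, mul_zero]
          linarith
      nlinarith
    · have hz : χ ((p : ℕ) : ZMod q) ^ d = 1 := chi_pow_eq hord _ (chi_ne hq χ p.2 hpq)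
      have h4 := hgap _ hz hχ
      have h5 : cf F χ p ≤ (1 - c) * aE F p :=
        mul_le_mul_of_nonneg_right h4 (Nat.cast_nonneg _)
      have h6 : (nL : ℝ)⁻¹ * (aE L p : ℝ) - (nW : ℝ)⁻¹ * (aE W p : ℝ) -
          (if ((p : ℕ) : ℤ) ∣ D then 1 else 0) ≤ aE F p := by
        by_cases hL0 : 0 < aE L p
        · have h7 : (1 : ℝ) ≤ aE F p := by exact_mod_cast h1 p p.2 hpq hL0
          linarith
        · rw [Nat.eq_zero_of_not_pos hL0, Nat.cast_zero, mul_zero]
          have h7 : (0 : ℝ) ≤ aE F p := Nat.cast_nonneg _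
          linarith
      nlinarith

end

end PartC

/-! ### The two arguments -/

section PartD

/-- zero quantisation for one field and one character -/
def ZOne (E : Type) [Field E] [NumberField E] {q : ℕ} (χ : DirichletCharacter ℂ q)
    (ℓ C : ℝ) : Prop :=
  ∃ (δ : ℕ) (d : List ℝ), δ ≤ 1 ∧ (d.length : ℝ) ≤ C ∧ (∀ x ∈ d, 0 ≤ x ∧ x ≤ 1) ∧
      (χ = 1 → δ = 1 ∧ ∀ x ∈ d, 0 < x) ∧
      ∀ η : ℝ, 0 < η → η ≤ 1 → |Del E χ ℓ η - model δ d η| ≤ C

/-- upper bound for the trivial character (in fact for all) -/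
theorem ZOne.le {E : Type} [Field E] [NumberField E] {q : ℕ} {χ : DirichletCharacter ℂ q}
    {ℓ C η : ℝ} (h : ZOne E χ ℓ C) (hη : 0 < η) (hη1 : η ≤ 1) :
    Del E χ ℓ η ≤ -Real.log η + C := by
  obtain ⟨δ, d, hδ, -, hd, -, hb⟩ := h
  have h1 := abs_le.1 (hb η hη hη1)
  have h2 := model_le hδ hd hη hη1
  linarith [h1.2]

/-- lower bound for the trivial character -/
theorem ZOne.ge {E : Type} [Field E] [NumberField E] {q : ℕ}
    {ℓ C : ℝ} (h : ZOne E (1 : DirichletCharacter ℂ q) ℓ C) :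
    ∃ K : ℝ, ∀ η : ℝ, 0 < η → η ≤ 1 →
      -Real.log η - K ≤ Del E (1 : DirichletCharacter ℂ q) ℓ η := by
  obtain ⟨δ, d, -, -, -, h1, hb⟩ := h
  obtain ⟨rfl, hpos⟩ := h1 rfl
  obtain ⟨K, hK⟩ := sum_log_max_ge hpos
  refine ⟨K + C, fun η hη hη1 => ?_⟩
  have h2 := (abs_le.1 (hb η hη hη1)).1
  have h3 := hK η hη
  have h4 : model 1 d η = -Real.log η + (d.map fun x => Real.log (max η x)).sum := by
    unfold model
    rw [Nat.cast_one, one_mul]
  rw [h4] at h2
  linarith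

/-- the parity conclusion with constant `CP` -/
def ParityOf (CP C' : ℝ) : Prop :=
  ∀ (m : ℕ) (d₀ : List ℝ) (δ : Fin m → ℕ) (d : Fin m → List ℝ),
    (m : ℝ) ≤ CP → (d₀.length : ℝ) ≤ CP → (∀ x ∈ d₀, 0 < x ∧ x ≤ 1) → (∀ j, δ j ≤ 1) →
    (∀ j, ((d j).length : ℝ) ≤ CP) → (∀ j, ∀ x ∈ d j, 0 ≤ x ∧ x ≤ 1) →
    ∀ η₀ : ℝ, 0 < η₀ → η₀ ≤ 1 →
    (∀ η, η₀ ≤ η → η ≤ 1 → -CP ≤ model 1 d₀ η) →
    (∀ η, η₀ ≤ η → η ≤ 1 → |model 1 d₀ η + 2 * ∑ j, model (δ j) (d j) η| ≤ CP) →
    ∀ η, η₀ ≤ η → η ≤ 1 → model 1 d₀ η ≤ C'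

/-- (ii): the parity argument -/
theorem step_ii {E M : Type} [Field E] [NumberField E] [Field M] [NumberField M]
    {q d : ℕ} {χ : DirichletCharacter ℂ q} (hq : q.Prime) (hd : Odd d) (hord : orderOf χ = d)
    {n : ℕ} (haE : ∀ p : ℕ, p.Prime → aE E p ≤ n)
    (himp : ∀ p : ℕ, p.Prime → p ≠ q → 0 < aE E p → χ (p : ZMod q) = 1 → 0 < aE M p)
    {ℓ η A C C' CP : ℝ} (hℓ : 1 ≤ ℓ) (hη : 0 < η) (hη1 : η ≤ 1) (hC : 0 ≤ C)
    (hM : Sc M (fun _ => True) ℓ η ≤ A)
    (hZ : ∀ χ' : DirichletCharacter ℂ q, Odd (orderOf χ') → ZOne E χ' ℓ C)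
    (hpar : ParityOf CP C') (hdC : (d : ℝ) ≤ CP) (hCP : (d * n : ℝ) * A + d * C ≤ CP)
    (hCCP : C ≤ CP) :
    Del E (1 : DirichletCharacter ℂ q) ℓ η ≤ C' + C := by
  obtain ⟨δ₀, d₀, -, hlen₀, hd₀, h1₀, hb₀⟩ := hZ 1 (by rw [orderOf_one]; exact odd_one)
  obtain ⟨rfl, hpos⟩ := h1₀ rfl
  have hoddj : ∀ j : Fin ((d - 1) / 2), Odd (orderOf (χ ^ ((j : ℕ) + 1))) := fun j =>
    Odd.of_dvd_nat (hord ▸ hd) (orderOf_pow_dvd _)
  choose δ dd hδ hlen hdd _ hb using fun j => hZ _ (hoddj j)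
  obtain ⟨m, hm⟩ := hd
  have hm2 : (d - 1) / 2 = m := by omega
  have hmd : (((d - 1) / 2 : ℕ) : ℝ) ≤ d := by
    exact_mod_cast (by omega : (d - 1) / 2 ≤ d)
  have hdm : (1 : ℝ) + 2 * (((d - 1) / 2 : ℕ) : ℝ) = d := by
    rw [hm2, hm]
    push_cast
    ring
  have h1 := hpar ((d - 1) / 2) d₀ δ dd (hmd.trans hdC) (hlen₀.trans hCCP)
    (fun x hx => ⟨hpos x hx, (hd₀ x hx).2⟩) hδ (fun j => (hlen j).trans hCCP) hdd η hη hη1
    (fun η' h h' => by
      have h2 := (abs_le.1 (hb₀ η' (hη.trans_le h) h')).2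
      have h3 := Del_one_nonneg hq E hℓ (hη.trans_le h) h'
      linarith)
    (fun η' h h' => by
      have hη' := hη.trans_le h
      have h2 := abs_le.1 (hb₀ η' hη' h')
      have hs := sumA hq ⟨m, hm⟩ hord n haE himp hℓ hη' h'
      have hSc : Sc M (fun _ => True) ℓ η' ≤ A := (Sc_anti M hℓ hη h h').trans hM
      have h3 : |∑ j : Fin ((d - 1) / 2), (Del E (χ ^ ((j : ℕ) + 1)) ℓ η' - model (δ j) (dd j) η')| ≤
          (((d - 1) / 2 : ℕ) : ℝ) * C := by
        refine (Finset.abs_sum_le_sum_abs _ _).trans ?_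
        refine (Finset.sum_le_card_nsmul _ _ C fun j _ => hb j η' hη' h').trans ?_
        rw [Finset.card_univ, Fintype.card_fin, nsmul_eq_mul]
      rw [Finset.sum_sub_distrib] at h3
      have h4 := abs_le.1 h3
      have h5 : (d * n : ℝ) * Sc M (fun _ => True) ℓ η' ≤ (d * n : ℝ) * A :=
        mul_le_mul_of_nonneg_left hSc (by (clear * -; positivity))
      have h6 : C + 2 * ((((d - 1) / 2 : ℕ) : ℝ) * C) = d * C := by
        rw [← hdm]
        ring
      have hnA : 0 ≤ (d * n : ℝ) * A := (hs.1.trans hs.2).trans h5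
      rw [abs_le]
      constructor
      · linarith [h2.1, h2.2, h4.1, h4.2, hs.1, hs.2]
      · linarith [h2.1, h2.2, h4.1, h4.2, hs.1, hs.2]) η le_rfl hη1
  have h2 := (abs_le.1 (hb₀ η hη hη1)).2
  linarith

/-- (iv): the slope argument -/
theorem step_iv {F L W : Type} [Field F] [NumberField F] [Field L] [NumberField L] [Field W]
    [NumberField W] {q d : ℕ} {χ : DirichletCharacter ℂ q} (hq : q.Prime) (hd : 0 < d)
    (hord : orderOf χ = d) (nL nW : ℕ) (hnL : 0 < nL)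
    (hnLW : nL < nW) (D : ℤ) (hD : D ≠ 0) (haL : ∀ p : ℕ, p.Prime → aE L p ≤ nL)
    (h1 : ∀ p : ℕ, p.Prime → p ≠ q → 0 < aE L p → 0 < aE F p)
    (h2 : ∀ p : ℕ, p.Prime → p ≠ q → 0 < aE L p → χ (p : ZMod q) = 1 → 0 < aE W p)
    (h3 : ∀ p : ℕ, p.Prime → ¬ (p : ℤ) ∣ D → 0 < aE W p → aE W p = nW)
    {ℓ C : ℝ} (hℓ : 1 ≤ ℓ) (hF1 : ZOne F (1 : DirichletCharacter ℂ q) ℓ C)
    (hL1 : ZOne L (1 : DirichletCharacter ℂ q) ℓ C)
    (hW1 : ZOne W (1 : DirichletCharacter ℂ q) ℓ C) (hFχ : ZOne F χ ℓ C)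
    {η : ℝ} (hη : 0 < η) (hη1 : η ≤ 1) : Del F χ ℓ η ≤ C := by
  obtain ⟨c, hc, hgap⟩ := exists_gap d hd
  obtain ⟨K, hK⟩ := hL1.ge
  obtain ⟨CD, hCD⟩ := TSm_dvd hℓ hD
  obtain ⟨δ, dd, hδ, -, hdd, -, hb⟩ := hFχ
  have hnW : 0 < nW := hnL.trans hnLW
  have hnL' : (0 : ℝ) < nL := by exact_mod_cast hnL
  have hnW' : (0 : ℝ) < nW := by exact_mod_cast hnW
  have hlt : (nW : ℝ)⁻¹ < (nL : ℝ)⁻¹ := inv_strictAnti₀ hnL' (by exact_mod_cast hnLW)
  have hslope : 1 - c * ((nL : ℝ)⁻¹ - (nW : ℝ)⁻¹) < 1 := by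
    have := mul_pos hc (sub_pos.2 hlt)
    linarith only [this]
  have hmod : ∀ η : ℝ, 0 < η → η ≤ 1 → model δ dd η ≤
      (1 - c * ((nL : ℝ)⁻¹ - (nW : ℝ)⁻¹)) * (-Real.log η) +
        (2 * C + c * ((nL : ℝ)⁻¹ * K + (nW : ℝ)⁻¹ * C + CD)) := by
    intro η hη hη1
    have e1 := (abs_le.1 (hb η hη hη1)).1
    have e2 := sumC hq hord hc hgap nL nW hnL hnW D haL h1 h2 h3 hℓ hη hη1 (F := F)
    have e3 := hF1.le hη hη1
    have e4 : (nL : ℝ)⁻¹ * (-Real.log η - K) ≤
        (nL : ℝ)⁻¹ * Del L (1 : DirichletCharacter ℂ q) ℓ η :=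
      mul_le_mul_of_nonneg_left (hK η hη hη1) (by positivity)
    have e5 : (nW : ℝ)⁻¹ * Del W (1 : DirichletCharacter ℂ q) ℓ η ≤
        (nW : ℝ)⁻¹ * (-Real.log η + C) :=
      mul_le_mul_of_nonneg_left (hW1.le hη hη1) (by positivity)
    have e6 := hCD η hη hη1
    have e7 : c * ((nL : ℝ)⁻¹ * (-Real.log η - K) - (nW : ℝ)⁻¹ * (-Real.log η + C) - CD) ≤
        c * ((nL : ℝ)⁻¹ * Del L (1 : DirichletCharacter ℂ q) ℓ η -
        (nW : ℝ)⁻¹ * Del W (1 : DirichletCharacter ℂ q) ℓ η -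
        TSm ℓ η (fun p => if ((p : ℕ) : ℤ) ∣ D then 1 else 0)) :=
      mul_le_mul_of_nonneg_left (by linarith) hc.le
    have e8 : (1 - c * ((nL : ℝ)⁻¹ - (nW : ℝ)⁻¹)) * (-Real.log η) +
        (2 * C + c * ((nL : ℝ)⁻¹ * K + (nW : ℝ)⁻¹ * C + CD)) =
        -Real.log η + C -
          c * ((nL : ℝ)⁻¹ * (-Real.log η - K) - (nW : ℝ)⁻¹ * (-Real.log η + C) - CD) + C := by
      ring
    rw [e8]
    linarith
  have h4 := model_nonpos hδ hdd hslope hmod hη hη1
  have h5 := (abs_le.1 (hb η hη hη1)).2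
  linarith

theorem Sc_le_Del (F : Type) [Field F] [NumberField F] {q : ℕ} (hq : q.Prime)
    {ℓ η : ℝ} (hℓ : 1 ≤ ℓ) (hη : 0 < η) (hη1 : η ≤ 1) :
    Sc F (fun _ => True) ℓ η ≤ Del F (1 : DirichletCharacter ℂ q) ℓ η + 1 := by
  classical
  rw [Sc_eq]
  have h1 := TSm_single hℓ hη hη1 q
  have h2 : TSm ℓ η (fun p => if 0 < aE F p then 1 else 0) ≤
      TSm ℓ η (fun p => cf F (1 : DirichletCharacter ℂ q) p + if (p : ℕ) = q then 1 else 0) := by
    refine TSm_mono (bddC_ind _) ((bddC_cf F _).add (bddC_ind _)) hℓ hη hη1 fun p => ?_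
    beta_reduce
    by_cases hpq : (p : ℕ) = q
    · rw [if_pos hpq, cf_self hq F _ hpq]
      split_ifs
      · linarith only []
      · linarith only []
    · rw [if_neg hpq, cf_one_ne hq F hpq, add_zero]
      split_ifs with h
      · exact_mod_cast h
      · exact Nat.cast_nonneg _
  rw [TSm_add (bddC_cf F _) (bddC_ind _) hℓ hη hη1] at h2
  have h3 : TSm ℓ η (fun p => if (p : ℕ) = q then (1 : ℝ) else 0) ≤ 1 := by
    convert h1 using 3
  have h4 : TSm ℓ η (cf F (1 : DirichletCharacter ℂ q)) =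
      Del F (1 : DirichletCharacter ℂ q) ℓ η := rfl
  linarith

end PartD

/-! ### The cyclic step -/

section PartE

/-- discriminants of subfields -/
theorem log_discr_le (W : Type) [Field W] [NumberField W] (E : IntermediateField ℚ W) :
    Real.log |(discr E : ℝ)| ≤ Real.log |(discr W : ℝ)| := by
  have h1 : discr E ∣ discr W := discr_dvd_discr E W
  have h2 : discr E ≠ 0 := discr_ne_zero E
  have h3 : discr W ≠ 0 := discr_ne_zero W
  refine Real.log_le_log (abs_pos.2 (by exact_mod_cast h2)) ?_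
  have h4 : |discr E| ≤ |discr W| := Int.le_of_dvd (abs_pos.2 h3) ((abs_dvd_abs _ _).2 h1)
  exact_mod_cast h4

theorem log_discr_nonneg (W : Type) [Field W] [NumberField W] :
    0 ≤ Real.log |(discr W : ℝ)| := by
  refine Real.log_nonneg ?_
  have h3 : discr W ≠ 0 := discr_ne_zero W
  exact_mod_cast Int.one_le_abs h3

theorem finrank_sub_le (W : Type) [Field W] [NumberField W] (E : IntermediateField ℚ W) :
    Module.finrank ℚ E ≤ Module.finrank ℚ W := by
  have h1 := Module.finrank_mul_finrank ℚ E W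
  have h2 : 0 < Module.finrank E W := Module.finrank_pos
  nlinarith

/-- `FrobIn` of the trivial group: split primes -/
theorem aE_pos_of_frobIn_bot {W : Type} [Field W] [NumberField W] {p : ℕ} (hp : p.Prime)
    (h : FrobIn W ⊥ p) : 0 < aE W p := by
  have h1 := (frobIn_iff hp).2 h
  have e : IntermediateField.fixedField (⊥ : Subgroup (W ≃ₐ[ℚ] W)) ≃+* W :=
    ((IntermediateField.equivOfEq (IntermediateField.fixedField_bot)).trans
      IntermediateField.topEquiv).toRingEquiv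
  rwa [aE_congr _ _ e p] at h1

/-- a prime order unit generates all the roots of unity -/
theorem exists_pow_mul_eq_one {d : ℕ} (hd : d.Prime) {a b : ℂˣ} (ha : a ^ d = 1) (ha1 : a ≠ 1)
    (hb : b ^ d = 1) : ∃ s ∈ Finset.range d, b * a ^ s = 1 := by
  haveI : NeZero d := ⟨hd.ne_zero⟩
  have h1 : orderOf a = d := by
    haveI : Fact d.Prime := ⟨hd⟩
    exact orderOf_eq_prime ha ha1
  have h2 : IsPrimitiveRoot a d := by
    rw [← h1]
    exact IsPrimitiveRoot.orderOf a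
  have h3 : IsPrimitiveRoot (a : ℂ) d := IsPrimitiveRoot.coe_units_iff.2 h2
  have h4 : ((b⁻¹ : ℂˣ) : ℂ) ^ d = 1 := by
    rw [← Units.val_pow_eq_pow_val, inv_pow, hb, inv_one, Units.val_one]
  obtain ⟨s, hs, hs'⟩ := h3.eq_pow_of_pow_eq_one h4
  refine ⟨s, Finset.mem_range.2 hs, ?_⟩
  have h5 : a ^ s = b⁻¹ := Units.ext (by rw [Units.val_pow_eq_pow_val]; exact hs')
  rw [h5, mul_inv_cancel]

theorem Sc_congr {E E' : Type} [Field E] [NumberField E] [Field E'] [NumberField E']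
    (h : ∀ m, aE E m = aE E' m) (ℓ η : ℝ) :
    Sc E (fun _ => True) ℓ η = Sc E' (fun _ => True) ℓ η := by
  unfold Sc
  refine tsum_congr fun p => ?_
  rw [h]

/-- the cyclic step with given auxiliary data -/
theorem step_core {N' : ℕ} {C₀ C ℓ₀ A C' CP : ℝ} (hZ : ZForm N' C₀ C ℓ₀) (hℓ₀ : 1 ≤ ℓ₀)
    (hC : 0 ≤ C) (hpar : ParityOf CP C')
    {L W : Type} [Field L] [NumberField L] [IsGalois ℚ L] [Field W] [NumberField W]
    [IsTotallyReal W] [IsGalois ℚ W] [Algebra L W]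
    (H' H : Subgroup (L ≃ₐ[ℚ] L)) (d : ℕ) (hcyc : IsCyclic H) (hd : d.Prime)
    (hodd : Odd d) (hidx : H'.relIndex H = d) (q : ℕ) (hq : q.Prime)
    (χ : DirichletCharacter ℂ q) (hord : orderOf χ = d) (κ : (W ≃ₐ[ℚ] W) →* ℂˣ)
    (hWdeg : Module.finrank ℚ W = d * Module.finrank ℚ L) (hWN : Module.finrank ℚ W ≤ N')
    (hCP1 : (N' : ℝ) ≤ CP) (hCP2 : (d * N' : ℝ) * A + d * C ≤ CP) (hCP3 : C ≤ CP)
    (ℓ : ℝ) (hℓ : ℓ₀ ≤ ℓ) (hqℓ : Real.log q ≤ C₀ * ℓ)
    (hWℓ : Real.log |(discr W : ℝ)| ≤ C₀ * ℓ)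
    (hinj : ∀ σ : W ≃ₐ[ℚ] W, (∀ x : L, σ (algebraMap L W x) = algebraMap L W x) →
      κ σ = 1 → σ = 1) (hκd : ∀ σ : W ≃ₐ[ℚ] W, κ σ ^ d = 1)
    (hfrob : ∀ (p : ℕ), p.Prime → p ≠ q → ∀ (Q : Ideal (𝓞 W)) (σ : W ≃ₐ[ℚ] W), Q.IsMaximal →
        (p : 𝓞 W) ∈ Q → (∀ x : 𝓞 W, RingOfIntegers.mapRingEquiv σ.toRingEquiv x - x ^ p ∈ Q) →
        (κ σ : ℂ) = χ (p : ZMod q))
    (η : ℝ) (hη : 0 < η) (hη1 : η ≤ 1)
    (hM : Sc (IntermediateField.fixedField H') (fun _ => True) ℓ η ≤ A) :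
    Sc (IntermediateField.fixedField H) (fun _ => True) ℓ η ≤
      (2 * N' : ℝ) * (d * (C' + C)) + C + 1 := by
  haveI : NeZero q := ⟨hq.ne_zero⟩
  have hℓ1 : 1 ≤ ℓ := hℓ₀.trans hℓ
  set ρ : (W ≃ₐ[ℚ] W) →* (L ≃ₐ[ℚ] L) := AlgEquiv.restrictNormalHom (F := ℚ) (K₁ := W) L with hρ
  have hρc : ∀ (σ : W ≃ₐ[ℚ] W) (x : L), algebraMap L W (ρ σ x) = σ (algebraMap L W x) :=
    fun σ x => AlgEquiv.restrictNormal_commutes σ L x
  have hsurj : Function.Surjective ρ := AlgEquiv.restrictNormalHom_surjective W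
  obtain ⟨ψ, hψ, hψd⟩ := exists_psi hd.ne_zero hcyc hidx
  have hZE : ∀ (E : IntermediateField ℚ W) (χ' : DirichletCharacter ℂ q),
      Odd (orderOf χ') → ZOne E χ' ℓ C := fun E χ' hχ' =>
    hZ E ((finrank_sub_le W E).trans hWN) q χ' hχ' ℓ hℓ ((log_discr_le W E).trans hWℓ) hqℓ
  have hodd1 : Odd (orderOf (1 : DirichletCharacter ℂ q)) := by
    rw [orderOf_one]; exact odd_one
  have haE : ∀ (E : IntermediateField ℚ W) (p : ℕ), p.Prime → aE E p ≤ N' := fun E p hp =>
    (aE_le E p hp).trans ((finrank_sub_le W E).trans hWN)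
  have hκ1 : ∀ (p : ℕ), p.Prime → p ≠ q → ∀ (Q : Ideal (𝓞 W)) (σ : W ≃ₐ[ℚ] W), Q.IsMaximal →
        (p : 𝓞 W) ∈ Q → (∀ x : 𝓞 W, RingOfIntegers.mapRingEquiv σ.toRingEquiv x - x ^ p ∈ Q) →
        (κ σ = 1 ↔ χ (p : ZMod q) = 1) := by
    intro p hp hpq Q σ hQ hpQ hfr
    rw [← hfrob p hp hpq Q σ hQ hpQ hfr, Units.val_eq_one]
  -- (ii)
  have hEs : ∀ s ∈ Finset.range d, Del (IntermediateField.fixedField (Hs ρ H ψ κ s))
      (1 : DirichletCharacter ℂ q) ℓ η ≤ C' + C := by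
    intro s _
    refine step_ii (M := IntermediateField.fixedField (H'.comap ρ)) hq hodd hord
      (haE _) ?_ hℓ1 hη hη1 hC ?_ (fun χ' h => hZE _ χ' h) hpar ?_ hCP2 hCP3
    · intro p hp hpq h0 hχ
      obtain ⟨Q, σ, hQ, hpQ, ⟨hσH, hσ⟩, hfr⟩ := (frobIn_iff hp).1 h0
      have h1 : κ σ = 1 := (hκ1 p hp hpq Q σ hQ hpQ hfr).2 hχ
      rw [h1, one_pow, mul_one, hψ] at hσ
      exact (frobIn_iff hp).2 ⟨Q, σ, hQ, hpQ, hσ, hfr⟩
    · rwa [← Sc_congr (fun m => aE_fixed_comap (W := W) H' m)]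
    · refine le_trans ?_ hCP1
      have h1 : 0 < Module.finrank ℚ L := Module.finrank_pos
      have h2 : d ≤ N' := by
        refine le_trans ?_ hWN
        rw [hWdeg]
        exact Nat.le_mul_of_pos_right d h1
      exact_mod_cast h2
  -- (iii)
  have hiii : Del (IntermediateField.fixedField (H.comap ρ)) (1 : DirichletCharacter ℂ q) ℓ η -
      Del (IntermediateField.fixedField (H.comap ρ)) χ ℓ η ≤ (2 * N' : ℝ) * (d * (C' + C)) := by
    refine (sumB (Finset.range d) (fun s => IntermediateField.fixedField (Hs ρ H ψ κ s)) hq N'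
      (haE _) ?_ hℓ1 hη hη1).trans ?_
    · intro p hp hpq h0 hχ
      obtain ⟨Q, σ, hQ, hpQ, hσ, hfr⟩ := (frobIn_iff hp).1 h0
      have h1 : κ σ ≠ 1 := fun h => hχ ((hκ1 p hp hpq Q σ hQ hpQ hfr).1 h)
      obtain ⟨s, hs, hs'⟩ := exists_pow_mul_eq_one hd (hκd σ) h1 (hψd ⟨ρ σ, hσ⟩)
      exact ⟨s, hs, (frobIn_iff hp).2 ⟨Q, σ, hQ, hpQ, ⟨hσ, hs'⟩, hfr⟩⟩
    · refine mul_le_mul_of_nonneg_left ?_ (by (clear * -; positivity))
      refine (Finset.sum_le_card_nsmul _ _ _ hEs).trans ?_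
      rw [Finset.card_range, nsmul_eq_mul]
  -- (iv)
  have hiv : Del (IntermediateField.fixedField (H.comap ρ)) χ ℓ η ≤ C := by
    have hker : Module.finrank ℚ (IntermediateField.fixedField ρ.ker) < Module.finrank ℚ W := by
      have h1 := Module.finrank_mul_finrank ℚ (IntermediateField.fixedField ρ.ker) W
      rw [IntermediateField.finrank_fixedField_eq_card] at h1
      have h2 : 1 < Nat.card ρ.ker := by
        by_contra h
        have h3 : Nat.card ρ.ker = 1 := le_antisymm (not_lt.1 h) Nat.card_pos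
        have h4 : ρ.ker = ⊥ := Subgroup.card_eq_one.1 h3
        have h5 : Function.Injective ρ := (MonoidHom.ker_eq_bot_iff ρ).1 h4
        have h6 : Nat.card (W ≃ₐ[ℚ] W) ≤ Nat.card (L ≃ₐ[ℚ] L) :=
          Nat.card_le_card_of_injective ρ h5
        rw [IsGalois.card_aut_eq_finrank, IsGalois.card_aut_eq_finrank, hWdeg] at h6
        have h7 : 0 < Module.finrank ℚ L := Module.finrank_pos
        have h8 := hd.two_le
        nlinarith
      have h3 : 0 < Module.finrank ℚ (IntermediateField.fixedField ρ.ker) :=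
        Module.finrank_pos
      nlinarith
    refine step_iv (L := IntermediateField.fixedField ρ.ker) (W := W) hq hd.pos hord
      (Module.finrank ℚ (IntermediateField.fixedField ρ.ker)) (Module.finrank ℚ W)
      Module.finrank_pos hker (discr W) (discr_ne_zero W) (fun p hp => aE_le _ p hp)
      ?_ ?_ (fun p hp hD h0 => aE_galois W p hp hD h0) hℓ1 (hZE _ 1 hodd1) (hZE _ 1 hodd1)
      ?_ (hZE _ χ (hord ▸ hodd)) hη hη1
    · intro p hp _ h0
      refine (frobIn_iff hp).2 (((frobIn_iff hp).1 h0).mono ?_)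
      intro σ hσ
      change ρ σ ∈ H
      rw [MonoidHom.mem_ker.1 hσ]
      exact H.one_mem
    · intro p hp hpq h0 hχ
      obtain ⟨Q, σ, hQ, hpQ, hσ, hfr⟩ := (frobIn_iff hp).1 h0
      have h1 : κ σ = 1 := (hκ1 p hp hpq Q σ hQ hpQ hfr).2 hχ
      have h2 : σ = 1 := hinj σ (fun x => by
        rw [← hρc, MonoidHom.mem_ker.1 hσ]
        rfl) h1
      exact aE_pos_of_frobIn_bot hp ⟨Q, σ, hQ, hpQ, Subgroup.mem_bot.2 h2, hfr⟩
    · exact hZ W hWN q 1 hodd1 ℓ hℓ hWℓ hqℓ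
  rw [Sc_congr (fun m => aE_fixed_comap (W := W) H m)]
  have h1 := Sc_le_Del (IntermediateField.fixedField (H.comap ρ)) hq hℓ1 hη hη1
  linarith

theorem ZForm_mono {N : ℕ} {C₀ C C' ℓ₀ : ℝ} (h : ZForm N C₀ C ℓ₀) (hC : C ≤ C') :
    ZForm N C₀ C' ℓ₀ := by
  intro E _ _ _ hE q _ χ hχ ℓ hℓ h1 h2
  obtain ⟨δ, d, hδ, hlen, hd, h3, h4⟩ := h E hE q χ hχ ℓ hℓ h1 h2
  exact ⟨δ, d, hδ, hlen.trans hC, hd, h3, fun η hη hη1 => (h4 η hη hη1).trans hC⟩

end PartE

end Vale.Agent.P007.Z.CStep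
end
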