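import Vale.Agent.P007.MathlibUsed
import Vale.Agent.P007.Bdl.B2
import Vale.Agent.P007.Bdl.B4
import Vale.Agent.P007.Bdl.B3

section

/-!
P007, Z5: the auxiliary prime `q` and the cyclic field `W = L Z_q` (proof of `exists_aux`).
-/

set_option autoImplicit false

open NumberField IntermediateField Polynomial

namespace Vale.Agent.P007.Z.Cyclo

/-- the auxiliary prime -/
lemma exists_prime (d : ℕ) (hd : d.Prime) (hodd : Odd d) (D : ℕ) (hD : 0 < D) :
    ∃ q : ℕ, q.Prime ∧ d ∣ q - 1 ∧ ¬ q ∣ D ∧ Real.log q ≤ d * (Real.log d + Real.log D) := by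
  have hd3 : 3 ≤ d := by
    have := hd.two_le
    rcases hodd with ⟨k, rfl⟩
    omega
  set a : ℕ := d * D with ha
  have ha3 : 3 ≤ a := by nlinarith
  set S : ℕ := ∑ i ∈ Finset.range d, a ^ i with hS
  have hgeo : S * (a - 1) + 1 = a ^ d := by
    have := Nat.geomSum_eq (by omega : 2 ≤ a) d
    have hdvd : (a - 1) ∣ (a ^ d - 1) := by simpa only using Nat.sub_one_dvd_pow_sub_one a d
    rw [hS, this, Nat.div_mul_cancel hdvd]
    have : 1 ≤ a ^ d := Nat.one_le_pow _ _ (by omega)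
    omega
  have hSle : S ≤ a ^ d := by
    have : S ≤ S * (a - 1) := Nat.le_mul_of_pos_right _ (by omega)
    omega
  obtain ⟨e, he⟩ : ∃ e, d = e + 1 := ⟨d - 1, by omega⟩
  have hSmod : ∃ m, S = 1 + a * m := by
    refine ⟨∑ i ∈ Finset.range e, a ^ i, ?_⟩
    rw [hS, he, Finset.sum_range_succ', Finset.mul_sum]
    simp [pow_succ, mul_comm, add_comm]
  have hS1 : S ≠ 1 := by
    intro h
    rw [h] at hgeo
    have : a ^ 1 < a ^ d := Nat.pow_lt_pow_right (by omega) (by omega)
    rw [pow_one] at this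
    omega
  refine ⟨S.minFac, Nat.minFac_prime hS1, ?_, ?_, ?_⟩
  · -- order of a is d
    set q := S.minFac with hq
    have hqp : q.Prime := Nat.minFac_prime hS1
    have : Fact q.Prime := ⟨hqp⟩
    have hqS : q ∣ S := Nat.minFac_dvd S
    have hqa : ¬ q ∣ a := by
      intro h
      obtain ⟨m, hm⟩ := hSmod
      rw [hm] at hqS
      have : q ∣ 1 := (Nat.dvd_add_left (h.mul_right m)).mp hqS
      exact hqp.one_lt.ne' (Nat.dvd_one.mp this)
    have ha0 : (a : ZMod q) ≠ 0 := by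
      rwa [Ne, ZMod.natCast_eq_zero_iff]
    have hSz : (∑ i ∈ Finset.range d, (a : ZMod q) ^ i) = 0 := by
      have := (ZMod.natCast_eq_zero_iff S q).mpr hqS
      rw [hS] at this
      simpa only [Nat.cast_sum, Nat.cast_pow] using this
    have had : (a : ZMod q) ^ d = 1 := by
      have := geom_sum_mul (a : ZMod q) d
      rw [hSz, zero_mul] at this
      exact (sub_eq_zero.mp this.symm)
    have ha1 : (a : ZMod q) ≠ 1 := by
      intro h
      rw [h] at hSz
      simp only [one_pow, Finset.sum_const, Finset.card_range, nsmul_eq_mul, mul_one] at hSz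
      rw [ZMod.natCast_eq_zero_iff] at hSz
      exact hqa (hSz.mul_right D)
    have hord : orderOf (a : ZMod q) = d := by
      have : Fact d.Prime := ⟨hd⟩
      exact orderOf_eq_prime had ha1
    have := ZMod.orderOf_dvd_card_sub_one ha0
    rwa [hord] at this
  · intro h
    have hqp : (S.minFac).Prime := Nat.minFac_prime hS1
    obtain ⟨m, hm⟩ := hSmod
    have hqS : S.minFac ∣ S := Nat.minFac_dvd S
    rw [hm] at hqS
    rw [← hm] at hqS
    have h2 : S.minFac ∣ a * m := (h.mul_left d).mul_right m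
    have h3 : S.minFac ∣ 1 + a * m := by rw [← hm]; exact Nat.minFac_dvd S
    have : S.minFac ∣ 1 := (Nat.dvd_add_left h2).mp h3
    exact hqp.one_lt.ne' (Nat.dvd_one.mp this)
  · have hqS : (S.minFac : ℝ) ≤ (a : ℝ) ^ d := by
      have h1 : S.minFac ≤ S := Nat.minFac_le (by
        obtain ⟨m, hm⟩ := hSmod
        omega)
      exact_mod_cast h1.trans hSle
    have hqpos : (0 : ℝ) < S.minFac := by exact_mod_cast Nat.minFac_pos S
    calc Real.log (S.minFac) ≤ Real.log ((a : ℝ) ^ d) := Real.log_le_log hqpos hqS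
      _ = d * (Real.log d + Real.log D) := by
        rw [Real.log_pow, ha, Nat.cast_mul, Real.log_mul]
        · positivity
        · positivity


section

variable (L V : Type) [Field L] [NumberField L] [Field V] [NumberField V] [Algebra L V]

/-- the image of `L` in `V` -/
noncomputable def Lim : IntermediateField ℚ V := (IsScalarTower.toAlgHom ℚ L V).fieldRange

noncomputable def eL : L ≃ₐ[ℚ] Lim L V :=
  AlgEquiv.ofInjectiveField (IsScalarTower.toAlgHom ℚ L V)

lemma mem_Lim (x : L) : algebraMap L V x ∈ Lim L V := ⟨x, rfl⟩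

lemma finrank_Lim : Module.finrank ℚ (Lim L V) = Module.finrank ℚ L :=
  (eL L V).toLinearEquiv.finrank_eq.symm

lemma discr_Lim : discr (Lim L V) = discr L :=
  (discr_eq_discr_of_algEquiv L (eL L V)).symm

instance [IsGalois ℚ L] : IsGalois ℚ (Lim L V) := IsGalois.of_algEquiv (eL L V)

variable (q : ℕ) [Fact q.Prime] [IsCyclotomicExtension {q} L V]

lemma sup_eq_top {ζ : V} (hζ : IsPrimitiveRoot ζ q) : Lim L V ⊔ ℚ⟮ζ⟯ = ⊤ := by
  rw [eq_top_iff]
  intro x _
  have hx : x ∈ Algebra.adjoin L {ζ} := by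
    rw [IsCyclotomicExtension.adjoin_primitive_root_eq_top hζ]
    trivial
  induction hx using Algebra.adjoin_induction with
  | mem x hx =>
    rw [Set.mem_singleton_iff] at hx
    subst hx
    exact (le_sup_right : ℚ⟮x⟯ ≤ _) (mem_adjoin_simple_self ℚ x)
  | algebraMap r => exact (le_sup_left : Lim L V ≤ _) (mem_Lim L V r)
  | add x y _ _ h1 h2 => exact add_mem (h1 trivial) (h2 trivial)
  | mul x y _ _ h1 h2 => exact mul_mem (h1 trivial) (h2 trivial)

include q in
set_option backward.isDefEq.respectTransparency false in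
lemma isGalois_V [IsGalois ℚ L] : IsGalois ℚ V := by
  have hζ := IsCyclotomicExtension.zeta_spec q L V
  have := hζ.intermediateField_adjoin_isCyclotomicExtension ℚ
  have : IsGalois ℚ ℚ⟮IsCyclotomicExtension.zeta q L V⟯ := IsCyclotomicExtension.isGalois {q} ℚ _
  have h : IsGalois ℚ ↥(Lim L V ⊔ ℚ⟮IsCyclotomicExtension.zeta q L V⟯) := inferInstance
  rw [sup_eq_top L V q hζ] at h
  exact isGalois_iff_isGalois_top.mp h

omit [IsCyclotomicExtension {q} L V] in
set_option backward.isDefEq.respectTransparency false in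
lemma coprime_discr (hq : ¬ (q : ℤ) ∣ discr L) {ζ : V} (hζ : IsPrimitiveRoot ζ q) :
    IsCoprime (discr (Lim L V)) (discr ℚ⟮ζ⟯) := by
  have := hζ.intermediateField_adjoin_isCyclotomicExtension ℚ
  have h := IsCyclotomicExtension.Rat.discr_prime q ℚ⟮ζ⟯
  rw [discr_Lim]
  have h2 : discr ℚ⟮ζ⟯ = (-1) ^ ((q - 1) / 2) * (q : ℤ) ^ (q - 2) := h
  rw [h2]
  have hqp : Prime (q : ℤ) := Nat.prime_iff_prime_int.mp (Fact.out)
  refine IsCoprime.mul_right ?_ ?_
  · exact isCoprime_one_right.neg_right.pow_right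
  · exact ((Prime.coprime_iff_not_dvd hqp).mpr hq).symm.pow_right

set_option backward.isDefEq.respectTransparency false in
lemma finrank_V (hq : ¬ (q : ℤ) ∣ discr L) [IsGalois ℚ L] :
    Module.finrank ℚ V = Module.finrank ℚ L * (q - 1) := by
  have hζ := IsCyclotomicExtension.zeta_spec q L V
  have := hζ.intermediateField_adjoin_isCyclotomicExtension ℚ
  have hd := linearDisjoint_of_isGalois_isCoprime_discr V _ _ (coprime_discr L V q hq hζ)
  have h := hd.finrank_sup
  rw [sup_eq_top L V q hζ, finrank_top', finrank_Lim,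
    IsCyclotomicExtension.Rat.finrank q ℚ⟮IsCyclotomicExtension.zeta q L V⟯,
    Nat.totient_prime Fact.out] at h
  exact h

lemma finrank_LV (hq : ¬ (q : ℤ) ∣ discr L) [IsGalois ℚ L] :
    Module.finrank L V = q - 1 := by
  have h := finrank_V L V q hq
  rw [← Module.finrank_mul_finrank ℚ L V] at h
  exact Nat.eq_of_mul_eq_mul_left Module.finrank_pos h

set_option backward.isDefEq.respectTransparency false in
lemma discr_V (hq : ¬ (q : ℤ) ∣ discr L) [IsGalois ℚ L] :
    (discr V).natAbs = (discr L).natAbs ^ (q - 1) * (q ^ (q - 2)) ^ Module.finrank ℚ L := by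
  have hζ := IsCyclotomicExtension.zeta_spec q L V
  have := hζ.intermediateField_adjoin_isCyclotomicExtension ℚ
  have hc := coprime_discr L V q hq hζ
  have hd := linearDisjoint_of_isGalois_isCoprime_discr V _ _ hc
  have h := natAbs_discr_eq_natAbs_discr_pow_mul_natAbs_discr_pow V _ _ hd
    (sup_eq_top L V q hζ) (isCoprime_differentIdeal_of_isCoprime_discr V hc)
  have h2 : discr ℚ⟮IsCyclotomicExtension.zeta q L V⟯ = (-1) ^ ((q - 1) / 2) * (q : ℤ) ^ (q - 2) :=
    IsCyclotomicExtension.Rat.discr_prime q _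
  rw [h, finrank_Lim, discr_Lim, IsCyclotomicExtension.Rat.finrank q, Nat.totient_prime Fact.out,
    h2]
  simp only [Int.reduceNeg, Int.natAbs_mul, Int.natAbs_pow, IsUnit.neg_iff, isUnit_one,
    Int.natAbs_of_isUnit, one_pow, Int.natAbs_natCast, one_mul]

end


section

variable (L V : Type) [Field L] [NumberField L] [Field V] [NumberField V] [Algebra L V]
variable {q : ℕ} [Fact q.Prime]
variable (χ : DirichletCharacter ℂ q) {ζ : V} (hζ : IsPrimitiveRoot ζ q)

/-- `κ` on `Gal(V/ℚ)` -/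
noncomputable def kV : (V ≃ₐ[ℚ] V) →* ℂˣ := χ.toUnitHom.comp (hζ.autToPow ℚ)

/-- the kernel of `(restriction to L, κ)` -/
noncomputable def K0 : Subgroup (V ≃ₐ[ℚ] V) := (Lim L V).fixingSubgroup ⊓ (kV V χ hζ).ker

/-- the field `W` -/
noncomputable abbrev WF : IntermediateField ℚ V := fixedField (K0 L V χ hζ)

set_option backward.isDefEq.respectTransparency false in
lemma K0_normal [IsGalois ℚ L] [IsGalois ℚ V] : (K0 L V χ hζ).Normal := by
  have : (Lim L V).fixingSubgroup.Normal := IsGalois.fixingSubgroup_normal_of_isGalois (Lim L V)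
  exact Subgroup.normal_inf_normal _ _

lemma isGalois_WF' [IsGalois ℚ L] [IsGalois ℚ V] :
    @IsGalois ℚ _ (WF L V χ hζ) _ (IntermediateField.algebra' _) := by
  have := K0_normal L V χ hζ
  exact IsGalois.of_fixedField_normal_subgroup (K0 L V χ hζ)

set_option backward.isDefEq.respectTransparency false in
lemma isGalois_WF [IsGalois ℚ L] [IsGalois ℚ V] : IsGalois ℚ (WF L V χ hζ) :=
  isGalois_WF' L V χ hζ

lemma Lim_le_WF : Lim L V ≤ WF L V χ hζ := by
  rw [IntermediateField.le_iff_le]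
  exact inf_le_left

variable [IsCyclotomicExtension {q} L V]

lemma card_K0 (hq : ¬ (q : ℤ) ∣ discr L) [IsGalois ℚ L] [IsGalois ℚ V] {d : ℕ} (hd : d.Prime)
    (hχ : orderOf χ = d) : Nat.card (K0 L V χ hζ) * d = q - 1 := by
  set H := (Lim L V).fixingSubgroup with hH
  have hcardH : Nat.card H = q - 1 := by
    have h1 : Nat.card H = Module.finrank (Lim L V) V :=
      IsGalois.card_fixingSubgroup_eq_finrank (Lim L V)
    have h2 := Module.finrank_mul_finrank ℚ (Lim L V) V
    rw [finrank_Lim, finrank_V L V q hq] at h2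
    rw [h1]
    exact Nat.eq_of_mul_eq_mul_left Module.finrank_pos h2
  have hinj : Function.Injective ((hζ.autToPow ℚ).comp H.subtype) := by
    rw [injective_iff_map_eq_one]
    rintro ⟨σ, hσ⟩ h
    have h1 : hζ.autToPow ℚ σ = 1 := h
    have h2 := hζ.autToPow_spec ℚ σ
    rw [h1] at h2
    have hfix : σ ζ = ζ := by
      rw [← h2]
      have : ((1 : (ZMod q)ˣ) : ZMod q).val = 1 := by
        rw [Units.val_one]
        have : Fact (1 < q) := ⟨(Fact.out : q.Prime).one_lt⟩
        exact ZMod.val_one q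
      rw [this, pow_one]
    have h3 : σ ∈ (Lim L V ⊔ ℚ⟮ζ⟯).fixingSubgroup := by
      rw [fixingSubgroup_sup]
      refine ⟨hσ, ?_⟩
      have h4 : MulAction.stabilizer (V ≃ₐ[ℚ] V) ζ ≤ ℚ⟮ζ⟯.fixingSubgroup := by
        rw [← IntermediateField.le_iff_le, adjoin_simple_le_iff, mem_fixedField_iff]
        exact fun f hf => hf
      exact h4 hfix
    rw [sup_eq_top L V q hζ, fixingSubgroup_top, Subgroup.mem_bot] at h3
    exact Subtype.ext h3
  have hsurj : Function.Surjective ((hζ.autToPow ℚ).comp H.subtype) := by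
    have hc : Nat.card H = Nat.card (ZMod q)ˣ := by
      rw [hcardH, Nat.card_eq_fintype_card, ZMod.card_units_eq_totient,
        Nat.totient_prime Fact.out]
    exact ((Nat.bijective_iff_injective_and_card _).mpr ⟨hinj, hc⟩).2
  set φ : H →* ℂˣ := (kV V χ hζ).comp H.subtype with hφ
  have hker : Nat.card φ.ker = Nat.card (K0 L V χ hζ) := by
    have : K0 L V χ hζ = φ.ker.map H.subtype := by
      ext σ
      simp only [K0, Subgroup.mem_inf, MonoidHom.mem_ker, Subgroup.mem_map]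
      constructor
      · rintro ⟨h1, h2⟩
        exact ⟨⟨σ, h1⟩, h2, rfl⟩
      · rintro ⟨⟨τ, h1⟩, h2, rfl⟩
        exact ⟨h1, h2⟩
    rw [this]
    exact (Subgroup.card_map_of_injective H.subtype_injective).symm
  have hrange : φ.range = χ.toUnitHom.range := by
    ext y
    constructor
    · rintro ⟨σ, rfl⟩
      exact ⟨_, rfl⟩
    · rintro ⟨u, rfl⟩
      obtain ⟨σ, rfl⟩ := hsurj u
      exact ⟨σ, rfl⟩
  have hcr : Nat.card χ.toUnitHom.range = d := by
    have h0 : NeZero d := ⟨hd.ne_zero⟩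
    have hle : χ.toUnitHom.range ≤ rootsOfUnity d ℂ := by
      rintro y ⟨u, rfl⟩
      rw [mem_rootsOfUnity]
      ext
      rw [Units.val_pow_eq_pow_val, MulChar.coe_toUnitHom, ← MulChar.pow_apply_coe, ← hχ,
        pow_orderOf_eq_one, MulChar.one_apply_coe, Units.val_one]
    have hdvd := Subgroup.card_dvd_of_le hle
    rw [Complex.card_rootsOfUnity] at hdvd
    rcases (Nat.dvd_prime hd).mp hdvd with h1 | h1
    · exfalso
      rw [Subgroup.card_eq_one] at h1
      have h2 : χ = 1 := by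
        ext u
        have : χ.toUnitHom u ∈ χ.toUnitHom.range := ⟨u, rfl⟩
        rw [h1, Subgroup.mem_bot] at this
        rw [← MulChar.coe_toUnitHom, this, MulChar.one_apply_coe, Units.val_one]
      rw [h2, orderOf_one] at hχ
      exact hd.one_lt.ne hχ
    · exact h1
  have h5 : Nat.card φ.ker * Nat.card φ.range = Nat.card H := by
    rw [← Subgroup.index_ker, Subgroup.card_mul_index]
  rw [hker, hrange, hcr, hcardH] at h5
  exact h5

end


lemma root_unity_eq {R : Type} [CommRing R] [IsDomain R] (Q : Ideal R) {q : ℕ} (hq : q ≠ 0)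
    (hqQ : (q : R) ∉ Q) {a b : R} (ha : a ^ q = 1) (hb : b ^ q = 1) (hab : a - b ∈ Q) : a = b := by
  obtain ⟨m, rfl⟩ : ∃ m, q = m + 1 := ⟨q - 1, by omega⟩
  set u : R := a * b ^ m with hu
  have hu1 : u ^ (m + 1) = 1 := by
    rw [hu, mul_pow, ha, one_mul, ← pow_mul, mul_comm, pow_mul, hb, one_pow]
  have hbb : b * b ^ m = 1 := by rw [← pow_succ', hb]
  have hmem : u - 1 ∈ Q := by
    have : u - 1 = (a - b) * b ^ m := by rw [sub_mul, hbb]
    rw [this]
    exact Q.mul_mem_right _ hab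
  have hu2 : u = 1 := by
    by_contra hne
    apply hqQ
    have h0 : ∑ i ∈ Finset.range (m + 1), u ^ i = 0 := by
      have := geom_sum_mul u (m + 1)
      rw [hu1, sub_self] at this
      exact (mul_eq_zero.mp this).resolve_right (sub_ne_zero.mpr hne)
    have h1 : ∑ i ∈ Finset.range (m + 1), (u ^ i - 1) ∈ Q := by
      refine sum_mem fun i _ => ?_
      obtain ⟨c, hc⟩ := sub_one_dvd_pow_sub_one u i
      rw [hc]
      exact Q.mul_mem_right _ hmem
    rw [Finset.sum_sub_distrib, h0] at h1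
    simp only [Finset.sum_const, Finset.card_range, nsmul_eq_mul, mul_one, zero_sub, neg_mem_iff] at h1
    exact h1
  calc a = a * (b * b ^ m) := by rw [hbb, mul_one]
    _ = u * b := by rw [hu]; ring
    _ = b := by rw [hu2, one_mul]

lemma frob_aux (V W : Type) [Field V] [NumberField V] [Field W] [NumberField W] [Algebra W V]
    (K : Subgroup (V ≃ₐ[ℚ] V))
    (hfix : ∀ x : V, (∀ g ∈ K, g x = x) → ∃ y : W, algebraMap W V y = x)
    (σ₁ : V ≃ₐ[ℚ] V) (σ : W ≃ₐ[ℚ] W)
    (hres : ∀ y : W, σ₁ (algebraMap W V y) = algebraMap W V (σ y))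
    (p : ℕ) (hp : p.Prime) (Q : Ideal (𝓞 W)) (hQ : Q.IsMaximal) (hpQ : (p : 𝓞 W) ∈ Q)
    (hσ : ∀ x : 𝓞 W, RingOfIntegers.mapRingEquiv σ.toRingEquiv x - x ^ p ∈ Q)
    {q : ℕ} (hq : q.Prime) (hpq : p ≠ q) (ζ : V) (hζ : ζ ^ q = 1) :
    ∃ g ∈ K, σ₁ ζ = (g ζ) ^ p := by
  classical
  have : Fact p.Prime := ⟨hp⟩
  obtain ⟨Q', hQ', hlies⟩ := Ideal.exists_maximal_ideal_liesOver_of_isIntegral (S := 𝓞 V) Q
  have hmapQ : ∀ x ∈ Q, algebraMap (𝓞 W) (𝓞 V) x ∈ Q' := by
    intro x hx
    have : Q = Q'.comap (algebraMap (𝓞 W) (𝓞 V)) := hlies.over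
    rw [this] at hx
    exact hx
  have hpQ' : (p : 𝓞 V) ∈ Q' := by
    have := hmapQ _ hpQ
    simpa only [map_natCast] using this
  have hqQ' : (q : 𝓞 V) ∉ Q' := by
    intro h
    have hcop : IsCoprime (p : ℤ) (q : ℤ) :=
      Nat.isCoprime_iff_coprime.mpr ((Nat.coprime_primes hp hq).mpr hpq)
    obtain ⟨u, v, huv⟩ := hcop
    have h1 : (u : 𝓞 V) * (p : 𝓞 V) + (v : 𝓞 V) * (q : 𝓞 V) = 1 := by exact_mod_cast huv
    apply hQ'.ne_top
    rw [Ideal.eq_top_iff_one, ← h1]
    exact Q'.add_mem (Q'.mul_mem_left _ hpQ') (Q'.mul_mem_left _ h)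
  let F := 𝓞 V ⧸ Q'
  let π : 𝓞 V →+* F := Ideal.Quotient.mk Q'
  have hpF : (p : F) = 0 := by
    have : π (p : 𝓞 V) = 0 := Ideal.Quotient.eq_zero_iff_mem.mpr hpQ'
    simpa only [map_natCast] using this
  have : Nontrivial F := Ideal.Quotient.nontrivial_iff.mpr hQ'.ne_top
  have : IsDomain F := Ideal.Quotient.isDomain Q'
  have : CharP F p := (CharP.charP_iff_prime_eq_zero hp).mpr hpF
  have hint : IsIntegral ℤ ζ := by
    refine IsIntegral.of_pow hq.pos ?_
    rw [hζ]
    exact isIntegral_one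
  let z : 𝓞 V := ⟨ζ, hint⟩
  let act : (V ≃ₐ[ℚ] V) → (𝓞 V ≃+* 𝓞 V) := fun g => RingOfIntegers.mapRingEquiv g.toRingEquiv
  have hact : ∀ g x, ((act g x : 𝓞 V) : V) = g x := fun g x => rfl
  let P : (𝓞 V)[X] := ∏ g : K, (X - C (act g z))
  have hPmap : ∀ h ∈ K, P.map (act h : 𝓞 V →+* 𝓞 V) = P := by
    intro h hh
    simp only [P, Polynomial.map_prod, Polynomial.map_sub, Polynomial.map_X, Polynomial.map_C]
    refine Fintype.prod_equiv (Equiv.mulLeft (⟨h, hh⟩ : K)) _ _ ?_
    intro g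
    rfl
  have hcoef : ∀ i, ∃ c : 𝓞 W, algebraMap (𝓞 W) (𝓞 V) c = P.coeff i := by
    intro i
    obtain ⟨y, hy⟩ := hfix (P.coeff i : 𝓞 V) (by
      intro g hg
      have h1 := congrArg (fun R : (𝓞 V)[X] => ((R.coeff i : 𝓞 V) : V)) (hPmap g hg)
      simp only [Polynomial.coeff_map] at h1
      exact h1)
    have hyint : IsIntegral ℤ y := by
      have h2 : IsIntegral ℤ (algebraMap W V y) := by
        rw [hy]
        exact (P.coeff i : 𝓞 V).2
      exact (isIntegral_algebraMap_iff (algebraMap W V).injective).mp h2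
    exact ⟨⟨y, hyint⟩, by
      ext
      exact hy⟩
  have hroot : P.eval z = 0 := by
    simp only [P, Polynomial.eval_prod]
    refine Finset.prod_eq_zero (Finset.mem_univ 1) ?_
    have h1 : act ((1 : K) : V ≃ₐ[ℚ] V) z = z := by
      ext
      rfl
    rw [h1, eval_sub, eval_X, eval_C, sub_self]
  have hroot1 : (P.map (act σ₁ : 𝓞 V →+* 𝓞 V)).eval (act σ₁ z) = 0 := by
    rw [eval_map]
    have h1 := eval₂_hom (p := P) (act σ₁ : 𝓞 V →+* 𝓞 V) z
    rw [hroot, map_zero] at h1
    exact h1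
  have hmap : (P.map (act σ₁ : 𝓞 V →+* 𝓞 V)).map π = (P.map π).map (frobenius F p) := by
    ext i
    rw [coeff_map, coeff_map, coeff_map, coeff_map, frobenius_def]
    obtain ⟨c, hc⟩ := hcoef i
    rw [← hc, ← map_pow]
    have h1 : (act σ₁ : 𝓞 V →+* 𝓞 V) (algebraMap (𝓞 W) (𝓞 V) c) =
        algebraMap (𝓞 W) (𝓞 V) (RingOfIntegers.mapRingEquiv σ.toRingEquiv c) := by
      ext
      exact hres c
    rw [h1]
    refine Ideal.Quotient.eq.mpr ?_
    rw [← map_pow, ← map_sub]
    exact hmapQ _ (hσ c)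
  have hev : ((P.map π).map (frobenius F p)).eval (π (act σ₁ z)) = 0 := by
    rw [← hmap, eval_map, eval₂_hom, hroot1, map_zero]
  have hprod : ∏ g : K, (π (act σ₁ z) - π (act g z) ^ p) = 0 := by
    simpa [P, Polynomial.map_prod, Polynomial.eval_prod, frobenius_def] using hev
  obtain ⟨g, -, hg⟩ := Finset.prod_eq_zero_iff.mp hprod
  refine ⟨g, g.2, ?_⟩
  rw [← map_pow, ← map_sub] at hg
  have hg' : act σ₁ z - (act g z) ^ p ∈ Q' := Ideal.Quotient.eq_zero_iff_mem.mp hg
  have hzq : z ^ q = 1 := by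
    ext
    exact hζ
  have h3 : act σ₁ z = (act g z) ^ p := by
    refine root_unity_eq Q' hq.ne_zero hqQ' ?_ ?_ hg'
    · rw [← map_pow, hzq, map_one]
    · rw [← pow_mul, mul_comm, pow_mul, ← map_pow, hzq, map_one, one_pow]
  exact congrArg (fun x : 𝓞 V => (x : V)) h3


lemma pow_modEq {V : Type} [Field V] {q : ℕ} {ζ : V} (hζ : IsPrimitiveRoot ζ q) (hq : q ≠ 0)
    {a b : ℕ} (h : ζ ^ a = ζ ^ b) : a ≡ b [MOD q] := by
  wlog hab : a ≤ b generalizing a b
  · exact (this h.symm (by omega)).symm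
  · rw [Nat.modEq_iff_dvd' hab]
    apply hζ.dvd_of_pow_eq_one
    have h0 : ζ ^ a ≠ 0 := pow_ne_zero _ (hζ.ne_zero hq)
    apply mul_left_cancel₀ h0
    rw [← pow_add, mul_one, h]
    congr 1
    omega

section main
variable (L V W : Type) [Field L] [NumberField L] [Field V] [NumberField V] [Algebra L V]
  [Field W] [NumberField W] [Algebra L W] [Algebra W V] [IsScalarTower L W V]
  {q : ℕ} [Fact q.Prime] (χ : DirichletCharacter ℂ q) {ζ : V} (hζ : IsPrimitiveRoot ζ q)

lemma exists_kappa [IsGalois ℚ V] [IsGalois ℚ W]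
    (h1 : ∀ g : V ≃ₐ[ℚ] V, (∀ y : W, g (algebraMap W V y) = algebraMap W V y) →
      kV V χ hζ g = 1) :
    ∃ κ : (W ≃ₐ[ℚ] W) →* ℂˣ, ∀ (g : V ≃ₐ[ℚ] V) (σ : W ≃ₐ[ℚ] W),
      (∀ y : W, g (algebraMap W V y) = algebraMap W V (σ y)) → κ σ = kV V χ hζ g := by
  set r : (V ≃ₐ[ℚ] V) →* (W ≃ₐ[ℚ] W) := AlgEquiv.restrictNormalHom W with hr
  have hrs : ∀ g (y : W), algebraMap W V (r g y) = g (algebraMap W V y) := fun g y =>
    AlgEquiv.restrictNormal_commutes g W y
  have hsurj : Function.Surjective r := AlgEquiv.restrictNormalHom_surjective V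
  have hker : r.ker ≤ (kV V χ hζ).ker := by
    intro g hg
    rw [MonoidHom.mem_ker] at hg ⊢
    apply h1
    intro y
    rw [← hrs, hg]
    rfl
  refine ⟨r.liftOfSurjective hsurj ⟨kV V χ hζ, hker⟩, ?_⟩
  intro g σ hgσ
  have h2 : σ = r g := by
    ext y
    apply (algebraMap W V).injective
    rw [hrs, hgσ]
  rw [h2]
  exact MonoidHom.liftOfRightInverse_comp_apply _ _ _ _ _

lemma exists_lift [IsGalois ℚ V] [IsGalois ℚ W] (σ : W ≃ₐ[ℚ] W) :
    ∃ g : V ≃ₐ[ℚ] V, ∀ y : W, g (algebraMap W V y) = algebraMap W V (σ y) := by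
  obtain ⟨g, hg⟩ := AlgEquiv.restrictNormalHom_surjective (F := ℚ) (K₁ := W) V σ
  refine ⟨g, fun y => ?_⟩
  rw [← hg]
  exact (AlgEquiv.restrictNormal_commutes g W y).symm

/-- the Frobenius property of `κ` -/
lemma kV_frob (K : Subgroup (V ≃ₐ[ℚ] V))
    (hfix : ∀ x : V, (∀ g ∈ K, g x = x) → ∃ y : W, algebraMap W V y = x)
    (hK : ∀ g ∈ K, kV V χ hζ g = 1)
    (σ₁ : V ≃ₐ[ℚ] V) (σ : W ≃ₐ[ℚ] W)
    (hres : ∀ y : W, σ₁ (algebraMap W V y) = algebraMap W V (σ y))
    (p : ℕ) (hp : p.Prime) (hpq : p ≠ q) (Q : Ideal (𝓞 W)) (hQ : Q.IsMaximal)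
    (hpQ : (p : 𝓞 W) ∈ Q)
    (hσ : ∀ x : 𝓞 W, RingOfIntegers.mapRingEquiv σ.toRingEquiv x - x ^ p ∈ Q) :
    (kV V χ hζ σ₁ : ℂ) = χ (p : ZMod q) := by
  obtain ⟨g, hg, hgz⟩ := frob_aux V W K hfix σ₁ σ hres p hp Q hQ hpQ hσ (Fact.out : q.Prime) hpq ζ
    hζ.pow_eq_one
  have h1 := hζ.autToPow_spec ℚ σ₁
  have h2 := hζ.autToPow_spec ℚ g
  rw [← h1, ← h2, ← pow_mul] at hgz
  have h3 : ((hζ.autToPow ℚ σ₁ : ZMod q)) = (hζ.autToPow ℚ g : ZMod q) * (p : ZMod q) := by
    have h4 := pow_modEq hζ (Fact.out : q.Prime).ne_zero hgz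
    have h5 := (ZMod.natCast_eq_natCast_iff _ _ _).mpr h4
    simpa using h5
  have h6 : (kV V χ hζ g : ℂ) = 1 := by rw [hK g hg]; rfl
  have h7 : ∀ τ : V ≃ₐ[ℚ] V, (kV V χ hζ τ : ℂ) = χ (hζ.autToPow ℚ τ : ZMod q) := fun τ => rfl
  rw [h7, h3, map_mul, ← h7, h6, one_mul]

end main


lemma totallyReal_of_odd (L W : Type) [Field L] [Field W] [Algebra L W] [IsTotallyReal L]
    [IsGalois L W] (h : Odd (Module.finrank L W)) : IsTotallyReal W := by
  have h1 := IsUnramifiedAtInfinitePlaces_of_odd_finrank h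
  refine ⟨fun v => ?_⟩
  rcases InfinitePlace.isUnramified_iff.mp (h1.isUnramified v) with h2 | h2
  · exact h2
  · exfalso
    exact (InfinitePlace.not_isReal_iff_isComplex.mpr h2) (IsTotallyReal.isReal _)

lemma discr_bound (L V W : Type) [Field L] [NumberField L] [Field V] [NumberField V] [Algebra L V]
    [Field W] [NumberField W] [Algebra W V] [IsGalois ℚ L]
    {q : ℕ} [Fact q.Prime] [IsCyclotomicExtension {q} L V] (hq : ¬ (q : ℤ) ∣ discr L) {d : ℕ}
    (h : Module.finrank W V * d = q - 1) :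
    Real.log |(discr W : ℝ)| ≤ d * (Real.log |(discr L : ℝ)| + Module.finrank ℚ L * Real.log q) := by
  have hqp : q.Prime := Fact.out
  have h1 := natAbs_discr_eq_absNorm_differentIdeal_mul_natAbs_discr_pow W (𝓞 W) V (𝓞 V)
  have h2 : (discr W).natAbs ^ Module.finrank W V ≤ (discr V).natAbs := by
    apply Nat.le_of_dvd
    · exact Int.natAbs_pos.mpr (discr_ne_zero V)
    · rw [h1]
      exact dvd_mul_left _ _
  rw [discr_V L V q hq] at h2
  have hWpos : (0 : ℝ) < ((discr W).natAbs : ℝ) := by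
    exact_mod_cast Int.natAbs_pos.mpr (discr_ne_zero W)
  have hLpos : (0 : ℝ) < ((discr L).natAbs : ℝ) := by
    exact_mod_cast Int.natAbs_pos.mpr (discr_ne_zero L)
  have hqpos : (0 : ℝ) < q := by exact_mod_cast hqp.pos
  have hWa : |(discr W : ℝ)| = ((discr W).natAbs : ℝ) := by
    rw [Nat.cast_natAbs, Int.cast_abs]
  have hLa : |(discr L : ℝ)| = ((discr L).natAbs : ℝ) := by
    rw [Nat.cast_natAbs, Int.cast_abs]
  rw [hWa, hLa]
  set k := Module.finrank W V with hk
  have hkpos : 0 < k := Module.finrank_pos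
  have h3 : ((discr W).natAbs : ℝ) ^ k ≤
      ((discr L).natAbs : ℝ) ^ (q - 1) * ((q : ℝ) ^ (q - 2)) ^ Module.finrank ℚ L := by
    exact_mod_cast h2
  have h4 := Real.log_le_log (by positivity) h3
  rw [Real.log_mul (by positivity) (by positivity), Real.log_pow, Real.log_pow, Real.log_pow,
    Real.log_pow] at h4
  have hq2 : ((q - 2 : ℕ) : ℝ) ≤ ((q - 1 : ℕ) : ℝ) := by
    exact_mod_cast (by omega : q - 2 ≤ q - 1)
  have hlogq : 0 ≤ Real.log q := Real.log_nonneg (by exact_mod_cast hqp.one_lt.le)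
  have h5 : (Module.finrank ℚ L : ℝ) * (((q - 2 : ℕ) : ℝ) * Real.log q) ≤
      (Module.finrank ℚ L : ℝ) * (((q - 1 : ℕ) : ℝ) * Real.log q) := by gcongr
  have h6 : ((q - 1 : ℕ) : ℝ) = (k : ℝ) * d := by
    rw [← h]; push_cast; ring
  rw [h6] at h5 h4
  have h7 : (k : ℝ) * Real.log ((discr W).natAbs : ℝ) ≤
      (k : ℝ) * (d * (Real.log ((discr L).natAbs : ℝ) + Module.finrank ℚ L * Real.log q)) := by
    calc _ ≤ _ := h4
      _ ≤ (k : ℝ) * d * Real.log ((discr L).natAbs : ℝ) +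
        (Module.finrank ℚ L : ℝ) * ((k : ℝ) * d * Real.log q) := by linarith
      _ = _ := by ring
  exact le_of_mul_le_mul_left h7 (by exact_mod_cast hkpos)

lemma exists_W (L : Type) [Field L] [NumberField L] [IsTotallyReal L] [IsGalois ℚ L] {d : ℕ}
    (hd : d.Prime) (hodd : Odd d) (q : ℕ) (hqp : q.Prime) (hdq : d ∣ q - 1)
    (hqD : ¬ (q : ℤ) ∣ discr L) :
    ∃ (χ : DirichletCharacter ℂ q) (W : Type) (_ : Field W) (_ : NumberField W)
      (_ : Algebra L W) (κ : (W ≃ₐ[ℚ] W) →* ℂˣ),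
      orderOf χ = d ∧ IsTotallyReal W ∧ IsGalois ℚ W ∧
      Module.finrank ℚ W = d * Module.finrank ℚ L ∧
      Real.log |(discr W : ℝ)| ≤
        d * (Real.log |(discr L : ℝ)| + Module.finrank ℚ L * Real.log q) ∧
      (∀ σ : W ≃ₐ[ℚ] W, (∀ x : L, σ (algebraMap L W x) = algebraMap L W x) → κ σ = 1 → σ = 1) ∧
      (∀ σ : W ≃ₐ[ℚ] W, κ σ ^ d = 1) ∧
      ∀ (p : ℕ), p.Prime → p ≠ q → ∀ (Q : Ideal (𝓞 W)) (σ : W ≃ₐ[ℚ] W), Q.IsMaximal →
        (p : 𝓞 W) ∈ Q → (∀ x : 𝓞 W, RingOfIntegers.mapRingEquiv σ.toRingEquiv x - x ^ p ∈ Q) →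
        (κ σ : ℂ) = χ (p : ZMod q) := by
  have : Fact q.Prime := ⟨hqp⟩
  obtain ⟨χ, hχ⟩ : ∃ χ : DirichletCharacter ℂ q, orderOf χ = d := by
    have h1 : d ∣ Fintype.card (ZMod q) - 1 := by rwa [ZMod.card]
    exact MulChar.exists_mulChar_orderOf (ZMod q) h1
      (Complex.isPrimitiveRoot_exp d hd.ne_zero)
  let V := CyclotomicField q L
  have hζ := IsCyclotomicExtension.zeta_spec q L V
  have hGV : IsGalois ℚ V := isGalois_V L V q
  have hcard := card_K0 L V χ hζ hqD hd hχ
  let W := WF L V χ hζ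
  have hGW : IsGalois ℚ W := isGalois_WF L V χ hζ
  let algLW : Algebra L W :=
    (((IntermediateField.inclusion (Lim_le_WF L V χ hζ)).toRingHom).comp
      ((eL L V).toRingEquiv.toRingHom)).toAlgebra
  have hLW : ∀ x : L, ((algebraMap L W x : W) : V) = algebraMap L V x := fun x => rfl
  have hst : IsScalarTower L W V := IsScalarTower.of_algebraMap_eq (fun x => rfl)
  have hmemW : ∀ x : V, (∀ g ∈ K0 L V χ hζ, g x = x) → ∃ y : W, algebraMap W V y = x := by
    intro x hx
    exact ⟨⟨x, (mem_fixedField_iff _ _).mpr hx⟩, rfl⟩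
  have hKW : ∀ g ∈ K0 L V χ hζ, ∀ y : W, g (algebraMap W V y) = algebraMap W V y := by
    intro g hg y
    exact (mem_fixedField_iff _ _).mp y.2 g hg
  have hWK : ∀ g : V ≃ₐ[ℚ] V, (∀ y : W, g (algebraMap W V y) = algebraMap W V y) →
      g ∈ K0 L V χ hζ := by
    intro g hg
    have h1 : g ∈ W.fixingSubgroup := by
      rw [IntermediateField.mem_fixingSubgroup_iff]
      intro x hx
      exact hg ⟨x, hx⟩
    rwa [fixingSubgroup_fixedField] at h1
  have hK1 : ∀ g ∈ K0 L V χ hζ, kV V χ hζ g = 1 := fun g hg => hg.2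
  obtain ⟨κ, hκ⟩ := exists_kappa V W χ hζ (fun g hg => hK1 g (hWK g hg))
  have hdim1 : Module.finrank W V * d = q - 1 := by
    have : Module.finrank W V = Nat.card (K0 L V χ hζ) := finrank_fixedField_eq_card _
    rw [this]
    exact hcard
  have hqpos : 0 < q - 1 := by have := hqp.two_le; omega
  have hdim2 : Module.finrank L W = d := by
    have h1 := Module.finrank_mul_finrank L W V
    rw [finrank_LV L V q hqD, ← hdim1, mul_comm] at h1
    exact Nat.eq_of_mul_eq_mul_left Module.finrank_pos h1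
  have hdim3 : Module.finrank ℚ W = d * Module.finrank ℚ L := by
    have h1 := Module.finrank_mul_finrank ℚ L W
    rw [hdim2] at h1
    rw [← h1, mul_comm]
  have hLWgal : IsGalois L W := IsGalois.tower_top_of_isGalois ℚ L W
  refine ⟨χ, W, inferInstance, inferInstance, algLW, κ, hχ, ?_, hGW, hdim3,
    discr_bound L V W hqD hdim1, ?_, ?_, ?_⟩
  · exact totallyReal_of_odd L W (by rwa [hdim2])
  · intro σ hσL hσκ
    obtain ⟨g, hg⟩ := exists_lift V W σ
    have h1 : kV V χ hζ g = 1 := by rw [← hκ g σ hg, hσκ]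
    have h2 : g ∈ K0 L V χ hζ := by
      refine ⟨?_, h1⟩
      change g ∈ (Lim L V).fixingSubgroup
      rw [IntermediateField.mem_fixingSubgroup_iff]
      rintro _ ⟨x, rfl⟩
      have h3 := hg (algebraMap L W x)
      rw [hσL] at h3
      exact h3
    ext y
    have h3 := hKW g h2 y
    rw [hg] at h3
    exact h3
  · intro σ
    obtain ⟨g, hg⟩ := exists_lift V W σ
    rw [hκ g σ hg]
    ext
    rw [Units.val_pow_eq_pow_val]
    change (χ.toUnitHom (hζ.autToPow ℚ g) : ℂ) ^ d = 1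
    rw [MulChar.coe_toUnitHom, ← MulChar.pow_apply_coe, ← hχ,
        pow_orderOf_eq_one, MulChar.one_apply_coe]
  · intro p hp hpq Q σ hQ hpQ hσ
    obtain ⟨g, hg⟩ := exists_lift V W σ
    rw [hκ g σ hg]
    exact kV_frob V W χ hζ (K0 L V χ hζ) hmemW hK1 g σ hg p hp hpq Q hQ hpQ hσ

end Vale.Agent.P007.Z.Cyclo

namespace Vale.Agent.P007.Z

theorem exists_aux (N : ℕ) : ∃ C : ℝ, ∀ (L : Type) [Field L] [NumberField L] [IsTotallyReal L]
    [IsGalois ℚ L], Module.finrank ℚ L ≤ N → ∀ d : ℕ, d.Prime → Odd d → d ≤ N →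
    ∃ (q : ℕ) (χ : DirichletCharacter ℂ q) (W : Type) (_ : Field W) (_ : NumberField W)
      (_ : Algebra L W) (κ : (W ≃ₐ[ℚ] W) →* ℂˣ),
      q.Prime ∧ orderOf χ = d ∧ IsTotallyReal W ∧ IsGalois ℚ W ∧
      Module.finrank ℚ W = d * Module.finrank ℚ L ∧
      Real.log q ≤ C * (1 + Real.log |(discr L : ℝ)|) ∧
      Real.log |(discr W : ℝ)| ≤ C * (1 + Real.log |(discr L : ℝ)|) ∧
      (∀ σ : W ≃ₐ[ℚ] W, (∀ x : L, σ (algebraMap L W x) = algebraMap L W x) → κ σ = 1 → σ = 1) ∧
      (∀ σ : W ≃ₐ[ℚ] W, κ σ ^ d = 1) ∧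
      ∀ (p : ℕ), p.Prime → p ≠ q → ∀ (Q : Ideal (𝓞 W)) (σ : W ≃ₐ[ℚ] W), Q.IsMaximal →
        (p : 𝓞 W) ∈ Q → (∀ x : 𝓞 W, RingOfIntegers.mapRingEquiv σ.toRingEquiv x - x ^ p ∈ Q) →
        (κ σ : ℂ) = χ (p : ZMod q) := by
  set C1 : ℝ := N * (N + 1) with hC1
  refine ⟨C1 + N * (1 + N * C1), ?_⟩
  intro L _ _ _ _ hLN d hd hodd hdN
  have hDpos : 0 < (discr L).natAbs := Int.natAbs_pos.mpr (discr_ne_zero L)
  obtain ⟨q, hqp, hdq, hqD, hqlog⟩ := Cyclo.exists_prime d hd hodd (discr L).natAbs hDpos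
  have hqD' : ¬ (q : ℤ) ∣ discr L := by rwa [Int.natCast_dvd]
  obtain ⟨χ, W, i1, i2, i3, κ, h1, h2, h3, h4, h5, h6, h7, h8⟩ :=
    Cyclo.exists_W L hd hodd q hqp hdq hqD'
  have hLa : |(discr L : ℝ)| = ((discr L).natAbs : ℝ) := by
    rw [Nat.cast_natAbs, Int.cast_abs]
  have hlogD : 0 ≤ Real.log |(discr L : ℝ)| := by
    rw [hLa]
    exact Real.log_nonneg (by exact_mod_cast hDpos)
  rw [← hLa] at hqlog
  set X := Real.log |(discr L : ℝ)| with hX
  have hdN' : (d : ℝ) ≤ N := by exact_mod_cast hdN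
  have hLN' : (Module.finrank ℚ L : ℝ) ≤ N := by exact_mod_cast hLN
  have hd0 : (0 : ℝ) ≤ d := by (clear * -; positivity)
  have hN0 : (0 : ℝ) ≤ N := by (clear * -; positivity)
  have hlogd : Real.log d ≤ N := by
    have : Real.log d ≤ d := by
      rcases Nat.eq_zero_or_pos d with h | h
      · exact absurd h hd.ne_zero
      · have := Real.log_le_sub_one_of_pos (show (0 : ℝ) < d by exact_mod_cast h)
        linarith only [this]
    linarith only [hdN', this]
  have hlogd0 : 0 ≤ Real.log d := Real.log_nonneg (by exact_mod_cast hd.one_lt.le)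
  have hC1nn : 0 ≤ C1 := by (clear * -; positivity)
  have hq1 : Real.log q ≤ C1 * (1 + X) := by
    calc Real.log q ≤ d * (Real.log d + X) := hqlog
      _ ≤ N * (N + X) := by (clear * - hlogD hdN' hlogd; gcongr)
      _ ≤ C1 * (1 + X) := by rw [hC1]; nlinarith only [mul_nonneg (mul_nonneg hN0 hN0) hlogD,
                                         hlogD, hN0]
  have hlogq0 : 0 ≤ Real.log q := Real.log_nonneg (by exact_mod_cast hqp.one_lt.le)
  refine ⟨q, χ, W, i1, i2, i3, κ, hqp, h1, h2, h3, h4, ?_, ?_, h6, h7, h8⟩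
  · calc Real.log q ≤ C1 * (1 + X) := hq1
      _ ≤ (C1 + N * (1 + N * C1)) * (1 + X) := by
        gcongr
        have : 0 ≤ (N : ℝ) * (1 + N * C1) := by (clear * -; positivity)
        linarith only [this]
  · calc Real.log |(discr W : ℝ)| ≤ d * (X + Module.finrank ℚ L * Real.log q) := h5
      _ ≤ N * (X + N * (C1 * (1 + X))) := by gcongr
      _ ≤ N * ((1 + X) + N * (C1 * (1 + X))) := by gcongr; linarith only []
      _ = (N * (1 + N * C1)) * (1 + X) := by ring
      _ ≤ (C1 + N * (1 + N * C1)) * (1 + X) := by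
        gcongr
        linarith only [hC1nn]

end Vale.Agent.P007.Z
end

section

/-! One cyclic step (Z6). -/

set_option autoImplicit false

open NumberField

namespace Vale.Agent.P007.Z

open CStep

/-- the cyclic step, given the zero quantisation -/
theorem cyclic_step_of
    (exists_ZForm : ∀ (N : ℕ) (C₀ : ℝ), ∃ C ℓ₀ : ℝ, 1 ≤ ℓ₀ ∧ ZForm N C₀ C ℓ₀)
    (N : ℕ) (C₁ : ℝ) : ∃ C₂ ℓ₁ : ℝ, ∀ (L : Type) [Field L] [NumberField L]
    [IsTotallyReal L] [IsGalois ℚ L], Module.finrank ℚ L ≤ N →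
    ∀ (H' H : Subgroup (L ≃ₐ[ℚ] L)) (d : ℕ), H' ≤ H → IsCyclic H → d.Prime → Odd d →
    H'.relIndex H = d → ∀ ℓ : ℝ, ℓ₁ ≤ ℓ → Real.log |(discr L : ℝ)| ≤ C₁ * ℓ →
    ∀ η : ℝ, 0 < η → η ≤ 1 →
      Sc (IntermediateField.fixedField H') (fun _ => True) ℓ η ≤ C₁ →
      Sc (IntermediateField.fixedField H) (fun _ => True) ℓ η ≤ C₂ := by
  obtain ⟨Ca, hCa⟩ := exists_aux N
  set A : ℝ := |C₁| with hA
  set C₀ : ℝ := |Ca| * (1 + A) with hC₀
  obtain ⟨C, ℓ₀, hℓ₀, hZ'⟩ := exists_ZForm (N * N) C₀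
  have hZ := ZForm_mono hZ' (le_abs_self C)
  set CP : ℝ := (N * N : ℕ) + (N * (N * N : ℕ) : ℝ) * A + N * |C| + |C| with hCP
  obtain ⟨C', hpar⟩ := parity CP
  refine ⟨(2 * (N * N : ℕ) : ℝ) * (N * (|C'| + |C|)) + |C| + 1, ℓ₀, ?_⟩
  intro L _ _ _ _ hLN H' H d _ hcyc hd hodd hidx ℓ hℓ hLℓ η hη hη1 hM
  have hdN : d ≤ N := by
    have h1 : d ∣ Nat.card H := hidx ▸ Subgroup.relIndex_dvd_card H' H
    have h2 : Nat.card H ≤ Nat.card (L ≃ₐ[ℚ] L) := Subgroup.card_le_card_group H
    rw [IsGalois.card_aut_eq_finrank] at h2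
    exact (Nat.le_of_dvd Nat.card_pos h1).trans (h2.trans hLN)
  obtain ⟨q, χ, W, _, _, _, κ, hq, hord, _, _, hWdeg, hqℓ, hWℓ, hinj, hκd, hfrob⟩ :=
    hCa L hLN d hd hodd hdN
  have hℓ1 : 1 ≤ ℓ := hℓ₀.trans hℓ
  have hL0 := log_discr_nonneg L
  have hLℓ' : 1 + Real.log |(discr L : ℝ)| ≤ (1 + A) * ℓ := by
    have h1 : C₁ * ℓ ≤ A * ℓ := mul_le_mul_of_nonneg_right (le_abs_self _) (by linarith only [hℓ₀,
                                                                                 hℓ])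
    linarith
  have hbound : Ca * (1 + Real.log |(discr L : ℝ)|) ≤ C₀ * ℓ := by
    calc Ca * (1 + Real.log |(discr L : ℝ)|) ≤ |Ca| * (1 + Real.log |(discr L : ℝ)|) :=
          mul_le_mul_of_nonneg_right (le_abs_self _) (by linarith)
      _ ≤ |Ca| * ((1 + A) * ℓ) := mul_le_mul_of_nonneg_left hLℓ' (abs_nonneg _)
      _ = C₀ * ℓ := by rw [hC₀]; ring
  have hWN : Module.finrank ℚ W ≤ N * N := by
    rw [hWdeg]
    exact Nat.mul_le_mul hdN hLN
  have hA0 : 0 ≤ A := abs_nonneg _
  have hd' : (d : ℝ) ≤ N := by exact_mod_cast hdN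
  have hN0 : (0 : ℝ) ≤ (N * N : ℕ) := Nat.cast_nonneg _
  have hNN0 : (0 : ℝ) ≤ N := Nat.cast_nonneg _
  have hcore := step_core hZ hℓ₀ (abs_nonneg C) hpar H' H d hcyc hd hodd hidx q hq χ hord κ
    hWdeg hWN (CP := CP) (A := A)
    (by
      have h1 : 0 ≤ (N * (N * N : ℕ) : ℝ) * A := by (clear * -; positivity)
      have h2 : 0 ≤ (N : ℝ) * |C| := by (clear * -; positivity)
      have h3 := abs_nonneg C
      linarith only [h1, h2, h3])
    (by
      have h1 : (d * (N * N : ℕ) : ℝ) * A ≤ (N * (N * N : ℕ) : ℝ) * A :=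
        mul_le_mul_of_nonneg_right (mul_le_mul_of_nonneg_right hd' hN0) hA0
      have h2 : (d : ℝ) * |C| ≤ N * |C| := mul_le_mul_of_nonneg_right hd' (abs_nonneg _)
      have h3 := abs_nonneg C
      linarith only [h1, h2, h3])
    (by
      have h1 : 0 ≤ (N * (N * N : ℕ) : ℝ) * A := by (clear * -; positivity)
      have h2 : 0 ≤ (N : ℝ) * |C| := by (clear * -; positivity)
      linarith only [h1, h2])
    ℓ hℓ (hqℓ.trans hbound) (hWℓ.trans hbound) hinj hκd hfrob η hη hη1
    (hM.trans (le_abs_self _))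
  refine hcore.trans ?_
  have h1 : (d : ℝ) * (C' + |C|) ≤ N * (|C'| + |C|) := by
    calc (d : ℝ) * (C' + |C|) ≤ d * (|C'| + |C|) :=
          mul_le_mul_of_nonneg_left (by linarith only [le_abs_self C']) (Nat.cast_nonneg _)
      _ ≤ N * (|C'| + |C|) := mul_le_mul_of_nonneg_right hd' (by (clear * -; positivity))
  have h2 : (2 * (N * N : ℕ) : ℝ) * (d * (C' + |C|)) ≤
      (2 * (N * N : ℕ) : ℝ) * (N * (|C'| + |C|)) :=
    mul_le_mul_of_nonneg_left h1 (by (clear * -; positivity))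
  linarith only [h2]

end Vale.Agent.P007.Z
end

section

/-! Z7: no exceptional zero in odd degree, given the zero quantisation. -/

set_option autoImplicit false

open NumberField

namespace Vale.Agent.P007.Z

/-- Part I.5 from the zero quantisation alone. -/
theorem not_exceptional_of_ZForm
    (hZF : ∀ (N : ℕ) (C₀ : ℝ), ∃ C ℓ₀ : ℝ, 1 ≤ ℓ₀ ∧ ZForm N C₀ C ℓ₀)
    (n : ℕ) (hn : Odd n) : ∃ C ℓ₀ : ℝ, ∀ (K : Type) [Field K] [NumberField K]
    [IsTotallyReal K], Module.finrank ℚ K = n → ∀ ℓ : ℝ, ℓ₀ ≤ ℓ →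
    Real.log |(discr K : ℝ)| ≤ ℓ → ∀ η : ℝ, 0 < η → η ≤ 1 →
      -Real.log η - C ≤ Del K (1 : DirichletCharacter ℂ 1) ℓ η :=
  FinalAux.not_exceptional_of (cyclic_step_of hZF) hZF n hn

end Vale.Agent.P007.Z
end

section

set_option autoImplicit false

open NumberField

namespace Vale.Agent.P007.Z

/-! ### the field of degree one -/

theorem aE_rat {m : ℕ} (hm : m ≠ 0) : aE ℚ m = 1 := by
  have e : {I : Ideal (𝓞 ℚ) // Ideal.absNorm I = m} ≃ {I : Ideal ℤ // Ideal.absNorm I = m} := by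
    let e := Rat.ringOfIntegersEquiv
    have hcard : ∀ (J : Ideal (𝓞 ℚ)), Ideal.absNorm (J.map e) = Ideal.absNorm J := by
      intro J
      rw [Ideal.absNorm_apply, Submodule.cardQuot_apply, Ideal.absNorm_apply,
        Submodule.cardQuot_apply]
      exact (Nat.card_congr (Ideal.quotientEquiv J (J.map e) e rfl).toEquiv).symm
    refine
      { toFun := fun J => ⟨J.1.map e, by rw [hcard]; exact J.2⟩
        invFun := fun I => ⟨I.1.map e.symm, ?_⟩
        left_inv := fun J => Subtype.ext (Ideal.map_of_equiv e)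
        right_inv := fun I => Subtype.ext (Ideal.map_of_equiv e.symm) }
    rw [← hcard]
    have h1 : (I.1.map e.symm).map e = I.1 := Ideal.map_of_equiv e.symm
    rw [h1]
    exact I.2
  rw [aE, Nat.card_congr e, Nat.card_eq_one_iff_unique]
  constructor
  · constructor
    rintro ⟨I, hI⟩ ⟨J, hJ⟩
    apply Subtype.ext
    obtain ⟨a, rfl⟩ : ∃ a : ℤ, I = Ideal.span {a} := (IsPrincipalIdealRing.principal I).principal
    obtain ⟨b, rfl⟩ : ∃ b : ℤ, J = Ideal.span {b} := (IsPrincipalIdealRing.principal J).principal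
    rw [Ideal.absNorm_span_singleton, Algebra.norm_self, MonoidHom.id_apply] at hI hJ
    simp only
    rw [Ideal.span_singleton_eq_span_singleton, ← Int.natAbs_eq_iff_associated]
    rw [hI, hJ]
  · exact ⟨⟨Ideal.span {(m : ℤ)}, by
      rw [Ideal.absNorm_span_singleton, Algebra.norm_self, MonoidHom.id_apply]; simp⟩⟩

theorem aE_of_finrank_one (E : Type) [Field E] [NumberField E] (h : Module.finrank ℚ E = 1)
    {m : ℕ} (hm : m ≠ 0) : aE E m = 1 := by
  have hb : Function.Bijective (algebraMap ℚ E) := by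
    have := (Algebra.finrank_eq_one_iff_bijective_algebraMap (F := ℚ) (E := E)).mp h
    exact this
  rw [← aE_congr ℚ E (RingEquiv.ofBijective (algebraMap ℚ E) hb) m, aE_rat hm]

end Vale.Agent.P007.Z

namespace Vale.Agent.P007.Z

section CharSum

variable {q : ℕ} [NeZero q] (χ : DirichletCharacter ℂ q)

theorem norm_sum_Icc_le (M : ℕ) (s : Finset ℕ) (hs : s.card ≤ M) :
    ‖∑ m ∈ s, χ (m : ZMod q)‖ ≤ M := by
  refine (norm_sum_le _ _).trans ?_
  refine (Finset.sum_le_sum fun m _ => DirichletCharacter.norm_le_one χ _).trans ?_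
  rw [Finset.sum_const, nsmul_eq_mul, mul_one]
  exact_mod_cast hs

/-- sum over one period -/
theorem sum_period (a : ℕ) : ∑ m ∈ Finset.Ico a (a + q), χ (m : ZMod q) = ∑ x : ZMod q, χ x := by
  induction a with
  | zero =>
    rw [zero_add, Nat.Ico_zero_eq_range, Finset.sum_range]
    obtain ⟨k, rfl⟩ : ∃ k, q = k + 1 := Nat.exists_eq_succ_of_ne_zero (NeZero.ne q)
    refine Finset.sum_congr rfl fun x _ => ?_
    congr 1
    exact Fin.cast_val_eq_self x
  | succ a ih =>
    rw [← ih, Finset.sum_Ico_eq_sub _ (by omega), Finset.sum_Ico_eq_sub _ (by omega),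
      show a + 1 + q = a + q + 1 by omega, Finset.sum_range_succ, Finset.sum_range_succ]
    have : ((a + q : ℕ) : ZMod q) = (a : ZMod q) := by
      push_cast
      rw [ZMod.natCast_self, add_zero]
    rw [this]
    ring

theorem sum_Icc_add (M : ℕ) : ∑ m ∈ Finset.Icc 1 (M + q), χ (m : ZMod q) =
    ∑ m ∈ Finset.Icc 1 M, χ (m : ZMod q) + ∑ x : ZMod q, χ x := by
  rw [← sum_period χ (M + 1)]
  have h1 : Finset.Icc 1 (M + q) = Finset.Ico 1 (M + 1 + q) := by
    ext x; simp only [Finset.mem_Icc, Finset.mem_Ico]; omega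
  have h2 : Finset.Icc 1 M = Finset.Ico 1 (M + 1) := by
    ext x; simp only [Finset.mem_Icc, Finset.mem_Ico]; omega
  rw [h1, h2, Finset.sum_Ico_consecutive _ (by omega) (by omega)]

theorem norm_char_sum_le (M : ℕ) : ‖∑ m ∈ Finset.Icc 1 M, χ (m : ZMod q) -
    (∑ x : ZMod q, χ x) / q * M‖ ≤ 2 * q := by
  have hq : (0 : ℝ) < q := by exact_mod_cast Nat.pos_of_ne_zero (NeZero.ne q)
  have hqC : (q : ℂ) ≠ 0 := by exact_mod_cast NeZero.ne q
  have hA : ‖∑ x : ZMod q, χ x‖ ≤ q := by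
    rw [← sum_period χ 0]
    exact norm_sum_Icc_le χ q _ (by simp)
  induction M using Nat.strong_induction_on with
  | _ M ih =>
    by_cases h : M < q
    · refine (norm_sub_le _ _).trans ?_
      have h1 := norm_sum_Icc_le χ q (Finset.Icc 1 M) (by simp only [Nat.card_Icc,
                                                            add_tsub_cancel_right]; omega)
      have h2 : ‖(∑ x : ZMod q, χ x) / q * M‖ ≤ q := by
        rw [norm_mul, norm_div, Complex.norm_natCast, Complex.norm_natCast]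
        calc ‖∑ x : ZMod q, χ x‖ / q * M ≤ q / q * q := by
              gcongr
          _ = q := by field_simp
      linarith
    · obtain ⟨M', rfl⟩ : ∃ M', M = M' + q := ⟨M - q, by omega⟩
      have h1 := ih M' (by have := Nat.pos_of_ne_zero (NeZero.ne q); omega)
      rw [sum_Icc_add]
      convert h1 using 2
      push_cast
      field_simp
      ring

/-- the asymptotics in degree one -/
theorem asymp_deg_one : ∃ α : ℂ, (χ = 1 → α ≠ 0) ∧ ‖α‖ ≤ 1 ∧ ∀ Y : ℝ, 1 ≤ Y →
    ‖∑ m ∈ Finset.Icc 1 ⌊Y⌋₊, χ (m : ZMod q) - α * Y‖ ≤ 3 * q := by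
  have hq : (0 : ℝ) < q := by exact_mod_cast Nat.pos_of_ne_zero (NeZero.ne q)
  have hq1 : (1 : ℝ) ≤ q := by exact_mod_cast Nat.pos_of_ne_zero (NeZero.ne q)
  have hqC : (q : ℂ) ≠ 0 := by exact_mod_cast NeZero.ne q
  have hA : ‖∑ x : ZMod q, χ x‖ ≤ q := by
    rw [← sum_period χ 0]
    exact norm_sum_Icc_le χ q _ (by simp)
  have hα : ‖(∑ x : ZMod q, χ x) / q‖ ≤ 1 := by
    rw [norm_div, Complex.norm_natCast, div_le_one hq]
    exact hA
  refine ⟨(∑ x : ZMod q, χ x) / q, ?_, hα, ?_⟩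
  · rintro rfl
    refine div_ne_zero ?_ hqC
    rw [MulChar.sum_one_eq_card_units]
    exact_mod_cast Fintype.card_ne_zero
  · intro Y hY
    have h1 := norm_char_sum_le χ ⌊Y⌋₊
    have h2 : ∑ m ∈ Finset.Icc 1 ⌊Y⌋₊, χ (m : ZMod q) - (∑ x : ZMod q, χ x) / q * Y =
        (∑ m ∈ Finset.Icc 1 ⌊Y⌋₊, χ (m : ZMod q) - (∑ x : ZMod q, χ x) / q * (⌊Y⌋₊ : ℂ)) -
        (∑ x : ZMod q, χ x) / q * (Y - (⌊Y⌋₊ : ℂ)) := by ring
    rw [h2]
    refine (norm_sub_le _ _).trans ?_
    have h3 : ‖(Y : ℂ) - (⌊Y⌋₊ : ℂ)‖ ≤ 1 := by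
      rw [← Complex.ofReal_natCast, ← Complex.ofReal_sub, Complex.norm_real, Real.norm_eq_abs,
        abs_of_nonneg (sub_nonneg.mpr (Nat.floor_le (by linarith only [hY])))]
      linarith only [Nat.lt_floor_add_one Y]
    have h4 : ‖(∑ x : ZMod q, χ x) / q * ((Y : ℂ) - (⌊Y⌋₊ : ℂ))‖ ≤ 1 := by
      rw [norm_mul]
      have := norm_nonneg ((∑ x : ZMod q, χ x) / q)
      have := norm_nonneg ((Y : ℂ) - (⌊Y⌋₊ : ℂ))
      nlinarith
    linarith

end CharSum

end Vale.Agent.P007.Z
end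

section

set_option autoImplicit false

open Complex MeasureTheory Filter Topology Set

namespace Vale.Agent.P007.Z

/-! ### `∫_0^∞ t^k e^{-st} dt = k!/s^{k+1}` -/

theorem norm_exp_neg_mul (s : ℂ) (t : ℝ) : ‖cexp (-s * t)‖ = Real.exp (-s.re * t) := by
  rw [Complex.norm_exp]
  congr 1
  simp

theorem tendsto_pow_mul_cexp (k : ℕ) {s : ℂ} (hs : 0 < s.re) :
    Tendsto (fun t : ℝ => (t : ℂ) ^ k * cexp (-s * t)) atTop (𝓝 0) := by
  rw [tendsto_zero_iff_norm_tendsto_zero]
  have h1 := tendsto_rpow_mul_exp_neg_mul_atTop_nhds_zero (k : ℝ) s.re hs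
  refine h1.congr' ?_
  filter_upwards [eventually_gt_atTop 0] with t ht
  rw [norm_mul, norm_pow, Complex.norm_real, Real.norm_eq_abs, abs_of_pos ht, norm_exp_neg_mul,
    Real.rpow_natCast]

theorem integrableOn_pow_mul_exp (k : ℕ) {σ : ℝ} (hσ : 0 < σ) :
    IntegrableOn (fun t : ℝ => t ^ k * Real.exp (-σ * t)) (Ioi 0) := by
  have h := integrableOn_rpow_mul_exp_neg_mul_rpow (p := 1) (s := (k : ℝ)) (b := σ)
    (by have : (0 : ℝ) ≤ k := by positivity
        linarith) one_pos hσ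
  refine h.congr_fun (fun t ht => ?_) measurableSet_Ioi
  simp

theorem integrableOn_pow_mul_cexp (k : ℕ) {s : ℂ} (hs : 0 < s.re) :
    IntegrableOn (fun t : ℝ => (t : ℂ) ^ k * cexp (-s * t)) (Ioi 0) := by
  refine Integrable.mono' (integrableOn_pow_mul_exp k hs) ?_ ?_
  · exact (by fun_prop : Continuous fun t : ℝ => (t : ℂ) ^ k * cexp (-s * t)).aestronglyMeasurable
  · refine (ae_restrict_iff' measurableSet_Ioi).mpr (Eventually.of_forall fun t ht => ?_)
    rw [norm_mul, norm_pow, Complex.norm_real, Real.norm_eq_abs, abs_of_pos ht, norm_exp_neg_mul]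

theorem integral_pow_mul_cexp (k : ℕ) {s : ℂ} (hs : 0 < s.re) :
    ∫ t in Ioi (0 : ℝ), (t : ℂ) ^ k * cexp (-s * t) = k.factorial / s ^ (k + 1) := by
  have hs0 : s ≠ 0 := by
    rintro rfl
    simp at hs
  have hexp : ∀ t : ℝ, HasDerivAt (fun t : ℝ => cexp (-s * t)) (cexp (-s * t) * (-s)) t := by
    intro t
    have h1 : HasDerivAt (fun t : ℝ => (-s) * (t : ℂ)) (-s) t := by
      simpa only [neg_mul, ofRealCLM_apply, ofReal_one,
        mul_one] using (Complex.ofRealCLM.hasDerivAt (x := t)).const_mul (-s)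
    exact h1.cexp
  induction k with
  | zero =>
    have h1 : ∀ t ∈ Ici (0 : ℝ), HasDerivAt (fun t : ℝ => -(cexp (-s * t)) / s)
        ((t : ℂ) ^ 0 * cexp (-s * t)) t := by
      intro t _
      have h3 : HasDerivAt (fun t : ℝ => -(cexp (-s * t)) / s) (-(cexp (-s * t) * (-s)) / s) t :=
        ((hexp t).neg).div_const s
      have h4 : -(cexp (-s * t) * (-s)) / s = (t : ℂ) ^ 0 * cexp (-s * t) := by
        rw [pow_zero, one_mul, mul_neg, neg_neg, mul_div_cancel_right₀ _ hs0]
      rw [h4] at h3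
      exact h3
    have h2 := integral_Ioi_of_hasDerivAt_of_tendsto' (f := fun t : ℝ => -(cexp (-s * t)) / s)
      (m := 0) h1 (integrableOn_pow_mul_cexp 0 hs) (by
        have := ((tendsto_pow_mul_cexp 0 hs).neg).div_const s
        simpa only [neg_mul, pow_zero, one_mul, neg_zero, zero_div] using this)
    rw [h2]
    simp
    field_simp
  | succ k ih =>
    have hpow : ∀ t : ℝ, HasDerivAt (fun t : ℝ => (t : ℂ) ^ (k + 1))
        (((k : ℂ) + 1) * (t : ℂ) ^ k) t := by
      intro t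
      have h3 : HasDerivAt (fun t : ℝ => (t : ℂ)) 1 t := by
        have := (hasDerivAt_id t).ofReal_comp
        rw [Complex.ofReal_one] at this
        exact this
      have h4 : HasDerivAt (fun t : ℝ => (t : ℂ) ^ (k + 1))
        (((k + 1 : ℕ) : ℂ) * (t : ℂ) ^ (k + 1 - 1) * 1) t := h3.fun_pow (k + 1)
      have h5 : ((k + 1 : ℕ) : ℂ) * (t : ℂ) ^ (k + 1 - 1) * 1 = ((k : ℂ) + 1) * (t : ℂ) ^ k := by
        rw [Nat.add_sub_cancel]; push_cast; ring
      rw [h5] at h4
      exact h4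
    have h1 : ∀ t ∈ Ici (0 : ℝ), HasDerivAt (fun t : ℝ => -((t : ℂ) ^ (k + 1) * cexp (-s * t)) / s)
        ((t : ℂ) ^ (k + 1) * cexp (-s * t) - ((k : ℂ) + 1) / s * ((t : ℂ) ^ k * cexp (-s * t))) t := by
      intro t _
      have h3 : HasDerivAt (fun t : ℝ => -((t : ℂ) ^ (k + 1) * cexp (-s * t)) / s)
          (-((((k : ℂ) + 1) * (t : ℂ) ^ k) * cexp (-s * t) +
            (t : ℂ) ^ (k + 1) * (cexp (-s * t) * (-s))) / s) t :=
        (((hpow t).mul (hexp t)).neg).div_const s
      have h4 : -((((k : ℂ) + 1) * (t : ℂ) ^ k) * cexp (-s * t) +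
            (t : ℂ) ^ (k + 1) * (cexp (-s * t) * (-s))) / s =
          (t : ℂ) ^ (k + 1) * cexp (-s * t) - ((k : ℂ) + 1) / s * ((t : ℂ) ^ k * cexp (-s * t)) := by
        rw [div_mul_eq_mul_div, ← mul_div_cancel_right₀ ((t : ℂ) ^ (k + 1) * cexp (-s * t)) hs0,
          ← sub_div]
        congr 1
        ring
      rw [h4] at h3
      exact h3
    have hi1 := integrableOn_pow_mul_cexp (k + 1) hs
    have hi2 := (integrableOn_pow_mul_cexp k hs).const_mul (((k : ℂ) + 1) / s)
    have h2 := integral_Ioi_of_hasDerivAt_of_tendsto'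
      (f := fun t : ℝ => -((t : ℂ) ^ (k + 1) * cexp (-s * t)) / s)
      (m := 0) h1 (hi1.sub hi2) (by
        have := ((tendsto_pow_mul_cexp (k + 1) hs).neg).div_const s
        simpa only [neg_mul, neg_zero, zero_div] using this)
    rw [integral_sub hi1 hi2, integral_const_mul, ih] at h2
    simp only [ofReal_zero, ne_eq, Nat.add_eq_zero_iff, one_ne_zero, and_false, not_false_eq_true,
      zero_pow, mul_zero, Complex.exp_zero, mul_one, neg_zero, zero_div, sub_zero] at h2
    rw [sub_eq_zero.mp h2, Nat.factorial_succ, pow_succ s (k + 1)]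
    push_cast
    have : s ^ (k + 1) ≠ 0 := pow_ne_zero _ hs0
    field_simp

/-- the shifted kernel -/
theorem integral_shift (k : ℕ) {s : ℂ} (hs : 0 < s.re) (a : ℝ) :
    ∫ t : ℝ, (Ioi a).indicator (fun t : ℝ => ((t : ℂ) - a) ^ k * cexp (-s * t)) t =
      cexp (-s * a) * (k.factorial / s ^ (k + 1)) := by
  have h1 : (fun t : ℝ => (Ioi a).indicator (fun t : ℝ => ((t : ℂ) - a) ^ k * cexp (-s * t)) t) =
      fun t : ℝ => (fun u : ℝ => cexp (-s * a) * (Ioi (0 : ℝ)).indicator
        (fun u : ℝ => (u : ℂ) ^ k * cexp (-s * u)) u) (t - a) := by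
    funext t
    by_cases h : a < t
    · have h0 : t - a ∈ Ioi (0 : ℝ) := by simpa using h
      have h0' : t ∈ Ioi a := h
      beta_reduce
      rw [indicator_of_mem h0', indicator_of_mem h0]
      have : cexp (-s * t) = cexp (-s * a) * cexp (-s * ((t - a : ℝ) : ℂ)) := by
        rw [← Complex.exp_add]
        congr 1
        push_cast
        ring
      rw [this]
      push_cast
      ring
    · have h0 : t - a ∉ Ioi (0 : ℝ) := by simpa only [mem_Ioi, sub_pos, not_lt] using h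
      have h0' : t ∉ Ioi a := h
      beta_reduce
      rw [indicator_of_notMem h0', indicator_of_notMem h0, mul_zero]
  rw [h1, integral_sub_right_eq_self (μ := volume) (fun u : ℝ => cexp (-s * a) *
    (Ioi (0 : ℝ)).indicator (fun u : ℝ => (u : ℂ) ^ k * cexp (-s * u)) u) a, integral_const_mul,
    integral_indicator measurableSet_Ioi, integral_pow_mul_cexp k hs]

theorem integrable_shift (k : ℕ) {s : ℂ} (hs : 0 < s.re) (a : ℝ) :
    Integrable ((Ioi a).indicator (fun t : ℝ => ((t : ℂ) - a) ^ k * cexp (-s * t))) := by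
  have h1 : (Ioi a).indicator (fun t : ℝ => ((t : ℂ) - a) ^ k * cexp (-s * t)) =
      fun t : ℝ => (fun u : ℝ => cexp (-s * a) * (Ioi (0 : ℝ)).indicator
        (fun u : ℝ => (u : ℂ) ^ k * cexp (-s * u)) u) (t - a) := by
    funext t
    by_cases h : a < t
    · have h0 : t - a ∈ Ioi (0 : ℝ) := by simpa using h
      have h0' : t ∈ Ioi a := h
      beta_reduce
      rw [indicator_of_mem h0', indicator_of_mem h0]
      have : cexp (-s * t) = cexp (-s * a) * cexp (-s * ((t - a : ℝ) : ℂ)) := by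
        rw [← Complex.exp_add]
        congr 1
        push_cast
        ring
      rw [this]
      push_cast
      ring
    · have h0 : t - a ∉ Ioi (0 : ℝ) := by simpa using h
      have h0' : t ∉ Ioi a := h
      beta_reduce
      rw [indicator_of_notMem h0', indicator_of_notMem h0, mul_zero]
  rw [h1]
  have h2 : Integrable (fun u : ℝ => cexp (-s * a) * (Ioi (0 : ℝ)).indicator
        (fun u : ℝ => (u : ℂ) ^ k * cexp (-s * u)) u) :=
    ((integrable_indicator_iff measurableSet_Ioi).mpr (integrableOn_pow_mul_cexp k hs)).const_mul _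
  exact h2.comp_sub_right a

theorem integral_norm_shift (k : ℕ) {s : ℂ} (hs : 0 < s.re) (a : ℝ) :
    ∫ t : ℝ, ‖(Ioi a).indicator (fun t : ℝ => ((t : ℂ) - a) ^ k * cexp (-s * t)) t‖ =
      Real.exp (-s.re * a) * (k.factorial / s.re ^ (k + 1)) := by
  have h1 := integral_shift k (s := (s.re : ℂ)) (by simpa using hs) a
  have h2 : ∀ t : ℝ, ((‖(Ioi a).indicator (fun t : ℝ => ((t : ℂ) - a) ^ k * cexp (-s * t)) t‖ : ℝ) : ℂ)
      = (Ioi a).indicator (fun t : ℝ => ((t : ℂ) - a) ^ k * cexp (-(s.re : ℂ) * t)) t := by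
    intro t
    by_cases h : a < t
    · rw [indicator_of_mem (by exact h), indicator_of_mem (by exact h), norm_mul, norm_pow,
        norm_exp_neg_mul, ← Complex.ofReal_sub, Complex.norm_real, Real.norm_eq_abs,
        abs_of_pos (by linarith only [h] : 0 < t - a)]
      push_cast
      rfl
    · rw [indicator_of_notMem (by exact h), indicator_of_notMem (by exact h)]
      simp
  rw [← integral_congr_ae (Eventually.of_forall h2), integral_complex_ofReal] at h1
  apply Complex.ofReal_injective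
  rw [h1]
  push_cast
  rfl

end Vale.Agent.P007.Z
end

section

set_option autoImplicit false

open Complex MeasureTheory Filter Topology Set Metric

namespace Vale.Agent.P007.Z

/-- Laplace transform -/
noncomputable def Lap (ψ : ℝ → ℂ) (s : ℂ) : ℂ := ∫ t in Ioi (0 : ℝ), ψ t * cexp (-s * t)

section

variable {ψ : ℝ → ℂ} {B c : ℝ}

theorem norm_lap_integrand_le (hb : ∀ t : ℝ, 0 < t → ‖ψ t‖ ≤ B * Real.exp (c * t)) (s : ℂ) {t : ℝ}
    (ht : 0 < t) : ‖ψ t * cexp (-s * t)‖ ≤ B * Real.exp (-(s.re - c) * t) := by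
  rw [norm_mul, norm_exp_neg_mul]
  calc ‖ψ t‖ * Real.exp (-s.re * t) ≤ B * Real.exp (c * t) * Real.exp (-s.re * t) := by
        gcongr
        exact hb t ht
    _ = B * Real.exp (-(s.re - c) * t) := by
        rw [mul_assoc, ← Real.exp_add]
        congr 2
        ring

theorem integrableOn_exp_neg {σ : ℝ} (hσ : 0 < σ) :
    IntegrableOn (fun t : ℝ => Real.exp (-σ * t)) (Ioi 0) := by
  have := integrableOn_pow_mul_exp 0 hσ
  simpa only [neg_mul, pow_zero, one_mul] using this

theorem integral_exp_neg {σ : ℝ} (hσ : 0 < σ) : ∫ t in Ioi (0 : ℝ), Real.exp (-σ * t) = 1 / σ := by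
  have h := integral_pow_mul_cexp 0 (s := (σ : ℂ)) (by simpa using hσ)
  have h2 : ∀ t : ℝ, (t : ℂ) ^ 0 * cexp (-(σ : ℂ) * t) = ((Real.exp (-σ * t) : ℝ) : ℂ) := by
    intro t
    push_cast
    simp
  simp_rw [h2] at h
  rw [integral_complex_ofReal] at h
  apply Complex.ofReal_injective
  rw [h]
  simp

theorem integrableOn_lap (hψ : Measurable ψ) (hb : ∀ t : ℝ, 0 < t → ‖ψ t‖ ≤ B * Real.exp (c * t))
    {s : ℂ} (hs : c < s.re) : IntegrableOn (fun t : ℝ => ψ t * cexp (-s * t)) (Ioi 0) := by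
  refine Integrable.mono' ((integrableOn_exp_neg (σ := s.re - c) (by linarith)).const_mul B) ?_ ?_
  · exact (hψ.mul (by fun_prop)).aestronglyMeasurable
  · exact (ae_restrict_iff' measurableSet_Ioi).mpr
      (Eventually.of_forall fun t ht => norm_lap_integrand_le hb s ht)

theorem norm_Lap_le (hb : ∀ t : ℝ, 0 < t → ‖ψ t‖ ≤ B * Real.exp (c * t))
    {s : ℂ} (hs : c < s.re) : ‖Lap ψ s‖ ≤ B / (s.re - c) := by
  have h1 : ‖Lap ψ s‖ ≤ ∫ t in Ioi (0 : ℝ), B * Real.exp (-(s.re - c) * t) := by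
    refine norm_integral_le_of_norm_le ((integrableOn_exp_neg (σ := s.re - c)
      (by linarith)).const_mul B) ?_
    exact (ae_restrict_iff' measurableSet_Ioi).mpr
      (Eventually.of_forall fun t ht => norm_lap_integrand_le hb s ht)
  refine h1.trans (le_of_eq ?_)
  rw [integral_const_mul, integral_exp_neg (by linarith)]
  ring

theorem differentiableAt_Lap (hψ : Measurable ψ)
    (hb : ∀ t : ℝ, 0 < t → ‖ψ t‖ ≤ B * Real.exp (c * t)) {s : ℂ} (hs : c < s.re) :
    DifferentiableAt ℂ (Lap ψ) s := by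
  set ε : ℝ := (s.re - c) / 2 with hε
  have hε0 : 0 < ε := by rw [hε]; linarith only [hs]
  have hB : 0 ≤ B := by
    have := (norm_nonneg _).trans (hb 1 one_pos)
    exact nonneg_of_mul_nonneg_left this (Real.exp_pos _)
  have hre : ∀ z ∈ ball s ε, c + ε < z.re := by
    intro z hz
    have h1 : |(z - s).re| ≤ ‖z - s‖ := Complex.abs_re_le_norm _
    rw [mem_ball, dist_eq_norm] at hz
    rw [Complex.sub_re] at h1
    have := (abs_le.mp h1).1
    rw [hε] at hz ⊢
    linarith only [hz, this]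
  have key := hasDerivAt_integral_of_dominated_loc_of_deriv_le (𝕜 := ℂ)
    (μ := volume.restrict (Ioi (0 : ℝ))) (F := fun z t => ψ t * cexp (-z * t))
    (F' := fun z t => ψ t * (cexp (-z * t) * (-t))) (x₀ := s) (s := ball s ε)
    (bound := fun t => B * (t ^ 1 * Real.exp (-ε * t))) (ball_mem_nhds s hε0) ?_ ?_ ?_ ?_ ?_ ?_
  · exact key.2.differentiableAt
  · exact Eventually.of_forall fun z => (hψ.mul (by fun_prop)).aestronglyMeasurable
  · exact integrableOn_lap hψ hb hs
  · exact (hψ.mul (by fun_prop)).aestronglyMeasurable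
  · refine (ae_restrict_iff' measurableSet_Ioi).mpr (Eventually.of_forall fun t ht z hz => ?_)
    have ht' : (0 : ℝ) < t := ht
    have h1 := norm_lap_integrand_le hb z ht'
    have h2 := hre z hz
    rw [← mul_assoc, norm_mul, norm_neg, Complex.norm_real, Real.norm_eq_abs, abs_of_pos ht']
    calc ‖ψ t * cexp (-z * t)‖ * t ≤ (B * Real.exp (-(z.re - c) * t)) * t := by gcongr
      _ ≤ (B * Real.exp (-ε * t)) * t := by
          gcongr
          nlinarith only [h2]
      _ = B * (t ^ 1 * Real.exp (-ε * t)) := by ring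
  · exact (integrableOn_pow_mul_exp 1 hε0).const_mul B
  · refine Eventually.of_forall fun t z _ => ?_
    have h1 : HasDerivAt (fun z : ℂ => -z * (t : ℂ)) (-(t : ℂ)) z := by
      simpa only [neg_mul, Pi.neg_apply, id_eq,
        one_mul] using ((hasDerivAt_id z).neg).mul_const (t : ℂ)
    exact (h1.cexp).const_mul (ψ t)

end

section Riesz

variable (b : ℕ → ℂ) (k : ℕ)

/-- partial sums with `N` terms -/
noncomputable def SrN (p : ℕ × ℝ) : ℂ :=
  ∑ m ∈ Finset.Icc 1 p.1, b m * ((p.2 : ℂ) - (Real.log m : ℂ)) ^ k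

theorem measurable_SrN : Measurable (SrN b k) := by
  refine measurable_from_prod_countable_right fun n => ?_
  have h2 : Continuous fun t : ℝ =>
      ∑ m ∈ Finset.Icc 1 n, b m * ((t : ℂ) - (Real.log m : ℂ)) ^ k := by
    apply continuous_finsetSum (Finset.Icc 1 n)
    intro m _
    exact continuous_const.mul ((Complex.continuous_ofReal.sub continuous_const).pow k)
  exact h2.measurable

/-- the Riesz mean `∑_{m ≤ e^t} b(m) (t - log m)^k` -/
noncomputable def Sr (t : ℝ) : ℂ := SrN b k (⌊Real.exp t⌋₊, t)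

theorem measurable_expfloor : Measurable fun t : ℝ => ((⌊Real.exp t⌋₊, t) : ℕ × ℝ) :=
  (Nat.measurable_floor.comp Real.measurable_exp).prodMk measurable_id

theorem measurable_Sr : Measurable (Sr b k) := (measurable_SrN b k).comp measurable_expfloor

theorem Sr_of_neg {t : ℝ} (ht : t < 0) : Sr b k t = 0 := by
  have h1 : ⌊Real.exp t⌋₊ = 0 := Nat.floor_eq_zero.mpr (Real.exp_lt_one_iff.mpr ht)
  rw [Sr, h1, SrN]
  simp only [Order.lt_one_iff, Finset.Icc_eq_empty_of_lt, natCast_log, Finset.sum_empty]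

/-- the single terms -/
noncomputable def Fr (s : ℂ) (m : ℕ) (t : ℝ) : ℂ :=
  if m = 0 then 0 else
    b m * (Ioi (Real.log m)).indicator (fun t : ℝ => ((t : ℂ) - (Real.log m : ℂ)) ^ k *
      cexp (-s * t)) t

theorem cexp_log_eq {m : ℕ} (hm : m ≠ 0) (s : ℂ) :
    cexp (-s * (Real.log m : ℂ)) = ((m : ℂ) ^ s)⁻¹ := by
  rw [← Complex.cpow_neg, Complex.cpow_def_of_ne_zero (by exact_mod_cast hm)]
  congr 1
  rw [← Complex.natCast_log]
  ring

theorem integral_Fr {s : ℂ} (hs : 0 < s.re) (m : ℕ) :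
    ∫ t : ℝ, Fr b k s m t = LSeries.term b s m * (k.factorial / s ^ (k + 1)) := by
  unfold Fr
  by_cases hm : m = 0
  · simp [hm]
  · simp only [hm, if_false]
    rw [integral_const_mul, integral_shift k hs, LSeries.term_of_ne_zero hm, cexp_log_eq hm]
    ring

theorem integral_norm_Fr {s : ℂ} (hs : 0 < s.re) (m : ℕ) :
    ∫ t : ℝ, ‖Fr b k s m t‖ = ‖LSeries.term b s m‖ * (k.factorial / s.re ^ (k + 1)) := by
  unfold Fr
  by_cases hm : m = 0
  · simp [hm]
  · simp only [hm, if_false, norm_mul]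
    rw [integral_const_mul, integral_norm_shift k hs, LSeries.norm_term_eq, if_neg hm]
    have : Real.exp (-s.re * Real.log m) = ((m : ℝ) ^ s.re)⁻¹ := by
      rw [Real.rpow_def_of_pos (by positivity), ← Real.exp_neg]
      congr 1
      ring
    rw [this]
    ring

theorem integrable_Fr {s : ℂ} (hs : 0 < s.re) (m : ℕ) : Integrable (Fr b k s m) := by
  unfold Fr
  by_cases hm : m = 0
  · simp only [hm, ↓reduceIte, integrable_fun_zero]
  · simp only [hm, if_false]
    exact (integrable_shift k hs _).const_mul _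

theorem tsum_Fr {s : ℂ} {t : ℝ} (ht : ∀ m : ℕ, Real.log m ≠ t) :
    ∑' m, Fr b k s m t = Sr b k t * cexp (-s * t) := by
  rw [Sr, SrN, Finset.sum_mul, tsum_eq_sum (s := Finset.Icc 1 ⌊Real.exp t⌋₊)]
  · refine Finset.sum_congr rfl fun m hm => ?_
    rw [Finset.mem_Icc] at hm
    have hm0 : m ≠ 0 := by omega
    have h1 : (m : ℝ) ≤ Real.exp t := (Nat.le_floor_iff (Real.exp_pos t).le).mp hm.2
    have h2 : Real.log m ≤ t := (Real.log_le_iff_le_exp (by positivity)).mpr h1
    have h3 : t ∈ Ioi (Real.log m) := lt_of_le_of_ne h2 (ht m)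
    rw [Fr, if_neg hm0, indicator_of_mem h3, mul_assoc]
  · intro m hm
    rw [Fr]
    split_ifs with hm0
    · rfl
    · rw [indicator_of_notMem, mul_zero]
      intro h3
      apply hm
      rw [Finset.mem_Icc]
      refine ⟨by omega, (Nat.le_floor_iff (Real.exp_pos t).le).mpr ?_⟩
      exact (Real.log_le_iff_le_exp (by positivity)).mp (le_of_lt h3)

variable {b k}

theorem integral_Sr {s : ℂ} (hs : 0 < s.re) (hsum : LSeriesSummable b s) :
    Lap (Sr b k) s = k.factorial / s ^ (k + 1) * LSeries b s := by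
  have h1 := hasSum_integral_of_summable_integral_norm (F := Fr b k s) (integrable_Fr b k hs) (by
    simp_rw [integral_norm_Fr b k hs]
    exact hsum.norm.mul_right _)
  have h2 : (∫ t : ℝ, ∑' m, Fr b k s m t) = ∫ t : ℝ, Sr b k t * cexp (-s * t) := by
    refine integral_congr_ae ?_
    have h3 : (Set.range fun m : ℕ => Real.log m).Countable := Set.countable_range _
    filter_upwards [h3.ae_notMem volume] with t ht
    exact tsum_Fr b k fun m hm => ht ⟨m, hm⟩
  have h3 : (∫ t : ℝ, Sr b k t * cexp (-s * t)) = Lap (Sr b k) s := by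
    rw [Lap, ← integral_Ici_eq_integral_Ioi, ← integral_indicator measurableSet_Ici]
    congr 1
    funext t
    by_cases h : 0 ≤ t
    · rw [indicator_of_mem (by exact h)]
    · rw [indicator_of_notMem (by exact h), Sr_of_neg b k (not_le.mp h), zero_mul]
  rw [← h3, ← h2, ← h1.tsum_eq]
  simp_rw [integral_Fr b k hs]
  rw [tsum_mul_right, LSeries]
  ring

end Riesz

end Vale.Agent.P007.Z
end

section

set_option autoImplicit false

open Complex Metric Set Filter Topology

namespace Vale.Agent.P007.Z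

/-- Extraction of the zeros in a small disc, with the maximum modulus bound. -/
theorem exists_factor {a : ℂ} {r R₀ : ℝ} (hr : 0 < r) (hR : 3 * r < R₀) (N : ℕ) :
    ∀ (f : ℂ → ℂ) (M : ℝ), DifferentiableOn ℂ f (ball a R₀) →
      (∀ s ∈ closedBall a (3 * r), ‖f s‖ ≤ M) → M < ‖f a‖ * 2 ^ N →
      ∃ (l : List ℂ) (g : ℂ → ℂ), DifferentiableOn ℂ g (ball a R₀) ∧
        (∀ ρ ∈ l, ρ ∈ closedBall a r ∧ f ρ = 0) ∧
        (∀ s ∈ ball a R₀, f s = (l.map (fun ρ => s - ρ)).prod * g s) ∧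
        (∀ s ∈ closedBall a r, g s ≠ 0) ∧ 2 ^ l.length * ‖f a‖ ≤ M ∧
        (∀ s ∈ closedBall a (3 * r), ‖g s‖ ≤ M / (2 * r) ^ l.length) := by
  induction N with
  | zero =>
    intro f M _ hM hlt
    have := hM a (mem_closedBall_self (by positivity))
    simp only [pow_zero, mul_one] at hlt
    exact absurd hlt (not_lt.mpr this)
  | succ N ih =>
    intro f M hf hM hlt
    have haM := hM a (mem_closedBall_self (by positivity))
    by_cases hz : ∃ ρ ∈ closedBall a r, f ρ = 0
    · obtain ⟨ρ, hρ, hfρ⟩ := hz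
      have hρ' : dist ρ a ≤ r := hρ
      have hρR : ρ ∈ ball a R₀ := by
        rw [mem_ball]; linarith only [hr, hR, hρ']
      set g₁ : ℂ → ℂ := dslope f ρ with hg₁
      have hfac : ∀ s, f s = (s - ρ) * g₁ s := by
        intro s
        have := sub_smul_dslope f ρ s
        rw [hfρ, sub_zero, smul_eq_mul] at this
        exact this.symm
      have hg₁d : DifferentiableOn ℂ g₁ (ball a R₀) :=
        (differentiableOn_dslope (isOpen_ball.mem_nhds hρR)).mpr hf
      have hfa0 : 0 < ‖f a‖ := by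
        have : 0 ≤ M := (norm_nonneg _).trans haM
        by_contra h
        have h0 : ‖f a‖ = 0 := le_antisymm (not_lt.mp h) (norm_nonneg _)
        rw [h0, zero_mul] at hlt
        linarith
      have hsph : ∀ s ∈ sphere a (3 * r), ‖g₁ s‖ ≤ M / (2 * r) := by
        intro s hs
        have h1 : ‖f s‖ ≤ M := hM s (sphere_subset_closedBall hs)
        have h2 : 2 * r ≤ ‖s - ρ‖ := by
          have : dist s a = 3 * r := hs
          have := dist_triangle s ρ a
          rw [dist_eq_norm s ρ] at this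
          linarith
        rw [hfac s, norm_mul] at h1
        rw [le_div_iff₀ (by positivity)]
        calc ‖g₁ s‖ * (2 * r) ≤ ‖g₁ s‖ * ‖s - ρ‖ := by (clear * - h2; gcongr)
          _ = ‖s - ρ‖ * ‖g₁ s‖ := mul_comm _ _
          _ ≤ M := h1
      have hM₁ : ∀ s ∈ closedBall a (3 * r), ‖g₁ s‖ ≤ M / (2 * r) := by
        intro s hs
        have hd : DiffContOnCl ℂ g₁ (ball a (3 * r)) := by
          apply DifferentiableOn.diffContOnCl
          rw [closure_ball a (by positivity)]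
          exact hg₁d.mono (closedBall_subset_ball hR)
        refine norm_le_of_forall_mem_frontier_norm_le isBounded_ball hd ?_ (z := s) ?_
        · intro z hz
          rw [frontier_ball a (by positivity)] at hz
          exact hsph z hz
        · rw [closure_ball a (by positivity)]; exact hs
      have hga : ‖f a‖ ≤ r * ‖g₁ a‖ := by
        rw [hfac a, norm_mul]
        gcongr
        rw [← dist_eq_norm, dist_comm]; exact hρ'
      have hlt₁ : M / (2 * r) < ‖g₁ a‖ * 2 ^ N := by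
        rw [div_lt_iff₀ (by positivity)]
        calc M < ‖f a‖ * 2 ^ (N + 1) := hlt
          _ ≤ (r * ‖g₁ a‖) * 2 ^ (N + 1) := by (clear * - hga; gcongr)
          _ = ‖g₁ a‖ * 2 ^ N * (2 * r) := by ring
      obtain ⟨l, g, hg, hl, hfl, hg0, hcard, hgb⟩ := ih g₁ (M / (2 * r)) hg₁d hM₁ hlt₁
      refine ⟨ρ :: l, g, hg, ?_, ?_, hg0, ?_, ?_⟩
      · intro z hz
        rcases List.mem_cons.mp hz with rfl | hz
        · exact ⟨hρ, hfρ⟩
        · exact ⟨(hl z hz).1, by rw [hfac z, (hl z hz).2, mul_zero]⟩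
      · intro s hs
        rw [List.map_cons, List.prod_cons, mul_assoc, ← hfl s hs, hfac s]
      · rw [List.length_cons, pow_succ]
        have h1 : 2 ^ l.length * (‖f a‖ / r) ≤ M / (2 * r) := by
          refine le_trans ?_ hcard
          gcongr
          rw [div_le_iff₀ hr]; linarith only [hga]
        rw [le_div_iff₀ (by positivity)] at h1
        calc 2 ^ l.length * 2 * ‖f a‖ = 2 ^ l.length * (‖f a‖ / r) * (2 * r) := by
              field_simp
          _ ≤ M := h1
      · intro s hs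
        refine (hgb s hs).trans (le_of_eq ?_)
        rw [List.length_cons, pow_succ, div_div, mul_comm (2 * r)]
    · push Not at hz
      refine ⟨[], f, hf, by simp, by simp, hz, ?_, ?_⟩
      · simpa using haM
      · simpa only [mem_closedBall, List.length_nil, pow_zero, div_one] using hM

/-- Borel–Carathéodory for the logarithm of a zero free function. -/
theorem log_norm_sub_le {a : ℂ} {r A m : ℝ} (hr : 0 < r) {g : ℂ → ℂ}
    (hg : DifferentiableOn ℂ g (ball a r)) (hg0 : ∀ s ∈ ball a r, g s ≠ 0)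
    (hA : ∀ s ∈ ball a r, ‖g s‖ ≤ A) (hm : 0 < m) (hm' : A ≤ ‖g a‖ * Real.exp m)
    {s : ℂ} (hs : s ∈ ball a r) :
    |Real.log ‖g s‖ - Real.log ‖g a‖| ≤ 2 * m * ‖s - a‖ / (r - ‖s - a‖) := by
  have ha : a ∈ ball a r := mem_ball_self hr
  have hg' : DifferentiableOn ℂ (fun z => deriv g z / g z) (ball a r) :=
    (hg.deriv isOpen_ball).div hg hg0
  obtain ⟨F, hF0, hF⟩ := hg'.isExactOn_ball.with_val_at a 0
  -- `g = g a * exp F`
  have hconst : ∀ z ∈ ball a r, g z * exp (-F z) = g a := by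
    intro z hz
    have hder : ∀ w ∈ ball a r, HasDerivAt (fun w => g w * exp (-F w)) 0 w := by
      intro w hw
      have h1 : HasDerivAt g (deriv g w) w :=
        (hg.differentiableAt (isOpen_ball.mem_nhds hw)).hasDerivAt
      have h2 : HasDerivAt (fun x => exp (-F x)) (exp (-F w) * -(deriv g w / g w)) w :=
        (hF w hw).neg.cexp
      have h3 : HasDerivAt (fun x => g x * exp (-F x))
          (deriv g w * exp (-F w) + g w * (exp (-F w) * -(deriv g w / g w))) w := h1.mul h2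
      have h4 : g w * (deriv g w / g w) = deriv g w := mul_div_cancel₀ _ (hg0 w hw)
      have h5 : deriv g w * exp (-F w) + g w * (exp (-F w) * -(deriv g w / g w)) = 0 := by
        linear_combination -(exp (-F w)) * h4
      rw [h5] at h3
      exact h3
    have := (convex_ball a r).is_const_of_fderivWithin_eq_zero (𝕜 := ℂ)
      (f := fun w => g w * exp (-F w)) (fun w hw => (hder w hw).differentiableAt.differentiableWithinAt)
      (fun w hw => by
        have h := (hder w hw).hasFDerivAt.hasFDerivWithinAt (s := ball a r)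
        have h2 := h.fderivWithin (isOpen_ball.uniqueDiffWithinAt hw)
        rw [h2]
        ext
        simp) hz ha
    rw [this, hF0]
    simp
  have hgF : ∀ z ∈ ball a r, ‖g z‖ = ‖g a‖ * Real.exp (F z).re := by
    intro z hz
    have h := hconst z hz
    have : g z = g a * exp (F z) := by
      rw [← h, mul_assoc, ← Complex.exp_add, neg_add_cancel, Complex.exp_zero, mul_one]
    rw [this, norm_mul, norm_exp]
  have hga : 0 < ‖g a‖ := norm_pos_iff.mpr (hg0 a ha)
  have hre : ∀ z ∈ ball a r, (F z).re ≤ m := by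
    intro z hz
    have h1 := hA z hz
    rw [hgF z hz] at h1
    have h2 := h1.trans hm'
    have h3 := le_of_mul_le_mul_left h2 hga
    exact Real.exp_le_exp.mp h3
  -- translate
  have hB := borelCaratheodory_zero (f := fun z => F (z + a)) (M := m) (R := r) (z := s - a) hm
    ?_ ?_ hr ?_ ?_
  · simp only [sub_add_cancel] at hB
    rw [hgF s hs, Real.log_mul hga.ne' (Real.exp_ne_zero _), Real.log_exp, add_sub_cancel_left]
    exact (abs_re_le_norm _).trans hB
  · intro z hz
    have hz' : z + a ∈ ball a r := by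
      rw [mem_ball, dist_eq_norm] at hz ⊢
      simpa using hz
    have h1 : DifferentiableAt ℂ F (z + a) := (hF _ hz').differentiableAt
    exact (h1.comp z (by fun_prop : DifferentiableAt ℂ (fun z => z + a) z)).differentiableWithinAt
  · intro z hz
    have hz' : z + a ∈ ball a r := by
      rw [mem_ball, dist_eq_norm] at hz ⊢
      simpa using hz
    exact hre _ hz'
  · rw [mem_ball, dist_eq_norm, sub_zero, ← dist_eq_norm]
    exact hs
  · simp [hF0]

end Vale.Agent.P007.Z
end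

section

set_option autoImplicit false

open Complex Metric Set Filter Topology

namespace Vale.Agent.P007.Z

section OneZero

/-- scale free squared distance to a zero -/
def PP (b h x : ℝ) : ℝ := (x + b) ^ 2 + h ^ 2

theorem PP_pos {b h x : ℝ} (hb : 0 ≤ b) (hx : 0 < x) : 0 < PP b h x := by
  unfold PP; positivity

theorem one_zero_growth {b h : ℝ} (hb : 0 ≤ b) :
    (1 + b) / PP b h 1 ≤ 4 * (Real.log (PP b h 2) / 2 - Real.log (PP b h 1) / 2) := by
  have h1 : 0 < PP b h 1 := PP_pos hb one_pos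
  have h2 : 0 < PP b h 2 := PP_pos hb two_pos
  have h3 : 1 - (PP b h 2 / PP b h 1)⁻¹ ≤ Real.log (PP b h 2 / PP b h 1) :=
    Real.one_sub_inv_le_log_of_pos (by positivity)
  rw [inv_div, Real.log_div h2.ne' h1.ne'] at h3
  have h4 : PP b h 2 ≤ 4 * PP b h 1 := by unfold PP; nlinarith only [sq_nonneg h, hb]
  have h5 : (1 + b) / (2 * PP b h 1) ≤ 1 - PP b h 1 / PP b h 2 := by
    rw [one_sub_div h2.ne', div_le_div_iff₀ (by positivity) h2]
    have h6 : PP b h 2 - PP b h 1 = 3 + 2 * b := by unfold PP; ring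
    rw [h6]
    nlinarith only [hb, h1, h4]
  have h7 : (1 + b) / PP b h 1 = 2 * ((1 + b) / (2 * PP b h 1)) := by
    field_simp
  rw [h7]
  linarith only [h3, h5]

theorem one_zero_far {b h η : ℝ} (hb : 0 ≤ b) (hη : 0 < η) (hη1 : η ≤ 1)
    (hfar : 4 ≤ b ^ 2 + h ^ 2) :
    |Real.log (PP b h η) / 2 - Real.log (PP b h 1) / 2| ≤ 18 * ((1 + b) / PP b h 1) := by
  have h1 : 0 < PP b h 1 := PP_pos hb one_pos
  have h2 : 0 < PP b h η := PP_pos hb hη
  have hle : PP b h η ≤ PP b h 1 := by unfold PP; nlinarith only [hb, hη, hη1]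
  have h3 : Real.log (PP b h η) ≤ Real.log (PP b h 1) := Real.log_le_log h2 hle
  rw [abs_sub_comm, abs_of_nonneg (by linarith)]
  have h4 : Real.log (PP b h 1 / PP b h η) ≤ PP b h 1 / PP b h η - 1 :=
    Real.log_le_sub_one_of_pos (by positivity)
  rw [Real.log_div h1.ne' h2.ne'] at h4
  have h5 : PP b h 1 / PP b h η - 1 ≤ (9 / 2) * ((1 + b) / PP b h 1) := by
    rw [div_sub_one h2.ne', ← mul_div_assoc, div_le_div_iff₀ h2 h1]
    have h6 : PP b h 1 - PP b h η ≤ 2 * (1 + b) := by unfold PP; nlinarith only [hb, hη]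
    have h7 : 4 * PP b h 1 ≤ 9 * PP b h η := by
      have h8 : 2 * b ≤ b ^ 2 + h ^ 2 := by
        rcases le_total b 2 with hb2 | hb2
        · nlinarith only [hfar, hb2]
        · nlinarith only [sq_nonneg h, hb, hb2]
      unfold PP; nlinarith only [hb, hη, hfar, h8]
    nlinarith only [hb, h1, h6, h7]
  have h6 : 0 ≤ (1 + b) / PP b h 1 := by positivity
  linarith

theorem one_zero_near {b h η : ℝ} (hb : 0 ≤ b) (hη : 0 < η) (hη1 : η ≤ 1)
    (hnear : b ^ 2 + h ^ 2 < 4) :
    |Real.log (PP b h η) / 2 - Real.log (PP b h 1) / 2 -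
        Real.log (max η (min 1 (Real.sqrt (b ^ 2 + h ^ 2))))| ≤ 18 * ((1 + b) / PP b h 1) ∧
      1 ≤ 9 * ((1 + b) / PP b h 1) := by
  have h1 : 0 < PP b h 1 := PP_pos hb one_pos
  have hq : 1 ≤ 9 * ((1 + b) / PP b h 1) := by
    rw [← mul_div_assoc, le_div_iff₀ h1]
    unfold PP; nlinarith only [hb, hnear]
  refine ⟨?_, hq⟩
  have key : ∀ x : ℝ, 0 < x → x ≤ 1 →
      0 ≤ Real.log (PP b h x) / 2 - Real.log (max x (min 1 (Real.sqrt (b ^ 2 + h ^ 2)))) ∧
      Real.log (PP b h x) / 2 - Real.log (max x (min 1 (Real.sqrt (b ^ 2 + h ^ 2))))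
        ≤ 2 * Real.log 2 := by
    intro x hx hx1
    have h2 : 0 < PP b h x := PP_pos hb hx
    set w := Real.sqrt (b ^ 2 + h ^ 2) with hw
    have hw0 : 0 ≤ w := Real.sqrt_nonneg _
    have hw2 : w ^ 2 = b ^ 2 + h ^ 2 := Real.sq_sqrt (by (clear * -; positivity))
    have hwlt : w < 2 := by nlinarith only [hnear, hw0, hw2]
    have hbw : b ≤ w := by
      rw [hw]; exact Real.le_sqrt_of_sq_le (by nlinarith only [sq_nonneg h])
    set m := max x (min 1 w) with hm
    have hm0 : 0 < m := lt_of_lt_of_le hx (le_max_left _ _)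
    have hmsq : Real.log m = Real.log (m ^ 2) / 2 := by
      rw [Real.log_pow]; push_cast; ring
    have hlow : m ^ 2 ≤ PP b h x := by
      rcases le_total x (min 1 w) with hc | hc
      · rw [hm, max_eq_right hc]
        have : min 1 w ≤ w := min_le_right _ _
        have h0 : 0 ≤ min 1 w := le_min zero_le_one hw0
        have : (min 1 w) ^ 2 ≤ w ^ 2 := by (clear * - this; gcongr)
        unfold PP; nlinarith only [mul_nonneg hx.le hb, hb, hx, hw2, this]
      · rw [hm, max_eq_left hc]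
        unfold PP; nlinarith only [mul_nonneg hx.le hb, sq_nonneg h, sq_nonneg b, hb, hx]
    have hup : PP b h x ≤ (4 * m) ^ 2 := by
      have hxm : x ≤ m := le_max_left _ _
      have hwm : w ≤ 2 * m := by
        have : min 1 w ≤ m := le_max_right _ _
        rcases le_total 1 w with hc | hc
        · rw [min_eq_left hc] at this; linarith only [hwlt, this]
        · rw [min_eq_right hc] at this; linarith only [hm0, this]
      have : PP b h x ≤ (x + w) ^ 2 := by
        unfold PP; nlinarith only [mul_le_mul_of_nonneg_left hbw hx.le, hx, hw2, hbw]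
      have h5 : x + w ≤ 4 * m := by linarith only [hm0, hxm, hwm]
      nlinarith only [hx, hw0, hm0, hxm, hwm, this]
    rw [hmsq]
    have h3 : Real.log (m ^ 2) ≤ Real.log (PP b h x) := Real.log_le_log (by positivity) hlow
    have h4 : Real.log (PP b h x) ≤ Real.log ((4 * m) ^ 2) := Real.log_le_log h2 hup
    have h5 : Real.log ((4 * m) ^ 2) = 4 * Real.log 2 + Real.log (m ^ 2) := by
      have : (4 * m) ^ 2 = 2 ^ 4 * m ^ 2 := by ring
      rw [this, Real.log_mul (by positivity) (by positivity), Real.log_pow]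
      push_cast; ring
    constructor <;> linarith only [h3, h4, h5]
  obtain ⟨a1, a2⟩ := key η hη hη1
  obtain ⟨b1, b2⟩ := key 1 one_pos le_rfl
  have hmax : max 1 (min 1 (Real.sqrt (b ^ 2 + h ^ 2))) = 1 := max_eq_left (min_le_left _ _)
  rw [hmax, Real.log_one, sub_zero] at b1 b2
  have hlog2 : Real.log 2 < 0.6931471808 := Real.log_two_lt_d9
  rw [abs_le]
  constructor <;> linarith

end OneZero

theorem log_norm_eq_PP {L x : ℝ} (hL : 0 < L) (hx : 0 < x) {ρ : ℂ} (hρ : ρ.re ≤ 1) :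
    Real.log ‖(1 + x / L : ℂ) - ρ‖ =
      Real.log (PP (L * (1 - ρ.re)) (L * ρ.im) x) / 2 - Real.log L := by
  have hP : 0 < PP (L * (1 - ρ.re)) (L * ρ.im) x :=
    PP_pos (mul_nonneg hL.le (by linarith)) hx
  have h1 : ‖(1 + x / L : ℂ) - ρ‖ ^ 2 = PP (L * (1 - ρ.re)) (L * ρ.im) x / L ^ 2 := by
    rw [← Complex.normSq_eq_norm_sq, Complex.normSq_apply]
    have hre : ((1 + x / L : ℂ) - ρ).re = 1 + x / L - ρ.re := by
      rw [← Complex.ofReal_div]; simp only [ofReal_div, sub_re, add_re, one_re, div_ofReal_re,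
                                   ofReal_re]
    have him : ((1 + x / L : ℂ) - ρ).im = - ρ.im := by
      rw [← Complex.ofReal_div]; simp
    rw [hre, him]
    unfold PP
    field_simp
    ring
  have h2 : Real.log (‖(1 + x / L : ℂ) - ρ‖ ^ 2) = 2 * Real.log ‖(1 + x / L : ℂ) - ρ‖ := by
    rw [Real.log_pow]; push_cast; ring
  rw [h1, Real.log_div hP.ne' (by positivity), Real.log_pow] at h2
  push_cast at h2
  linarith only [h2]

theorem sq_add_sq_pos {L : ℝ} (hL : 0 < L) {ρ : ℂ} (hρ : ρ ≠ 1) :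
    0 < (L * (1 - ρ.re)) ^ 2 + (L * ρ.im) ^ 2 := by
  by_contra h0
  push Not at h0
  have h1 : (L * (1 - ρ.re)) ^ 2 = 0 :=
    le_antisymm (by linarith [sq_nonneg (L * ρ.im)]) (sq_nonneg _)
  have h2 : (L * ρ.im) ^ 2 = 0 :=
    le_antisymm (by linarith [sq_nonneg (L * (1 - ρ.re))]) (sq_nonneg _)
  apply hρ
  apply Complex.ext
  · have := (mul_eq_zero.mp (pow_eq_zero_iff two_ne_zero |>.mp h1)).resolve_left hL.ne'
    simp only [Complex.one_re]; linarith
  · have := (mul_eq_zero.mp (pow_eq_zero_iff two_ne_zero |>.mp h2)).resolve_left hL.ne'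
    simp only [Complex.one_im]; exact this

theorem sum_filter_map {α : Type*} (l : List α) (p : α → Bool) (f : α → ℝ) :
    ((l.filter p).map f).sum = (l.map (fun x => if p x then f x else 0)).sum := by
  induction l with
  | nil => simp
  | cons a l ih =>
    by_cases h : p a
    · simp [h, ih]
    · simp [h, ih]

theorem sum_map_sub' {α : Type*} (l : List α) (f g : α → ℝ) :
    (l.map (fun x => f x - g x)).sum = (l.map f).sum - (l.map g).sum := by
  induction l with
  | nil => simp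
  | cons a l ih =>
    simp only [List.map_cons, List.sum_cons, ih]
    ring

theorem abs_sum_map_le {α : Type*} (l : List α) (f q : α → ℝ) (h : ∀ x ∈ l, |f x| ≤ q x) :
    |(l.map f).sum| ≤ (l.map q).sum := by
  induction l with
  | nil => simp
  | cons a l ih =>
    simp only [List.map_cons, List.sum_cons]
    have h1 := h a (by simp)
    have h2 := ih (fun x hx => h x (by simp [hx]))
    exact (abs_add_le _ _).trans (add_le_add h1 h2)

theorem length_filter_le {α : Type*} (l : List α) (p : α → Bool) (q : α → ℝ)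
    (h : ∀ x ∈ l, 0 ≤ q x) (hp : ∀ x ∈ l, p x → 1 ≤ q x) :
    ((l.filter p).length : ℝ) ≤ (l.map q).sum := by
  induction l with
  | nil => simp
  | cons a l ih =>
    have h1 := h a (by simp)
    have h2 := ih (fun x hx => h x (by simp [hx])) (fun x hx => hp x (by simp [hx]))
    by_cases hpa : p a
    · have h3 := hp a (by simp) hpa
      simp only [List.filter_cons, hpa, if_true, List.length_cons, List.map_cons, List.sum_cons]
      push_cast
      linarith only [h2, h3]
    · simp only [List.filter_cons, hpa, List.map_cons, List.sum_cons]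
      simp only [Bool.false_eq_true, ↓reduceIte, ge_iff_le]
      linarith

theorem log_norm_prod {l : List ℂ} {s w : ℂ} (hl : ∀ ρ ∈ l, s - ρ ≠ 0) (hw : w ≠ 0) :
    Real.log ‖(l.map (fun ρ => s - ρ)).prod * w‖ =
      (l.map (fun ρ => Real.log ‖s - ρ‖)).sum + Real.log ‖w‖ := by
  induction l with
  | nil => simp
  | cons a l ih =>
    have h1 := hl a (by simp)
    have h2 := ih (fun x hx => hl x (by simp [hx]))
    have h3 : (l.map (fun ρ => s - ρ)).prod * w ≠ 0 := by
      refine mul_ne_zero (List.prod_ne_zero ?_) hw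
      intro h0
      obtain ⟨ρ, hρ, h⟩ := List.mem_map.mp h0
      exact hl ρ (by simp [hρ]) h
    rw [List.map_cons, List.prod_cons, mul_assoc, norm_mul, Real.log_mul
      (norm_ne_zero_iff.mpr h1) (norm_ne_zero_iff.mpr h3), h2]
    simp only [List.map_cons, List.sum_cons]
    ring

/-- **Landau's zero formula near `1`** (with uniform constants). -/
theorem zeros_formula (c K : ℝ) (hc : 0 < c) (hK : 0 ≤ K) : ∃ C : ℝ, 0 < C ∧ ∀ L : ℝ, C ≤ L →
    ∀ f : ℂ → ℂ, DifferentiableOn ℂ f (ball 1 c) →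
    (∀ s ∈ ball (1 : ℂ) c, ‖f s‖ ≤ Real.exp (K * L)) →
    (∀ s ∈ ball (1 : ℂ) c, 1 < s.re → f s ≠ 0) →
    Real.exp (-(K * L)) ≤ ‖f (1 + (1 : ℝ) / L)‖ →
    Real.log ‖f (1 + (2 : ℝ) / L)‖ ≤ Real.log ‖f (1 + (1 : ℝ) / L)‖ + K →
    ∃ d : List ℝ, (d.length : ℝ) ≤ C ∧ (∀ x ∈ d, 0 ≤ x ∧ x ≤ 1) ∧
      (f 1 ≠ 0 → ∀ x ∈ d, 0 < x) ∧
      ∀ η : ℝ, 0 < η → η ≤ 1 →
        |Real.log ‖f (1 + η / L)‖ - Real.log ‖f (1 + (1 : ℝ) / L)‖ -
          (d.map (fun x => Real.log (max η x))).sum| ≤ C := by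
  set r : ℝ := c / 8 with hr
  have hr0 : 0 < r := by positivity
  set C₁ : ℝ := 4 * (2 * K + 1) / r with hC₁
  have hC₁0 : 0 ≤ C₁ := by positivity
  refine ⟨2 / r + 1 + 72 * (K + 2 * C₁) + 2 * C₁, by positivity, ?_⟩
  intro L hL f hf hfM hf0 hfa hgrow
  have hKC : 0 ≤ 72 * (K + 2 * C₁) := by positivity
  have h2r : 0 < 2 / r := by positivity
  have hL1 : 1 ≤ L := by linarith only [hK, hC₁0, hL, h2r]
  have hL0 : 0 < L := by linarith only [hK, hC₁0, hL, h2r]
  have hLr : 1 / L ≤ r / 2 := by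
    rw [div_le_div_iff₀ hL0 two_pos]
    have : 2 / r ≤ L := by linarith only [hK, hC₁0, hL]
    rw [div_le_iff₀ hr0] at this
    linarith only [this]
  set a : ℂ := 1 + (1 : ℝ) / L with ha
  have hpt : ∀ x : ℝ, dist (1 + x / L : ℂ) a = |x - 1| / L := by
    intro x
    rw [ha, dist_eq_norm]
    have : (1 + (x : ℂ) / (L : ℂ)) - (1 + ((1 : ℝ) : ℂ) / (L : ℂ)) = (((x - 1) / L : ℝ) : ℂ) := by
      push_cast; ring
    rw [this, Complex.norm_real, Real.norm_eq_abs, abs_div, abs_of_pos hL0]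
  have hball : ball a (4 * r) ⊆ ball 1 c := by
    apply ball_subset_ball'
    have : dist a 1 = 1 / L := by
      rw [ha, dist_eq_norm, add_sub_cancel_left, norm_div, Complex.norm_real, Complex.norm_real,
        Real.norm_eq_abs, Real.norm_eq_abs, abs_one, abs_of_pos hL0]
    rw [this]
    have : c = 8 * r := by rw [hr]; ring
    linarith only [hr, hr0, hLr]
  have hfa0 : 0 < ‖f a‖ := lt_of_lt_of_le (Real.exp_pos _) hfa
  obtain ⟨N, hN⟩ : ∃ N : ℕ, Real.exp (K * L) / ‖f a‖ < 2 ^ N := pow_unbounded_of_one_lt _ one_lt_two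
  rw [div_lt_iff₀ hfa0, mul_comm ((2:ℝ) ^ N)] at hN
  obtain ⟨l, g, hg, hl, hfl, hg0, hcard, hgb⟩ := exists_factor (a := a) (r := r) (R₀ := 4 * r) hr0
    (by linarith only [hr0]) N f (Real.exp (K * L)) (hf.mono hball)
    (fun s hs => hfM s (hball (closedBall_subset_ball (by linarith only [hr0]) hs))) hN
  have hlre : ∀ ρ ∈ l, ρ.re ≤ 1 := by
    intro ρ hρ
    by_contra h
    push Not at h
    obtain ⟨h1, h2⟩ := hl ρ hρ
    exact hf0 ρ (hball (closedBall_subset_ball (by linarith only [hr0]) h1)) h h2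
  -- lower bound for `g a`
  have hprod : ‖(l.map (fun ρ => a - ρ)).prod‖ ≤ r ^ l.length := by
    have : ∀ l' : List ℂ, (∀ ρ ∈ l', ρ ∈ closedBall a r) →
        ‖(l'.map (fun ρ => a - ρ)).prod‖ ≤ r ^ l'.length := by
      intro l'
      induction l' with
      | nil => intro _; simp
      | cons b l' ih =>
        intro hb
        have h1 : ‖a - b‖ ≤ r := by
          rw [← dist_eq_norm, dist_comm]; exact hb b (by simp)
        have h2 := ih (fun ρ hρ => hb ρ (by simp [hρ]))
        rw [List.map_cons, List.prod_cons, norm_mul, List.length_cons, pow_succ, mul_comm]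
        (clear * - hc h1 h2; gcongr)
    exact this l (fun ρ hρ => (hl ρ hρ).1)
  have haR : a ∈ ball a (4 * r) := mem_ball_self (by positivity)
  have hga : Real.exp (-(K * L)) ≤ r ^ l.length * ‖g a‖ := by
    refine hfa.trans ?_
    rw [hfl a haR, norm_mul]
    (clear * - hprod; gcongr)
  set m : ℝ := (2 * K + 1) * L with hm
  have hm0 : 0 < m := by (clear * - hK hL1; positivity)
  have hA : Real.exp (K * L) / (2 * r) ^ l.length ≤ ‖g a‖ * Real.exp m := by
    rw [div_le_iff₀ (by positivity)]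
    have h1 : Real.exp (K * L) ≤ Real.exp (-(K * L)) * Real.exp m := by
      rw [← Real.exp_add]
      apply Real.exp_le_exp.mpr
      rw [hm]; nlinarith only [hK, hC₁0, hL, h2r]
    calc Real.exp (K * L) ≤ Real.exp (-(K * L)) * Real.exp m := h1
      _ ≤ (r ^ l.length * ‖g a‖) * Real.exp m := by (clear * - hga; gcongr)
      _ ≤ ((2 * r) ^ l.length * ‖g a‖) * Real.exp m := by
          gcongr
          linarith only [hr0]
      _ = ‖g a‖ * Real.exp m * (2 * r) ^ l.length := by ring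
  have hgd : ∀ x : ℝ, 0 < x → x ≤ 2 →
      |Real.log ‖g (1 + x / L)‖ - Real.log ‖g a‖| ≤ C₁ := by
    intro x hx hx2
    have hd : dist (1 + x / L : ℂ) a ≤ 1 / L := by
      rw [hpt]
      gcongr
      rw [abs_le]; constructor <;> linarith only [hx, hx2]
    have hmem : (1 + x / L : ℂ) ∈ ball a r := by
      rw [mem_ball]; linarith only [hr0, hLr, hd]
    have h1 := log_norm_sub_le hr0 (hg.mono (ball_subset_ball (by linarith only [hr0])))
      (fun s hs => hg0 s (ball_subset_closedBall hs))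
      (fun s hs => hgb s (closedBall_subset_closedBall (by linarith only [hr0]) (ball_subset_closedBall hs)))
      hm0 hA hmem
    refine h1.trans ?_
    rw [← dist_eq_norm]
    rw [hC₁, div_le_div_iff₀ (by linarith only [hr0, hLr, hd]) hr0]
    have h2 : r / 2 ≤ r - dist (1 + x / L : ℂ) a := by linarith only [hLr, hd]
    have h3 : m * dist (1 + x / L : ℂ) a ≤ 2 * K + 1 := by
      calc m * dist (1 + x / L : ℂ) a ≤ m * (1 / L) := by (clear * - hK hL1 hd; gcongr)
        _ = 2 * K + 1 := by rw [hm]; (clear * - hK hL1; field_simp)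
    have h4 : 0 ≤ 2 * K + 1 := by (clear * - hK; positivity)
    nlinarith only [mul_le_mul_of_nonneg_left h2 (by positivity : (0:ℝ) ≤ 4 * (2 * K + 1)), hc,
      hK, hr, h2, h3]
  -- the logarithm of `f`
  have hlogf : ∀ x : ℝ, 0 < x → x ≤ 2 → Real.log ‖f (1 + x / L)‖ =
      (l.map (fun ρ => Real.log ‖(1 + x / L : ℂ) - ρ‖)).sum + Real.log ‖g (1 + x / L)‖ := by
    intro x hx hx2
    have hd : dist (1 + x / L : ℂ) a ≤ 1 / L := by
      rw [hpt]
      gcongr
      rw [abs_le]; constructor <;> linarith only [hx, hx2]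
    have hmem : (1 + x / L : ℂ) ∈ closedBall a r := by
      rw [mem_closedBall]; linarith only [hr0, hLr, hd]
    rw [hfl _ (closedBall_subset_ball (by linarith only [hr0]) hmem)]
    refine log_norm_prod ?_ (hg0 _ hmem)
    intro ρ hρ h0
    have h1 := hlre ρ hρ
    have h2 : (1 + x / L : ℂ) = ρ := sub_eq_zero.mp h0
    rw [← h2, ← Complex.ofReal_div] at h1
    simp only [Complex.add_re, Complex.one_re, Complex.ofReal_re] at h1
    have : 0 < x / L := by (clear * - hL1 hx; positivity)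
    linarith only [h1, this]
  -- rewrite with `PP`
  set B : ℂ → ℝ := fun ρ => L * (1 - ρ.re) with hB
  set H : ℂ → ℝ := fun ρ => L * ρ.im with hH
  set q : ℂ → ℝ := fun ρ => (1 + B ρ) / PP (B ρ) (H ρ) 1 with hq
  have hB0 : ∀ ρ ∈ l, 0 ≤ B ρ := fun ρ hρ => mul_nonneg hL0.le (by linarith only [hlre ρ hρ, hlre,
                                                                     hρ])
  have hq0 : ∀ ρ ∈ l, 0 ≤ q ρ := fun ρ hρ => by
    have h1 := hB0 ρ hρ
    have h2 : 0 < PP (B ρ) (H ρ) 1 := PP_pos h1 one_pos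
    (clear * - h1 h2; positivity)
  have hsub : ∀ x y : ℝ, (l.map (fun ρ => Real.log ‖(1 + x / L : ℂ) - ρ‖)).sum -
      (l.map (fun ρ => Real.log ‖(1 + y / L : ℂ) - ρ‖)).sum =
      (l.map (fun ρ => Real.log ‖(1 + x / L : ℂ) - ρ‖ - Real.log ‖(1 + y / L : ℂ) - ρ‖)).sum := by
    intro x y
    rw [sum_map_sub']
  have hlogf1 := hlogf 1 one_pos one_le_two
  have hlogf2 := hlogf 2 two_pos le_rfl
  have hga1 : g (1 + ((1 : ℝ) : ℂ) / L) = g a := rfl
  rw [hga1] at hlogf1
  have hsumq : (l.map q).sum ≤ 4 * (K + C₁) := by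
    have h1 : (l.map q).sum ≤ 4 * (l.map (fun ρ => Real.log ‖(1 + (2:ℝ) / L : ℂ) - ρ‖ -
        Real.log ‖(1 + (1:ℝ) / L : ℂ) - ρ‖)).sum := by
      rw [← List.sum_map_mul_left]
      apply List.sum_le_sum
      intro ρ hρ
      rw [log_norm_eq_PP hL0 two_pos (hlre ρ hρ), log_norm_eq_PP hL0 one_pos (hlre ρ hρ)]
      have := one_zero_growth (h := H ρ) (hB0 ρ hρ)
      simp only [hq, hB, hH] at this ⊢
      linarith only [this]
    rw [← hsub] at h1
    have h2 := hgd 2 two_pos le_rfl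
    have h3 := abs_le.mp h2
    linarith only [h3.1, hgrow, hlogf1, hlogf2, h1, h3]
  set near : ℂ → Bool := fun ρ => decide ((B ρ) ^ 2 + (H ρ) ^ 2 < 4) with hnear
  set dd : ℂ → ℝ := fun ρ => min 1 (Real.sqrt ((B ρ) ^ 2 + (H ρ) ^ 2)) with hdd
  refine ⟨(l.filter near).map dd, ?_, ?_, ?_, ?_⟩
  · rw [List.length_map]
    have h1 := length_filter_le l near (fun ρ => 9 * q ρ)
      (fun ρ hρ => by have := hq0 ρ hρ; (clear * - this; positivity)) (fun ρ hρ hn => by
        have hn' : (B ρ) ^ 2 + (H ρ) ^ 2 < 4 := of_decide_eq_true hn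
        exact (one_zero_near (η := 1) (hB0 ρ hρ) one_pos le_rfl hn').2)
    rw [List.sum_map_mul_left] at h1
    linarith only [hK, hC₁0, h2r, hsumq, h1]
  · intro x hx
    obtain ⟨ρ, _, rfl⟩ := List.mem_map.mp hx
    exact ⟨le_min zero_le_one (Real.sqrt_nonneg _), min_le_left _ _⟩
  · intro hf1 x hx
    obtain ⟨ρ, hρ, rfl⟩ := List.mem_map.mp hx
    have hρl : ρ ∈ l := List.mem_of_mem_filter hρ
    have hne : ρ ≠ 1 := by
      rintro rfl
      exact hf1 (hl 1 hρl).2
    exact lt_min one_pos (Real.sqrt_pos.mpr (sq_add_sq_pos hL0 hne))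
  · intro η hη hη1
    rw [List.map_map, sum_filter_map, hlogf η hη (by linarith only [hη1]), hlogf1]
    have h1 := hgd η hη (by linarith only [hη1])
    have h2 : |(l.map (fun ρ => (Real.log ‖(1 + η / L : ℂ) - ρ‖ - Real.log ‖(1 + (1:ℝ) / L : ℂ) - ρ‖)
        - (if near ρ then ((fun x => Real.log (max η x)) ∘ dd) ρ else 0))).sum|
        ≤ (l.map (fun ρ => 18 * q ρ)).sum := by
      apply abs_sum_map_le
      intro ρ hρ
      rw [log_norm_eq_PP hL0 hη (hlre ρ hρ), log_norm_eq_PP hL0 one_pos (hlre ρ hρ)]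
      by_cases hn : (B ρ) ^ 2 + (H ρ) ^ 2 < 4
      · have h3 := (one_zero_near (η := η) (hB0 ρ hρ) hη hη1 hn).1
        have h4 : near ρ = true := decide_eq_true hn
        rw [h4, if_pos rfl]
        refine le_trans (le_of_eq ?_) h3
        simp only [hB, hH, hdd, Function.comp]
        congr 1
        ring
      · have h3 := one_zero_far (η := η) (hB0 ρ hρ) hη hη1 (not_lt.mp hn)
        have h4 : near ρ = false := decide_eq_false hn
        rw [h4]
        refine le_trans (le_of_eq ?_) h3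
        simp only [hB, hH, Bool.false_eq_true, if_false]
        congr 1
        ring
    rw [sum_map_sub', sum_map_sub', List.sum_map_mul_left] at h2
    have h3 := abs_le.mp h1
    have h4 := abs_le.mp h2
    rw [abs_le]
    constructor
    · linarith only [h3.1, h4.1, hC₁0, h2r, hsumq, h3, h4]
    · linarith only [h3.2, h4.2, hC₁0, h2r, hsumq, h3, h4]

end Vale.Agent.P007.Z
end
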