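import Vale.Agent.P007.Bdl.B2
import Vale.Agent.P007.Bdl.B5

section

set_option autoImplicit false

open Complex MeasureTheory Filter Topology Set Metric NumberField

namespace Vale.Agent.P007.Z

section Continuation

variable {b : ℕ → ℂ} {k : ℕ} {α : ℂ} {θ B : ℝ}

/-- the remainder in the logarithmic variable -/
noncomputable def Rm (b : ℕ → ℂ) (k : ℕ) (α : ℂ) (t : ℝ) : ℂ := Sr b k t - α * cexp t

theorem measurable_Rm : Measurable (Rm b k α) :=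
  (measurable_Sr b k).sub (measurable_const.mul (by fun_prop))

theorem norm_Rm_le (hS : ∀ Y : ℝ, 1 ≤ Y →
    ‖∑ m ∈ Finset.Icc 1 ⌊Y⌋₊, b m * (Real.log (Y / m) : ℂ) ^ k - α * Y‖ ≤ B * Y ^ (1 - θ))
    {t : ℝ} (ht : 0 < t) : ‖Rm b k α t‖ ≤ B * Real.exp ((1 - θ) * t) := by
  have h1 := hS (Real.exp t) (Real.one_le_exp ht.le)
  have h2 : (Real.exp t) ^ (1 - θ) = Real.exp ((1 - θ) * t) := by
    rw [← Real.exp_mul, mul_comm]
  rw [h2] at h1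
  have h3 : ∑ m ∈ Finset.Icc 1 ⌊Real.exp t⌋₊, b m * (Real.log (Real.exp t / m) : ℂ) ^ k =
      Sr b k t := by
    rw [Sr, SrN]
    refine Finset.sum_congr rfl fun m hm => ?_
    have hm0 : (m : ℝ) ≠ 0 := by
      have := (Finset.mem_Icc.mp hm).1
      positivity
    rw [Real.log_div (Real.exp_ne_zero _) hm0, Real.log_exp]
    push_cast
    rfl
  rw [h3] at h1
  rw [Rm]
  convert h1 using 3
  push_cast
  rfl

theorem integrable_cexp_sub {s : ℂ} (hs : 1 < s.re) :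
    IntegrableOn (fun t : ℝ => cexp t * cexp (-s * t)) (Ioi 0) ∧
      ∫ t in Ioi (0 : ℝ), cexp t * cexp (-s * t) = 1 / (s - 1) := by
  have h1 : ∀ t : ℝ, cexp t * cexp (-s * t) = (t : ℂ) ^ 0 * cexp (-(s - 1) * t) := by
    intro t
    rw [pow_zero, one_mul, ← Complex.exp_add]
    congr 1
    ring
  have h2 : 0 < (s - 1).re := by simpa using hs
  simp_rw [h1]
  exact ⟨integrableOn_pow_mul_cexp 0 h2, by rw [integral_pow_mul_cexp 0 h2]; simp⟩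

theorem LSeries_eq_cont (hθ : 0 < θ) (hS : ∀ Y : ℝ, 1 ≤ Y →
    ‖∑ m ∈ Finset.Icc 1 ⌊Y⌋₊, b m * (Real.log (Y / m) : ℂ) ^ k - α * Y‖ ≤ B * Y ^ (1 - θ))
    {s : ℂ} (hs : 1 < s.re) (hsum : LSeriesSummable b s) :
    LSeries b s = s ^ (k + 1) / k.factorial * (α / (s - 1) + Lap (Rm b k α) s) := by
  have hs0 : s ≠ 0 := by
    rintro rfl
    simp at hs
    linarith
  obtain ⟨i1, i2⟩ := integrable_cexp_sub hs
  have h1 : IntegrableOn (fun t : ℝ => Rm b k α t * cexp (-s * t)) (Ioi 0) :=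
    integrableOn_lap measurable_Rm (fun t ht => norm_Rm_le hS ht) (by linarith only [hθ, hs])
  have h2 : Lap (Sr b k) s = Lap (Rm b k α) s + α * (1 / (s - 1)) := by
    rw [← i2, ← integral_const_mul, Lap, Lap, ← integral_add h1 (i1.const_mul α)]
    congr 1
    funext t
    rw [Rm]
    ring
  rw [integral_Sr (by linarith only [hs]) hsum] at h2
  have h3 : (k.factorial : ℂ) ≠ 0 := by exact_mod_cast k.factorial_ne_zero
  have h4 : s ^ (k + 1) ≠ 0 := pow_ne_zero _ hs0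
  have h5 : LSeries b s = s ^ (k + 1) / k.factorial *
      ((k.factorial : ℂ) / s ^ (k + 1) * LSeries b s) := by
    field_simp
  rw [h5, h2]
  ring

end Continuation

section

variable {E : Type} [Field E] [NumberField E]

theorem lseriesSummable_chi {χ : ℕ →*₀ ℂ} (hχ : ∀ n, ‖χ n‖ ≤ 1) {s : ℂ} (hs : 1 < s.re) :
    LSeriesSummable (fun m => χ m * (aN E m : ℂ)) s := by
  refine Summable.of_norm_bounded (lseriesSummable_a E hs).norm fun m => ?_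
  refine LSeries.norm_term_le s ?_
  rw [norm_mul]
  have h1 := hχ m
  have h2 := norm_nonneg ((aN E m : ℂ))
  nlinarith

theorem ball_facts {N n : ℕ} (hn0 : 0 < n) (hnN : n ≤ N) {s : ℂ}
    (hs : s ∈ ball (1 : ℂ) (1 / (2 * ((N : ℝ) + 1)))) :
    1 - (1 / (n : ℝ)) / 2 < s.re ∧ ‖s‖ ≤ 2 ∧ ‖s - 1‖ ≤ 1 := by
  have hnN' : (n : ℝ) ≤ N := by exact_mod_cast hnN
  have hn1 : (1 : ℝ) ≤ n := by exact_mod_cast hn0
  have hθc : 1 / (2 * ((N : ℝ) + 1)) ≤ (1 / (n : ℝ)) / 2 := by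
    rw [div_div, div_le_div_iff₀ (by positivity) (by positivity)]
    linarith only [hnN']
  rw [mem_ball, dist_eq_norm] at hs
  have h1 : |(s - 1).re| ≤ ‖s - 1‖ := Complex.abs_re_le_norm _
  rw [Complex.sub_re, Complex.one_re] at h1
  have h2 := (abs_le.mp h1).1
  have h3 : 1 / (2 * ((N : ℝ) + 1)) ≤ 1 := by
    rw [div_le_one (by positivity)]; linarith only [hnN', hn1]
  refine ⟨by linarith only [hs, hθc, h2], ?_, by linarith only [hs, h3]⟩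
  calc ‖s‖ = ‖(s - 1) + 1‖ := by rw [sub_add_cancel]
    _ ≤ ‖s - 1‖ + ‖(1 : ℂ)‖ := norm_add_le _ _
    _ ≤ 2 := by rw [norm_one]; linarith only [hs, h3]

theorem exists_f (N : ℕ) (hEN : Module.finrank ℚ E ≤ N) {χ : ℕ →*₀ ℂ} (hχ : ∀ n, ‖χ n‖ ≤ 1)
    {T : ℝ} {α : ℂ} {B : ℝ} (hα : ‖α‖ ≤ T) (hB : B ≤ T)
    (hS : ∀ Y : ℝ, 1 ≤ Y → ‖∑ m ∈ Finset.Icc 1 ⌊Y⌋₊, χ m * (aN E m : ℂ) *
      (Real.log (Y / m) : ℂ) ^ (Module.finrank ℚ E - 1) - α * Y‖ ≤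
        B * Y ^ (1 - 1 / (Module.finrank ℚ E : ℝ))) :
    ∃ (δ : ℕ) (f : ℂ → ℂ), δ ≤ 1 ∧
      DifferentiableOn ℂ f (ball 1 (1 / (2 * ((N : ℝ) + 1)))) ∧
      (∀ s ∈ ball (1 : ℂ) (1 / (2 * ((N : ℝ) + 1))), ‖f s‖ ≤ 2 ^ N * (2 * N + 1) * T) ∧
      (α ≠ 0 → δ = 1 ∧ f 1 ≠ 0) ∧
      ∀ s : ℂ, 1 < s.re → f s = (s - 1) ^ δ * Lf E χ s := by
  set n := Module.finrank ℚ E with hn
  have hn0 : 0 < n := Module.finrank_pos
  have hnN : (n : ℝ) ≤ N := by exact_mod_cast hEN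
  have hn1 : (1 : ℝ) ≤ n := by exact_mod_cast hn0
  set b : ℕ → ℂ := fun m => χ m * (aN E m : ℂ) with hb
  set θ : ℝ := 1 / (n : ℝ) with hθ
  have hθ0 : 0 < θ := by positivity
  set J : ℂ → ℂ := Lap (Rm b (n - 1) α) with hJ
  have hRm : ∀ t : ℝ, 0 < t → ‖Rm b (n - 1) α t‖ ≤ B * Real.exp ((1 - θ) * t) :=
    fun t ht => norm_Rm_le hS ht
  have hk1 : n - 1 + 1 = n := Nat.sub_add_cancel hn0
  have hLs : ∀ s : ℂ, 1 < s.re → Lf E χ s = s ^ n / (n - 1).factorial * (α / (s - 1) + J s) := by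
    intro s hs
    have := LSeries_eq_cont hθ0 hS hs (lseriesSummable_chi hχ hs)
    rw [hk1] at this
    exact this
  have hJd : ∀ s ∈ ball (1 : ℂ) (1 / (2 * ((N : ℝ) + 1))), DifferentiableAt ℂ J s := by
    intro s hs
    exact differentiableAt_Lap measurable_Rm hRm (by linarith only [(ball_facts hn0 hEN hs).1,
                                                       hEN, hn0, hθ0, hs])
  have hB0 : 0 ≤ B := by
    have := (norm_nonneg _).trans (hRm 1 one_pos)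
    exact nonneg_of_mul_nonneg_left this (Real.exp_pos _)
  have hT0 : 0 ≤ T := hB0.trans hB
  have hJb : ∀ s ∈ ball (1 : ℂ) (1 / (2 * ((N : ℝ) + 1))), ‖J s‖ ≤ 2 * N * T := by
    intro s hs
    have h0 := (ball_facts hn0 hEN hs).1
    have h1 := norm_Lap_le hRm (s := s) (by linarith only [hθ0, h0])
    refine h1.trans ?_
    have h2 : θ / 2 ≤ s.re - (1 - θ) := by linarith only [h0]
    calc B / (s.re - (1 - θ)) ≤ B / (θ / 2) := by (clear * - hn0 hB0 h2; gcongr)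
      _ = 2 * n * B := by rw [hθ]; (clear * - hn0; field_simp)
      _ ≤ 2 * N * T := by (clear * - hB hnN hB0; gcongr)
  refine ⟨if α = 0 then 0 else 1, fun s => s ^ n / (n - 1).factorial *
    (if α = 0 then J s else α + (s - 1) * J s), ?_, ?_, ?_, ?_, ?_⟩
  · split_ifs <;> simp
  · intro s hs
    have h1 := hJd s hs
    refine DifferentiableAt.differentiableWithinAt ?_
    by_cases h0 : α = 0
    · simp only [h0, if_true]
      fun_prop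
    · simp only [h0, if_false]
      fun_prop
  · intro s hs
    obtain ⟨_, h2, h3⟩ := ball_facts hn0 hEN hs
    have h4 := hJb s hs
    have h5 : ‖(if α = 0 then J s else α + (s - 1) * J s)‖ ≤ (2 * N + 1) * T := by
      split_ifs
      · linarith only [hB, hB0, h4]
      · calc ‖α + (s - 1) * J s‖ ≤ ‖α‖ + ‖(s - 1) * J s‖ := norm_add_le _ _
          _ = ‖α‖ + ‖s - 1‖ * ‖J s‖ := by rw [norm_mul]
          _ ≤ T + 1 * (2 * N * T) := by (clear * - hα h3 h4; gcongr)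
          _ = (2 * N + 1) * T := by ring
    have h6 : ‖s ^ n / ((n - 1).factorial : ℂ)‖ ≤ 2 ^ N := by
      rw [norm_div, norm_pow, Complex.norm_natCast]
      have h7 : (1 : ℝ) ≤ (n - 1).factorial := by exact_mod_cast (n - 1).factorial_pos
      calc ‖s‖ ^ n / ((n - 1).factorial : ℝ) ≤ ‖s‖ ^ n / 1 := by (clear * - h7; gcongr)
        _ = ‖s‖ ^ n := div_one _
        _ ≤ 2 ^ n := by (clear * - h2; gcongr)
        _ ≤ 2 ^ N := pow_le_pow_right₀ one_le_two hEN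
    simp only [norm_mul]
    calc ‖s ^ n / ((n - 1).factorial : ℂ)‖ * ‖(if α = 0 then J s else α + (s - 1) * J s)‖
        ≤ 2 ^ N * ((2 * N + 1) * T) := by (clear * - h5 h6; gcongr)
      _ = 2 ^ N * (2 * N + 1) * T := by ring
  · intro h0
    refine ⟨by rw [if_neg h0], ?_⟩
    simp only [h0, if_false, one_pow, sub_self, zero_mul, add_zero]
    exact mul_ne_zero (div_ne_zero one_ne_zero
      (by exact_mod_cast (n - 1).factorial_ne_zero)) h0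
  · intro s hs
    have hs1 : s - 1 ≠ 0 := by
      intro h
      have h2 : s = 1 := sub_eq_zero.mp h
      rw [h2] at hs
      simp at hs
    rw [hLs s hs]
    by_cases h0 : α = 0
    · simp only [h0, ↓reduceIte, pow_zero, zero_div, zero_add, one_mul]
    · simp only [h0, if_false, pow_one]
      (clear * - hs1; field_simp)

theorem f_ne_zero {χ : ℕ →*₀ ℂ} (hχ : ∀ n, ‖χ n‖ ≤ 1) {δ : ℕ} {f : ℂ → ℂ}
    (hfL : ∀ s : ℂ, 1 < s.re → f s = (s - 1) ^ δ * Lf E χ s) {s : ℂ} (hs : 1 < s.re) :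
    f s ≠ 0 := by
  have hs1 : s - 1 ≠ 0 := by
    intro h
    have h2 : s = 1 := sub_eq_zero.mp h
    rw [h2] at hs
    simp at hs
  rw [hfL s hs]
  exact mul_ne_zero (pow_ne_zero _ hs1) (Lf_ne_zero hχ hs)

theorem re_lt {x ℓ : ℝ} (hx : 0 < x) (hℓ : 0 < ℓ) : 1 < (1 + (x : ℂ) / (ℓ : ℂ)).re := by
  rw [← Complex.ofReal_div]
  have : 0 < x / ℓ := by positivity
  simpa only [ofReal_div, add_re, one_re, div_ofReal_re, ofReal_re, lt_add_iff_pos_right,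
    gt_iff_lt] using this

theorem logf_eq {χ : ℕ →*₀ ℂ} (hχ : ∀ n, ‖χ n‖ ≤ 1) {δ : ℕ} {f : ℂ → ℂ}
    (hfL : ∀ s : ℂ, 1 < s.re → f s = (s - 1) ^ δ * Lf E χ s) {ℓ : ℝ} (hℓ0 : 0 < ℓ)
    {x : ℝ} (hx : 0 < x) : Real.log ‖f (1 + x / ℓ)‖ =
      δ * (Real.log x - Real.log ℓ) + Real.log ‖Lf E χ ((1 + x / ℓ : ℝ) : ℂ)‖ := by
  have h1 := re_lt hx hℓ0
  have h2 : (1 + x / ℓ : ℂ) = ((1 + x / ℓ : ℝ) : ℂ) := by push_cast; rfl
  rw [h2] at h1 ⊢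
  rw [hfL _ h1, norm_mul, Real.log_mul, norm_pow, Real.log_pow]
  · congr 2
    rw [← Complex.ofReal_one, ← Complex.ofReal_sub, Complex.norm_real, Real.norm_eq_abs,
      add_sub_cancel_left, abs_of_pos (by positivity), Real.log_div hx.ne' hℓ0.ne']
  · rw [norm_ne_zero_iff]
    refine pow_ne_zero _ ?_
    rw [← Complex.ofReal_one, ← Complex.ofReal_sub, add_sub_cancel_left]
    have : x / ℓ ≠ 0 := by positivity
    exact_mod_cast this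
  · exact norm_ne_zero_iff.mpr (Lf_ne_zero hχ h1)

theorem f_low {N : ℕ} (hEN : Module.finrank ℚ E ≤ N) {χ : ℕ →*₀ ℂ} (hχ : ∀ n, ‖χ n‖ ≤ 1) {δ : ℕ}
    (hδ : δ ≤ 1) {f : ℂ → ℂ}
    (hfL : ∀ s : ℂ, 1 < s.re → f s = (s - 1) ^ δ * Lf E χ s) {ℓ : ℝ} (hℓ : 2 ≤ ℓ)
    {CP : ℝ} (hCP0 : 0 ≤ CP) (hCP : ∀ σ : ℝ, 1 < σ → σ ≤ 2 → |Pz σ + Real.log (σ - 1)| ≤ CP) :
    Real.exp (-(((N : ℝ) + 1) * (CP + 10) * ℓ)) ≤ ‖f (1 + (1 : ℝ) / ℓ)‖ := by
  have hℓ0 : 0 < ℓ := by linarith only [hℓ]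
  have hδ1 : (δ : ℝ) ≤ 1 := by exact_mod_cast hδ
  have hδ0 : (0 : ℝ) ≤ δ := Nat.cast_nonneg _
  have hN0 : (0 : ℝ) ≤ N := Nat.cast_nonneg _
  have h1ℓ : 1 / ℓ ≤ 1 / 2 := by
    rw [div_le_div_iff₀ hℓ0 two_pos]; linarith only [hℓ]
  have h1ℓ0 : 0 < 1 / ℓ := by positivity
  have hP1 := hCP (1 + 1 / ℓ) (by linarith only [h1ℓ0]) (by linarith only [h1ℓ, h1ℓ0])
  rw [add_sub_cancel_left, Real.log_div (by norm_num) hℓ0.ne', Real.log_one, zero_sub] at hP1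
  have hlogℓ : Real.log ℓ ≤ ℓ := (Real.log_le_sub_one_of_pos hℓ0).trans (by linarith only [h1ℓ,
                                                                              h1ℓ0])
  have hlogℓ0 : 0 ≤ Real.log ℓ := Real.log_nonneg (by linarith only [hℓ, h1ℓ, h1ℓ0])
  rw [← Real.le_log_iff_exp_le (norm_pos_iff.mpr (f_ne_zero hχ hfL (re_lt one_pos hℓ0))),
    logf_eq hχ hfL hℓ0 one_pos, Real.log_one, zero_sub]
  have h3 := abs_log_Lf_sub_PS_le (E := E) hχ (σ := 1 + 1 / ℓ) (by linarith only [h1ℓ0])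
  have h4 := abs_PS_le (E := E) hχ (σ := 1 + 1 / ℓ) (by linarith only [h1ℓ0])
  have hnN : (Module.finrank ℚ E : ℝ) ≤ N := by exact_mod_cast hEN
  have h5 : (Module.finrank ℚ E : ℝ) * Pz (1 + 1 / ℓ) ≤ N * (Real.log ℓ + CP) := by
    have h6 : 0 ≤ Pz (1 + 1 / ℓ) := tsum_nonneg fun p => by positivity
    have h7 : Pz (1 + 1 / ℓ) ≤ Real.log ℓ + CP := by linarith only [(abs_le.mp hP1).2, hP1]
    calc (Module.finrank ℚ E : ℝ) * Pz (1 + 1 / ℓ) ≤ N * Pz (1 + 1 / ℓ) := by gcongr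
      _ ≤ N * (Real.log ℓ + CP) := by (clear * - h7; gcongr)
  have h6 := (abs_le.mp h3).1
  have h7 := (abs_le.mp h4).1
  have h8 : -Real.log ℓ ≤ (δ : ℝ) * -Real.log ℓ := by nlinarith only [hδ1, hlogℓ0]
  have e2 : ((N : ℝ) + 1) * CP ≤ ((N : ℝ) + 1) * CP * ℓ := by
    have : 0 ≤ ((N : ℝ) + 1) * CP := by (clear * - hCP0; positivity)
    nlinarith only [hℓ, this]
  have e3 : ((N : ℝ) + 1) * Real.log ℓ ≤ ((N : ℝ) + 1) * ℓ := by (clear * - hlogℓ; gcongr)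
  have e4 : 4 * (N : ℝ) ≤ ((N : ℝ) + 1) * 9 * ℓ := by nlinarith only [hℓ, h1ℓ, h1ℓ0]
  linarith

theorem f_grow {N : ℕ} (hEN : Module.finrank ℚ E ≤ N) {χ : ℕ →*₀ ℂ} (hχ : ∀ n, ‖χ n‖ ≤ 1) {δ : ℕ}
    (hδ : δ ≤ 1) {f : ℂ → ℂ}
    (hfL : ∀ s : ℂ, 1 < s.re → f s = (s - 1) ^ δ * Lf E χ s) {ℓ : ℝ} (hℓ : 2 ≤ ℓ)
    {CP : ℝ} (hCP0 : 0 ≤ CP) (hCP : ∀ σ : ℝ, 1 < σ → σ ≤ 2 → |Pz σ + Real.log (σ - 1)| ≤ CP) :
    Real.log ‖f (1 + (2 : ℝ) / ℓ)‖ ≤ Real.log ‖f (1 + (1 : ℝ) / ℓ)‖ +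
      (2 * (((N : ℝ) + 1) * (CP + 10))) := by
  have hℓ0 : 0 < ℓ := by linarith only [hℓ]
  have hδ1 : (δ : ℝ) ≤ 1 := by exact_mod_cast hδ
  have hδ0 : (0 : ℝ) ≤ δ := Nat.cast_nonneg _
  have hN0 : (0 : ℝ) ≤ N := Nat.cast_nonneg _
  have hnN : (Module.finrank ℚ E : ℝ) ≤ N := by exact_mod_cast hEN
  have h1ℓ : 1 / ℓ ≤ 1 / 2 := by
    rw [div_le_div_iff₀ hℓ0 two_pos]; linarith only [hℓ]
  have h2ℓ : 2 / ℓ ≤ 1 := by
    rw [div_le_one hℓ0]; exact hℓ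
  have h1ℓ0 : 0 < 1 / ℓ := by positivity
  have h2ℓ0 : 0 < 2 / ℓ := by positivity
  have h12 : 1 + 1 / ℓ ≤ 1 + 2 / ℓ := by gcongr; norm_num
  have hP1 := hCP (1 + 1 / ℓ) (by linarith only [h1ℓ0]) (by linarith only [h1ℓ, h1ℓ0])
  have hP2 := hCP (1 + 2 / ℓ) (by linarith only [h2ℓ0]) (by linarith only [h2ℓ])
  rw [add_sub_cancel_left, Real.log_div (by norm_num) hℓ0.ne'] at hP1 hP2
  rw [Real.log_one, zero_sub] at hP1
  rw [logf_eq hχ hfL hℓ0 two_pos, logf_eq hχ hfL hℓ0 one_pos, Real.log_one]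
  have h3 := abs_le.mp (abs_log_Lf_sub_PS_le (E := E) hχ (σ := 1 + 1 / ℓ) (by linarith only [h1ℓ0]))
  have h4 := abs_le.mp (abs_log_Lf_sub_PS_le (E := E) hχ (σ := 1 + 2 / ℓ) (by linarith only [h2ℓ0]))
  have h5' := abs_PS_sub_le (E := E) hχ (σ := 1 + 1 / ℓ) (σ' := 1 + 2 / ℓ) (by linarith only [h1ℓ0]) h12
  have h5 := abs_le.mp h5'
  have h7 : Pz (1 + 1 / ℓ) - Pz (1 + 2 / ℓ) ≤ Real.log 2 + 2 * CP := by
    linarith only [(abs_le.mp hP1).2, (abs_le.mp hP2).1, hP1, hP2]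
  have h8 : 0 ≤ Pz (1 + 1 / ℓ) - Pz (1 + 2 / ℓ) := by
    have h9 : (0 : ℝ) < Module.finrank ℚ E := by exact_mod_cast Module.finrank_pos
    exact nonneg_of_mul_nonneg_right ((abs_nonneg _).trans h5') h9
  have h6 : (Module.finrank ℚ E : ℝ) * (Pz (1 + 1 / ℓ) - Pz (1 + 2 / ℓ)) ≤
      N * (Real.log 2 + 2 * CP) := by
    calc (Module.finrank ℚ E : ℝ) * (Pz (1 + 1 / ℓ) - Pz (1 + 2 / ℓ))
        ≤ N * (Pz (1 + 1 / ℓ) - Pz (1 + 2 / ℓ)) := by gcongr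
      _ ≤ N * (Real.log 2 + 2 * CP) := by (clear * - h7; gcongr)
  have hlog2 : Real.log 2 < 1 := by linarith only [Real.log_two_lt_d9, h1ℓ, h1ℓ0]
  have hlog2' : 0 < Real.log 2 := Real.log_pos one_lt_two
  have h9 : (δ : ℝ) * (Real.log 2 - Real.log ℓ) ≤ δ * (0 - Real.log ℓ) + 1 := by nlinarith only [hδ1,
                                                                                   hlog2]
  have h10 : (N : ℝ) * Real.log 2 ≤ N := by nlinarith only [hlog2]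
  linarith [h3.1, h3.2, h4.1, h4.2, h5.1, h5.2]

end

/-- **(Z) for one `L`-function**, from the asymptotics of the Riesz mean. -/
theorem zform_core (N : ℕ) (K : ℝ) (hK : 0 ≤ K) : ∃ C ℓ₀ : ℝ, 1 ≤ ℓ₀ ∧
    ∀ (E : Type) [Field E] [NumberField E], Module.finrank ℚ E ≤ N →
    ∀ χ : ℕ →*₀ ℂ, (∀ n, ‖χ n‖ ≤ 1) → ∀ ℓ : ℝ, ℓ₀ ≤ ℓ → ∀ (α : ℂ) (B : ℝ),
    ‖α‖ ≤ Real.exp (K * ℓ) → B ≤ Real.exp (K * ℓ) →
    (∀ Y : ℝ, 1 ≤ Y → ‖∑ m ∈ Finset.Icc 1 ⌊Y⌋₊, χ m * (aN E m : ℂ) *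
      (Real.log (Y / m) : ℂ) ^ (Module.finrank ℚ E - 1) - α * Y‖ ≤
        B * Y ^ (1 - 1 / (Module.finrank ℚ E : ℝ))) →
    ∃ (δ : ℕ) (d : List ℝ), δ ≤ 1 ∧ (d.length : ℝ) ≤ C ∧ (∀ x ∈ d, 0 ≤ x ∧ x ≤ 1) ∧
      (α ≠ 0 → δ = 1 ∧ ∀ x ∈ d, 0 < x) ∧
      ∀ η : ℝ, 0 < η → η ≤ 1 →
        |PS E χ (1 + η / ℓ) - PS E χ (1 + 1 / ℓ) - model δ d η| ≤ C := by
  obtain ⟨CP, hCP0, hCP⟩ := Pz_bound
  have hN0 : (0 : ℝ) ≤ N := Nat.cast_nonneg _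
  set K₁ : ℝ := K + 2 * (((N : ℝ) + 1) * (CP + 10)) + Real.log (2 ^ N * (2 * N + 1)) with hK₁
  have hlog0 : 0 ≤ Real.log (2 ^ N * (2 * N + 1)) := by
    apply Real.log_nonneg
    have h1 : (1 : ℝ) ≤ 2 ^ N := one_le_pow₀ one_le_two
    have h2 : (1 : ℝ) ≤ 2 * N + 1 := by linarith only []
    nlinarith only [h1]
  have hM0 : 0 ≤ ((N : ℝ) + 1) * (CP + 10) := by positivity
  have hK₁0 : 0 ≤ K₁ := by rw [hK₁]; linarith only [hK, hlog0, hM0]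
  obtain ⟨C, hC0, hC⟩ := zeros_formula (1 / (2 * ((N : ℝ) + 1))) K₁ (by positivity) hK₁0
  refine ⟨C + 8 * N, max C 2, le_max_of_le_right one_le_two, ?_⟩
  intro E _ _ hEN χ hχ ℓ hℓ α B hα hB hS
  have hℓ2 : 2 ≤ ℓ := (le_max_right _ _).trans hℓ
  have hℓC : C ≤ ℓ := (le_max_left _ _).trans hℓ
  have hℓ0 : 0 < ℓ := by linarith only [hℓ2]
  obtain ⟨δ, f, hδ, hfd, hfb, hf1, hfL⟩ := exists_f N hEN hχ hα hB hS
  have hfb' : ∀ s ∈ ball (1 : ℂ) (1 / (2 * ((N : ℝ) + 1))), ‖f s‖ ≤ Real.exp (K₁ * ℓ) := by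
    intro s hs
    refine (hfb s hs).trans ?_
    calc (2 : ℝ) ^ N * (2 * N + 1) * Real.exp (K * ℓ)
        = Real.exp (Real.log (2 ^ N * (2 * N + 1)) + K * ℓ) := by
          rw [Real.exp_add, Real.exp_log (by (clear * -; positivity))]
      _ ≤ Real.exp (K₁ * ℓ) := by
          apply Real.exp_le_exp.mpr
          have h1 : Real.log (2 ^ N * (2 * N + 1)) ≤ Real.log (2 ^ N * (2 * N + 1)) * ℓ :=
            le_mul_of_one_le_right hlog0 (by linarith only [hℓ2])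
          have h2 : 0 ≤ 2 * (((N : ℝ) + 1) * (CP + 10)) * ℓ := by positivity
          rw [hK₁]
          linarith only [h1, h2]
  have hlow : Real.exp (-(K₁ * ℓ)) ≤ ‖f (1 + (1 : ℝ) / ℓ)‖ := by
    refine le_trans ?_ (f_low hEN hχ hδ hfL hℓ2 hCP0 hCP)
    apply Real.exp_le_exp.mpr
    have h1 : 0 ≤ (K + ((N : ℝ) + 1) * (CP + 10) + Real.log (2 ^ N * (2 * N + 1))) * ℓ := by
      (clear * - hK hCP0 hlog0 hℓ2; positivity)
    rw [hK₁]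
    linarith only [h1]
  have hgrow : Real.log ‖f (1 + (2 : ℝ) / ℓ)‖ ≤ Real.log ‖f (1 + (1 : ℝ) / ℓ)‖ + K₁ := by
    have := f_grow hEN hχ hδ hfL hℓ2 hCP0 hCP
    rw [hK₁]
    linarith only [hK, hlog0, this]
  obtain ⟨d, hd1, hd2, hd3, hd4⟩ := hC ℓ hℓC f hfd hfb'
    (fun s _ hs => f_ne_zero hχ hfL hs) hlow hgrow
  have hnN : (Module.finrank ℚ E : ℝ) ≤ N := by exact_mod_cast hEN
  refine ⟨δ, d, hδ, ?_, hd2, ?_, ?_⟩
  · linarith only [hd1]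
  · intro h0
    exact ⟨(hf1 h0).1, hd3 (hf1 h0).2⟩
  · intro η hη hη1
    have h1 := hd4 η hη hη1
    rw [logf_eq hχ hfL hℓ0 hη, logf_eq hχ hfL hℓ0 one_pos, Real.log_one] at h1
    have hηℓ : 0 < η / ℓ := by positivity
    have h1ℓ0 : 0 < 1 / ℓ := by positivity
    have h3 := abs_le.mp (abs_log_Lf_sub_PS_le (E := E) hχ (σ := 1 + 1 / ℓ) (by linarith only [h1ℓ0]))
    have h4 := abs_le.mp (abs_log_Lf_sub_PS_le (E := E) hχ (σ := 1 + η / ℓ) (by linarith only [hηℓ]))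
    rw [model]
    rw [abs_le] at h1 ⊢
    constructor
    · linarith [h1.1, h1.2, h3.1, h3.2, h4.1, h4.2]
    · linarith [h1.1, h1.2, h3.1, h3.2, h4.1, h4.2]

end Vale.Agent.P007.Z
end
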