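import Vale.Agent.P007.Bdl.B18
import Vale.Agent.P007.Bdl.B10
import Vale.Agent.P007.Bdl.B16
import Vale.Agent.P007.Bdl.B17
import Vale.Agent.P007.Bdl.B7
import Vale.Agent.P007.Bdl.B2
import Vale.Agent.P007.Bdl.B5
import Vale.Agent.P007.Bdl.B6
import Vale.Agent.P007.Bdl.B11
import Vale.Agent.P007.Bdl.B15
import Vale.Agent.P007.Bdl.B9
import Vale.Agent.P007.StmtF

section

set_option autoImplicit false

open MeasureTheory Matrix NumberField Filter Topology Module
open scoped nonZeroDivisors ENNReal CompactlySupported Pointwise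

namespace Vale.Agent.P007.Fib

open Vale.Agent.P007

variable {n : ℕ}

theorem pair_self (D : Datum n) {f : ℕ} (hf : f ≠ 0) : Pair (RE D) (RE D) f where
  hn := D.pos
  f0 := hf
  le := le_rfl
  mul := fun _ hs => (RE D).mul_mem (natCast_mem _ _) hs
  finR := finite_max hf
  finS := finite_max hf

theorem exists_inv_latS (D : Datum n) : ∃ g : G n, Inv (RE D) (latS g) := by
  obtain ⟨o, ho⟩ := D.packet_nonempty
  obtain ⟨x, ⟨g, -, hg⟩, -⟩ := (Set.ext_iff.mp (packet_eq D) _).mp ho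
  exact ⟨g, hg⟩

theorem card_BQ (D : Datum n) {f : ℕ} (hf : f ≠ 0) : Nat.card (BQ (RE D) f) = f ^ n := by
  obtain ⟨g, hg⟩ := exists_inv_latS D
  obtain ⟨z₀, hz₀⟩ := exists_GS (pair_self D hf) hg
  obtain ⟨hL, L', hL', hLL⟩ := hg
  obtain ⟨e, -⟩ := coef_bijective hf hL hL' hLL hz₀
  rw [← Nat.card_congr e, Nat.card_fun, Nat.card_fin, Nat.card_fin]

theorem U_mul {S : Type*} [CommRing S] {a b : ℕ} (hab : Nat.Coprime a b) :
    Nat.card (S ⧸ Ideal.span {((a * b : ℕ) : S)})ˣ =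
      Nat.card (S ⧸ Ideal.span {(a : S)})ˣ * Nat.card (S ⧸ Ideal.span {(b : S)})ˣ := by
  have hcop : IsCoprime (Ideal.span {(a : S)}) (Ideal.span {(b : S)}) := by
    rw [Ideal.isCoprime_span_singleton_iff]
    have h1 : IsCoprime (a : ℤ) (b : ℤ) := Nat.isCoprime_iff_coprime.mpr hab
    have h2 := h1.map (Int.castRingHom S)
    simpa only [map_natCast] using h2
  have hmul : Ideal.span {((a * b : ℕ) : S)} = Ideal.span {(a : S)} * Ideal.span {(b : S)} := by
    rw [Ideal.span_singleton_mul_span_singleton]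
    push_cast
    rfl
  rw [hmul, ← Nat.card_prod]
  exact Nat.card_congr ((Units.mapEquiv
    (Ideal.quotientMulEquivQuotientProd _ _ hcop).toMulEquiv).trans MulEquiv.prodUnits).toEquiv

end Vale.Agent.P007.Fib
end

section

/-!
A4: comparison of the packet volume of an order and of the maximal order.
-/

set_option autoImplicit false

open MeasureTheory Matrix NumberField Filter Topology
open scoped ENNReal nonZeroDivisors

namespace Vale.Agent.P007.N

open Vale.Agent.P007 Vale.Agent.P007.R Vale.Agent.P007.Fib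

namespace Cmp

/-! ### Finite rings -/

section rings

variable {A : Type*} [CommRing A]

theorem isUnit_factor {I I' : Ideal A} (h : I ≤ I') (hk : ∀ x ∈ I', ∃ k : ℕ, x ^ k ∈ I)
    (a : A ⧸ I) : IsUnit (Ideal.Quotient.factor h a) ↔ IsUnit a := by
  constructor
  · intro hu
    obtain ⟨a, rfl⟩ := Ideal.Quotient.mk_surjective a
    rw [Ideal.Quotient.factor_mk] at hu
    obtain ⟨b', hb'⟩ := hu.exists_right_inv
    obtain ⟨b, rfl⟩ := Ideal.Quotient.mk_surjective b'
    rw [← map_mul, ← map_one (Ideal.Quotient.mk I'), Ideal.Quotient.eq] at hb'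
    obtain ⟨k, hk⟩ := hk _ hb'
    have h1 : IsNilpotent (Ideal.Quotient.mk I (a * b - 1)) := by
      refine ⟨k, ?_⟩
      rw [← map_pow, Ideal.Quotient.eq_zero_iff_mem]
      exact hk
    have h2 : IsUnit (Ideal.Quotient.mk I (a * b - 1) + 1) := h1.isUnit_add_one
    rw [← map_one (Ideal.Quotient.mk I), ← map_add, sub_add_cancel, map_mul] at h2
    exact isUnit_of_mul_isUnit_left h2
  · intro hu
    exact hu.map _

theorem card_units_factor {I I' : Ideal A} (h : I ≤ I') (hk : ∀ x ∈ I', ∃ k : ℕ, x ^ k ∈ I) :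
    Nat.card (A ⧸ I)ˣ * Nat.card (A ⧸ I') = Nat.card (A ⧸ I) * Nat.card (A ⧸ I')ˣ := by
  have hφ : Function.Surjective (Ideal.Quotient.factor h).toAddMonoidHom :=
    Ideal.Quotient.factor_surjective h
  have h1 := card_preimage (Ideal.Quotient.factor h).toAddMonoidHom hφ (fun c => IsUnit c)
  have h2 := card_preimage (Ideal.Quotient.factor h).toAddMonoidHom hφ (fun _ => True)
  rw [Nat.card_congr (Equiv.subtypeUnivEquiv fun _ => trivial),
    Nat.card_congr (Equiv.subtypeUnivEquiv fun _ => trivial)] at h2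
  have hU : ∀ B : Type _, ∀ _ : CommRing B, Nat.card {b : B // IsUnit b} = Nat.card Bˣ := by
    intro B _
    exact Nat.card_congr ⟨fun b => b.2.unit, fun u => ⟨u, u.isUnit⟩, fun b => Subtype.ext rfl,
      fun u => Units.ext rfl⟩
  have h3 : Nat.card {a : A ⧸ I // IsUnit ((Ideal.Quotient.factor h).toAddMonoidHom a)} =
      Nat.card (A ⧸ I)ˣ := by
    rw [← hU _ inferInstance]
    exact Nat.card_congr (Equiv.subtypeEquivRight fun a => isUnit_factor h hk a)
  rw [h3, hU] at h1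
  rw [h1, h2]
  ring

/-- units modulo a product of distinct primes -/
theorem units_prod (s : Finset ℕ) (hs : ∀ p ∈ s, p.Prime) :
    Nat.card (A ⧸ Ideal.span {((∏ p ∈ s, p : ℕ) : A)})ˣ =
      ∏ p ∈ s, Nat.card (A ⧸ Ideal.span {(p : A)})ˣ := by
  classical
  induction s using Finset.induction_on with
  | empty =>
    have h1 : Ideal.span {((∏ p ∈ (∅ : Finset ℕ), p : ℕ) : A)} = ⊤ := by
      rw [Finset.prod_empty, Nat.cast_one, Ideal.span_singleton_one]
    rw [h1, Finset.prod_empty]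
    have : Subsingleton (A ⧸ (⊤ : Ideal A)) := Ideal.Quotient.subsingleton_iff.mpr rfl
    exact Nat.card_unique
  | insert p s hp ih =>
    have hcop : Nat.Coprime p (∏ q ∈ s, q) := by
      refine Nat.Coprime.prod_right fun q hq => ?_
      refine (Nat.coprime_primes (hs p (Finset.mem_insert_self _ _))
        (hs q (Finset.mem_insert_of_mem hq))).mpr ?_
      rintro rfl
      exact hp hq
    rw [Finset.prod_insert hp, Finset.prod_insert hp, U_mul hcop,
      ih fun q hq => hs q (Finset.mem_insert_of_mem hq)]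

/-- unit density depends only on the radical -/
theorem units_radical {n : ℕ} (hcard : ∀ m : ℕ, m ≠ 0 → Nat.card (A ⧸ Ideal.span {(m : A)}) = m ^ n)
    {f : ℕ} (hf : f ≠ 0) :
    (Nat.card (A ⧸ Ideal.span {(f : A)})ˣ : ℝ) = f ^ n *
      ∏ p ∈ f.primeFactors, (Nat.card (A ⧸ Ideal.span {(p : A)})ˣ / (p : ℝ) ^ n) := by
  set r := ∏ p ∈ f.primeFactors, p with hr
  have hrf : r ∣ f := Nat.prod_primeFactors_dvd f
  have hr0 : r ≠ 0 := by
    rw [hr, Finset.prod_ne_zero_iff]
    exact fun p hp => (Nat.prime_of_mem_primeFactors hp).ne_zero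
  have hfr : f ∣ r ^ f := by
    rw [hr, ← Finset.prod_pow]
    conv_lhs => rw [← Nat.prod_factorization_pow_eq_self hf]
    rw [Finsupp.prod, Nat.support_factorization]
    refine Finset.prod_dvd_prod_of_dvd _ _ fun p hp => pow_dvd_pow _ ?_
    exact (Nat.factorization_lt p hf).le
  have hle : Ideal.span {(f : A)} ≤ Ideal.span {(r : A)} := by
    rw [Ideal.span_singleton_le_span_singleton]
    obtain ⟨c, hc⟩ := hrf
    exact ⟨c, by rw [hc]; push_cast; ring⟩
  have h1 := card_units_factor hle (by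
    intro x hx
    refine ⟨f, ?_⟩
    obtain ⟨a, rfl⟩ := Ideal.mem_span_singleton'.mp hx
    rw [mul_pow, Ideal.mem_span_singleton]
    obtain ⟨c, hc⟩ := hfr
    have : ((r : A)) ^ f = (f : A) * c := by
      rw [← Nat.cast_pow, hc]; push_cast; ring
    rw [this]
    exact ⟨a ^ f * c, by ring⟩)
  rw [hcard f hf, hcard r hr0, units_prod _ fun p hp => Nat.prime_of_mem_primeFactors hp] at h1
  have h2 : (Nat.card (A ⧸ Ideal.span {(f : A)})ˣ : ℝ) * (r : ℝ) ^ n = (f : ℝ) ^ n *
      ∏ p ∈ f.primeFactors, (Nat.card (A ⧸ Ideal.span {(p : A)})ˣ : ℝ) := by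
    exact_mod_cast h1
  have h3 : (r : ℝ) ^ n = ∏ p ∈ f.primeFactors, (p : ℝ) ^ n := by
    rw [hr]; push_cast; rw [Finset.prod_pow]
  have h4 : (r : ℝ) ^ n ≠ 0 := pow_ne_zero _ (by exact_mod_cast hr0)
  rw [Finset.prod_div_distrib, ← h3, ← mul_div_assoc, eq_div_iff h4, h2]

end rings

variable {n : ℕ}

/-- embedding of the ring of integers -/
noncomputable def iE (D : Datum n) : 𝓞 D.K →+* (Fin n → ℝ) :=
  (sE D).comp (algebraMap (𝓞 D.K) D.K)

theorem iE_injective (D : Datum n) : Function.Injective (iE D) := by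
  intro a b h
  exact RingOfIntegers.ext (sE_injective D h)

/-- the order and its image -/
noncomputable def eO (D : Datum n) : D.O ≃+* RE D :=
  D.O.equivMapOfInjective (iE D) (iE_injective D)

noncomputable def eQ (D : Datum n) (m : ℕ) :
    (D.O ⧸ Ideal.span {(m : D.O)}) ≃+* BQ (RE D) m :=
  Ideal.quotientEquiv _ _ (eO D) (by
    rw [Ideal.map_span, Set.image_singleton]
    congr 2
    exact (map_natCast (eO D) m).symm)

theorem card_O (D : Datum n) {m : ℕ} (hm : m ≠ 0) :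
    Nat.card (D.O ⧸ Ideal.span {(m : D.O)}) = m ^ n := by
  rw [Nat.card_congr (eQ D m).toEquiv, card_BQ D hm]

theorem units_O (D : Datum n) (m : ℕ) :
    Nat.card (D.O ⧸ Ideal.span {(m : D.O)})ˣ = Nat.card (BQ (RE D) m)ˣ :=
  Nat.card_congr (Units.mapEquiv (eQ D m).toMulEquiv).toEquiv

theorem units_f (D : Datum n) {f : ℕ} (hf : f ≠ 0) :
    (Nat.card (BQ (RE D) f)ˣ : ℝ) = f ^ n * ∏ p ∈ f.primeFactors, up D p := by
  rw [← units_O, units_radical (n := n) (fun m hm => card_O D hm) hf]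
  rfl

end Cmp

open Cmp

variable {n : ℕ}

theorem up_pos (D : Datum n) (p : ℕ) (hp : p.Prime) : 0 < up D p ∧ up D p ≤ 1 := by
  have h1 := card_O D hp.ne_zero
  have hfin : Finite (D.O ⧸ Ideal.span {(p : D.O)}) :=
    Nat.finite_of_card_ne_zero (by rw [h1]; exact pow_ne_zero _ hp.ne_zero)
  have hp0 : (0 : ℝ) < (p : ℝ) ^ n := pow_pos (by exact_mod_cast hp.pos) _
  have h2 : 0 < Nat.card (D.O ⧸ Ideal.span {(p : D.O)})ˣ := Nat.card_pos
  have h3 : Nat.card (D.O ⧸ Ideal.span {(p : D.O)})ˣ ≤ p ^ n := by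
    rw [← h1]
    exact Nat.card_le_card_of_injective _ Units.val_injective
  constructor
  · exact div_pos (by exact_mod_cast h2) hp0
  · unfold up
    rw [div_le_one hp0]
    exact_mod_cast h3

theorem Cmp.card_units_coprime {A : Type*} [CommRing A] (O : Subring A) {e p : ℕ}
    (hcop : Nat.Coprime e p) (h : ∀ x : A, (e : A) * x ∈ O) :
    Nat.card (O ⧸ Ideal.span {(p : O)})ˣ =
      Nat.card ((⊤ : Subring A) ⧸ Ideal.span {(p : (⊤ : Subring A))})ˣ := by
  obtain ⟨a, b, hab⟩ : IsCoprime (e : ℤ) (p : ℤ) := Nat.isCoprime_iff_coprime.mpr hcop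
  have h2 : ((a : ℤ) : A) * (e : A) + (b : A) * (p : A) = 1 := by
    exact_mod_cast congrArg (fun z : ℤ => (z : A)) hab
  let ι : O →+* (⊤ : Subring A) := Subring.inclusion le_top
  let θ : O →+* ((⊤ : Subring A) ⧸ Ideal.span {(p : (⊤ : Subring A))}) :=
    (Ideal.Quotient.mk _).comp ι
  have hsurj : Function.Surjective θ := by
    intro x
    obtain ⟨x, rfl⟩ := Ideal.Quotient.mk_surjective x
    refine ⟨(a : O) * ⟨_, h x.1⟩, ?_⟩
    change Ideal.Quotient.mk _ (ι _) = Ideal.Quotient.mk _ x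
    rw [Ideal.Quotient.eq, Ideal.mem_span_singleton']
    refine ⟨-(b : (⊤ : Subring A)) * x, ?_⟩
    apply Subtype.ext
    change -((b : ℤ) : A) * x.1 * (p : A) = ((a : ℤ) : A) * ((e : A) * x.1) - x.1
    linear_combination -x.1 * h2
  have hker : RingHom.ker θ = Ideal.span {(p : O)} := by
    ext y
    rw [RingHom.mem_ker]
    change Ideal.Quotient.mk _ (ι y) = 0 ↔ _
    rw [Ideal.Quotient.eq_zero_iff_mem, Ideal.mem_span_singleton', Ideal.mem_span_singleton']
    constructor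
    · rintro ⟨z, hz⟩
      refine ⟨(a : O) * ⟨_, h z.1⟩ + (b : O) * y, ?_⟩
      apply Subtype.ext
      have hz' : z.1 * (p : A) = y.1 := congrArg Subtype.val hz
      change (((a : ℤ) : A) * ((e : A) * z.1) + ((b : ℤ) : A) * y.1) * (p : A) = y.1
      linear_combination y.1 * h2 + (((a : ℤ) : A) * (e : A)) * hz'
    · rintro ⟨z, hz⟩
      refine ⟨ι z, ?_⟩
      apply Subtype.ext
      exact congrArg (fun t : O => (t : A)) hz
  have e := (Ideal.quotEquivOfEq hker.symm).trans (RingHom.quotientKerEquivOfSurjective hsurj)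
  exact Nat.card_congr (Units.mapEquiv e.toMulEquiv).toEquiv

theorem up_eq_of_not_dvd (D : Datum n) (p : ℕ) (hp : p.Prime) (h : ¬ p ∣ D.ind) :
    up D p = up (mx D) p := by
  have h1 : Nat.card (D.O ⧸ Ideal.span {(p : D.O)})ˣ =
      Nat.card ((mx D).O ⧸ Ideal.span {(p : (mx D).O)})ˣ :=
    Cmp.card_units_coprime D.O ((Nat.Prime.coprime_iff_not_dvd hp).mpr h).symm D.ind_mul_mem
  unfold up
  rw [h1]


namespace Cmp

variable {R S : Subring (Fin n → ℝ)} {f : ℕ}

/-- reduction `R → S / f S` -/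
noncomputable def th (hRS : R ≤ S) (f : ℕ) : R →+* BQ S f :=
  (Ideal.Quotient.mk _).comp (Subring.inclusion hRS)

theorem mult_eq (hRS : R ≤ S) : mult R S f = Nat.card (R ⧸ RingHom.ker (th hRS f))ˣ := by
  have h1 : Nat.card (R ⧸ RingHom.ker (th hRS f))ˣ = Nat.card ((th hRS f).range)ˣ :=
    Nat.card_congr (Units.mapEquiv (RingHom.quotientKerEquivRange (th hRS f)).toMulEquiv).toEquiv
  rw [h1]
  symm
  unfold mult
  have hmem : ∀ x : (th hRS f).range, ∃ r : S, (r : Fin n → ℝ) ∈ R ∧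
      (x : BQ S f) = Ideal.Quotient.mk _ r := by
    rintro ⟨_, r, rfl⟩
    exact ⟨Subring.inclusion hRS r, r.2, rfl⟩
  refine Nat.card_congr (Equiv.ofBijective (fun u : ((th hRS f).range)ˣ =>
    ⟨((u : (th hRS f).range) : BQ S f), ?_⟩) ⟨?_, ?_⟩)
  · obtain ⟨r, hr, h2⟩ := hmem u
    obtain ⟨r', hr', h3⟩ := hmem ((u⁻¹ : ((th hRS f).range)ˣ) : (th hRS f).range)
    refine ⟨r, r', hr, hr', h2, ?_⟩
    rw [map_mul, ← h2, ← h3, ← Subring.coe_mul, Units.mul_inv, Subring.coe_one]
  · intro u v huv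
    have h : ((u : (th hRS f).range) : BQ S f) = ((v : (th hRS f).range) : BQ S f) :=
      Subtype.mk.inj huv
    exact Units.ext (Subtype.ext h)
  · rintro ⟨b, r, r', hr, hr', rfl, h2⟩
    have h3 : Ideal.Quotient.mk (Ideal.span {(f : S)}) r ∈ (th hRS f).range := ⟨⟨r, hr⟩, rfl⟩
    have h4 : Ideal.Quotient.mk (Ideal.span {(f : S)}) r' ∈ (th hRS f).range := ⟨⟨r', hr'⟩, rfl⟩
    refine ⟨⟨⟨_, h3⟩, ⟨_, h4⟩, ?_, ?_⟩, ?_⟩
    · apply Subtype.ext
      change Ideal.Quotient.mk _ r * Ideal.Quotient.mk _ r' = 1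
      rw [← map_mul]; exact h2
    · apply Subtype.ext
      change Ideal.Quotient.mk _ r' * Ideal.Quotient.mk _ r = 1
      rw [← map_mul, mul_comm]; exact h2
    · rfl

theorem span_le_ker (hRS : R ≤ S) : Ideal.span {(f : R)} ≤ RingHom.ker (th hRS f) := by
  rw [Ideal.span_singleton_le_iff_mem, RingHom.mem_ker]
  change Ideal.Quotient.mk _ (Subring.inclusion hRS (f : R)) = 0
  rw [map_natCast, Ideal.Quotient.eq_zero_iff_mem]
  exact Ideal.mem_span_singleton_self _

theorem ker_pow (hp : Pair R S f) (x : R) (hx : x ∈ RingHom.ker (th hp.le f)) :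
    ∃ k : ℕ, x ^ k ∈ Ideal.span {(f : R)} := by
  rw [RingHom.mem_ker] at hx
  change Ideal.Quotient.mk _ (Subring.inclusion hp.le x) = 0 at hx
  rw [Ideal.Quotient.eq_zero_iff_mem, Ideal.mem_span_singleton'] at hx
  obtain ⟨s, hs⟩ := hx
  have hs' : (s : Fin n → ℝ) * (f : Fin n → ℝ) = x := congrArg (fun t : S => (t : Fin n → ℝ)) hs
  have h1 : (f : Fin n → ℝ) * ((s : Fin n → ℝ) * s) ∈ R := hp.mul _ (S.mul_mem s.2 s.2)
  refine ⟨2, ?_⟩
  rw [Ideal.mem_span_singleton']
  refine ⟨⟨_, h1⟩, ?_⟩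
  apply Subtype.ext
  change (f : Fin n → ℝ) * ((s : Fin n → ℝ) * s) * (f : Fin n → ℝ) = (x : Fin n → ℝ) ^ 2
  rw [← hs']
  ring

theorem pair_mx (D : Datum n) : Pair (RE D) (RE (mx D)) D.ind :=
  pair_of D D.full (mx D).full le_top D.ind_ne_zero (fun s _ => D.ind_mul_mem s)

/-- the index of the image of the order modulo `f` -/
theorem card_ker (D : Datum n) :
    Nat.card (RE D ⧸ RingHom.ker (th (pair_mx D).le D.ind)) * D.ind = D.ind ^ n := by
  set f := D.ind with hf
  set θ := th (pair_mx D).le f with hθ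
  have h1 : Nat.card (RE D ⧸ RingHom.ker θ) = Nat.card θ.range :=
    Nat.card_congr (RingHom.quotientKerEquivRange θ).toEquiv
  let π : 𝓞 D.K →+ BQ (RE (mx D)) f :=
    ((Ideal.Quotient.mk _).comp ((eO (mx D) : (mx D).O →+* RE (mx D)).comp
      ((Subring.topEquiv (R := 𝓞 D.K)).symm : 𝓞 D.K →+* (⊤ : Subring (𝓞 D.K))))).toAddMonoidHom
  have hπ : Function.Surjective π := by
    intro x
    obtain ⟨x, rfl⟩ := Ideal.Quotient.mk_surjective x
    obtain ⟨y, rfl⟩ := (eO (mx D)).surjective x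
    exact ⟨y.1, rfl⟩
  have hcomap : θ.range.toAddSubgroup.comap π = D.O.toAddSubgroup := by
    ext x
    constructor
    · rintro ⟨⟨r, hr⟩, h2⟩
      have h3 : Ideal.Quotient.mk (Ideal.span {(f : RE (mx D))})
          (Subring.inclusion (pair_mx D).le ⟨r, hr⟩) = Ideal.Quotient.mk _
          (eO (mx D) ⟨x, trivial⟩) := h2
      obtain ⟨u, hu⟩ := mk_eq_iff.mp h3
      obtain ⟨y, -, hy⟩ := mem_RE_withO.mp (show (u : Fin n → ℝ) ∈
        RE (withO D ⊤ (mx D).full) from u.2)
      obtain ⟨z, hz, hzr⟩ := (mem_RE D).mp hr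
      have h4 : iE D z = iE D (x + f * y) := by
        rw [map_add, map_mul, map_natCast]
        have h5 : r = iE D x + (f : Fin n → ℝ) * u := hu
        rw [hy, hzr] at h5
        exact h5
      have h5 := iE_injective D h4
      have h6 : x = z - f * y := by rw [h5]; ring
      rw [h6]
      exact D.O.sub_mem hz (D.ind_mul_mem y)
    · intro hx
      exact ⟨eO D ⟨x, hx⟩, rfl⟩
  have h2 : θ.range.toAddSubgroup.index = f := by
    rw [← AddSubgroup.index_comap_of_surjective _ hπ, hcomap, hf]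
    rfl
  have h3 := θ.range.toAddSubgroup.card_mul_index
  rw [h2, card_BQ (mx D) D.ind_ne_zero] at h3
  rw [h1]
  exact h3

/-- the numerators of the fibre formula -/
theorem vol_eq (D D' : Datum n) (hp : Pair (RE D) (RE D') f) :
    (mult (RE D) (RE D') f : ℝ≥0∞) * vol D = (Nat.card (BQ (RE D') f)ˣ : ℝ≥0∞) * vol D' := by
  classical
  have hfin : Finite D.packet := D.packet_finite.to_subtype
  have := Fintype.ofFinite D.packet
  have hfin' : Finite D'.packet := D'.packet_finite.to_subtype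
  have := Fintype.ofFinite D'.packet
  obtain ⟨x, E, hx, hox, hE, hmeas⟩ := exists_reps D'
  have e1 : lam D = _ := sum_orbMeas D D' hp x hx hox E hE
  have hmap : ∀ y : X n, Measurable fun u : Fin (n - 1) → ℝ => tr (aexp u) y := fun y =>
    (continuous_orbMap y).measurable
  have v1 : vol D = lam D Set.univ := by
    unfold vol lam
    rw [tsum_fintype, Measure.finsetSum_apply]
  have e3 : ∀ (o : D'.packet) (y : X n), ((volume.restrict (E o)).map
      fun u => tr (aexp u) y) Set.univ = (volume.restrict (E o)) Set.univ := fun o y => by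
    rw [Measure.map_apply (hmap y) MeasurableSet.univ, Set.preimage_univ]
  have v2 : vol D' = ∑ o : D'.packet, (volume.restrict (E o)) Set.univ := by
    unfold vol
    rw [tsum_fintype]
    refine Finset.sum_congr rfl fun o _ => ?_
    rw [hmeas o, e3]
  rw [v1, e1, v2, Measure.finsetSum_apply, Finset.mul_sum, Finset.mul_sum]
  refine Finset.sum_congr rfl fun o _ => ?_
  rw [Measure.finsetSum_apply]
  simp only [e3]
  rw [Finset.sum_const, nsmul_eq_mul, ← mul_assoc, card_FF hp (hx o)]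

end Cmp

theorem Cmp.real_calc {n : ℕ} {f A B V W c M U U' s : ℝ} (hf0 : 0 < f) (hA0 : 0 < A) (hs : 0 < s)
    (h1 : U = f ^ n * A) (h2 : U' = f ^ n * B) (h3 : U * c = f ^ n * M) (h4 : c * f = f ^ n)
    (h6 : M * V = U' * W) : V / (s * f) = W / s * (B / A) := by
  have hfn : (0 : ℝ) < f ^ n := pow_pos hf0 n
  have hc0 : (0 : ℝ) < c := by
    by_contra h0
    have h5 : c * f ≤ 0 := mul_nonpos_of_nonpos_of_nonneg (not_lt.mp h0) hf0.le
    linarith only [h4, hfn, h5]
  have hMA : M = A * c := by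
    rw [h1] at h3
    have h7 : f ^ n * (A * c) = f ^ n * M := by linarith only [h3]
    exact (mul_left_cancel₀ hfn.ne' h7).symm
  rw [hMA, h2, ← h4] at h6
  have h7 : A * V = f * B * W := by
    have h8 : c * (A * V) = c * (f * B * W) := by linarith only [h6]
    exact mul_left_cancel₀ hc0.ne' h8
  rw [div_mul_div_comm, div_eq_div_iff (by positivity) (by positivity)]
  linear_combination s * h7

theorem Cmp.disc_mx' (D : Datum n) : (mx D).disc = (discr D.K).natAbs := by
  unfold Datum.disc mx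
  rw [Subring.toAddSubgroup_top, AddSubgroup.index_top, one_pow, mul_one]

theorem vol_compare (D : Datum n) :
    (vol D).toReal / √(D.disc : ℝ) = (vol (mx D)).toReal / √((mx D).disc : ℝ) *
      ∏ p ∈ D.ind.primeFactors, (up (mx D) p / up D p) := by
  have hp := pair_mx D
  have hf := D.ind_ne_zero
  have hf0 : (0 : ℝ) < D.ind := by exact_mod_cast Nat.pos_of_ne_zero hf
  have hA0 : 0 < ∏ p ∈ D.ind.primeFactors, up D p :=
    Finset.prod_pos fun p hp => (up_pos D p (Nat.prime_of_mem_primeFactors hp)).1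
  have h1 := units_f D hf
  have h2 := units_f (mx D) hf
  have h3 := card_units_factor (span_le_ker hp.le) (ker_pow hp)
  rw [← mult_eq hp.le] at h3
  have h4 := card_ker D
  have h5 : Nat.card (RE D ⧸ Ideal.span {(D.ind : RE D)}) = D.ind ^ n := card_BQ D hf
  rw [h5] at h3
  have h3' : (Nat.card (BQ (RE D) D.ind)ˣ : ℝ) *
      (Nat.card (RE D ⧸ RingHom.ker (th hp.le D.ind)) : ℝ) =
      (D.ind : ℝ) ^ n * (mult (RE D) (RE (mx D)) D.ind : ℝ) := by
    rw [← Nat.cast_mul, h3, Nat.cast_mul, Nat.cast_pow]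
  have h4' : (Nat.card (RE D ⧸ RingHom.ker (th hp.le D.ind)) : ℝ) * D.ind = (D.ind : ℝ) ^ n := by
    rw [← Nat.cast_mul, h4, Nat.cast_pow]
  have h6 := congrArg ENNReal.toReal (vol_eq D (mx D) hp)
  rw [ENNReal.toReal_mul, ENNReal.toReal_mul, ENNReal.toReal_natCast,
    ENNReal.toReal_natCast] at h6
  have hdisc : √(D.disc : ℝ) = √((mx D).disc : ℝ) * D.ind := by
    have e1 : (D.disc : ℝ) = ((mx D).disc : ℝ) * (D.ind : ℝ) ^ 2 := by
      rw [Cmp.disc_mx']
      unfold Datum.disc Datum.ind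
      rw [Nat.cast_mul, Nat.cast_pow]
    rw [e1, Real.sqrt_mul (Nat.cast_nonneg _), Real.sqrt_sq hf0.le]
  have hdpos : 0 < √((mx D).disc : ℝ) := by
    apply Real.sqrt_pos.mpr
    rw [Cmp.disc_mx']
    have := discr_ne_zero D.K
    have : 0 < (discr D.K).natAbs := Int.natAbs_pos.mpr this
    exact_mod_cast this
  rw [Finset.prod_div_distrib, hdisc]
  exact Cmp.real_calc hf0 hA0 hdpos h1 h2 h3' h4' h6

end Vale.Agent.P007.N
end

section

set_option autoImplicit false

open NumberField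
open scoped nonZeroDivisors

namespace Vale.Agent.P007.Z

open Vale.Agent.P007 Vale.Agent.P007.N

variable {n : ℕ} (K : Type) [Field K] [NumberField K] [IsTotallyReal K]
  (h : Module.finrank ℚ K = n) (σ : Fin n ≃ (K →+* ℝ))

/-- the maximal order of the datum is `𝓞 K` -/
noncomputable def topE : (maxDatum K h σ).O ≃+* 𝓞 K := Subring.topEquiv (R := 𝓞 K)

theorem isUnit_of_ne_bot {J : Ideal (maxDatum K h σ).O} (hJ : J ≠ ⊥) :
    IsUnit (J : FractionalIdeal (maxDatum K h σ).O⁰ (maxDatum K h σ).K) := by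
  set e := topE K h σ with he
  set I : Ideal (𝓞 K) := J.map e with hI
  have hI0 : I ≠ ⊥ := by
    intro h0
    apply hJ
    rw [hI, Ideal.map_eq_bot_iff_of_injective e.injective] at h0
    exact h0
  obtain ⟨a, haI, ha0⟩ := Submodule.exists_mem_ne_zero_of_ne_bot hI0
  have hdvd : I ∣ Ideal.span {a} := by
    rw [Ideal.dvd_iff_le, Ideal.span_singleton_le_iff_mem]
    exact haI
  obtain ⟨I', hI'⟩ := hdvd
  -- transfer back
  set J' : Ideal (maxDatum K h σ).O := I'.map e.symm with hJ'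
  have hJJ : J * J' = Ideal.span {e.symm a} := by
    have h1 : (I * I').map e.symm = J * J' := by
      rw [Ideal.map_mul, hI]
      congr 1
      exact Ideal.map_of_equiv e
    rw [← h1, ← hI', Ideal.map_span, Set.image_singleton]
  have ha' : e.symm a ≠ 0 := by
    intro h0
    exact ha0 ((map_eq_zero_iff e.symm e.symm.injective).mp h0)
  have ha'' : algebraMap (maxDatum K h σ).O (maxDatum K h σ).K (e.symm a) ≠ 0 := by
    intro h0
    apply ha'
    exact FaithfulSMul.algebraMap_injective (maxDatum K h σ).O (maxDatum K h σ).K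
      (by rw [h0, map_zero])
  refine IsUnit.of_mul_eq_one ((J' : FractionalIdeal (maxDatum K h σ).O⁰ (maxDatum K h σ).K) *
    FractionalIdeal.spanSingleton _ (algebraMap (maxDatum K h σ).O (maxDatum K h σ).K
      (e.symm a))⁻¹) ?_
  rw [← mul_assoc, ← FractionalIdeal.coeIdeal_mul, hJJ, FractionalIdeal.coeIdeal_span_singleton,
    FractionalIdeal.spanSingleton_mul_spanSingleton, mul_inv_cancel₀ ha'',
    FractionalIdeal.spanSingleton_one]

theorem rO_maxDatum {m : ℕ} (hm : m ≠ 0) : rO (maxDatum K h σ) m = aE K m := by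
  set e := topE K h σ with he
  unfold rO aE
  have hcard : ∀ (J : Ideal (maxDatum K h σ).O),
      Nat.card ((maxDatum K h σ).O ⧸ J) = Ideal.absNorm (J.map e) := by
    intro J
    rw [Ideal.absNorm_apply, Submodule.cardQuot_apply]
    exact Nat.card_congr (Ideal.quotientEquiv J (J.map e) e rfl).toEquiv
  refine Nat.card_congr
    { toFun := fun J => ⟨J.1.map e, by rw [← hcard]; exact J.2.2⟩
      invFun := fun I => ⟨I.1.map e.symm, ?_, ?_⟩
      left_inv := ?_
      right_inv := ?_ }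
  · refine isUnit_of_ne_bot K h σ ?_
    intro h0
    rw [Ideal.map_eq_bot_iff_of_injective e.symm.injective] at h0
    have h2 := I.2
    rw [h0, Ideal.absNorm_bot] at h2
    exact hm h2.symm
  · rw [hcard]
    have h1 : (I.1.map e.symm).map e = I.1 := Ideal.map_of_equiv e.symm
    rw [h1]
    exact I.2
  · intro J
    apply Subtype.ext
    exact Ideal.map_of_equiv e
  · intro I
    apply Subtype.ext
    exact Ideal.map_of_equiv e.symm

end Vale.Agent.P007.Z
end

section

set_option autoImplicit false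

open NumberField

namespace Vale.Agent.P007.Z

open Vale.Agent.P007 Vale.Agent.P007.N

/-- a Dirichlet character as a completely multiplicative function on `ℕ` -/
noncomputable def dchar {q : ℕ} (χ : DirichletCharacter ℂ q) : ℕ →*₀ ℂ where
  toFun n := if n = 0 then 0 else χ (n : ZMod q)
  map_zero' := by simp
  map_one' := by simp
  map_mul' a b := by
    by_cases ha : a = 0
    · simp [ha]
    · by_cases hb : b = 0
      · simp [hb]
      · simp [ha, hb]

theorem dchar_apply {q : ℕ} (χ : DirichletCharacter ℂ q) {n : ℕ} (hn : n ≠ 0) :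
    dchar χ n = χ (n : ZMod q) := by
  change (if n = 0 then 0 else χ (n : ZMod q)) = _
  rw [if_neg hn]

theorem norm_dchar_le {q : ℕ} (χ : DirichletCharacter ℂ q) (n : ℕ) : ‖dchar χ n‖ ≤ 1 := by
  by_cases hn : n = 0
  · simp only [hn, map_zero, norm_zero, zero_le_one]
  · rw [dchar_apply χ hn]
    exact DirichletCharacter.norm_le_one χ _

theorem Del_eq (E : Type) [Field E] [NumberField E] {q : ℕ} (χ : DirichletCharacter ℂ q)
    {ℓ η : ℝ} (hℓ : 0 < ℓ) (hη : 0 < η) :
    Del E χ ℓ η = PS E (dchar χ) (1 + η / ℓ) - PS E (dchar χ) (1 + 1 / ℓ) := by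
  have h1 : 0 < η / ℓ := by positivity
  have h2 : 0 < 1 / ℓ := by positivity
  rw [PS, PS, ← (summable_PS (norm_dchar_le χ) (by linarith only [h1])).tsum_sub
    (summable_PS (norm_dchar_le χ) (by linarith)), Del]
  refine tsum_congr fun p => ?_
  rw [dchar_apply χ p.2.ne_zero, wt]
  change (χ ((p : ℕ) : ZMod q)).re * (aN E p : ℝ) * _ = _
  ring

/-- the statement of `S_asymp` -/
def SAsymp : Prop := ∀ (n : ℕ), 2 ≤ n → ∃ C : ℝ, ∀ D : Datum n, ∀ (q : ℕ) [NeZero q]
    (χ : DirichletCharacter ℂ q), Odd (orderOf χ) → ∃ α : ℂ,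
      (χ = 1 → α ≠ 0) ∧
      ‖α‖ ≤ (D.disc * q : ℝ) ^ C * C ∧
      ∀ Y : ℝ, 1 ≤ Y →
        ‖∑ m ∈ Finset.Icc 1 ⌊Y⌋₊, χ (m : ZMod q) * (rO D m : ℂ) * (Real.log (Y / m) : ℂ) ^ (n - 1) -
          α * Y‖ ≤ C * (D.disc * q : ℝ) ^ C * Y ^ (1 - 1 / (n : ℝ))

theorem rpow_mul_le {x q C C₀ ℓ : ℝ} (hx : 1 ≤ x) (hq : 1 ≤ q) (hℓ : 1 ≤ ℓ)
    (h1 : Real.log x ≤ C₀ * ℓ) (h2 : Real.log q ≤ C₀ * ℓ) :
    (x * q) ^ C * C ≤ Real.exp ((|C| * (2 * |C₀|) + |C|) * ℓ) := by
  have hxq : 0 < x * q := by positivity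
  have hlog : 0 ≤ Real.log (x * q) := Real.log_nonneg (by nlinarith only [hx, hq])
  have hC0 : 0 ≤ |C₀| := abs_nonneg _
  have h3 : (x * q) ^ C ≤ Real.exp (|C| * (2 * |C₀|) * ℓ) := by
    rw [Real.rpow_def_of_pos hxq]
    apply Real.exp_le_exp.mpr
    have h4 : Real.log (x * q) ≤ 2 * |C₀| * ℓ := by
      rw [Real.log_mul (by positivity) (by positivity)]
      have : C₀ * ℓ ≤ |C₀| * ℓ := by
        gcongr
        exact le_abs_self C₀
      linarith
    calc Real.log (x * q) * C ≤ Real.log (x * q) * |C| := by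
          gcongr
          exact le_abs_self C
      _ ≤ (2 * |C₀| * ℓ) * |C| := by gcongr
      _ = |C| * (2 * |C₀|) * ℓ := by ring
  have h5 : C ≤ Real.exp (|C| * ℓ) := by
    calc C ≤ |C| := le_abs_self C
      _ ≤ |C| * ℓ := le_mul_of_one_le_right (abs_nonneg C) hℓ
      _ ≤ Real.exp (|C| * ℓ) := by linarith [Real.add_one_le_exp (|C| * ℓ)]
  have h6 : 0 ≤ (x * q) ^ C := by positivity
  calc (x * q) ^ C * C ≤ (x * q) ^ C * Real.exp (|C| * ℓ) := by gcongr
    _ ≤ Real.exp (|C| * (2 * |C₀|) * ℓ) * Real.exp (|C| * ℓ) := by gcongr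
    _ = Real.exp ((|C| * (2 * |C₀|) + |C|) * ℓ) := by
        rw [← Real.exp_add]
        congr 1
        ring

theorem exists_ZForm_of (hSA : SAsymp) (N : ℕ) (C₀ : ℝ) :
    ∃ C ℓ₀ : ℝ, 1 ≤ ℓ₀ ∧ ZForm N C₀ C ℓ₀ := by
  classical
  choose! Cn hCn using hSA
  set Kn : ℕ → ℝ := fun n => |Cn n| * (2 * |C₀|) + |Cn n| + |C₀| + 2 with hKn
  have hKn0 : ∀ n, 0 ≤ Kn n := fun n => by positivity
  set K : ℝ := ∑ n ∈ Finset.range (N + 1), Kn n with hK
  have hKle : ∀ n, n ≤ N → Kn n ≤ K := fun n hn =>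
    Finset.single_le_sum (f := Kn) (fun i _ => hKn0 i) (Finset.mem_range.mpr (by omega))
  have hK0 : 0 ≤ K := Finset.sum_nonneg fun n _ => hKn0 n
  obtain ⟨C, ℓ₀, hℓ₀, hcore⟩ := zform_core N K hK0
  refine ⟨C, ℓ₀, hℓ₀, ?_⟩
  intro E _ _ _ hEN q _ χ hodd ℓ hℓ hdisc hq
  have hℓ1 : 1 ≤ ℓ := hℓ₀.trans hℓ
  have hℓ0 : 0 < ℓ := by linarith only [hℓ₀, hℓ]
  have hq1 : (1 : ℝ) ≤ q := by exact_mod_cast Nat.pos_of_ne_zero (NeZero.ne q)
  have hn0 : 0 < Module.finrank ℚ E := Module.finrank_pos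
  -- the asymptotics in all degrees
  have key : ∃ (α : ℂ) (B : ℝ), (χ = 1 → α ≠ 0) ∧ ‖α‖ ≤ Real.exp (K * ℓ) ∧
      B ≤ Real.exp (K * ℓ) ∧
      (∀ Y : ℝ, 1 ≤ Y → ‖∑ m ∈ Finset.Icc 1 ⌊Y⌋₊, dchar χ m * (aN E m : ℂ) *
        (Real.log (Y / m) : ℂ) ^ (Module.finrank ℚ E - 1) - α * Y‖ ≤
          B * Y ^ (1 - 1 / (Module.finrank ℚ E : ℝ))) := by
    by_cases hn1 : Module.finrank ℚ E = 1
    · obtain ⟨α, h1, h2, h3⟩ := asymp_deg_one χ
      have hexp1 : 1 ≤ Real.exp (K * ℓ) := Real.one_le_exp (by (clear * - hℓ1; positivity))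
      refine ⟨α, 3 * q, h1, h2.trans hexp1, ?_, ?_⟩
      · have h4 : Kn 1 ≤ K := hKle 1 (by omega)
        have h5 : |C₀| + 2 ≤ Kn 1 := by
          rw [hKn]
          have : 0 ≤ |Cn 1| * (2 * |C₀|) + |Cn 1| := by (clear * -; positivity)
          simp only
          linarith only [this]
        have h6 : (q : ℝ) ≤ Real.exp (|C₀| * ℓ) := by
          rw [← Real.log_le_iff_le_exp (by linarith only [hq1])]
          refine hq.trans ?_
          gcongr
          exact le_abs_self C₀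
        have h7 : (3 : ℝ) ≤ Real.exp (2 * ℓ) := by
          have := Real.add_one_le_exp (2 * ℓ)
          linarith only [hℓ₀, hℓ, this]
        calc (3 : ℝ) * q ≤ Real.exp (2 * ℓ) * Real.exp (|C₀| * ℓ) := by (clear * - hq1 h6 h7; gcongr)
          _ = Real.exp ((|C₀| + 2) * ℓ) := by
              rw [← Real.exp_add]
              congr 1
              ring
          _ ≤ Real.exp (K * ℓ) := by
              apply Real.exp_le_exp.mpr
              gcongr
              linarith only [h4, h5]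
      · intro Y hY
        rw [hn1]
        simp only [Nat.cast_one, div_one, sub_self, Real.rpow_zero, mul_one]
        have h4 : ∑ m ∈ Finset.Icc 1 ⌊Y⌋₊, dchar χ m * (aN E m : ℂ) *
            (Real.log (Y / m) : ℂ) ^ (1 - 1) = ∑ m ∈ Finset.Icc 1 ⌊Y⌋₊, χ (m : ZMod q) := by
          refine Finset.sum_congr rfl fun m hm => ?_
          have hm0 : m ≠ 0 := by
            have := (Finset.mem_Icc.mp hm).1
            omega
          have h5 : aN E m = 1 := aE_of_finrank_one E hn1 hm0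
          rw [dchar_apply χ hm0, h5, Nat.cast_one, mul_one, Nat.sub_self, pow_zero, mul_one]
        rw [h4]
        exact h3 Y hY
    · have hn2 : 2 ≤ Module.finrank ℚ E := by omega
      obtain ⟨σ⟩ := nonempty_ordering E _ rfl
      obtain ⟨α, h1, h2, h3⟩ := hCn (Module.finrank ℚ E) hn2 (maxDatum E rfl σ) q χ hodd
      have hd : ((maxDatum E rfl σ).disc : ℝ) = |(discr E : ℝ)| := by
        rw [maxDatum_disc, ← Int.cast_abs, Int.abs_eq_natAbs]
        simp only [Nat.cast_natAbs, Int.cast_abs, Int.cast_eq]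
      rw [hd] at h2
      simp_rw [hd] at h3
      have hx : (1 : ℝ) ≤ |(discr E : ℝ)| := by
        rw [← hd]
        have h4 : 0 < (maxDatum E rfl σ).disc := by
          rw [maxDatum_disc]
          exact Int.natAbs_pos.mpr (discr_ne_zero E)
        exact_mod_cast h4
      have hb := rpow_mul_le (C := Cn (Module.finrank ℚ E)) hx hq1 hℓ1 hdisc hq
      have hle : Real.exp ((|Cn (Module.finrank ℚ E)| * (2 * |C₀|) + |Cn (Module.finrank ℚ E)|) * ℓ)
          ≤ Real.exp (K * ℓ) := by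
        apply Real.exp_le_exp.mpr
        have h4 : Kn (Module.finrank ℚ E) ≤ K := hKle _ hEN
        have h5 : |Cn (Module.finrank ℚ E)| * (2 * |C₀|) + |Cn (Module.finrank ℚ E)| ≤
            Kn (Module.finrank ℚ E) := by
          rw [hKn]
          have := abs_nonneg C₀
          simp only
          linarith
        gcongr
        linarith
      refine ⟨α, Cn (Module.finrank ℚ E) * (|(discr E : ℝ)| * q) ^ Cn (Module.finrank ℚ E),
        h1, h2.trans (hb.trans hle), ?_, ?_⟩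
      · rw [mul_comm]
        exact hb.trans hle
      · intro Y hY
        have h4 : ∑ m ∈ Finset.Icc 1 ⌊Y⌋₊, dchar χ m * (aN E m : ℂ) *
            (Real.log (Y / m) : ℂ) ^ (Module.finrank ℚ E - 1) =
            ∑ m ∈ Finset.Icc 1 ⌊Y⌋₊, χ (m : ZMod q) * (rO (maxDatum E rfl σ) m : ℂ) *
            (Real.log (Y / m) : ℂ) ^ (Module.finrank ℚ E - 1) := by
          refine Finset.sum_congr rfl fun m hm => ?_
          have hm0 : m ≠ 0 := by
            have := (Finset.mem_Icc.mp hm).1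
            omega
          rw [dchar_apply χ hm0, rO_maxDatum E rfl σ hm0]
          rfl
        rw [h4]
        exact h3 Y hY
  obtain ⟨α, B, hα1, hα, hB, hS⟩ := key
  obtain ⟨δ, d, h1, h2, h3, h4, h5⟩ := hcore E hEN (dchar χ) (norm_dchar_le χ) ℓ hℓ α B hα hB hS
  refine ⟨δ, d, h1, h2, h3, fun hχ => h4 (hα1 hχ), fun η hη hη1 => ?_⟩
  rw [Del_eq E χ hℓ0 hη]
  exact h5 η hη hη1

end Vale.Agent.P007.Z
end

section

set_option autoImplicit false

namespace Vale.Agent.P007.Z

theorem sAsymp : SAsymp := by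
  intro n hn
  obtain ⟨κ, C, _, h⟩ := Vale.Agent.P007.N.S_asymp n hn
  refine ⟨C, fun D q _ χ hχ => ?_⟩
  obtain ⟨α, _, h2, h3, h4⟩ := h D q χ hχ
  exact ⟨α, h2, h3, h4⟩

theorem exists_ZForm (N : ℕ) (C₀ : ℝ) : ∃ C ℓ₀ : ℝ, 1 ≤ ℓ₀ ∧ ZForm N C₀ C ℓ₀ :=
  exists_ZForm_of sAsymp N C₀

end Vale.Agent.P007.Z
end

section

/-! Z7: no exceptional zero in odd degree. -/

set_option autoImplicit false

open NumberField

namespace Vale.Agent.P007.Z

/-- Part I.5: no exceptional zero in odd degree. -/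
theorem not_exceptional (n : ℕ) (hn : Odd n) : ∃ C ℓ₀ : ℝ, ∀ (K : Type) [Field K] [NumberField K]
    [IsTotallyReal K], Module.finrank ℚ K = n → ∀ ℓ : ℝ, ℓ₀ ≤ ℓ →
    Real.log |(discr K : ℝ)| ≤ ℓ → ∀ η : ℝ, 0 < η → η ≤ 1 →
      -Real.log η - C ≤ Del K (1 : DirichletCharacter ℂ 1) ℓ η :=
  not_exceptional_of_ZForm exists_ZForm n hn

end Vale.Agent.P007.Z
end

section

/-!
The prime case: all packet measures equidistribute.
-/

set_option autoImplicit false

open MeasureTheory NumberField Filter Topology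

namespace Vale.Agent.P007.T

open Vale.Agent.P007 Vale.Agent.P007.N

/-- The lower bound for the packet volumes, `n` odd. -/
theorem vol_lower_odd (n : ℕ) (hn : Odd n) (hn3 : 3 ≤ n) : ∃ c : ℝ, 0 < c ∧
    ∀ (D : Datum n) (X : ℝ), √(D.disc : ℝ) ≤ X →
      c * √(D.disc : ℝ) * HO D X ≤ (vol D).toReal :=
  vol_lower_ge_of n (by omega) (Z.not_exceptional n hn) (S_asymp n (by omega))
    (fun D => vol_compare D) (fun D => up_eq_of_not_dvd D) (fun D p hp => (up_pos D p hp).1)

/-- **Equidistribution in prime degree.** -/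
theorem Q1_prime (n : ℕ) (h : n.Prime) (hn3 : 3 ≤ n) : Q1 n := by
  have hn' : Odd n := h.odd_of_ne_two (by omega)
  have hvol := vol_lower_odd n hn' hn3
  exact Q1_of (N.weak_datum h.pos (fun μ hμ hA hS => R.rigidity h hn' μ hA hS)
      (star_packet_in n hn3 (rO_HT n (by omega)) (fun D => rO_zero D) hvol)
      (tight_packet_in n hn3 (rO_HT n (by omega)) (fun D => rO_zero D) hvol))

end Vale.Agent.P007.T
end

section

/-!
Convergence to the invariant probability forces the discriminants to tend to infinity.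
-/

set_option autoImplicit false

open MeasureTheory Matrix NumberField Filter Topology Module
open scoped nonZeroDivisors ENNReal CompactlySupported Pointwise

namespace Vale.Agent.P007.DN

open Vale.Agent.P007 Vale.Agent.P007.Fib Vale.Agent.P007.R

variable {n : ℕ}

theorem isClosed_thick (n : ℕ) (δ : ℝ) : IsClosed (Red.thick n δ) := by
  have h1 : (Red.thick n δ)ᶜ = pt '' ⋃ c : Fin n → ℤ, {g : G n | c ≠ 0 ∧
      ‖(fun i => (c i : ℝ)) ᵥ* (g : Matrix (Fin n) (Fin n) ℝ)‖ < δ} := by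
    ext x
    constructor
    · intro hx
      unfold Red.thick at hx
      simp only [Set.mem_compl_iff, Set.mem_ofPred_eq, not_forall, not_le] at hx
      obtain ⟨g, hg, v, ⟨c, rfl⟩, hv0, hv⟩ := hx
      refine ⟨g, Set.mem_iUnion.mpr ⟨c, ?_, hv⟩, hg.symm⟩
      rintro rfl
      apply hv0
      simp only [Pi.zero_apply, Int.cast_zero]
      exact zero_vecMul _
    · rintro ⟨g, hg, rfl⟩ hx
      obtain ⟨c, hc0, hc⟩ := Set.mem_iUnion.mp hg
      have h2 := hx g rfl _ ⟨c, rfl⟩ (by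
        intro h0
        apply hc0
        have h3 : (fun i => (c i : ℝ)) = (0 : Fin n → ℝ) := by
          apply vecMul_G_injective g
          simp only
          rw [zero_vecMul]
          exact h0
        funext i
        have h4 := congrFun h3 i
        simp only [Pi.zero_apply, Int.cast_eq_zero] at h4
        exact h4)
      exact absurd hc (not_lt.mpr h2)
  rw [← isOpen_compl_iff, h1]
  refine isOpenQuotientMap_pt.isOpenMap _ (isOpen_iUnion fun c => ?_)
  by_cases hc : c = 0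
  · simp only [hc, ne_eq, not_true_eq_false, Pi.zero_apply, Int.cast_zero, false_and,
      Set.ofPred_false, isOpen_empty]
  · have h2 : {g : G n | c ≠ 0 ∧ ‖(fun i => (c i : ℝ)) ᵥ* (g : Matrix (Fin n) (Fin n) ℝ)‖ < δ} =
      {g : G n | ‖(fun i => (c i : ℝ)) ᵥ* (g : Matrix (Fin n) (Fin n) ℝ)‖ < δ} := by
      ext g; simp [hc]
    rw [h2]
    refine isOpen_lt ?_ continuous_const
    exact (continuous_const.matrix_vecMul continuous_subtype_val).norm

theorem RE_ne_zero (D : Datum n) : ∀ s ∈ RE D, s ≠ 0 → ∀ j, s j ≠ 0 := by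
  intro s hs hs0 j
  obtain ⟨r, hr, rfl⟩ := (mem_RE D).mp hs
  refine sE_ne_zero D ?_ j
  rintro h0
  rw [h0, map_zero] at hs0
  exact hs0 rfl

/-- points of packets of bounded discriminant are uniformly thick -/
theorem thick_of_disc (D : Datum n) {δ : ℝ} (hδ : 0 < δ) (hδ1 : δ ≤ 1)
    (h : √(D.disc : ℝ) * δ < 1) : D.packetMeas (Red.thick n δ)ᶜ = 0 := by
  refine packetMeas_null D (isClosed_thick n δ).measurableSet fun S hS => ?_
  obtain ⟨x, hx, rfl⟩ := (Set.ext_iff.mp (packet_eq D) _).mp hS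
  rintro _ ⟨u, rfl⟩
  have hxu := hx.tr u
  intro g hg w hw hw0
  have hn := D.pos
  have hinv : Inv (RE D) (latS g) := by
    have h1 : InvPt (RE D) (pt g) := by
      rw [← hg]; exact hxu
    exact h1.inv hn
  obtain ⟨A, hA, hlat⟩ := N.exists_mat_order D
  have hb : ∀ i, A i ∈ RE D := by
    intro i
    have h1 : A i ∈ latM A := ⟨Pi.single i 1, by
      have : (fun j => ((Pi.single i 1 : Fin n → ℤ) j : ℝ)) = Pi.single i 1 := by
        funext j
        rcases eq_or_ne j i with rfl | hj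
        · simp
        · simp [hj]
      change (fun j => (((Pi.single i 1 : Fin n → ℤ) j : ℤ) : ℝ)) ᵥ* A = A i
      rw [this]
      funext j
      exact congrFun (single_one_vecMul i A) j⟩
    rw [hlat] at h1
    exact h1
  have h2 := sep (b := fun i => A i) hb hA hinv.1 one_pos (g' := g)
    (by
      have : (fun _ => (1 : ℝ)) = (1 : Fin n → ℝ) := rfl
      rw [this, vmul_one]) hw (coord_ne_zero (RE_ne_zero D) hinv hw hw0)
  have h3 : |(Matrix.of fun i => A i).det| = √(D.disc : ℝ) := N.abs_det_order D hA hlat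
  rw [h3, one_pow, one_mul] at h2
  by_contra hcon
  push Not at hcon
  have h4 : ‖w‖ ^ n ≤ δ := by
    calc ‖w‖ ^ n ≤ δ ^ n := pow_le_pow_left₀ (norm_nonneg _) hcon.le _
      _ ≤ δ ^ 1 := pow_le_pow_of_le_one hδ.le hδ1 hn
      _ = δ := pow_one _
  have h5 : √(D.disc : ℝ) * ‖w‖ ^ n ≤ √(D.disc : ℝ) * δ :=
    mul_le_mul_of_nonneg_left h4 (Real.sqrt_nonneg _)
  linarith only [h, h2, h5]

theorem pos_of_open {m : Measure (X n)} (hm : IsInvProb m) {U : Set (X n)} (hU : IsOpen U)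
    (hne : U.Nonempty) : 0 < m U := by
  have hprob := hm.1
  rw [pos_iff_ne_zero]
  intro h0
  obtain ⟨x₀, hx₀⟩ := hne
  obtain ⟨g₀, rfl⟩ := pt_surjective x₀
  obtain ⟨T, hT, hTU⟩ := TopologicalSpace.isOpen_iUnion_countable
    (fun h : G n => tr h ⁻¹' U) (fun h => hU.preimage (continuous_tr h))
  have h1 : ⋃ h : G n, tr h ⁻¹' U = Set.univ := by
    rw [Set.eq_univ_iff_forall]
    intro x
    obtain ⟨g, rfl⟩ := pt_surjective x
    rw [Set.mem_iUnion]
    refine ⟨g⁻¹ * g₀, ?_⟩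
    change tr (g⁻¹ * g₀) (pt g) ∈ U
    have h2 : tr (g⁻¹ * g₀) (pt g) = pt g₀ := by
      change pt (g * (g⁻¹ * g₀)) = pt g₀
      rw [mul_inv_cancel_left]
    rw [h2]
    exact hx₀
  have h2 : m (⋃ h ∈ T, tr h ⁻¹' U) = 0 := by
    rw [measure_biUnion_null_iff hT]
    intro h _
    rw [← Measure.map_apply (continuous_tr h).measurable hU.measurableSet, hm.2 h, h0]
  rw [hTU, h1, measure_univ] at h2
  exact one_ne_zero h2

theorem thick_compl_nonempty (hn : 2 ≤ n) {δ : ℝ} (hδ : 0 < δ) : ((Red.thick n δ)ᶜ).Nonempty := by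
  set u : Fin (n - 1) → ℝ := Pi.single ⟨0, by omega⟩ (Real.log (δ / 2)) with hu
  refine ⟨pt (aexp u), fun hx => ?_⟩
  set e : Fin n → ℤ := Pi.single ⟨0, by omega⟩ 1 with he
  have h1 : (fun i => (e i : ℝ)) ᵥ* ((aexp u : G n) : Matrix (Fin n) (Fin n) ℝ) =
      Pi.single ⟨0, by omega⟩ (δ / 2) := by
    funext j
    change ((fun i => (e i : ℝ)) ᵥ* (diagonal fun j => Real.exp (expo u j))) j = _
    rw [vecMul_diagonal]
    rcases eq_or_ne j ⟨0, by omega⟩ with rfl | hj
    · rw [he, Pi.single_eq_same, Pi.single_eq_same, Int.cast_one, one_mul]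
      have h2 : expo u (⟨0, by omega⟩ : Fin n) = Real.log (δ / 2) := by
        unfold expo
        rw [dif_pos (show (0 : ℕ) < n - 1 by omega), hu, Pi.single_eq_same]
      rw [h2, Real.exp_log (by positivity)]
    · rw [he, Pi.single_eq_of_ne hj, Pi.single_eq_of_ne hj, Int.cast_zero, zero_mul]
  have h2 := hx (aexp u) rfl (Pi.single ⟨0, by omega⟩ (δ / 2)) ⟨e, h1⟩ (by
    intro h0
    have := congrFun h0 ⟨0, by omega⟩
    rw [Pi.single_eq_same, Pi.zero_apply] at this
    linarith only [hδ, this])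
  have h3 : ‖(Pi.single ⟨0, by omega⟩ (δ / 2) : Fin n → ℝ)‖ ≤ δ / 2 := by
    rw [pi_norm_le_iff_of_nonneg (by positivity)]
    intro j
    rcases eq_or_ne j ⟨0, by omega⟩ with rfl | hj
    · rw [Pi.single_eq_same, Real.norm_of_nonneg (by positivity)]
    · rw [Pi.single_eq_of_ne hj, norm_zero]
      positivity
  linarith only [hn, hδ, h2, h3]

theorem exists_test' {Y : Set (X n)} (hY : IsClosed Y) {m : Measure (X n)}
    [IsProbabilityMeasure m] (h1 : 0 < m Yᶜ) :
    ∃ f : C_c(X n, ℝ), (∀ x ∈ Y, f x = 0) ∧ 0 < ∫ x, f x ∂m := by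
  have : TopologicalSpace.MetrizableSpace (X n) :=
    TopologicalSpace.metrizableSpace_of_t3_secondCountable _
  obtain ⟨K, hKY, hK, hmK⟩ := hY.measurableSet.compl.exists_lt_isCompact h1
  obtain ⟨f, hf1, hf2, hf3, hf4⟩ :=
    exists_continuousMap_one_of_isCompact_subset_isOpen hK hY.isOpen_compl hKY
  refine ⟨⟨f, hf2⟩, ?_, ?_⟩
  · intro x hx
    by_contra hne
    exact hf3 (subset_tsupport _ hne) hx
  · have hint : Integrable (fun x => f x) m := f.continuous.integrable_of_hasCompactSupport hf2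
    have hge : ∀ x, K.indicator (fun _ => (1 : ℝ)) x ≤ f x := by
      intro x
      by_cases hx : x ∈ K
      · rw [Set.indicator_of_mem hx]
        exact (hf1 hx).ge
      · rw [Set.indicator_of_notMem hx]
        exact (hf4 x).1
    have h2 : ∫ x, K.indicator (fun _ => (1 : ℝ)) x ∂m ≤ ∫ x, f x ∂m :=
      integral_mono ((integrable_const 1).indicator hK.measurableSet) hint hge
    rw [integral_indicator_const _ hK.measurableSet] at h2
    have h3 : 0 < m.real K := ENNReal.toReal_pos hmK.ne' (measure_ne_top m K)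
    calc (0 : ℝ) < m.real K • (1 : ℝ) := by simpa using h3
      _ ≤ _ := h2

/-- If the packet measures converge (on test functions) to the invariant probability measure, then
the discriminants tend to infinity. -/
theorem disc_of_weak (hn : 2 ≤ n) {D : ℕ → Datum n} {m : Measure (X n)} (hm : IsInvProb m)
    (hf : ∀ f : C_c(X n, ℝ),
      Tendsto (fun i => ∫ x, f x ∂(D i).packetMeas) atTop (𝓝 (∫ x, f x ∂m))) :
    Tendsto (fun i => (D i).disc) atTop atTop := by
  have hprob := hm.1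
  rw [tendsto_atTop]
  intro D₀
  set δ : ℝ := (√(D₀ : ℝ) + 1)⁻¹ with hδ
  have hs : 0 ≤ √(D₀ : ℝ) := Real.sqrt_nonneg _
  have hδ0 : 0 < δ := by (clear * -; positivity)
  have hδ1 : δ ≤ 1 := inv_le_one_of_one_le₀ (by linarith only [hs])
  obtain ⟨f, hf0, hfpos⟩ := exists_test' (isClosed_thick n δ)
    (pos_of_open hm (isClosed_thick n δ).isOpen_compl (thick_compl_nonempty hn hδ0))
  filter_upwards [(hf f).eventually (lt_mem_nhds hfpos)] with i hi
  by_contra hcon
  push Not at hcon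
  have h2 : (D i).packetMeas (Red.thick n δ)ᶜ = 0 := by
    refine thick_of_disc (D i) hδ0 hδ1 ?_
    have h1 : √((D i).disc : ℝ) ≤ √(D₀ : ℝ) := Real.sqrt_le_sqrt (by exact_mod_cast hcon.le)
    calc √((D i).disc : ℝ) * δ ≤ √(D₀ : ℝ) * δ := mul_le_mul_of_nonneg_right h1 hδ0.le
      _ < 1 := by
          rw [hδ, ← div_eq_mul_inv, div_lt_one (by (clear * -; positivity))]
          linarith only []
  have h3 : ∫ x, f x ∂(D i).packetMeas = 0 := by
    refine integral_eq_zero_of_ae ?_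
    rw [Filter.EventuallyEq, ae_iff]
    refine measure_mono_null ?_ h2
    intro x hx hxY
    exact hx (hf0 x hxY)
  rw [h3] at hi
  exact lt_irrefl _ hi

end Vale.Agent.P007.DN
end

section

/-!
The final statement in terms of the definitions of `StmtF.lean`.
-/

set_option autoImplicit false

open MeasureTheory Matrix NumberField Filter Topology
open scoped nonZeroDivisors ENNReal CompactlySupported

namespace Vale.Agent.P007.F

variable {n : ℕ}

theorem orbMeas_iff (S : Set (X n)) (l : Measure (X n)) :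
    OrbMeas S l ↔ Vale.Agent.P007.OrbMeas (n := n) S l := by
  constructor
  · rintro ⟨x, B, hB, hbij⟩
    exact Vale.Agent.P007.OrbMeas.mk (n := n) x B hB hbij
  · rintro ⟨x, B, hB, hbij⟩
    exact OrbMeas.mk (n := n) x B hB hbij

section One

variable {K : Type} [Field K] [NumberField K] {O : Subring (𝓞 K)} {σ : Fin n ≃ (K →+* ℝ)}

theorem isDatum (h : IsTriple K O σ) : T.IsDatum K O σ := ⟨h.real, h.deg, h.order⟩

theorem pkt_iff (S : Set (X n)) : Pkt K O σ S ↔ T.Pkt K O σ S := by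
  constructor
  · rintro ⟨I, w, c, g, hc, hg⟩
    exact T.Pkt.mk I w c g hc hg
  · rintro ⟨I, w, c, g, hc, hg⟩
    exact Pkt.mk I w c g hc hg

theorem packetMeas_iff (μ : Measure (X n)) :
    PacketMeas K O σ μ ↔ IsTriple K O σ ∧ PktMeas (T.Pkt K O σ) μ := by
  have hP : T.Pkt K O σ = fun S => Pkt K O σ S := funext fun S => propext (pkt_iff S).symm
  rw [hP]
  constructor
  · rintro ⟨hT, l, hl, h⟩
    exact ⟨hT, l, fun S hS => (orbMeas_iff S _).mp (hl S hS), h⟩
  · rintro ⟨hT, l, hl, h⟩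
    exact ⟨hT, l, fun S hS => (orbMeas_iff S _).mpr (hl S hS), h⟩

/-- existence and uniqueness of the packet measures -/
theorem exists_packetMeas (h : IsTriple K O σ) :
    ∃ μ : Measure (X n), IsProbabilityMeasure μ ∧ ∀ ν, PacketMeas K O σ ν ↔ ν = μ := by
  obtain ⟨μ, hμ, hu⟩ := T.existsUnique_pktMeas (isDatum h)
  refine ⟨μ, T.pktMeas_prob (isDatum h) hμ, fun ν => ⟨fun hν => ?_, ?_⟩⟩
  · exact hu ν ((packetMeas_iff ν).mp hν).2
  · rintro rfl
    exact (packetMeas_iff _).mpr ⟨h, hμ⟩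

end One

section Seq

variable {K : ℕ → Type} [∀ i, Field (K i)] [∀ i, NumberField (K i)] {O : ∀ i, Subring (𝓞 (K i))}
  {σ : ∀ i, Fin n ≃ (K i →+* ℝ)} {μ : ℕ → Measure (X n)}

theorem isSeq (h : ∀ i, PacketMeas (K i) (O i) (σ i) (μ i)) : T.IsSeq (n := n) K O σ μ :=
  ⟨fun i => isDatum (h i).1, fun i => ((packetMeas_iff (μ i)).mp (h i)).2⟩

/-- The necessary condition. -/
theorem necessary {m : Measure (X n)} (hn : 2 ≤ n) (h : ∀ i, PacketMeas (K i) (O i) (σ i) (μ i))
    (hm : IsInvProb m) (hW : WeakTo μ m) :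
    Tendsto (fun i => disc (K i) (O i)) atTop atTop ∧
      ∀ B : ℝ, ∀ᶠ i in atTop, ∀ a ∈ O i, (∀ j, |σ i j a| ≤ B) → ∃ z : ℤ, a = z := by
  refine ⟨?_, T.necessary' (n := n) (isSeq h) hm hW⟩
  have h1 : μ = fun i => (T.mkD (isDatum (h i).1)).packetMeas :=
    funext fun i => (T.pktMeas_iff (isDatum (h i).1) _).mp ((packetMeas_iff (μ i)).mp (h i)).2
  rw [h1] at hW
  exact DN.disc_of_weak (D := fun i => T.mkD (isDatum (h i).1)) hn hm hW.1

end Seq

/-- The prime case. -/
theorem Q1_prime (n : ℕ) (h : n.Prime) (hn3 : 3 ≤ n) : Q1 n := by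
  intro K _ _ O σ μ m hμ hdisc hm
  exact T.Q1_prime n h hn3 K O σ μ m (isSeq hμ) hdisc hm

theorem disc_top (K : Type) [Field K] [NumberField K] : ((disc K ⊤ : ℕ) : ℤ) = |discr K| := by
  have h2 : (⊤ : Subring (𝓞 K)).toAddSubgroup.index = 1 := by
    rw [AddSubgroup.index_eq_one]
    rfl
  rw [disc, h2, one_pow, mul_one, Int.abs_eq_natAbs]

/-- Failure in composite degree. -/
theorem composite_fails (n : ℕ) (hn : 4 ≤ n) (hc : ¬ n.Prime) :
    ∃ (K : ℕ → Type) (_ : ∀ i, Field (K i)) (_ : ∀ i, NumberField (K i)),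
      (∀ i, IsTotallyReal (K i) ∧ Module.finrank ℚ (K i) = n) ∧
      Tendsto (fun i => |discr (K i)|) atTop atTop ∧
      ∃ Y : Set (X n), IsClosed Y ∧ (∀ m : Measure (X n), IsInvProb m → m Y = 0) ∧
        ∀ (σ : ∀ i, Fin n ≃ (K i →+* ℝ)) (μ : ℕ → Measure (X n)),
          (∀ i, PacketMeas (K i) ⊤ (σ i) (μ i)) →
            (∀ i, μ i Y = 1) ∧ ∀ m, IsInvProb m → ¬ WeakTo μ m := by
  obtain ⟨K, hf, hnf, hK, hdisc, Y, hY, hm0, h⟩ := T.composite_fails n hn hc
  refine ⟨K, hf, hnf, hK, ?_, Y, hY, hm0, fun σ μ hμ => h σ μ (isSeq hμ)⟩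
  have h1 : (fun i => |discr (K i)|) = fun i => ((disc (K i) ⊤ : ℕ) : ℤ) :=
    funext fun i => (disc_top (K i)).symm
  rw [h1]
  exact tendsto_natCast_atTop_iff.mpr hdisc

theorem exists_isInvProb (n : ℕ) (hn : 1 ≤ n) : ∃! m : Measure (X n), IsInvProb m := by
  obtain ⟨m, hm⟩ := exists_invProb' n hn
  exact ⟨m, hm, fun m' hm' => R.unique_inv (n := n) m' m hm' hm⟩

theorem not_Q1 (n : ℕ) (hn : 4 ≤ n) (hc : ¬ n.Prime) : ¬ Q1 n := by
  obtain ⟨m, hm, -⟩ := exists_isInvProb n (by omega)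
  intro hQ
  obtain ⟨K, hf, hnf, hK, hdisc, Y, hY, hm0, h⟩ := composite_fails n hn hc
  have σ : ∀ i, Fin n ≃ (K i →+* ℝ) := by
    intro i
    have := (hK i).1
    exact (nonempty_ordering (K i) n (hK i).2).some
  have hD : ∀ i, IsTriple (K i) ⊤ (σ i) := fun i => ⟨(hK i).1, (hK i).2, ⟨by simp⟩⟩
  choose μ hμ using fun i => exists_packetMeas (hD i)
  have hP : ∀ i, PacketMeas (K i) ⊤ (σ i) (μ i) := fun i => ((hμ i).2 (μ i)).mpr rfl
  have h1 : (fun i => |discr (K i)|) = fun i => ((disc (K i) ⊤ : ℕ) : ℤ) :=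
    funext fun i => (disc_top (K i)).symm
  rw [h1] at hdisc
  exact (h σ μ hP).2 m hm (hQ K (fun _ => ⊤) σ μ m hP (tendsto_natCast_atTop_iff.mp hdisc) hm)

theorem Q1_iff (n : ℕ) (hn : 4 ≤ n) : Q1 n ↔ n.Prime := by
  refine ⟨fun h => ?_, fun h => Q1_prime n h (by omega)⟩
  by_contra hp
  exact not_Q1 n hn hp h

end Vale.Agent.P007.F
end
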